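import Vale.Agent.P073.H142.Tiles7
import Vale.Agent.P073.TR.DirMap
import Vale.Agent.P073.TR.OneDim2

/-!
# P073, block H142 (ASM3): one box, two families of fibred sheets, finitely many cells to redraw
-/

open Set Metric Topology Filter

namespace P073.H142

open P073 P073.H936 P073.TR

/-! ### directions of finite unions -/

theorem encard_dirs_biUnion {E : Type*} [NormedAddCommGroup E] [NormedSpace ℝ E] {κ : Type*}
    (F : Finset κ) {A : Set E} {C : κ → Set E} {x : E}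
    (hC : ∀ q ∈ F, ConicalSetAt (C q) x) (h0 : ∀ q ∈ F, (A ∩ C q).Finite)
    (h1 : ∀ q ∈ F, ∀ q' ∈ F, q ≠ q' → (C q ∩ C q').Finite)
    (h2 : ∀ q ∈ F, (dirs (C q) x).encard = 1) :
    (dirs (A ∪ ⋃ q ∈ F, C q) x).encard = (dirs A x).encard + F.card := by
  classical
  induction F using Finset.induction_on with
  | empty => simp
  | insert a F ha ih =>
    have hih := ih (fun q hq => hC q (Finset.mem_insert_of_mem hq))
      (fun q hq => h0 q (Finset.mem_insert_of_mem hq))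
      (fun q hq q' hq' => h1 q (Finset.mem_insert_of_mem hq) q' (Finset.mem_insert_of_mem hq'))
      (fun q hq => h2 q (Finset.mem_insert_of_mem hq))
    have e : A ∪ ⋃ q ∈ insert a F, C q = C a ∪ (A ∪ ⋃ q ∈ F, C q) := by
      rw [Finset.set_biUnion_insert, ← union_assoc, union_comm A, union_assoc]
    have hfin : (C a ∩ (A ∪ ⋃ q ∈ F, C q)).Finite := by
      rw [inter_union_distrib_left, inter_iUnion₂]
      refine Finite.union (by rw [inter_comm]; exact h0 a (Finset.mem_insert_self a F)) ?_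
      refine F.finite_toSet.biUnion fun q hq => ?_
      exact h1 a (Finset.mem_insert_self a F) q (Finset.mem_insert_of_mem hq)
        (fun h => ha (h ▸ hq))
    rw [e, TR.DM.encard_dirs_union (hC a (Finset.mem_insert_self a F)) hfin, hih,
      h2 a (Finset.mem_insert_self a F), Finset.card_insert_of_notMem ha]
    push_cast
    ring

/-! ### the data -/

/-- **One box before the cells are redrawn.** -/
structure Pre (ι Q : Type*) (E : Type) [NormedAddCommGroup E] [NormedSpace ℝ E] where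
  side : ι → Bool
  Bd : Set E
  /-- middle sheets, thick sheets, levels, fibres -/
  D : ι → Set E
  N : ι → Set E
  s : ι → E → ℝ
  Γ : ∀ i, ConHomeo (D i ×ˢ Icc (-1:ℝ) 1) (N i)
  zero : ∀ i, ∀ z ∈ D i, (Γ i).toFun (z, 0) = z
  lev : ∀ i, ∀ z ∈ D i, ∀ t ∈ Icc (-1:ℝ) 1, s i ((Γ i).toFun (z, t)) = t
  bd : ∀ i, ∀ z ∈ D i, ∀ t ∈ Icc (-1:ℝ) 1, ((Γ i).toFun (z, t) ∈ Bd ↔ z ∈ Bd)
  ball : ∀ i, ConBall 2 (D i) (D i ∩ Bd)
  disj : ∀ i j, i ≠ j → side i = side j → Disjoint (N i) (N j)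
  pres : ∀ i j, side i ≠ side j → Pres (Γ i).toFun (D i) (N j) (s j)
  /-- the cells -/
  V : Q → Set E
  B : Q → Set E
  V_open : ∀ q, IsOpen (V q)
  V_disj : ∀ q q', q ≠ q' → Disjoint (V q) (V q')
  VB : ∀ q q', Disjoint (V q) (B q')
  V_cl : ∀ q, closure (V q) ⊆ V q ∪ B q
  VB_bd : ∀ q, Disjoint (V q ∪ B q) Bd
  VB_con : ∀ q, ConicalSet (V q ∪ B q)
  vV : ∀ i q, ∀ z ∈ D i, ∀ t ∈ Icc (-1:ℝ) 1, ((Γ i).toFun (z, t) ∈ V q ↔ z ∈ V q)
  vB : ∀ i q, ∀ z ∈ D i, ∀ t ∈ Icc (-1:ℝ) 1, ((Γ i).toFun (z, t) ∈ B q ↔ z ∈ B q)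
  /-- the traces -/
  κ : ι → Type
  κ_fin : ∀ i, Finite (κ i)
  cell : ∀ i, κ i → Q
  γ : ∀ i, κ i → Set E
  γD : ∀ i c, γ i c ⊆ D i
  trace : ∀ i q, ∀ x ∈ D i, (x ∈ B q ↔ ∃ c, cell i c = q ∧ x ∈ γ i c)
  circ : ∀ i c, ConSphere 1 (γ i c)
  γ_disj : ∀ i c d, c ≠ d → cell i c = cell i d → Disjoint (γ i c) (γ i d)
  near : ∀ i c, ∃ x ∈ γ i c, x ∈ closure (D i ∩ V (cell i c))
  /-- the caps -/
  Δ₀ : ∀ i, κ i → Set E
  Δ : ∀ i, κ i → Set E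
  sΔ : ∀ i, κ i → E → ℝ
  G : ∀ i c, ConHomeo (Δ₀ i c ×ˢ Icc (-1:ℝ) 1) (Δ i c)
  cap_ball : ∀ i c, ConBall 2 (Δ₀ i c) (γ i c)
  G0 : ∀ i c, ∀ z ∈ Δ₀ i c, (G i c).toFun (z, 0) = z
  Gs : ∀ i c, ∀ z ∈ Δ₀ i c, ∀ t ∈ Icc (-1:ℝ) 1, sΔ i c ((G i c).toFun (z, t)) = t
  GΓ : ∀ i c, ∀ z ∈ γ i c, ∀ t ∈ Icc (-1:ℝ) 1, (G i c).toFun (z, t) = (Γ i).toFun (z, t)
  cap_sub : ∀ i c, Δ i c ⊆ V (cell i c) ∪ (Γ i).toFun '' (γ i c ×ˢ Icc (-1:ℝ) 1)
  cap_disj : ∀ i j, side i = side j → ∀ c d, (⟨i, c⟩ : Σ i, κ i) ≠ ⟨j, d⟩ →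
    cell i c = cell j d → Disjoint (Δ i c) (Δ j d)
  cap_pres : ∀ i j, side i ≠ side j → ∀ c d, cell i c = cell j d →
    Pres (G i c).toFun (Δ₀ i c) (Δ j d) (sΔ j d)
  /-- the double curves -/
  curve : ∀ i j, side i ≠ side j → ∀ x ∈ D i ∩ D j,
    ((dirs (D i ∩ D j) x).encard = 1 ∧ x ∈ Bd) ∨ ((dirs (D i ∩ D j) x).encard = 2 ∧ x ∉ Bd)
  LB : ∀ i j, side i ≠ side j → ∀ q, (D i ∩ D j ∩ B q).Finite
  dirs_in : ∀ i j, side i ≠ side j → ∀ q, ∀ x ∈ D i ∩ D j, x ∈ B q →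
    (dirs (D i ∩ D j ∩ (V q ∪ B q)) x).encard = 1
  dirs_cap : ∀ i j, side i ≠ side j → ∀ c d, cell i c = cell j d → ∀ x ∈ γ i c ∩ γ j d,
    (dirs (Δ₀ i c ∩ Δ₀ j d) x).encard = 1
  dirs_cap' : ∀ i j, side i ≠ side j → ∀ c d, cell i c = cell j d → ∀ x ∈ Δ₀ i c ∩ Δ₀ j d,
    x ∈ V (cell i c) → (dirs (Δ₀ i c ∩ Δ₀ j d) x).encard = 2

namespace Pre

variable {ι Q : Type*} {E : Type} [NormedAddCommGroup E] [NormedSpace ℝ E] (P : Pre ι Q E)

theorem zero_mem_I : (0:ℝ) ∈ Icc (-1:ℝ) 1 := ⟨by norm_num, zero_le_one⟩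

theorem γB (i : ι) (c : P.κ i) : P.γ i c ⊆ P.B (P.cell i c) := fun x hx =>
  (P.trace i _ x (P.γD i c hx)).2 ⟨c, rfl, hx⟩

theorem γ_bd (i : ι) (c : P.κ i) : Disjoint (P.γ i c) P.Bd :=
  (P.VB_bd (P.cell i c)).mono_left ((P.γB i c).trans subset_union_right)

/-- a planar chart of a middle sheet -/
theorem exists_chart (i : ι) : ∃ χ : ConHomeo (P.D i) (closedBall (0 : ℝ × ℝ) 1),
    χ.toFun '' (P.D i ∩ P.Bd) = sphere 0 1 := by
  obtain ⟨_, φ, hφ⟩ := P.ball i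
  have e : H339.pairHomeo.symm.toFun '' closedBall (0 : Fin 2 → ℝ) 1 = closedBall (0 : ℝ × ℝ) 1 := by
    rw [← H339.pairHomeo_image_closedBall, image_image]
    have : ∀ x ∈ closedBall (0 : ℝ × ℝ) 1,
        H339.pairHomeo.symm.toFun (H339.pairHomeo.toFun x) = x := fun x _ =>
      H339.pairHomeo.left_inv (mem_univ x)
    rw [image_congr this, image_id']
  have e' : H339.pairHomeo.symm.toFun '' sphere (0 : Fin 2 → ℝ) 1 = sphere (0 : ℝ × ℝ) 1 := by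
    rw [← H339.pairHomeo_image_sphere, image_image]
    have : ∀ x ∈ sphere (0 : ℝ × ℝ) 1,
        H339.pairHomeo.symm.toFun (H339.pairHomeo.toFun x) = x := fun x _ =>
      H339.pairHomeo.left_inv (mem_univ x)
    rw [image_congr this, image_id']
  refine ⟨φ.trans ((H339.pairHomeo.symm.restr (locCone_closedBall_pi 2 1).conicalSet
    (subset_univ _)).cast rfl e), ?_⟩
  rw [ConHomeo.trans_toFun, image_comp, hφ]
  exact e'

theorem exists_O (i : ι) : ∃ O : P.κ i → Set E,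
    Sheet (P.D i) P.V P.B (P.cell i) O (P.γ i) ∧ (∀ c, ConBall 2 (O c) (P.γ i c)) ∧
      ∀ c, Disjoint (O c) P.Bd := by
  obtain ⟨χ, hχ⟩ := P.exists_chart i
  have hfin := P.κ_fin i
  have hbd : ∀ x ∈ P.D i, x ∈ P.Bd → χ.toFun x ∈ sphere (0 : ℝ × ℝ) 1 := fun x hx hxB => by
    rw [← hχ]; exact mem_image_of_mem _ ⟨hx, hxB⟩
  have hbd' : ∀ z ∈ sphere (0 : ℝ × ℝ) 1, χ.invFun z ∈ P.D i ∩ P.Bd := by
    intro z hz
    rw [← hχ] at hz
    obtain ⟨x, hx, rfl⟩ := hz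
    rw [χ.left_inv hx.1]
    exact hx
  have hint : interior (closedBall (0 : ℝ × ℝ) 1) = Metric.ball 0 1 :=
    interior_closedBall _ one_ne_zero
  have hT : Traces (P.D i) P.V P.B (P.cell i) (P.γ i) χ :=
    { hZ := convex_closedBall _ _
      V_open := P.V_open
      V_disj := P.V_disj
      VB := P.VB
      V_cl := P.V_cl
      trace := P.trace i
      circ := P.circ i
      γS := P.γD i
      γZ := by
        rintro c _ ⟨x, hx, rfl⟩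
        rw [hint]
        have h1 := χ.mapsTo (P.γD i c hx)
        rw [mem_closedBall_zero_iff] at h1
        rw [mem_ball_zero_iff]
        refine lt_of_le_of_ne h1 fun h2 => ?_
        have h3 := (hbd' _ (mem_sphere_zero_iff_norm.2 h2)).2
        rw [χ.left_inv (P.γD i c hx)] at h3
        exact disjoint_left.1 (P.γ_bd i c) hx h3
      γ_disj := P.γ_disj i
      fin := fun q => toFinite _
      far := by
        intro q K _ hK
        obtain ⟨z, hz⟩ : (sphere (0 : ℝ × ℝ) 1).Nonempty := NormedSpace.sphere_nonempty.2 zero_le_one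
        refine ⟨z, sphere_subset_closedBall hz, fun hzK => ?_, fun hV => ?_⟩
        · have h1 := hK hzK
          rw [hint, mem_ball_zero_iff] at h1
          rw [mem_sphere_zero_iff_norm] at hz
          linarith
        · exact disjoint_left.1 (P.VB_bd q) (Or.inl hV) (hbd' z hz).2
      near := P.near i
      pf := fun D _ z => toFinite _ }
  obtain ⟨O, h1, h2, h3, -⟩ := hT.exists_sheet
  refine ⟨O, h1, h2, fun c => ?_⟩
  rw [disjoint_left]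
  intro x hx hxB
  have h4 := h3 c x hx
  rw [hint, mem_ball_zero_iff] at h4
  have h5 := hbd x (h1.O_sub c hx) hxB
  rw [mem_sphere_zero_iff_norm] at h5
  linarith

/-- the discs of the middle sheets bounded by the trace circles -/
noncomputable def O (i : ι) : P.κ i → Set E := (P.exists_O i).choose

theorem sheet (i : ι) : Sheet (P.D i) P.V P.B (P.cell i) (P.O i) (P.γ i) :=
  (P.exists_O i).choose_spec.1

theorem O_ball (i : ι) (c : P.κ i) : ConBall 2 (P.O i c) (P.γ i c) :=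
  (P.exists_O i).choose_spec.2.1 c

theorem O_bd (i : ι) (c : P.κ i) : Disjoint (P.O i c) P.Bd := (P.exists_O i).choose_spec.2.2 c

/-- the kept circles -/
abbrev Tp (i : ι) (c : P.κ i) : Prop := Top P.V (P.cell i) (P.O i) (P.γ i) c

abbrev K (i : ι) := Tops P.V (P.cell i) (P.O i) (P.γ i)

instance (i : ι) : Finite (P.K i) := by
  have := P.κ_fin i
  infer_instance

/-- the cores -/
abbrev co (i : ι) : Set E := core (P.D i) P.V (P.cell i) (P.O i) (P.γ i)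

theorem co_sub (i : ι) : P.co i ⊆ P.D i := fun _ hx => hx.1

/-- the thick cores -/
abbrev PP (i : ι) : Set E := (P.Γ i).toFun '' (P.co i ×ˢ Icc (-1:ℝ) 1)

/-- the lateral boundaries of the caps -/
abbrev Lat (i : ι) (c : P.κ i) : Set E := (P.Γ i).toFun '' (P.γ i c ×ˢ Icc (-1:ℝ) 1)

/-- the new middle sheets -/
def D' (i : ι) : Set E := P.co i ∪ ⋃ c : P.K i, P.Δ₀ i c

/-- the new thick sheets -/
def N' (i : ι) : Set E := P.PP i ∪ ⋃ c : P.K i, P.Δ i c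

theorem caps (i : ι) : Caps P.V P.B (P.cell i) (P.O i) (P.γ i) (P.Lat i) (P.Δ i) where
  closed := fun c _ => by
    have h1 : IsCompact (P.Δ₀ i c ×ˢ Icc (-1:ℝ) 1) := (P.cap_ball i c).isCompact.prod isCompact_Icc
    exact ((P.G i c).isCompact_right h1).isClosed
  sub := fun c _ => P.cap_sub i c
  bdry := fun c _ => by
    rintro _ ⟨⟨z, t⟩, ⟨hz, ht⟩, rfl⟩
    refine ⟨?_, (P.vB i _ z (P.γD i c hz) t ht).2 (P.γB i c hz)⟩
    rw [← P.GΓ i c z hz t ht]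
    exact (P.G i c).mapsTo ⟨(P.cap_ball i c).1 hz, ht⟩
  disj := fun c d _ _ hcd hcell => P.cap_disj i i rfl c d (fun h => hcd (by simpa using h)) hcell

theorem Δ₀_sub (i : ι) (c : P.κ i) : P.Δ₀ i c ⊆ P.Δ i c := fun z hz => by
  have h1 : (z, (0:ℝ)) ∈ P.Δ₀ i c ×ˢ Icc (-1:ℝ) 1 := ⟨hz, zero_mem_I⟩
  have h2 := (P.G i c).mapsTo h1
  rwa [P.G0 i c z hz] at h2

theorem mem_γ_of (i : ι) (c : P.κ i) {z : E} (hz : z ∈ P.Δ₀ i c) {t : ℝ} (ht : t ∈ Icc (-1:ℝ) 1)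
    (h : (P.G i c).toFun (z, t) ∈ P.Lat i c) : z ∈ P.γ i c := by
  obtain ⟨⟨y, r⟩, ⟨hy, hr⟩, he⟩ := h
  simp only at hy hr
  rw [← P.GΓ i c y hy r hr] at he
  have h2 := (P.G i c).injOn (show (y, r) ∈ P.Δ₀ i c ×ˢ Icc (-1:ℝ) 1 from
    ⟨(P.cap_ball i c).1 hy, hr⟩) (show (z, t) ∈ P.Δ₀ i c ×ˢ Icc (-1:ℝ) 1 from ⟨hz, ht⟩) he
  rw [Prod.mk.injEq] at h2
  exact h2.1 ▸ hy

theorem caps₀ (i : ι) : Caps P.V P.B (P.cell i) (P.O i) (P.γ i) (P.γ i) (P.Δ₀ i) where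
  closed := fun c _ => (P.cap_ball i c).isClosed
  sub := fun c _ z hz => by
    rcases P.cap_sub i c (P.Δ₀_sub i c hz) with h1 | h1
    · exact Or.inl h1
    · refine Or.inr (P.mem_γ_of i c hz zero_mem_I ?_)
      rw [P.G0 i c z hz]
      exact h1
  bdry := fun c _ z hz => ⟨(P.cap_ball i c).1 hz, P.γB i c hz⟩
  disj := fun c d _ _ hcd hcell => (P.cap_disj i i rfl c d
    (fun h => hcd (by simpa using h)) hcell).mono (P.Δ₀_sub i c) (P.Δ₀_sub i d)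

theorem PP_V (i : ι) (q : Q) : Disjoint (P.PP i) (P.V q) := by
  rw [disjoint_left]
  rintro _ ⟨⟨z, t⟩, ⟨hz, ht⟩, rfl⟩ hV
  exact disjoint_left.1 ((P.sheet i).core_V q) hz ((P.vV i q z hz.1 t ht).1 hV)

theorem γ_co (i : ι) {c : P.κ i} (hc : P.Tp i c) : P.γ i c ⊆ P.co i := (P.sheet i).γ_core hc

theorem Lat_PP (i : ι) (c : P.κ i) (hc : P.Tp i c) : P.Lat i c ⊆ P.PP i :=
  image_mono (prod_mono (P.γ_co i hc) (Subset.refl _))

theorem PP_N (i : ι) : P.PP i ⊆ P.N i := by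
  rintro _ ⟨⟨z, t⟩, ⟨hz, ht⟩, rfl⟩
  exact (P.Γ i).mapsTo ⟨hz.1, ht⟩

/-- the new fibres -/
theorem exists_fib (i : ι) :
    ∃ (θ : ConHomeo (P.D' i) (P.D i)) (Γ' : ConHomeo (P.D' i ×ˢ Icc (-1:ℝ) 1) (P.N' i)),
      EqOn θ.toFun id (P.co i) ∧ (∀ c : P.K i, θ.toFun '' P.Δ₀ i c = P.O i c) ∧
      EqOn Γ'.toFun (P.Γ i).toFun (P.co i ×ˢ Icc (-1:ℝ) 1) ∧
      ∀ c : P.K i, EqOn Γ'.toFun (P.G i c).toFun (P.Δ₀ i c ×ˢ Icc (-1:ℝ) 1) := by
  have hfin := P.κ_fin i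
  have e : P.D i ∩ univ = P.D i := inter_univ _
  have e' : P.co i ∩ univ = P.co i := inter_univ _
  obtain ⟨θ, Γ', h1, h2, h3, h4⟩ := (P.sheet i).exists_replace_fib (n := 2) (X := univ)
    (fun c => subset_univ _) (by rw [e]; exact (P.ball i).conicalSet) (P.O_ball i)
    (fun x _ => ⟨univ, univ_mem, toFinite _⟩) ((P.Γ i).cast (by rw [e]) rfl)
    (fun z hz => P.zero i z hz.1) (fun q z hz t ht => (P.vV i q z hz.1 t ht).1)
    (Δ₀ := P.Δ₀ i) (Δ := P.Δ i) (P.caps i) (fun c _ => P.cap_ball i c) (fun c => P.G i c)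
    (fun c => P.G0 i c) (fun c => P.GΓ i c) (fun z _ => ⟨univ, univ_mem, toFinite _⟩)
  refine ⟨θ.cast (by rw [e']; rfl) e, Γ'.cast (by rw [e']; rfl) ?_, ?_, h2, ?_, h4⟩
  · rw [ConHomeo.cast_toFun, e']; rfl
  · exact fun z hz => h1 ⟨hz, mem_univ z⟩
  · exact fun p hp => h3 ⟨⟨hp.1, mem_univ p.1⟩, hp.2⟩

noncomputable def θ (i : ι) : ConHomeo (P.D' i) (P.D i) := (P.exists_fib i).choose

noncomputable def Γ' (i : ι) : ConHomeo (P.D' i ×ˢ Icc (-1:ℝ) 1) (P.N' i) :=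
  (P.exists_fib i).choose_spec.choose

theorem θ_id (i : ι) : EqOn (P.θ i).toFun id (P.co i) :=
  (P.exists_fib i).choose_spec.choose_spec.1

theorem θ_cap (i : ι) (c : P.K i) : (P.θ i).toFun '' P.Δ₀ i c = P.O i c :=
  (P.exists_fib i).choose_spec.choose_spec.2.1 c

theorem Γ'_co (i : ι) {z : E} (hz : z ∈ P.co i) {t : ℝ} (ht : t ∈ Icc (-1:ℝ) 1) :
    (P.Γ' i).toFun (z, t) = (P.Γ i).toFun (z, t) :=
  (P.exists_fib i).choose_spec.choose_spec.2.2.1 ⟨hz, ht⟩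

theorem Γ'_cap (i : ι) (c : P.K i) {z : E} (hz : z ∈ P.Δ₀ i c) {t : ℝ} (ht : t ∈ Icc (-1:ℝ) 1) :
    (P.Γ' i).toFun (z, t) = (P.G i c).toFun (z, t) :=
  (P.exists_fib i).choose_spec.choose_spec.2.2.2 c ⟨hz, ht⟩

/-- the new levels -/
noncomputable def s' (i : ι) (x : E) : ℝ := ((P.Γ' i).invFun x).2

theorem s'_Γ' (i : ι) {z : E} (hz : z ∈ P.D' i) {t : ℝ} (ht : t ∈ Icc (-1:ℝ) 1) :
    P.s' i ((P.Γ' i).toFun (z, t)) = t := by
  unfold s'
  rw [(P.Γ' i).left_inv (show (z, t) ∈ P.D' i ×ˢ Icc (-1:ℝ) 1 from ⟨hz, ht⟩)]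

theorem co_D' (i : ι) : P.co i ⊆ P.D' i := subset_union_left

theorem cap_D' (i : ι) (c : P.K i) : P.Δ₀ i c ⊆ P.D' i :=
  (subset_iUnion (fun c : P.K i => P.Δ₀ i c) c).trans subset_union_right

theorem s'_PP (i : ι) {x : E} (hx : x ∈ P.PP i) : P.s' i x = P.s i x := by
  obtain ⟨⟨z, t⟩, ⟨hz, ht⟩, rfl⟩ := hx
  rw [P.lev i z hz.1 t ht, ← P.Γ'_co i hz ht]
  exact P.s'_Γ' i (P.co_D' i hz) ht

theorem s'_cap (i : ι) (c : P.K i) {x : E} (hx : x ∈ P.Δ i c) : P.s' i x = P.sΔ i c x := by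
  obtain ⟨⟨z, t⟩, ⟨hz, ht⟩, rfl⟩ : x ∈ (P.G i c).toFun '' (P.Δ₀ i c ×ˢ Icc (-1:ℝ) 1) := by
    rw [(P.G i c).image_eq]; exact hx
  rw [P.Gs i c z hz t ht, ← P.Γ'_cap i c hz ht]
  exact P.s'_Γ' i (P.cap_D' i c hz) ht

theorem Γ'_zero (i : ι) {z : E} (hz : z ∈ P.D' i) : (P.Γ' i).toFun (z, 0) = z := by
  rcases hz with hz | hz
  · rw [P.Γ'_co i hz zero_mem_I]; exact P.zero i z hz.1
  · obtain ⟨c, hz⟩ := mem_iUnion.1 hz
    rw [P.Γ'_cap i c hz zero_mem_I]; exact P.G0 i c z hz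

theorem cap_not_bd (i : ι) (c : P.κ i) : Disjoint (P.Δ i c) P.Bd := by
  rw [disjoint_left]
  intro x hx hB
  rcases P.cap_sub i c hx with h1 | ⟨⟨z, t⟩, ⟨hz, ht⟩, rfl⟩
  · exact disjoint_left.1 (P.VB_bd _) (Or.inl h1) hB
  · exact disjoint_left.1 (P.γ_bd i c) hz ((P.bd i z (P.γD i c hz) t ht).1 hB)

theorem Γ'_bd (i : ι) {z : E} (hz : z ∈ P.D' i) {t : ℝ} (ht : t ∈ Icc (-1:ℝ) 1) :
    (P.Γ' i).toFun (z, t) ∈ P.Bd ↔ z ∈ P.Bd := by
  rcases hz with hz | hz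
  · rw [P.Γ'_co i hz ht]; exact P.bd i z hz.1 t ht
  · obtain ⟨c, hz⟩ := mem_iUnion.1 hz
    rw [P.Γ'_cap i c hz ht]
    constructor
    · intro h1
      exact absurd h1 (disjoint_left.1 (P.cap_not_bd i c) ((P.G i c).mapsTo ⟨hz, ht⟩))
    · intro h1
      exact absurd h1 (disjoint_left.1 (P.cap_not_bd i c) (P.Δ₀_sub i c hz))

/-- the points of the boundary are in the core -/
theorem bd_co (i : ι) {x : E} (hx : x ∈ P.D i) (hB : x ∈ P.Bd) : x ∈ P.co i :=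
  ⟨hx, fun c _ hc => disjoint_left.1 (P.O_bd i c) hc.1 hB⟩

theorem D'_bd (i : ι) : P.D' i ∩ P.Bd = P.D i ∩ P.Bd := by
  apply Subset.antisymm
  · rintro x ⟨hx | hx, hB⟩
    · exact ⟨hx.1, hB⟩
    · obtain ⟨c, hx⟩ := mem_iUnion.1 hx
      exact absurd hB (disjoint_left.1 (P.cap_not_bd i c) (P.Δ₀_sub i c hx))
  · exact fun x hx => ⟨P.co_D' i (P.bd_co i hx.1 hx.2), hx.2⟩

theorem D'_ball (i : ι) : ConBall 2 (P.D' i) (P.D' i ∩ P.Bd) := by
  have h1 := (P.ball i).image (P.θ i).symm (Subset.refl _)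
  have h2 : (P.θ i).symm.toFun '' P.D i = P.D' i := (P.θ i).symm.image_eq
  have h3 : (P.θ i).symm.toFun '' (P.D i ∩ P.Bd) = P.D' i ∩ P.Bd := by
    rw [P.D'_bd i]
    have h4 : ∀ x ∈ P.D i ∩ P.Bd, (P.θ i).symm.toFun x = x := by
      intro x hx
      have h5 : (P.θ i).toFun x = x := P.θ_id i (P.bd_co i hx.1 hx.2)
      show (P.θ i).invFun x = x
      nth_rewrite 1 [← h5]
      exact (P.θ i).left_inv (P.co_D' i (P.bd_co i hx.1 hx.2))
    rw [image_congr h4, image_id']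
  rwa [h2, h3] at h1

/-- the intersection of two new sheets -/
theorem inter_N' {i j : ι} {x : E} (hx : x ∈ P.N' i) (hx' : x ∈ P.N' j) :
    x ∈ P.PP i ∩ P.PP j ∨ ∃ (c : P.K i) (d : P.K j), P.cell i c = P.cell j d ∧
      x ∈ P.Δ i c ∧ x ∈ P.Δ j d :=
  inter_new P.V_disj P.VB (P.caps i) (P.caps j) (P.PP_V i) (P.PP_V j) (P.Lat_PP i) (P.Lat_PP j)
    hx hx'

theorem N'_disj {i j : ι} (hij : i ≠ j) (hs : P.side i = P.side j) :
    Disjoint (P.N' i) (P.N' j) := by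
  rw [disjoint_left]
  intro x hx hx'
  rcases P.inter_N' hx hx' with h1 | ⟨c, d, hcd, h1, h2⟩
  · exact disjoint_left.1 (P.disj i j hij hs) (P.PP_N i h1.1) (P.PP_N j h1.2)
  · refine disjoint_left.1 (P.cap_disj i j hs c d (fun h => hij ?_) hcd) h1 h2
    exact congrArg Sigma.fst h

/-- **the new fibres commute** -/
theorem pres' {i j : ι} (hs : P.side i ≠ P.side j) :
    Pres (P.Γ' i).toFun (P.D' i) (P.N' j) (P.s' j) := by
  -- the core case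
  have hcore : ∀ z ∈ P.co i, ∀ t ∈ Icc (-1:ℝ) 1, ∀ t' ∈ Icc (-1:ℝ) 1,
      (P.Γ i).toFun (z, t) ∈ P.N' j → (P.Γ i).toFun (z, t') ∈ P.N' j ∧
        P.s' j ((P.Γ i).toFun (z, t')) = P.s' j ((P.Γ i).toFun (z, t)) := by
    intro z hz t ht t' ht' hmem
    have h1 : (P.Γ i).toFun (z, t) ∈ P.PP i := ⟨(z, t), ⟨hz, ht⟩, rfl⟩
    have h2 : (P.Γ i).toFun (z, t) ∈ P.PP j := by
      rcases hmem with h2 | h2
      · exact h2
      · obtain ⟨d, h2⟩ := mem_iUnion.1 h2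
        rcases P.cap_sub j d h2 with h3 | h3
        · exact absurd h3 (disjoint_left.1 (P.PP_V i _) h1)
        · exact P.Lat_PP j d d.2 h3
    have e : P.D i ∩ univ = P.D i := inter_univ _
    have e' : P.D j ∩ univ = P.D j := inter_univ _
    have h3 := pres_core (P.sheet i) (P.sheet j) (X := univ) ((P.Γ i).cast (by rw [e]) rfl)
      ((P.Γ j).cast (by rw [e']) rfl) (fun q z hz t ht => (P.vV i q z hz.1 t ht).1)
      (fun q z hz t ht => (P.vV j q z hz.1 t ht).2) (b' := P.s j)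
      (fun z hz t ht t' ht' h => P.pres i j hs z hz.1 t ht t' ht' h)
    rw [ConHomeo.cast_toFun, ConHomeo.cast_toFun, inter_univ, inter_univ] at h3
    obtain ⟨h4, h5⟩ := h3 z hz t ht t' ht' h2
    refine ⟨Or.inl h4, ?_⟩
    rw [P.s'_PP j h4, P.s'_PP j h2]
    exact h5
  rintro z (hz | hz) t ht t' ht' hmem
  · rw [P.Γ'_co i hz ht] at hmem ⊢
    rw [P.Γ'_co i hz ht']
    exact hcore z hz t ht t' ht' hmem
  · obtain ⟨c, hz⟩ := mem_iUnion.1 hz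
    rw [P.Γ'_cap i c hz ht] at hmem
    have hx : (P.G i c).toFun (z, t) ∈ P.Δ i c := (P.G i c).mapsTo ⟨hz, ht⟩
    have hlat : (P.G i c).toFun (z, t) ∈ P.PP i →
        (P.Γ' i).toFun (z, t') ∈ P.N' j ∧
        P.s' j ((P.Γ' i).toFun (z, t')) = P.s' j ((P.Γ' i).toFun (z, t)) := by
      intro h1
      have h2 : (P.G i c).toFun (z, t) ∈ P.Lat i c := by
        have h2' := Sheet.cap_inter_P (P.caps i) (P.PP_V i) (P.Lat_PP i) c.2
        rw [← h2']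
        exact ⟨hx, h1⟩
      have hzγ := P.mem_γ_of i c hz ht h2
      have hzc := P.γ_co i c.2 hzγ
      rw [P.Γ'_co i hzc ht, P.Γ'_co i hzc ht']
      rw [P.GΓ i c z hzγ t ht] at hmem
      exact hcore z hzc t ht t' ht' hmem
    rcases P.inter_N' (Or.inr (mem_iUnion.2 ⟨c, hx⟩)) hmem with h1 | ⟨c', d, hcd, h1, h2⟩
    · exact hlat h1.1
    · by_cases hcc : c = c'
      · subst hcc
        obtain ⟨h3, h4⟩ := P.cap_pres i j hs c d hcd z hz t ht t' ht' h2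
        rw [P.Γ'_cap i c hz ht, P.Γ'_cap i c hz ht']
        refine ⟨Or.inr (mem_iUnion.2 ⟨d, h3⟩), ?_⟩
        rw [P.s'_cap j d h3, P.s'_cap j d h2]
        exact h4
      · exact hlat ((P.sheet i).cap_inter_cap (P.caps i) (P.Lat_PP i) c.2 c'.2
          (fun h => hcc (Subtype.ext h)) ⟨hx, h1⟩)

end Pre

end P073.H142
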