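import Vale.Agent.P073.H142.Asm1
import Vale.Agent.P073.H669.Swin
import Vale.Agent.P073.H341.Cut

/-!
# P073, block H142 (ASM3): the new sheets form a `VFam`
-/

open Set Metric Topology Filter

namespace P073.H142

open P073 P073.H936 P073.TR

/-- the germ of the core -/
theorem Sheet.core_germ {E : Type*} [TopologicalSpace E] {I J : Type*} [Finite J] {S : Set E}
    {V B : I → Set E} {cell : J → I} {O γ : J → Set E} (h : Sheet S V B cell O γ) {x : E}
    (hx : x ∈ core S V cell O γ) : ∀ᶠ y in 𝓝 x, y ∈ S → y ∉ core S V cell O γ →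
      ∃ c, Top V cell O γ c ∧ x ∈ γ c ∧ y ∈ V (cell c) := by
  have h1 : ∀ c, ∀ᶠ y in 𝓝 x, Top V cell O γ c → y ∈ O c \ γ c → x ∈ γ c ∧ y ∈ V (cell c) := by
    intro c
    by_cases hc : Top V cell O γ c
    · by_cases hxO : x ∈ O c
      · have hxγ : x ∈ γ c := by
          rw [← h.O_inter_core hc]; exact ⟨hxO, hx⟩
        obtain ⟨W, hW, hxW, hWV⟩ := hc.1 x hxγ
        filter_upwards [hW.mem_nhds hxW] with y hy _ hyo
        exact ⟨hxγ, hWV ⟨hy, hyo⟩⟩
      · filter_upwards [(h.O_closed c).isOpen_compl.mem_nhds hxO] with y hy _ hyo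
        exact absurd hyo.1 hy
    · exact Eventually.of_forall fun y hc' => absurd hc' hc
  filter_upwards [eventually_all.2 h1] with y hy hyS hyc
  have h2 : ¬ ∀ c, Top V cell O γ c → y ∉ O c \ γ c := fun h' => hyc ⟨hyS, h'⟩
  push Not at h2
  obtain ⟨c, hc, hyo⟩ := h2
  obtain ⟨h3, h4⟩ := hy c hc hyo
  exact ⟨c, hc, h3, h4⟩

namespace Pre

variable {ι Q : Type*} {E : Type} [NormedAddCommGroup E] [NormedSpace ℝ E] (P : Pre ι Q E)

theorem mid_eq (i : ι) : H669.mid (P.N' i) (P.s' i) = P.D' i := by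
  ext x
  constructor
  · rintro ⟨hx, h0⟩
    have h1 := (P.Γ' i).mapsTo_inv hx
    have h2 := (P.Γ' i).right_inv hx
    have h3 : (P.Γ' i).invFun x = (((P.Γ' i).invFun x).1, (0:ℝ)) := Prod.ext rfl h0
    rw [h3, P.Γ'_zero i h1.1] at h2
    rw [← h2]; exact h1.1
  · intro hx
    have h1 : (x, (0:ℝ)) ∈ P.D' i ×ˢ Icc (-1:ℝ) 1 := ⟨hx, zero_mem_I⟩
    have h2 := (P.Γ' i).mapsTo h1
    rw [P.Γ'_zero i hx] at h2
    refine ⟨h2, ?_⟩
    have h3 := P.s'_Γ' i hx zero_mem_I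
    rwa [P.Γ'_zero i hx] at h3

theorem co_of_not_V (i : ι) {x : E} (hx : x ∈ P.D' i) (hV : ∀ q, x ∉ P.V q) : x ∈ P.co i := by
  rcases hx with hx | hx
  · exact hx
  · obtain ⟨c, hx⟩ := mem_iUnion.1 hx
    rcases (P.caps₀ i).sub c c.2 hx with h1 | h1
    · exact absurd h1 (hV _)
    · exact P.γ_co i c.2 h1

/-- the pairs of caps of the same cell -/
abbrev PQ (i j : ι) := {p : P.K i × P.K j // P.cell i p.1 = P.cell j p.2}

/-- the double curve of the caps -/
abbrev CC {i j : ι} (p : P.PQ i j) : Set E := P.Δ₀ i p.1.1 ∩ P.Δ₀ j p.1.2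

theorem inter_D' (i j : ι) : P.D' i ∩ P.D' j = (P.co i ∩ P.co j) ∪ ⋃ p : P.PQ i j, P.CC p := by
  ext x
  constructor
  · rintro ⟨hx, hx'⟩
    rcases inter_new P.V_disj P.VB (P.caps₀ i) (P.caps₀ j) (fun q => (P.sheet i).core_V q)
      (fun q => (P.sheet j).core_V q) (fun c hc => P.γ_co i hc) (fun c hc => P.γ_co j hc)
      hx hx' with h1 | ⟨c, d, hcd, h1, h2⟩
    · exact Or.inl h1
    · exact Or.inr (mem_iUnion.2 ⟨⟨(c, d), hcd⟩, h1, h2⟩)
  · rintro (hx | hx)
    · exact ⟨P.co_D' i hx.1, P.co_D' j hx.2⟩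
    · obtain ⟨p, hp⟩ := mem_iUnion.1 hx
      exact ⟨P.cap_D' i _ hp.1, P.cap_D' j _ hp.2⟩

theorem co_cap (i : ι) (c : P.K i) {x : E} (hx : x ∈ P.co i) (hx' : x ∈ P.Δ₀ i c) :
    x ∈ P.γ i c := by
  have h := Sheet.cap_inter_P (P.caps₀ i) (P := P.co i) (fun q => (P.sheet i).core_V q)
    (fun c hc => P.γ_co i hc) c.2
  rw [← h]
  exact ⟨hx', hx⟩

theorem cap_cap (i : ι) {c d : P.K i} (hcd : c ≠ d) {x : E} (hx : x ∈ P.Δ₀ i c)
    (hx' : x ∈ P.Δ₀ i d) : x ∈ P.co i :=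
  (P.sheet i).cap_inter_cap (P.caps₀ i) (P := P.co i) (fun c hc => P.γ_co i hc) c.2 d.2
    (fun h => hcd (Subtype.ext h)) ⟨hx, hx'⟩

theorem cap_same (i : ι) {c d : P.K i} (hcell : P.cell i c = P.cell i d) {x : E}
    (hx : x ∈ P.Δ₀ i c) (hx' : x ∈ P.Δ₀ i d) : c = d := by
  by_contra hcd
  exact disjoint_left.1 ((P.caps₀ i).disj c d c.2 d.2 (fun h => hcd (Subtype.ext h)) hcell) hx hx'

theorem conicalSet_co (i : ι) : ConicalSet (P.co i) := by
  have hfin := P.κ_fin i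
  have h1 := Sheet.conicalSet_core (V := P.V) (cell := P.cell i) (S := P.D i) (X := univ)
    (O := P.O i) (γ := P.γ i) (by rw [inter_univ]; exact (P.ball i).conicalSet)
    (fun c => (P.O_ball i c).locCone) (fun c => (P.O_ball i c).locCone_bdry)
    (fun x _ => ⟨univ, univ_mem, toFinite _⟩)
  rwa [inter_univ] at h1

/-- directions of the new double curve at a point of the cores -/
theorem dirs_co {i j : ι} (hs : P.side i ≠ P.side j) {x : E} (hx : x ∈ P.co i ∩ P.co j) :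
    (dirs (P.D' i ∩ P.D' j) x).encard = (dirs (P.D i ∩ P.D j) x).encard := by
  classical
  have hfi := P.κ_fin i
  have hfj := P.κ_fin j
  have hfin : Finite (P.PQ i j) := inferInstance
  cases nonempty_fintype (P.PQ i j)
  set F : Finset (P.PQ i j) := Finset.univ.filter (fun p => x ∈ P.γ i p.1.1 ∧ x ∈ P.γ j p.1.2)
    with hF
  have memF : ∀ p, p ∈ F ↔ x ∈ P.γ i p.1.1 ∧ x ∈ P.γ j p.1.2 := fun p => by
    rw [hF, Finset.mem_filter]; exact and_iff_right (Finset.mem_univ p)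
  let q : P.PQ i j → Q := fun p => P.cell i p.1.1
  let A : P.PQ i j → Set E := fun p => P.D i ∩ P.D j ∩ (P.V (q p) ∪ P.B (q p))
  have hxL : x ∈ P.D i ∩ P.D j := ⟨hx.1.1, hx.2.1⟩
  have hBi : ∀ p : P.PQ i j, P.γ i p.1.1 ⊆ P.B (q p) := fun p => P.γB i _
  have hBj : ∀ p : P.PQ i j, P.γ j p.1.2 ⊆ P.B (q p) := fun p => by
    show P.γ j p.1.2 ⊆ P.B (P.cell i p.1.1)
    rw [p.2]; exact P.γB j _
  have hqne : ∀ p ∈ F, ∀ p' ∈ F, p ≠ p' → q p ≠ q p' := by
    intro p hp p' hp' hpp hq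
    have h1 : p.1.1 = p'.1.1 := by
      by_contra hne
      exact disjoint_left.1 (P.γ_disj i _ _ (fun h => hne (Subtype.ext h)) hq)
        ((memF p).1 hp).1 ((memF p').1 hp').1
    have h2 : p.1.2 = p'.1.2 := by
      by_contra hne
      have hq' : P.cell j p.1.2 = P.cell j p'.1.2 := p.2.symm.trans (hq.trans p'.2)
      exact disjoint_left.1 (P.γ_disj j _ _ (fun h => hne (Subtype.ext h)) hq')
        ((memF p).1 hp).2 ((memF p').1 hp').2
    exact hpp (Subtype.ext (Prod.ext h1 h2))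
  -- finiteness
  have f1 : ∀ p : P.PQ i j, ((P.co i ∩ P.co j) ∩ A p).Finite := by
    intro p
    refine (P.LB i j hs (q p)).subset ?_
    rintro y ⟨⟨hy1, hy2⟩, hyL, hV | hB⟩
    · exact absurd hV (disjoint_left.1 ((P.sheet i).core_V _) hy1)
    · exact ⟨hyL, hB⟩
  have f2 : ∀ p ∈ F, ∀ p' ∈ F, p ≠ p' → (A p ∩ A p').Finite := by
    intro p hp p' hp' hpp
    have hq := hqne p hp p' hp' hpp
    refine (P.LB i j hs (q p)).subset ?_
    rintro y ⟨⟨hyL, hy⟩, ⟨-, hy'⟩⟩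
    refine ⟨hyL, ?_⟩
    rcases hy with h1 | h1
    · rcases hy' with h2 | h2
      · exact absurd h2 (disjoint_left.1 (P.V_disj _ _ hq) h1)
      · exact absurd h2 (disjoint_left.1 (P.VB _ _) h1)
    · exact h1
  have f3 : ∀ p : P.PQ i j, ((P.co i ∩ P.co j) ∩ P.CC p).Finite := by
    intro p
    refine (P.LB i j hs (q p)).subset ?_
    rintro y ⟨⟨hy1, hy2⟩, hy3, hy4⟩
    exact ⟨⟨hy1.1, hy2.1⟩, hBi p (P.co_cap i _ hy1 hy3)⟩
  have f4 : ∀ p ∈ F, ∀ p' ∈ F, p ≠ p' → (P.CC p ∩ P.CC p').Finite := by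
    intro p hp p' hp' hpp
    have hq := hqne p hp p' hp' hpp
    have n1 : p.1.1 ≠ p'.1.1 := fun h => hq (by show P.cell i _ = P.cell i _; rw [h])
    have n2 : p.1.2 ≠ p'.1.2 := fun h => hq (by
      show P.cell i _ = P.cell i _
      rw [p.2, p'.2, h])
    refine (f3 p).subset ?_
    rintro y ⟨⟨hy1, hy2⟩, hy3, hy4⟩
    exact ⟨⟨P.cap_cap i n1 hy1 hy3, P.cap_cap j n2 hy2 hy4⟩, hy1, hy2⟩
  -- the two germs
  have e1 : ∀ᶠ y in 𝓝 x, (y ∈ P.D' i ∩ P.D' j ↔ y ∈ (P.co i ∩ P.co j) ∪ ⋃ p ∈ F, P.CC p) := by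
    have h1 : ∀ p : P.PQ i j, ∀ᶠ y in 𝓝 x, y ∈ P.CC p → p ∈ F := by
      intro p
      have hcl : IsClosed (P.CC p) :=
        (P.cap_ball i p.1.1).isClosed.inter (P.cap_ball j p.1.2).isClosed
      by_cases hxp : x ∈ P.CC p
      · exact Eventually.of_forall fun y _ =>
          (memF p).2 ⟨P.co_cap i _ hx.1 hxp.1, P.co_cap j _ hx.2 hxp.2⟩
      · filter_upwards [hcl.isOpen_compl.mem_nhds hxp] with y hy hy'
        exact absurd hy' hy
    filter_upwards [eventually_all.2 h1] with y hy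
    rw [P.inter_D' i j]
    constructor
    · rintro (h2 | h2)
      · exact Or.inl h2
      · obtain ⟨p, hp⟩ := mem_iUnion.1 h2
        exact Or.inr (mem_iUnion₂.2 ⟨p, hy p hp, hp⟩)
    · rintro (h2 | h2)
      · exact Or.inl h2
      · obtain ⟨p, -, hp⟩ := mem_iUnion₂.1 h2
        exact Or.inr (mem_iUnion.2 ⟨p, hp⟩)
  have e2 : ∀ᶠ y in 𝓝 x, (y ∈ P.D i ∩ P.D j ↔ y ∈ (P.co i ∩ P.co j) ∪ ⋃ p ∈ F, A p) := by
    filter_upwards [(P.sheet i).core_germ hx.1, (P.sheet j).core_germ hx.2] with y hy1 hy2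
    constructor
    · intro hyL
      by_cases hyi : y ∈ P.co i
      · by_cases hyj : y ∈ P.co j
        · exact Or.inl ⟨hyi, hyj⟩
        · exfalso
          obtain ⟨d, -, -, hV⟩ := hy2 hyL.2 hyj
          exact disjoint_left.1 ((P.sheet i).core_V _) hyi hV
      · obtain ⟨c, hc, hxc, hV⟩ := hy1 hyL.1 hyi
        have hyj : y ∉ P.co j := fun h => disjoint_left.1 ((P.sheet j).core_V _) h hV
        obtain ⟨d, hd, hxd, hV'⟩ := hy2 hyL.2 hyj
        have hcd : P.cell i c = P.cell j d := by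
          by_contra hne
          exact disjoint_left.1 (P.V_disj _ _ hne) hV hV'
        refine Or.inr (mem_iUnion₂.2 ⟨⟨(⟨c, hc⟩, ⟨d, hd⟩), hcd⟩, (memF _).2 ⟨hxc, hxd⟩, hyL, ?_⟩)
        exact Or.inl hV
    · rintro (h2 | h2)
      · exact ⟨h2.1.1, h2.2.1⟩
      · obtain ⟨p, -, hp⟩ := mem_iUnion₂.1 h2
        exact hp.1
  rw [TR.DM.dirs_congr e1, TR.DM.dirs_congr e2,
    encard_dirs_biUnion F (C := fun p => P.CC p)
      (fun p hp => ((P.cap_ball i p.1.1).conicalSet.inter (P.cap_ball j p.1.2).conicalSet) x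
        ⟨(P.cap_ball i p.1.1).1 ((memF p).1 hp).1, (P.cap_ball j p.1.2).1 ((memF p).1 hp).2⟩)
      (fun p _ => f3 p) f4 (fun p hp => P.dirs_cap i j hs _ _ p.2 x ((memF p).1 hp)),
    encard_dirs_biUnion F (C := A)
      (fun p hp => (((P.ball i).conicalSet.inter (P.ball j).conicalSet).inter
        (P.VB_con (q p))) x ⟨hxL, Or.inr (hBi p ((memF p).1 hp).1)⟩)
      (fun p _ => f1 p) f2
      (fun p hp => P.dirs_in i j hs (q p) x hxL (hBi p ((memF p).1 hp).1))]

/-- directions of the new double curve at a point inside a cell -/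
theorem dirs_V {i j : ι} (hs : P.side i ≠ P.side j) {x : E} (hx : x ∈ P.D' i ∩ P.D' j) {q : Q}
    (hV : x ∈ P.V q) : (dirs (P.D' i ∩ P.D' j) x).encard = 2 := by
  classical
  have hfi := P.κ_fin i
  have hfj := P.κ_fin j
  have hfin : Finite (P.PQ i j) := inferInstance
  have hx0 := hx
  rw [P.inter_D' i j] at hx
  rcases hx with hx | hx
  · exact absurd hV (disjoint_left.1 ((P.sheet i).core_V q) hx.1)
  · obtain ⟨p, hp⟩ := mem_iUnion.1 hx
    have hcellV : ∀ {k : ι} (c : P.K k), x ∈ P.Δ₀ k c → P.cell k c = q := by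
      intro k c hc
      rcases (P.caps₀ k).sub c c.2 hc with h1 | h1
      · by_contra hne
        exact disjoint_left.1 (P.V_disj _ _ hne) h1 hV
      · exact absurd (P.γB k c h1) (disjoint_left.1 (P.VB _ _) hV)
    have huniq : ∀ p' : P.PQ i j, x ∈ P.CC p' → p' = p := by
      intro p' hp'
      refine Subtype.ext (Prod.ext ?_ ?_)
      · exact P.cap_same i ((hcellV _ hp'.1).trans (hcellV _ hp.1).symm) hp'.1 hp.1
      · exact P.cap_same j ((hcellV _ hp'.2).trans (hcellV _ hp.2).symm) hp'.2 hp.2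
    have e1 : ∀ᶠ y in 𝓝 x, (y ∈ P.D' i ∩ P.D' j ↔ y ∈ P.CC p) := by
      have h1 : ∀ p' : P.PQ i j, ∀ᶠ y in 𝓝 x, y ∈ P.CC p' → p' = p := by
        intro p'
        have hcl : IsClosed (P.CC p') :=
          (P.cap_ball i p'.1.1).isClosed.inter (P.cap_ball j p'.1.2).isClosed
        by_cases hxp : x ∈ P.CC p'
        · exact Eventually.of_forall fun y _ => huniq p' hxp
        · filter_upwards [hcl.isOpen_compl.mem_nhds hxp] with y hy hy'
          exact absurd hy' hy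
      filter_upwards [eventually_all.2 h1, (P.V_open q).mem_nhds hV] with y hy hyV
      rw [P.inter_D' i j]
      constructor
      · rintro (h2 | h2)
        · exact absurd hyV (disjoint_left.1 ((P.sheet i).core_V q) h2.1)
        · obtain ⟨p', hp'⟩ := mem_iUnion.1 h2
          rw [hy p' hp'] at hp'
          exact hp'
      · intro h2
        exact Or.inr (mem_iUnion.2 ⟨p, h2⟩)
    rw [TR.DM.dirs_congr e1]
    exact P.dirs_cap' i j hs _ _ p.2 x hp (by rw [hcellV _ hp.1]; exact hV)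

theorem dirs_D' {i j : ι} (hs : P.side i ≠ P.side j) {x : E} (hx : x ∈ P.D' i ∩ P.D' j) :
    ((dirs (P.D' i ∩ P.D' j) x).ncard = 1 ∧ x ∈ P.Bd) ∨
      ((dirs (P.D' i ∩ P.D' j) x).ncard = 2 ∧ x ∉ P.Bd) := by
  have hn : ∀ (S : Set E) (n : ℕ), S.encard = n → S.ncard = n := fun S n h => by
    rw [Set.ncard_def, h]; rfl
  by_cases hV : ∃ q, x ∈ P.V q
  · obtain ⟨q, hV⟩ := hV
    right
    exact ⟨hn _ 2 (P.dirs_V hs hx hV), fun hB => disjoint_left.1 (P.VB_bd q) (Or.inl hV) hB⟩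
  · push Not at hV
    have hc : x ∈ P.co i ∩ P.co j := ⟨P.co_of_not_V i hx.1 hV, P.co_of_not_V j hx.2 hV⟩
    have h1 := P.dirs_co hs hc
    rcases P.curve i j hs x ⟨hc.1.1, hc.2.1⟩ with ⟨h2, h3⟩ | ⟨h2, h3⟩
    · exact Or.inl ⟨hn _ 1 (by rw [h1, h2]; rfl), h3⟩
    · exact Or.inr ⟨hn _ 2 (by rw [h1, h2]; rfl), h3⟩

theorem curve' {i j : ι} (hs : P.side i ≠ P.side j) : Curve (P.D' i ∩ P.D' j) where
  compact := (P.D'_ball i).isCompact.inter_right (P.D'_ball j).isClosed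
  cone := fun x _ => ((P.D'_ball i).locCone.inter (P.D'_ball j).locCone) x
  card := fun x hx => (P.dirs_D' hs hx).imp And.left And.left

theorem exists_comp (i j : ι) : ∃ (J : Type) (_ : Finite J) (C : J → Set E),
    P.side i ≠ P.side j → (⋃ a, C a) = P.D' i ∩ P.D' j ∧ (∀ a b, a ≠ b → Disjoint (C a) (C b)) ∧
      (∀ a, IsPreconnected (C a)) ∧ (∀ a, IsClosed (C a)) ∧
      ∀ a, (ConSphere 1 (C a) ∧ Disjoint (C a) P.Bd) ∨
        (ConBall 1 (C a) (C a ∩ P.Bd) ∧ (C a ∩ P.Bd).ncard = 2) := by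
  by_cases hs : P.side i ≠ P.side j
  · obtain ⟨J, hJ, C, h1, h2, h3⟩ := (P.curve' hs).exists_components
    refine ⟨J, hJ, C, fun _ => ⟨h1, h2, fun a => ?_, fun a => ?_, fun a => ?_⟩⟩
    · rcases h3 a with ⟨⟨φ⟩, -⟩ | ⟨u, v, h4, -⟩
      · have := isPreconnected_sphere_P2.image _ φ.cont_inv
        rwa [show φ.invFun '' _ = C a from φ.symm.image_eq] at this
      · exact h4.isPreconnected'
    · rcases h3 a with ⟨⟨φ⟩, -⟩ | ⟨u, v, h4, -⟩
      · exact (φ.symm.isCompact_right (isCompact_sphere _ _)).isClosed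
      · exact h4.isClosed
    · rcases h3 a with ⟨h4, h5⟩ | ⟨u, v, h4, h5, h5', h5''⟩
      · refine Or.inl ⟨h4, disjoint_left.2 fun x hx hB => ?_⟩
        have hxM : x ∈ P.D' i ∩ P.D' j := h1 ▸ mem_iUnion.2 ⟨a, hx⟩
        rcases P.dirs_D' hs hxM with ⟨h6, -⟩ | ⟨-, h6⟩
        · have := h5 x hx; omega
        · exact h6 hB
      · right
        have hM : ∀ w ∈ C a, w ∈ P.D' i ∩ P.D' j := fun w hw => h1 ▸ mem_iUnion.2 ⟨a, hw⟩
        have hend : ∀ w ∈ C a, (dirs (P.D' i ∩ P.D' j) w).ncard = 1 → w ∈ P.Bd := by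
          intro w hw h6
          rcases P.dirs_D' hs (hM w hw) with ⟨-, h7⟩ | ⟨h7, -⟩
          · exact h7
          · omega
        have hu : u ∈ C a := h4.1 (Or.inl rfl)
        have hv : v ∈ C a := h4.1 (Or.inr rfl)
        have e : C a ∩ P.Bd = {u, v} := by
          apply Subset.antisymm
          · rintro w ⟨hw, hB⟩
            rcases P.dirs_D' hs (hM w hw) with ⟨h7, -⟩ | ⟨-, h7⟩
            · exact h5'' w hw h7
            · exact absurd hB h7
          · rintro w (rfl | hw)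
            · exact ⟨hu, hend _ hu h5⟩
            · rw [mem_singleton_iff] at hw
              subst hw
              exact ⟨hv, hend _ hv h5'⟩
        rw [e]
        exact ⟨h4, ncard_pair (arc_ne h4)⟩
  · exact ⟨Empty, inferInstance, fun _ => ∅, fun h => absurd h hs⟩

/-- **The new sheets form a family of vertically compatible thick sheets.** -/
noncomputable def vfam : H669.VFam ι E where
  side := P.side
  N := P.N'
  s := P.s'
  Bd := P.Bd
  ball := fun i => by rw [P.mid_eq i]; exact P.D'_ball i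
  Gam := fun i => (P.Γ' i).cast (by rw [P.mid_eq i]) rfl
  gam_zero := fun i z hz => P.Γ'_zero i (P.mid_eq i ▸ hz)
  gam_s := fun i z hz t ht => P.s'_Γ' i (P.mid_eq i ▸ hz) ht
  gam_bd := fun i z hz t ht => P.Γ'_bd i (P.mid_eq i ▸ hz) ht
  disj := fun i j hij hs => P.N'_disj hij hs
  vert := fun i j hs z hz t ht => by
    have hz' : z ∈ P.D' i := P.mid_eq i ▸ hz
    have h0 := P.Γ'_zero i hz'
    constructor
    · intro h
      have := (P.pres' hs z hz' t ht 0 zero_mem_I h).1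
      rwa [h0] at this
    · intro h
      exact (P.pres' hs z hz' 0 zero_mem_I t ht (by rwa [h0])).1
  vert_s := fun i j hs z hz t ht h => by
    have hz' : z ∈ P.D' i := P.mid_eq i ▸ hz
    have h0 := P.Γ'_zero i hz'
    have := (P.pres' hs z hz' 0 zero_mem_I t ht (by rwa [h0])).2
    rwa [h0] at this
  J := fun i j => (P.exists_comp i j).choose
  fin := fun i j => (P.exists_comp i j).choose_spec.choose
  C := fun i j => (P.exists_comp i j).choose_spec.choose_spec.choose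
  C_union := fun i j h h' => by
    rw [P.mid_eq i, P.mid_eq j]
    exact ((P.exists_comp i j).choose_spec.choose_spec.choose_spec (by rw [h, h']; simp)).1
  C_disj := fun i j h h' =>
    ((P.exists_comp i j).choose_spec.choose_spec.choose_spec (by rw [h, h']; simp)).2.1
  C_conn := fun i j h h' =>
    ((P.exists_comp i j).choose_spec.choose_spec.choose_spec (by rw [h, h']; simp)).2.2.1
  C_closed := fun i j h h' =>
    ((P.exists_comp i j).choose_spec.choose_spec.choose_spec (by rw [h, h']; simp)).2.2.2.1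
  C_cases := fun i j h h' a =>
    (((P.exists_comp i j).choose_spec.choose_spec.choose_spec
      (by rw [h, h']; simp)).2.2.2.2 a).imp_right fun h => nonempty_of_ncard_ne_zero (by rw [h.2]; simp)

/-- **exactly one arc component** if the old middle sheets have two common boundary points -/
theorem vfam_arc {i j : ι} (h : P.side i = false) (h' : P.side j = true)
    (h2 : (P.D i ∩ P.D j ∩ P.Bd).ncard = 2) :
    ∃ a, ConBall 1 (P.vfam.C i j a) (P.vfam.C i j a ∩ P.vfam.Bd) ∧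
      ∀ b, b ≠ a → ConSphere 1 (P.vfam.C i j b) ∧ Disjoint (P.vfam.C i j b) P.vfam.Bd := by
  classical
  have hs : P.side i ≠ P.side j := by rw [h, h']; simp
  obtain ⟨h3, h4, -, -, h5⟩ := (P.exists_comp i j).choose_spec.choose_spec.choose_spec hs
  have hbd : P.D' i ∩ P.D' j ∩ P.Bd = P.D i ∩ P.D j ∩ P.Bd := by
    rw [inter_inter_distrib_right, P.D'_bd i, P.D'_bd j, ← inter_inter_distrib_right]
  have hfin : (P.D i ∩ P.D j ∩ P.Bd).Finite := finite_of_ncard_ne_zero (by rw [h2]; simp)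
  have hsub : ∀ a, P.vfam.C i j a ∩ P.Bd ⊆ P.D i ∩ P.D j ∩ P.Bd := by
    rintro a x ⟨hx, hB⟩
    rw [← hbd, ← h3]
    exact ⟨mem_iUnion.2 ⟨a, hx⟩, hB⟩
  have heq : ∀ a, (P.vfam.C i j a ∩ P.Bd).ncard = 2 →
      P.vfam.C i j a ∩ P.Bd = P.D i ∩ P.D j ∩ P.Bd := fun a ha =>
    eq_of_subset_of_ncard_le (hsub a) (by rw [h2, ha]) hfin
  obtain ⟨p, hp⟩ : (P.D i ∩ P.D j ∩ P.Bd).Nonempty :=
    nonempty_of_ncard_ne_zero (by rw [h2]; simp)
  obtain ⟨a, ha⟩ : ∃ a, p ∈ P.vfam.C i j a := by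
    rw [← hbd, ← h3] at hp
    exact mem_iUnion.1 hp.1
  have hpB : p ∈ P.Bd := hp.2
  rcases h5 a with ⟨-, h6⟩ | ⟨h6, h7⟩
  · exact absurd hpB (disjoint_left.1 h6 ha)
  · refine ⟨a, h6, fun b hb => ?_⟩
    rcases h5 b with h8 | ⟨-, h9⟩
    · exact h8
    · exfalso
      have h10 : p ∈ P.vfam.C i j b := by
        have := heq b h9
        rw [← this] at hp
        exact hp.1
      exact disjoint_left.1 (h4 b a hb) h10 ha

end Pre

end P073.H142
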