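import Vale.Agent.P073.H142.Man2
import Vale.Agent.P073.H267.Sph
import Vale.Agent.P073.H339.Glue2
import Vale.Agent.P073.SCH.LocConeImage

/-!
# P073, block H142 (PRE3b): two families of crossing rings never cover a conical two-sphere
-/

open Set Metric Topology Filter

namespace P073.H142

open P073 P073.H936 P073.TR P073.H267

section aux

variable {E F : Type*} [NormedAddCommGroup E] [NormedSpace ℝ E] [NormedAddCommGroup F]
  [NormedSpace ℝ F]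

theorem conicalSet_preimage {f : E → F} {X : Set E} {Y : Set F} (hf : ConicalOn f X)
    (hc : ContinuousOn f X) (hY : ConicalSet Y) : ConicalSet {x | x ∈ X ∧ f x ∈ Y} := by
  rintro x ⟨hx, hxY⟩
  obtain ⟨r, hr, H⟩ := hf x hx
  obtain ⟨s, hs, H'⟩ := hY (f x) hxY
  obtain ⟨ρ, hρ, hb⟩ := exists_radius_of_nhdsWithin
    ((hc x hx).eventually (closedBall_mem_nhds (f x) hs))
  refine ⟨min r ρ, lt_min hr hρ, fun v hv hxv t ht => ?_⟩
  obtain ⟨h1, h2⟩ := H v (hv.trans (min_le_left _ _)) hxv.1 t ht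
  refine ⟨h1, ?_⟩
  have h3 := hb v (hv.trans (min_le_right _ _)) hxv.1
  rw [dist_eq_norm] at h3
  rw [h2]
  exact H' _ h3 (by rw [add_sub_cancel]; exact hxv.2) t ht

/-- the end of a product with an interval never has exactly two directions -/
theorem dirs_prod_ne_two {K : Set F} {x : F} (hx : x ∈ K) :
    (dirs (K ×ˢ Icc (-1:ℝ) 1) (x, (1:ℝ))).encard ≠ 2 := by
  have hI : ∀ᶠ t in 𝓝[>] (0:ℝ), (1:ℝ) + t * (-1) ∈ Icc (-1:ℝ) 1 := by
    filter_upwards [Ioc_mem_nhdsGT one_pos] with t ht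
    constructor <;> linarith [ht.1, ht.2]
  by_cases hK : ∃ u, u ∈ dirs K x
  · obtain ⟨u, hu⟩ := hK
    have hu' : ∀ᶠ t in 𝓝[>] (0:ℝ), x + t • u ∈ K := hu.2
    have hune : u ≠ 0 := fun h => by have := hu.1; rw [h, norm_zero] at this; exact zero_ne_one this
    have m1 : ((u, 0) : F × ℝ) ∈ dirs (K ×ˢ Icc (-1:ℝ) 1) (x, (1:ℝ)) := by
      refine ⟨by rw [Prod.norm_mk, hu.1, norm_zero]; norm_num, ?_⟩
      show ∀ᶠ t in 𝓝[>] (0:ℝ), ((x, (1:ℝ)) + t • ((u, 0) : F × ℝ)) ∈ K ×ˢ Icc (-1:ℝ) 1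
      filter_upwards [hu'] with t ht
      exact ⟨ht, by simp⟩
    have m2 : ((u, -1) : F × ℝ) ∈ dirs (K ×ˢ Icc (-1:ℝ) 1) (x, (1:ℝ)) := by
      refine ⟨by rw [Prod.norm_mk, hu.1, norm_neg, norm_one]; norm_num, ?_⟩
      show ∀ᶠ t in 𝓝[>] (0:ℝ), ((x, (1:ℝ)) + t • ((u, -1) : F × ℝ)) ∈ K ×ˢ Icc (-1:ℝ) 1
      filter_upwards [hu', hI] with t ht ht'
      exact ⟨ht, ht'⟩
    have m3 : ((0, -1) : F × ℝ) ∈ dirs (K ×ˢ Icc (-1:ℝ) 1) (x, (1:ℝ)) := by
      refine ⟨by rw [Prod.norm_mk, norm_zero, norm_neg, norm_one]; norm_num, ?_⟩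
      show ∀ᶠ t in 𝓝[>] (0:ℝ), ((x, (1:ℝ)) + t • ((0, -1) : F × ℝ)) ∈ K ×ˢ Icc (-1:ℝ) 1
      filter_upwards [hI] with t ht'
      refine ⟨?_, ht'⟩
      show x + t • (0:F) ∈ K
      rw [smul_zero, add_zero]; exact hx
    intro h2
    have hsub : ({((u, 0) : F × ℝ), (u, -1), (0, -1)} : Set (F × ℝ)) ⊆
        dirs (K ×ˢ Icc (-1:ℝ) 1) (x, (1:ℝ)) := by
      rintro _ (rfl | rfl | rfl)
      · exact m1
      · exact m2
      · exact m3
    have h3 := encard_le_encard hsub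
    rw [h2] at h3
    have h4 : ({((u, 0) : F × ℝ), (u, -1), (0, -1)} : Set (F × ℝ)).encard = 3 := by
      rw [encard_insert_of_notMem, encard_pair]
      · rfl
      · intro h; exact hune (Prod.mk.inj h).1
      · rintro (h | h)
        · have := (Prod.mk.inj h).2; norm_num at this
        · have := (Prod.mk.inj h).2; norm_num at this
    rw [h4] at h3
    exact absurd h3 (by decide)
  · push Not at hK
    have hsub : dirs (K ×ˢ Icc (-1:ℝ) 1) (x, (1:ℝ)) ⊆ {((0, -1) : F × ℝ)} := by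
      rintro ⟨v, τ⟩ ⟨h1, h2⟩
      have h2' : ∀ᶠ t in 𝓝[>] (0:ℝ), ((x, (1:ℝ)) + t • ((v, τ) : F × ℝ)) ∈ K ×ˢ Icc (-1:ℝ) 1 := h2
      have hv : v ∈ tc K x := by
        show ∀ᶠ t in 𝓝[>] (0:ℝ), x + t • v ∈ K
        exact h2'.mono fun t ht => ht.1
      have hv0 : v = 0 := by
        by_contra hne
        exact hK _ (normalize_mem_dirs hv hne)
      subst hv0
      rw [Prod.norm_mk, norm_zero, max_eq_right (norm_nonneg _)] at h1
      rcases TR.DM.norm_eq_one_real h1 with h3 | h3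
      · exfalso
        obtain ⟨t, ht1, ht2⟩ := (h2'.and self_mem_nhdsWithin).exists
        have h4 : (1:ℝ) + t * τ ≤ 1 := ht1.2.2
        rw [h3] at h4
        have : (0:ℝ) < t := ht2
        linarith
      · rw [h3]; rfl
    intro h2
    have h3 := encard_le_encard hsub
    rw [h2, encard_singleton] at h3
    exact absurd h3 (by decide)

end aux

variable {E : Type*} [NormedAddCommGroup E] [NormedSpace ℝ E]

/-- the upper boundary circle of a ring is not interior -/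
theorem end_mem_closure {S A : Set E} (hS : ConSphere 2 S)
    (a : ConHomeo (Sn 2 ×ˢ Icc (-1:ℝ) 1) A) (hA : A ⊆ S) {x : Fin 2 → ℝ} (hx : x ∈ Sn 2) :
    a.toFun (x, 1) ∈ closure (S \ A) := by
  by_contra hcl
  have h1I : (1:ℝ) ∈ Icc (-1:ℝ) 1 := ⟨by norm_num, le_rfl⟩
  set y0 := a.toFun (x, 1) with hy0
  have hy0A : y0 ∈ A := a.mapsTo ⟨hx, h1I⟩
  have hev : ∀ᶠ y in 𝓝 y0, y ∈ S → y ∈ A := by
    have h1 : (closure (S \ A))ᶜ ∈ 𝓝 y0 := isClosed_closure.isOpen_compl.mem_nhds hcl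
    filter_upwards [h1] with y hy hyS
    by_contra hyA
    exact hy (subset_closure ⟨hyS, hyA⟩)
  obtain ⟨H, ψ, h1, h2, h3, h4⟩ := exists_chart_conSphere hS (hA hy0A)
  obtain ⟨O, hO, hOopen, hyO⟩ := _root_.eventually_nhds_iff.1 hev
  have hpre : ∀ᶠ p in 𝓝 (ψ.toFun y0), p ∈ Metric.ball (0 : Fin 2 → ℝ) 1 ∧ ψ.invFun p ∈ O := by
    have h5 : ContinuousAt ψ.invFun (ψ.toFun y0) :=
      (ψ.cont_inv _ (ball_subset_closedBall h4)).continuousAt
        (mem_of_superset (isOpen_ball.mem_nhds h4) ball_subset_closedBall)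
    have h6 : ψ.invFun (ψ.toFun y0) = y0 := ψ.left_inv h3
    exact (isOpen_ball.eventually_mem h4).and
      (h5.eventually (hOopen.mem_nhds (by rw [h6]; exact hyO)))
  obtain ⟨T, hT1, hT2, hT3⟩ := _root_.eventually_nhds_iff.1 hpre
  have hmA : ∀ p ∈ T, ψ.invFun p ∈ A := fun p hp =>
    hO _ (hT1 p hp).2 (h1 (ψ.mapsTo_inv (ball_subset_closedBall (hT1 p hp).1)))
  let k : (Fin 2 → ℝ) → (Fin 2 → ℝ) × ℝ := fun p => a.invFun (ψ.invFun p)
  have hkc : ContinuousOn k T := by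
    refine a.cont_inv.comp (ψ.cont_inv.mono fun p hp => ball_subset_closedBall (hT1 p hp).1)
      fun p hp => hmA p hp
  have hkm : ∀ p ∈ T, k p ∈ Sn 2 ×ˢ Icc (-1:ℝ) 1 := fun p hp => a.mapsTo_inv (hmA p hp)
  let G : (Fin 2 → ℝ) → (Fin 2 → ℝ) := fun p => (3 + (k p).2) • (k p).1
  have hGc : ContinuousOn G T :=
    (continuousOn_const.add (continuous_snd.comp_continuousOn hkc)).smul
      (continuous_fst.comp_continuousOn hkc)
  have hnorm : ∀ p ∈ T, ‖G p‖ = 3 + (k p).2 := by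
    intro p hp
    have h5 := hkm p hp
    have h6 : ‖(k p).1‖ = 1 := mem_sphere_zero_iff_norm.1 h5.1
    show ‖(3 + (k p).2) • (k p).1‖ = _
    rw [norm_smul, h6, mul_one, Real.norm_of_nonneg (by linarith [h5.2.1])]
  have hGinj : InjOn G T := by
    intro p hp q hq he
    have e1 : (k p).2 = (k q).2 := by
      have := congrArg norm he
      rw [hnorm p hp, hnorm q hq] at this
      linarith
    have e2 : (k p).1 = (k q).1 := by
      have he' : (3 + (k p).2) • (k p).1 = (3 + (k q).2) • (k q).1 := he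
      rw [e1] at he'
      exact smul_right_injective _ (show 3 + (k q).2 ≠ 0 by linarith [(hkm q hq).2.1]) he'
    have e3 : k p = k q := Prod.ext e2 e1
    have e4 : ψ.invFun p = ψ.invFun q := a.symm.injOn (hmA p hp) (hmA q hq) e3
    exact ψ.symm.injOn (ball_subset_closedBall (hT1 p hp).1)
      (ball_subset_closedBall (hT1 q hq).1) e4
  have hopen := Vale.Agent.P073.Sep.isOpen_image_of_injOn hT2 hGc hGinj
  have hsub : G '' T ⊆ closedBall (0 : Fin 2 → ℝ) 4 := by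
    rintro _ ⟨p, hp, rfl⟩
    rw [mem_closedBall_zero_iff, hnorm p hp]
    linarith [(hkm p hp).2.2]
  have h7 := interior_mono hsub
  rw [hopen.interior_eq, interior_closedBall _ (by norm_num)] at h7
  have h8 := h7 ⟨_, hT3, rfl⟩
  rw [mem_ball_zero_iff, hnorm _ hT3] at h8
  have h9 : k (ψ.toFun y0) = (x, 1) := by
    show a.invFun (ψ.invFun (ψ.toFun y0)) = (x, 1)
    rw [ψ.left_inv h3, hy0, a.left_inv ⟨hx, h1I⟩]
  rw [h9] at h8
  linarith

theorem isCompact_ring {A : Set E} (a : ConHomeo (Sn 2 ×ˢ Icc (-1:ℝ) 1) A) : IsCompact A :=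
  a.isCompact_right ((isCompact_sphere _ _).prod isCompact_Icc)

theorem conicalSet_Sn : ConicalSet (Sn 2) := (locCone_sphere_pi 2).conicalSet

theorem Sn_nonempty : ∃ x : Fin 2 → ℝ, x ∈ Sn 2 := by
  refine ⟨![1, 0], ?_⟩
  rw [mem_sphere_zero_iff_norm]
  apply le_antisymm
  · rw [pi_norm_le_iff_of_nonneg zero_le_one]
    intro k
    fin_cases k <;> simp
  · have := norm_le_pi_norm (![1, 0] : Fin 2 → ℝ) 0
    simpa using this

/-- **The base point**: crossing rings do not cover a conical two-sphere. -/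
theorem exists_base {S : Set E} {J : Type*} [Finite J] (hS : ConSphere 2 S) (R : Rings S J) :
    ∃ p ∈ S, ∀ c, p ∉ R.A c := by
  by_contra hcon
  push Not at hcon
  have h0I : (0:ℝ) ∈ Icc (-1:ℝ) 1 := ⟨by norm_num, zero_le_one⟩
  have h1I : (1:ℝ) ∈ Icc (-1:ℝ) 1 := ⟨by norm_num, le_rfl⟩
  obtain ⟨x0, hx0⟩ := Sn_nonempty
  have hSne : S.Nonempty := by
    obtain ⟨φ⟩ := hS
    obtain ⟨v, hv⟩ : (sphere (0 : Fin 3 → ℝ) 1).Nonempty := NormedSpace.sphere_nonempty.2 zero_le_one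
    exact ⟨_, φ.mapsTo_inv hv⟩
  obtain ⟨p, hp⟩ := hSne
  obtain ⟨c, -⟩ := hcon p hp
  -- every point of the middle circle is in a ring of the other family
  have hother : ∀ x ∈ Sn 2, ∃ c', R.typ c' ≠ R.typ c ∧ (R.a c).toFun (x, 0) ∈ R.A c' := by
    intro x hx
    have h1 := end_mem_closure hS (R.a c) (R.sub c) hx
    set W : Set E := ⋃ c' : {c' : J // c' ≠ c}, R.A c' with hW
    have hWcl : IsClosed W := isClosed_iUnion_of_finite fun c' => (isCompact_ring (R.a c')).isClosed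
    have h2 : closure (S \ R.A c) ⊆ W := by
      refine closure_minimal ?_ hWcl
      rintro y ⟨hy, hyc⟩
      obtain ⟨c', hc'⟩ := hcon y hy
      exact mem_iUnion.2 ⟨⟨c', fun h => hyc (h ▸ hc')⟩, hc'⟩
    obtain ⟨⟨c', hne⟩, hc'⟩ := mem_iUnion.1 (h2 h1)
    have ht : R.typ c' ≠ R.typ c := fun h =>
      disjoint_left.1 (R.disj c' c hne h) hc' ((R.a c).mapsTo ⟨hx, h1I⟩)
    exact ⟨c', ht, ((R.vert c c' ht.symm x hx 1 h1I).1).1 hc'⟩
  set γ : Set E := (R.a c).toFun '' (Sn 2 ×ˢ {(0:ℝ)}) with hγ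
  have hcon0 : ConicalSet (Sn 2 ×ˢ {(0:ℝ)}) :=
    conicalSet_Sn.prod (Convex.conicalSet (convex_singleton _))
  have hsub0 : Sn 2 ×ˢ {(0:ℝ)} ⊆ Sn 2 ×ˢ Icc (-1:ℝ) 1 := by
    rintro ⟨x, t⟩ ⟨hx, ht⟩
    have ht' : t = 0 := ht
    subst ht'
    exact ⟨hx, h0I⟩
  have hγcirc : ConSphere 1 γ := by
    refine ⟨(((R.a c).restr hcon0 hsub0).symm).trans ?_⟩
    exact
      { toFun := fun p => p.1
        invFun := fun x => (x, 0)
        mapsTo := fun p hp => hp.1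
        mapsTo_inv := fun x hx => ⟨hx, rfl⟩
        left_inv := fun p hp => Prod.ext rfl (Eq.symm hp.2)
        right_inv := fun x _ => rfl
        cont := by fun_prop
        cont_inv := by fun_prop
        conical := conicalOn_linear (LinearMap.fst ℝ (Fin 2 → ℝ) ℝ) hcon0 }
  have hγc : IsCircle γ := H339.conSphere_iff.1 hγcirc
  have hγcone : LocCone γ := hγc.locCone
  -- the level along the middle circle
  have hmemγ : ∀ y, y ∈ R.A c → R.r c y = 0 → y ∈ γ := by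
    intro y hy hr
    obtain ⟨⟨x, t⟩, ⟨hx, ht⟩, rfl⟩ : y ∈ (R.a c).toFun '' (Sn 2 ×ˢ Icc (-1:ℝ) 1) := by
      rw [(R.a c).image_eq]; exact hy
    rw [R.r_a c x hx t ht] at hr
    exact ⟨(x, t), ⟨hx, hr⟩, rfl⟩
  have hγA : ∀ y ∈ γ, y ∈ R.A c ∧ R.r c y = 0 := by
    rintro _ ⟨⟨x, t⟩, ⟨hx, ht⟩, rfl⟩
    have ht' : t = 0 := ht
    subst ht'
    exact ⟨(R.a c).mapsTo ⟨hx, h0I⟩, R.r_a c x hx 0 h0I⟩
  obtain ⟨c', ht', hc'⟩ := hother x0 hx0
  -- the fibres of the second ring which meet `γ` are in `γ`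
  have hfib : ∀ x ∈ Sn 2, ∀ t ∈ Icc (-1:ℝ) 1, ∀ t' ∈ Icc (-1:ℝ) 1,
      (R.a c').toFun (x, t) ∈ γ → (R.a c').toFun (x, t') ∈ γ := by
    intro x hx t ht t' ht2 hm
    obtain ⟨h1, h2⟩ := hγA _ hm
    obtain ⟨v1, v2⟩ := R.vert c' c ht' x hx t ht
    obtain ⟨w1, w2⟩ := R.vert c' c ht' x hx t' ht2
    have h3 := v1.1 h1
    refine hmemγ _ (w1.2 h3) ?_
    rw [w2 h3, ← v2 h3, h2]
  obtain ⟨⟨x', t'⟩, ⟨hx', ht2⟩, he⟩ : (R.a c).toFun (x0, 0) ∈
      (R.a c').toFun '' (Sn 2 ×ˢ Icc (-1:ℝ) 1) := by rw [(R.a c').image_eq]; exact hc'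
  have hwγ : (R.a c').toFun (x', 1) ∈ γ := by
    refine hfib x' hx' t' ht2 1 h1I ?_
    rw [he]
    exact ⟨(x0, 0), ⟨hx0, rfl⟩, rfl⟩
  set w := (R.a c').toFun (x', 1) with hw
  set K : Set (Fin 2 → ℝ) := {x | x ∈ Sn 2 ∧ (R.a c').toFun (x, 0) ∈ γ} with hK
  have hKcon : ConicalSet K := by
    refine conicalSet_preimage (f := fun x => (R.a c').toFun (x, 0)) ?_ ?_ hγcone.conicalSet
    · have h5 : ConicalOn (fun x : Fin 2 → ℝ => (x, (0:ℝ))) (Sn 2) :=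
        conicalOn_linear (LinearMap.inl ℝ (Fin 2 → ℝ) ℝ) conicalSet_Sn
      exact (R.a c').conical.comp h5 (fun x hx => ⟨hx, h0I⟩) (by fun_prop)
    · exact (R.a c').cont.comp (by fun_prop) fun x hx => ⟨hx, h0I⟩
  have hKI : ConicalSet (K ×ˢ Icc (-1:ℝ) 1) := hKcon.prod (Convex.conicalSet (convex_Icc _ _))
  have hKsub : K ×ˢ Icc (-1:ℝ) 1 ⊆ Sn 2 ×ˢ Icc (-1:ℝ) 1 := prod_mono (fun x hx => hx.1) Subset.rfl
  have hxK : x' ∈ K := ⟨hx', hfib x' hx' 1 h1I 0 h0I hwγ⟩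
  have hd1 : (dirs ((R.a c').toFun '' (K ×ˢ Icc (-1:ℝ) 1)) w).encard =
      (dirs (K ×ˢ Icc (-1:ℝ) 1) (x', (1:ℝ))).encard :=
    (TR.DM.encard_dirs ((R.a c').restr hKI hKsub) (show (x', (1:ℝ)) ∈ K ×ˢ Icc (-1:ℝ) 1 from
      ⟨hxK, h1I⟩))
  have hd2 : dirs γ w = dirs ((R.a c').toFun '' (K ×ˢ Icc (-1:ℝ) 1)) w := by
    apply TR.DM.dirs_congr
    have hwA : w ∈ R.A c' := (R.a c').mapsTo ⟨hx', h1I⟩
    set W : Set E := ⋃ d : {d : J // d ≠ c' ∧ R.typ d = R.typ c'}, R.A d with hW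
    have hWcl : IsClosed W := isClosed_iUnion_of_finite fun d => (isCompact_ring (R.a d)).isClosed
    have hwW : w ∉ W := by
      intro h
      obtain ⟨⟨d, hd, hdt⟩, hwd⟩ := mem_iUnion.1 h
      exact disjoint_left.1 (R.disj d c' hd hdt) hwd hwA
    filter_upwards [hWcl.isOpen_compl.mem_nhds hwW] with y hy
    constructor
    · intro hyγ
      obtain ⟨⟨x, t⟩, ⟨hx, ht⟩, rfl⟩ := hyγ
      have ht3 : t = 0 := ht
      subst ht3
      obtain ⟨d, hdt, hd⟩ := hother x hx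
      have hdc : d = c' := by
        by_contra hne
        refine hy (mem_iUnion.2 ⟨⟨d, hne, ?_⟩, hd⟩)
        cases h1 : R.typ d <;> cases h2 : R.typ c' <;> cases h3 : R.typ c <;> simp_all
      subst hdc
      obtain ⟨⟨x2, t2⟩, ⟨hx2, ht22⟩, he2⟩ : (R.a c).toFun (x, 0) ∈
          (R.a d).toFun '' (Sn 2 ×ˢ Icc (-1:ℝ) 1) := by rw [(R.a d).image_eq]; exact hd
      refine ⟨(x2, t2), ⟨⟨hx2, hfib x2 hx2 t2 ht22 0 h0I ?_⟩, ht22⟩, he2⟩
      rw [he2]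
      exact ⟨(x, 0), ⟨hx, rfl⟩, rfl⟩
    · rintro ⟨⟨x, t⟩, ⟨hx, ht⟩, rfl⟩
      exact hfib x hx.1 0 h0I t ht hx.2
  have hd3 : (dirs γ w).encard = 2 := hγc.encard_dirs hwγ
  rw [hd2, hd1] at hd3
  exact dirs_prod_ne_two hxK hd3

end P073.H142
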