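import Vale.Agent.P073.H142.Front3
import Vale.Agent.P073.H142.Base
import Vale.Agent.P073.H950.Dirs

/-!
# P073, block H142 (PRE3b): the caps of all cells of a box
-/

open Set Metric Topology Filter

namespace P073.H142

open P073 P073.H936 P073.TR P073.H267

namespace BoxIn

variable {ι : Type*} {Q E : Type} [NormedAddCommGroup E] [NormedSpace ℝ E] (P : BoxIn ι Q E)

/-- the chart of a trace circle -/
noncomputable def trc (i : ι) (q : Q) (c : P.J i q) : ConHomeo (P.tr i q c) (Sn 2) :=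
  (P.tr_circ i q c).some

/-- the fibres over a trace stay over the traces of the other sheets -/
theorem fib_tr {i j : ι} (hs : P.side i ≠ P.side j) (q : Q) (c : P.J i q) (d : P.J j q) {z : E}
    (hz : z ∈ P.tr i q c) {t t' : ℝ} (ht : t ∈ Icc (-1:ℝ) 1) (ht' : t' ∈ Icc (-1:ℝ) 1)
    (h : (P.Γ i).toFun (z, t) ∈ (P.Γ j).toFun '' (P.tr j q d ×ˢ Icc (-1:ℝ) 1)) :
    (P.Γ i).toFun (z, t') ∈ (P.Γ j).toFun '' (P.tr j q d ×ˢ Icc (-1:ℝ) 1) ∧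
      P.s j ((P.Γ i).toFun (z, t')) = P.s j ((P.Γ i).toFun (z, t)) := by
  obtain ⟨hzD, hzB⟩ := P.tr_sub i q c hz
  have hN : (P.Γ i).toFun (z, t) ∈ P.N j := by
    obtain ⟨⟨w, b⟩, ⟨hw, hb⟩, he⟩ := h
    rw [← he]
    exact (P.Γ j).mapsTo ⟨(P.tr_sub j q d hw).1, hb⟩
  have hall : ∀ r ∈ Icc (-1:ℝ) 1, (P.Γ i).toFun (z, r) ∈ P.N j ∧
      P.s j ((P.Γ i).toFun (z, r)) = P.s j ((P.Γ i).toFun (z, t)) := fun r hr =>
    P.pres i j hs z hzD t ht r hr hN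
  refine ⟨?_, (hall t' ht').2⟩
  set F : ℝ → E := fun r => P.foot j ((P.Γ i).toFun (z, r)) with hF
  have hFm : ∀ r ∈ Icc (-1:ℝ) 1, F r ∈ P.D j ∩ P.B q := fun r hr =>
    ⟨P.foot_mem j (hall r hr).1, (P.foot_B j q (hall r hr).1).1 ((P.vB i q z hzD r hr).2 hzB)⟩
  have hFc : ContinuousOn F (Icc (-1:ℝ) 1) := by
    have h1 : ContinuousOn (fun r : ℝ => (P.Γ i).toFun (z, r)) (Icc (-1:ℝ) 1) :=
      (P.Γ i).cont.comp (by fun_prop) fun r hr => ⟨hzD, hr⟩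
    exact (continuous_fst.comp_continuousOn (P.Γ j).cont_inv).comp h1 fun r hr => (hall r hr).1
  have hFt : F t ∈ P.tr j q d := by
    obtain ⟨⟨w, b⟩, ⟨hw, hb⟩, he⟩ := h
    show ((P.Γ j).invFun ((P.Γ i).toFun (z, t))).1 ∈ _
    rw [← he, (P.Γ j).left_inv (show (w, b) ∈ P.D j ×ˢ Icc (-1:ℝ) 1 from
      ⟨(P.tr_sub j q d hw).1, hb⟩)]
    exact hw
  have hfin := P.J_fin j q
  set R : Set E := ⋃ d' : {d' : P.J j q // d' ≠ d}, P.tr j q d' with hR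
  have hRcl : IsClosed R := isClosed_iUnion_of_finite fun d' => (P.tr_compact j q d').isClosed
  have hpre := isPreconnected_closed_iff.1 (isPreconnected_Icc.image F hFc) _ _
    (P.tr_compact j q d).isClosed hRcl
  have hcov : F '' Icc (-1:ℝ) 1 ⊆ P.tr j q d ∪ R := by
    rintro _ ⟨r, hr, rfl⟩
    have h1 : F r ∈ ⋃ d, P.tr j q d := by rw [P.tr_union]; exact hFm r hr
    obtain ⟨d', hd'⟩ := mem_iUnion.1 h1
    by_cases h : d' = d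
    · exact Or.inl (h ▸ hd')
    · exact Or.inr (mem_iUnion.2 ⟨⟨d', h⟩, hd'⟩)
  have hFt' : F t' ∈ P.tr j q d := by
    by_contra hne
    have h1 : F t' ∈ R := (hcov ⟨t', ht', rfl⟩).resolve_left hne
    obtain ⟨y, -, hy1, hy2⟩ := hpre hcov ⟨F t, ⟨t, ht, rfl⟩, hFt⟩ ⟨F t', ⟨t', ht', rfl⟩, h1⟩
    obtain ⟨⟨d', hd'⟩, hy3⟩ := mem_iUnion.1 hy2
    exact disjoint_left.1 (P.tr_disj j q d' d hd') hy3 hy1
  obtain ⟨b, hb, he⟩ := P.foot_eq j (hall t' ht').1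
  exact ⟨(F t', b), ⟨hFt', hb⟩, he⟩

theorem conicalSet_tr (i : ι) (q : Q) (c : P.J i q) :
    ConicalSet (P.tr i q c ×ˢ Icc (-1:ℝ) 1) :=
  (P.trc i q c).symm.conicalSet_right.prod (conicalSet_Icc _ _)

theorem tr_prod_sub (i : ι) (q : Q) (c : P.J i q) :
    P.tr i q c ×ˢ Icc (-1:ℝ) 1 ⊆ P.D i ×ˢ Icc (-1:ℝ) 1 :=
  prod_mono (fun _ hx => (P.tr_sub i q c hx).1) Subset.rfl

/-- the rings of the thick sheets on the boundary of a cell -/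
noncomputable def rings (q : Q) : Rings (P.B q) (Σ i, P.J i q) where
  typ := fun c => P.side c.1
  A := fun c => (P.Γ c.1).toFun '' (P.tr c.1 q c.2 ×ˢ Icc (-1:ℝ) 1)
  a := fun c => ((P.trc c.1 q c.2).symm.prod (ConHomeo.refl (conicalSet_Icc (-1:ℝ) 1))).trans
    ((P.Γ c.1).restr (P.conicalSet_tr c.1 q c.2) (P.tr_prod_sub c.1 q c.2))
  r := fun c => P.s c.1
  r_a := fun c x hx t ht => P.lev c.1 _
    (P.tr_sub c.1 q c.2 ((P.trc c.1 q c.2).mapsTo_inv hx)).1 t ht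
  sub := by
    rintro c _ ⟨⟨z, t⟩, ⟨hz, ht⟩, rfl⟩
    exact (P.vB c.1 q z (P.tr_sub c.1 q c.2 hz).1 t ht).2 (P.tr_sub c.1 q c.2 hz).2
  disj := by
    rintro ⟨i, c⟩ ⟨j, d⟩ hne hs
    rw [disjoint_left]
    rintro _ ⟨⟨z, t⟩, ⟨hz, ht⟩, rfl⟩ ⟨⟨w, b⟩, ⟨hw, hb⟩, he⟩
    by_cases hij : i = j
    · subst hij
      have h1 := (P.Γ i).injOn (P.tr_prod_sub i q d ⟨hw, hb⟩) (P.tr_prod_sub i q c ⟨hz, ht⟩) he
      have h2 : w = z := congrArg Prod.fst h1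
      have hcd : c ≠ d := fun h => hne (by rw [h])
      exact disjoint_left.1 (P.tr_disj i q c d hcd) hz (h2 ▸ hw)
    · refine disjoint_left.1 (P.disj i j hij hs) ((P.Γ i).mapsTo (P.tr_prod_sub i q c ⟨hz, ht⟩)) ?_
      rw [← he]
      exact (P.Γ j).mapsTo (P.tr_prod_sub j q d ⟨hw, hb⟩)
  vert := by
    rintro ⟨i, c⟩ ⟨j, d⟩ hs x hx t ht
    have hz : (P.trc i q c).invFun x ∈ P.tr i q c := (P.trc i q c).mapsTo_inv hx
    exact ⟨⟨fun h => (P.fib_tr hs q c d hz ht z0 h).1, fun h => (P.fib_tr hs q c d hz z0 ht h).1⟩,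
      fun h => (P.fib_tr hs q c d hz z0 ht h).2⟩

theorem rings_a (q : Q) (i : ι) (c : P.J i q) (x : Fin 2 → ℝ) (t : ℝ) :
    ((P.rings q).a ⟨i, c⟩).toFun (x, t) = (P.Γ i).toFun ((P.trc i q c).invFun x, t) := rfl

/-- **The circles of the traces on one cell**, with the signs of their levels. -/
structure CellCirc (q : Q) where
  m : ℕ
  D : Circles 2 (P.B q) (Σ i, P.J i q) m
  e : (Σ i, P.J i q) → ℝ
  he : ∀ c, e c = 1 ∨ e c = -1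
  typ : ∀ c, D.typ c = P.side c.1
  A : ∀ c, D.A c = (P.Γ c.1).toFun '' (P.tr c.1 q c.2 ×ˢ Icc (-1:ℝ) 1)
  a : ∀ c x t, (D.a c).toFun (x, t) = (P.Γ c.1).toFun ((P.trc c.1 q c.2).invFun x, e c * t)
  s : ∀ c, ∀ x ∈ D.A c, D.s c x = e c * P.s c.1 x

theorem J_fin' [Finite ι] (q : Q) : Finite (Σ i, P.J i q) := by
  have : ∀ i, Finite (P.J i q) := fun i => P.J_fin i q
  infer_instance

theorem exists_cellCirc [Finite ι] (q : Q) : Nonempty (P.CellCirc q) := by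
  have := P.J_fin' q
  obtain ⟨p0, hp0, h0⟩ := exists_base (P.C_sph q) (P.rings q)
  obtain ⟨D, e, h1, h2, h3, h4, h5, -⟩ := (P.rings q).exists_circles (P.C_sph q) hp0 h0
  exact ⟨⟨_, D, e, h1, h2, h3, fun c x t => h4 c x t, fun c x hx => h5 c x (by rw [← h3 c]; exact hx)⟩⟩

section

variable {P}
variable {q : Q} (X : P.CellCirc q) (C : H950.Chart 3 (P.C q) (P.B q))

theorem CellCirc.cap0_B (c : Σ i, P.J i q) : C.cap0 X.D c ∩ P.B q = P.tr c.1 q c.2 := by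
  rw [C.cap0_S X.D c]
  have hx : ∀ x ∈ Sn 2, (X.D.a c).toFun (x, 0) = (P.trc c.1 q c.2).invFun x := by
    intro x hx
    rw [X.a c x 0, mul_zero]
    exact P.zero c.1 _ (P.tr_sub c.1 q c.2 ((P.trc c.1 q c.2).mapsTo_inv hx)).1
  ext z
  constructor
  · rintro ⟨⟨x, t⟩, ⟨hx', ht⟩, rfl⟩
    have ht' : t = 0 := ht
    subst ht'
    rw [hx x hx']
    exact (P.trc c.1 q c.2).mapsTo_inv hx'
  · intro hz
    refine ⟨((P.trc c.1 q c.2).toFun z, 0), ⟨(P.trc c.1 q c.2).mapsTo hz, rfl⟩, ?_⟩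
    rw [hx _ ((P.trc c.1 q c.2).mapsTo hz), (P.trc c.1 q c.2).left_inv hz]

theorem CellCirc.gm (c : Σ i, P.J i q) : X.D.gm c = P.tr c.1 q c.2 := by
  have hx : ∀ x ∈ Sn 2, (X.D.a c).toFun (x, 0) = (P.trc c.1 q c.2).invFun x := by
    intro x hx
    rw [X.a c x 0, mul_zero]
    exact P.zero c.1 _ (P.tr_sub c.1 q c.2 ((P.trc c.1 q c.2).mapsTo_inv hx)).1
  ext z
  constructor
  · rintro ⟨⟨x, t⟩, ⟨hx', ht⟩, rfl⟩
    have ht' : t = 0 := ht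
    subst ht'
    rw [hx x hx']
    exact (P.trc c.1 q c.2).mapsTo_inv hx'
  · intro hz
    refine ⟨((P.trc c.1 q c.2).toFun z, 0), ⟨(P.trc c.1 q c.2).mapsTo hz, rfl⟩, ?_⟩
    rw [hx _ ((P.trc c.1 q c.2).mapsTo hz), (P.trc c.1 q c.2).left_inv hz]

theorem CellCirc.fin (c c' : Σ i, P.J i q) (hs : P.side c.1 ≠ P.side c'.1) :
    (X.D.gm c ∩ X.D.gm c').Finite := by
  refine (P.LB c.1 c'.1 hs q).subset ?_
  rw [X.gm, X.gm]
  rintro x ⟨h1, h2⟩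
  exact ⟨⟨(P.tr_sub _ q _ h1).1, (P.tr_sub _ q _ h2).1⟩, (P.tr_sub _ q _ h1).2⟩

theorem CellCirc.fib_tr {i : ι} (c : P.J i q) {z : E} (hz : z ∈ P.tr i q c) {t : ℝ}
    (ht : t ∈ Icc (-1:ℝ) 1) :
    (C.fib X.D ⟨i, c⟩).Γ.toFun (z, X.e ⟨i, c⟩ * t) = (P.Γ i).toFun (z, t) := by
  have hx := (P.trc i q c).mapsTo hz
  have hzD := (P.tr_sub i q c hz).1
  have h0 : (X.D.a ⟨i, c⟩).toFun ((P.trc i q c).toFun z, 0) = z := by
    rw [X.a ⟨i, c⟩, mul_zero]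
    show (P.Γ i).toFun ((P.trc i q c).invFun ((P.trc i q c).toFun z), 0) = z
    rw [(P.trc i q c).left_inv hz, P.zero i z hzD]
  have h1 := C.fib_S X.D ⟨i, c⟩ hx (H950.sign_mem (X.he ⟨i, c⟩) ht)
  rw [h0] at h1
  rw [h1, X.a ⟨i, c⟩, H950.sign_sq (X.he ⟨i, c⟩)]
  show (P.Γ i).toFun ((P.trc i q c).invFun ((P.trc i q c).toFun z), t) = _
  rw [(P.trc i q c).left_inv hz]

end

/-- **The caps of all cells**, as fields. -/
noncomputable def capsIn (X : ∀ q, P.CellCirc q) (C : ∀ q, H950.Chart 3 (P.C q) (P.B q)) :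
    P.CapsIn where
  Δ₀ := fun i q c => (C q).cap0 (X q).D ⟨i, c⟩
  Δ := fun i q c => (C q).cap (X q).D ⟨i, c⟩
  sΔ := fun i q c x => (X q).e ⟨i, c⟩ * (C q).lev (X q).D ⟨i, c⟩ x
  G := fun i q c => (H950.fibSign ((X q).he ⟨i, c⟩) ((C q).fib (X q).D ⟨i, c⟩)).Γ
  ball := fun i q c => by
    have h := (C q).ball (X q).D ⟨i, c⟩
    rwa [(X q).cap0_B (C q) ⟨i, c⟩] at h
  G0 := fun i q c => (H950.fibSign ((X q).he ⟨i, c⟩) ((C q).fib (X q).D ⟨i, c⟩)).zero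
  Gs := fun i q c => (H950.fibSign ((X q).he ⟨i, c⟩) ((C q).fib (X q).D ⟨i, c⟩)).lev
  GΓ := fun i q c z hz t ht => (X q).fib_tr (C q) c hz ht
  sub := fun i q c z hz => by
    rcases (C q).cap_sub' (X q).D ⟨i, c⟩ hz with h | h
    · left
      have h2 : z ∈ P.V q ∪ P.B q := by rw [P.VB_eq q]; exact h.1
      exact h2.resolve_right h.2
    · right
      rwa [(X q).A ⟨i, c⟩] at h
  disj := fun i j hs q c d hne =>
    (C q).cap_disj (X q).D hne (by rw [(X q).typ, (X q).typ]; exact hs)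
  pres := fun i j hs q c d z hz t ht t' ht' hm =>
    H950.Pres.sign (ε' := (X q).e ⟨j, d⟩) ((C q).pres (X q).D ⟨i, c⟩ ⟨j, d⟩
      (by rw [(X q).typ, (X q).typ]; exact hs)) ((X q).he ⟨i, c⟩) z hz t ht t' ht' hm
  dirs := fun i j hs q c d x hx => by
    have h1 : x ∈ (C q).cap0 (X q).D ⟨i, c⟩ ∩ P.B q := by
      rw [(X q).cap0_B (C q) ⟨i, c⟩]; exact hx.1
    have h2 : x ∈ (C q).cap0 (X q).D ⟨j, d⟩ ∩ P.B q := by
      rw [(X q).cap0_B (C q) ⟨j, d⟩]; exact hx.2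
    exact ((C q).encard_dirs_cap (X q).D (c := ⟨i, c⟩) (c' := ⟨j, d⟩)
      (by rw [(X q).typ, (X q).typ]; exact hs)
      ((X q).fin ⟨i, c⟩ ⟨j, d⟩ hs) ⟨h1.1, h2.1⟩).1 h1.2
  dirs' := fun i j hs q c d x hx hV =>
    ((C q).encard_dirs_cap (X q).D (c := ⟨i, c⟩) (c' := ⟨j, d⟩)
      (by rw [(X q).typ, (X q).typ]; exact hs)
      ((X q).fin ⟨i, c⟩ ⟨j, d⟩ hs) hx).2 (disjoint_left.1 (P.VB_same q) hV)

end BoxIn

end P073.H142
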