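import Vale.Agent.P073.H142.Caps

/-!
# P073, block H142: the circles of a cell with arbitrary ranks
-/

open Set Metric Topology Filter

namespace P073.H142

open P073 P073.H936 P073.TR P073.H267

namespace BoxIn

variable {ι : Type*} {Q E : Type} [NormedAddCommGroup E] [NormedSpace ℝ E] (P : BoxIn ι Q E)

/-- base point and discs of one cell -/
theorem exists_cellDiscs [Finite ι] (q : Q) : ∃ p0 ∈ P.B q, (∀ c, p0 ∉ (P.rings q).A c) ∧
    Nonempty ((P.rings q).Discs p0) := by
  have := P.J_fin' q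
  obtain ⟨p0, hp0, h0⟩ := exists_base (P.C_sph q) (P.rings q)
  exact ⟨p0, hp0, h0, (P.rings q).exists_discs (P.C_sph q) hp0 h0⟩

/-- **The circles of a cell** from 267's discs and any ranks. -/
noncomputable def cellCirc (q : Q) {p0 : E} (d : (P.rings q).Discs p0) (m : ℕ)
    (rk : (Σ i, P.J i q) → ℕ) (hlt : ∀ c, rk c < m)
    (hne : ∀ c c', (P.rings q).typ c ≠ (P.rings q).typ c' → rk c ≠ rk c')
    (hmono : ∀ c c', c ≠ c' → (P.rings q).typ c = (P.rings q).typ c' →
      d.I c ∪ (P.rings q).A c ⊆ d.I c' \ (P.rings q).A c' → rk c < rk c') : P.CellCirc q where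
  m := m
  D := d.circles (P.C_sph q) m rk hlt hne hmono
  e := d.sg
  he := d.sg_cases
  typ := fun _ => rfl
  A := fun _ => rfl
  a := fun _ _ _ => rfl
  s := fun _ _ hx => d.ss_A hx

end BoxIn

end P073.H142
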