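import Vale.Agent.P073.H579.HFace
import Vale.Agent.P073.H880.Met2

/-!
# P073, block H142 (EDGE-BAND): the band coordinates along an edge

`EdgeNum.band_le`: the band coordinates of the edge map are `La`-Lipschitz along the edge.
-/

open Set Metric Topology Filter

namespace P073.H142

open P073 P073.H579

variable {E : Type*} [NormedAddCommGroup E] [NormedSpace ℝ E] {m : ℕ}

/-- `rho` is constant on connected sets which avoid the flat -/
theorem rho_const {u : ℝ → ℝ} {T : Set ℝ} (hT : IsPreconnected T) (hu : ContinuousOn u T)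
    {lo hi : ℝ → ℝ} {c : ℝ} (hlt : lo c < hi c) (hav : ∀ s ∈ T, ¬ (lo c ≤ u s ∧ u s ≤ hi c))
    {s s' : ℝ} (hs : s ∈ T) (hs' : s' ∈ T) : rho lo hi c (u s) = rho lo hi c (u s') := by
  have hI : (u '' T).OrdConnected := (hT.image u hu).ordConnected
  have key : ∀ s ∈ T, ∀ s' ∈ T, u s < lo c → ¬ hi c < u s' := by
    intro s hs s' hs' h1 h2
    have h3 : lo c ∈ u '' T := hI.out (mem_image_of_mem u hs) (mem_image_of_mem u hs')
      ⟨h1.le, by linarith⟩
    obtain ⟨r, hr, hr'⟩ := h3
    exact hav r hr ⟨hr'.ge, by rw [hr']; exact hlt.le⟩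
  have hcase : ∀ s ∈ T, u s < lo c ∨ hi c < u s := by
    intro s hs
    by_contra hcon
    push Not at hcon
    exact hav s hs hcon
  rcases hcase s hs with h1 | h1 <;> rcases hcase s' hs' with h2 | h2
  · rw [rho_of_le h1.le, rho_of_le h2.le]
  · exact absurd h2 (key s hs s' hs' h1)
  · exact absurd h1 (key s' hs' s hs h2)
  · rw [rho_of_ge h1.le hlt.le, rho_of_ge h2.le hlt.le]

variable {a b : E} {h f : E → Fin m → ℝ} {k : Fin m → ℝ → ℝ} {L : Fin m → Finset ℝ}
  {lo hi om : Fin m → ℝ → ℝ} {La : ℝ} {s1 s2 s3 s4 : E → ℝ}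

theorem lineMap_mem_segment' {s : ℝ} (hs : s ∈ Icc (0:ℝ) 1) :
    AffineMap.lineMap a b s ∈ segment ℝ a b := by
  rw [segment_eq_image_lineMap]
  exact ⟨s, hs, rfl⟩

/-- outside of the fibres the coordinates avoid the flats -/
theorem not_flat (H : EdgeNum a b h k L lo hi om La f s1 s2 s3 s4)
    (hI : ∀ j, Ins1 (k j) (L j : Set ℝ) (lo j) (hi j))
    (him : ∀ x ∈ segment ℝ a b, prodK k (f x) ∈ h '' segment ℝ a b) {s : ℝ}
    (hs : s ∈ Icc (0:ℝ) 1) (hfree : ∀ x, CrsPt a b h L x → ¬ (s2 x ≤ s ∧ s ≤ s3 x))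
    {j : Fin m} {c : ℝ} (hc : c ∈ L j) :
    ¬ (lo j c ≤ f (AffineMap.lineMap a b s) j ∧ f (AffineMap.lineMap a b s) j ≤ hi j c) := by
  intro hcon
  have h1 := ((hI j).flat c hc _).2 hcon
  obtain ⟨x, hx, hxe⟩ := him _ (lineMap_mem_segment' hs)
  have h2 : h x j = c := by
    rw [hxe]; exact h1
  have h3 : CrsPt a b h L x := ⟨hx, j, by rw [h2]; exact hc⟩
  exact hfree x h3 ((H.fib x h3 s hs).1 hxe.symm)

/-- one fibre -/
theorem band_fibre (H : EdgeNum a b h k L lo hi om La f s1 s2 s3 s4)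
    (hI : ∀ j, Ins1 (k j) (L j : Set ℝ) (lo j) (hi j))
    (hun : ∀ x ∈ segment ℝ a b, ∀ j j', h x j ∈ L j → h x j' ∈ L j' → j = j')
    (hom : ∀ j, ∀ c ∈ L j, 0 ≤ om j c) {x : E} (hx : CrsPt a b h L x) {s s' : ℝ}
    (hs : s ∈ Icc (s2 x) (s3 x)) (hs' : s' ∈ Icc (s2 x) (s3 x)) :
    bandD L lo hi om (f (AffineMap.lineMap a b s)) (f (AffineMap.lineMap a b s')) ≤
      La * ‖b - a‖ * |s - s'| := by
  obtain ⟨hxs, j₀, hj₀⟩ := hx
  have hcr : CrsPt a b h L x := ⟨hxs, j₀, hj₀⟩
  have h01 : Icc (s2 x) (s3 x) ⊆ Icc 0 1 := Icc_subset_Icc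
    (by linarith [H.a1 x hcr, H.a2 x hcr]) (by linarith [H.a4 x hcr, H.a5 x hcr])
  have h1 := (H.fib x hcr s (h01 hs)).2 hs
  have h1' := (H.fib x hcr s' (h01 hs')).2 hs'
  have e1 : ∀ j, k j (f (AffineMap.lineMap a b s) j) = h x j := fun j => congrFun h1 j
  have e1' : ∀ j, k j (f (AffineMap.lineMap a b s') j) = h x j := fun j => congrFun h1' j
  have hoth : ∀ j, j ≠ j₀ → f (AffineMap.lineMap a b s) j = f (AffineMap.lineMap a b s') j := by
    intro j hj
    refine (hI j).inj _ _ ((e1 j).trans (e1' j).symm) ?_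
    rw [e1 j]
    exact fun hmem => hj (hun x hxs j j₀ hmem hj₀)
  have hfl := ((hI j₀).flat _ hj₀ _).1 (e1 j₀)
  have hfl' := ((hI j₀).flat _ hj₀ _).1 (e1' j₀)
  have hlt₀ := (hI j₀).lt _ hj₀
  -- the other levels of the same coordinate
  have hoth2 : ∀ c ∈ L j₀, c ≠ h x j₀ →
      rho (lo j₀) (hi j₀) c (f (AffineMap.lineMap a b s) j₀) =
        rho (lo j₀) (hi j₀) c (f (AffineMap.lineMap a b s') j₀) := by
    intro c hc hne
    have hlt := (hI j₀).lt c hc
    have key : ∀ t, lo j₀ (h x j₀) ≤ t ∧ t ≤ hi j₀ (h x j₀) → ¬ (lo j₀ c ≤ t ∧ t ≤ hi j₀ c) := by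
      intro t ht ht'
      exact hne (((hI j₀).flat c hc t).2 ht' ▸ ((hI j₀).flat _ hj₀ t).2 ht)
    exact rho_const (u := fun t => t) (T := Icc (lo j₀ (h x j₀)) (hi j₀ (h x j₀)))
      isPreconnected_Icc continuousOn_id hlt (fun t ht => key t ht) hfl hfl'
  unfold bandD
  rw [Finset.sum_eq_single j₀, Finset.sum_eq_single (h x j₀)]
  · have e2 : rho (lo j₀) (hi j₀) (h x j₀) (f (AffineMap.lineMap a b s) j₀) =
        f (AffineMap.lineMap a b s) j₀ - lo j₀ (h x j₀) := by
      rw [rho, min_eq_right (by linarith [hfl.2]), max_eq_right (by linarith [hfl.1])]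
    have e3 : rho (lo j₀) (hi j₀) (h x j₀) (f (AffineMap.lineMap a b s') j₀) =
        f (AffineMap.lineMap a b s') j₀ - lo j₀ (h x j₀) := by
      rw [rho, min_eq_right (by linarith [hfl'.2]), max_eq_right (by linarith [hfl'.1])]
    rw [e2, e3, sub_sub_sub_cancel_right, div_mul_eq_mul_div, div_le_iff₀ (by linarith),
      mul_comm (La * ‖b - a‖ * |s - s'|)]
    exact H.lip x hxs j₀ hj₀ s hs s' hs'
  · intro c hc hne
    rw [hoth2 c hc hne, sub_self, abs_zero, mul_zero]
  · exact fun hcon => absurd hj₀ hcon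
  · intro j _ hj
    refine Finset.sum_eq_zero fun c _ => ?_
    rw [hoth j hj, sub_self, abs_zero, mul_zero]
  · exact fun hcon => absurd (Finset.mem_univ _) hcon

/-- **[EDGE-BAND]** -/
theorem band_le_param (H : EdgeNum a b h k L lo hi om La f s1 s2 s3 s4)
    (hI : ∀ j, Ins1 (k j) (L j : Set ℝ) (lo j) (hi j))
    (hun : ∀ x ∈ segment ℝ a b, ∀ j j', h x j ∈ L j → h x j' ∈ L j' → j = j')
    (hom : ∀ j, ∀ c ∈ L j, 0 ≤ om j c) (hLa : 0 ≤ La)
    (hfin : {x | CrsPt a b h L x}.Finite) (hf : ContinuousOn f (segment ℝ a b))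
    (him : ∀ x ∈ segment ℝ a b, prodK k (f x) ∈ h '' segment ℝ a b) :
    ∀ s ∈ Icc (0:ℝ) 1, ∀ s' ∈ Icc (0:ℝ) 1,
      bandD L lo hi om (f (AffineMap.lineMap a b s)) (f (AffineMap.lineMap a b s')) ≤
        La * ‖b - a‖ * |s - s'| := by
  classical
  set u : ℝ → Fin m → ℝ := fun s => f (AffineMap.lineMap a b s) with hu
  have huc : ContinuousOn u (Icc 0 1) :=
    hf.comp AffineMap.lineMap_continuous.continuousOn fun s hs => lineMap_mem_segment' hs
  have hujc : ∀ j, ContinuousOn (fun s => u s j) (Icc 0 1) := fun j =>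
    (continuous_apply j).comp_continuousOn huc
  set w : (Σ j : Fin m, {c // c ∈ L j}) → ℝ → ℝ := fun p s =>
    om p.1 p.2 / (hi p.1 p.2 - lo p.1 p.2) * rho (lo p.1) (hi p.1) p.2 (u s p.1) with hw
  have hwc : ∀ p, ContinuousOn (w p) (Icc 0 1) := by
    intro p
    refine continuousOn_const.mul ?_
    have hrc : Continuous (rho (lo p.1) (hi p.1) p.2) := by
      unfold rho
      fun_prop
    exact hrc.comp_continuousOn (hujc p.1)
  have hds : ∀ s s', H880.dsum w s s' = bandD L lo hi om (u s) (u s') := by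
    intro s s'
    unfold H880.dsum bandD
    rw [Fintype.sum_sigma]
    refine Finset.sum_congr rfl fun j _ => ?_
    rw [← Finset.sum_coe_sort (L j)]
    refine Finset.sum_congr rfl fun c _ => ?_
    have h1 := (hI j).lt c.1 c.2
    have h2 := hom j c.1 c.2
    have h3 : 0 ≤ om j c / (hi j c - lo j c) := div_nonneg h2 (by linarith)
    show |w ⟨j, c⟩ s' - w ⟨j, c⟩ s| = _
    rw [abs_sub_comm, hw]
    show |om j c / (hi j c - lo j c) * rho (lo j) (hi j) c (u s j) -
      om j c / (hi j c - lo j c) * rho (lo j) (hi j) c (u s' j)| = _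
    rw [← mul_sub, abs_mul, abs_of_nonneg h3]
  -- free sets
  have hfree0 : ∀ T ⊆ Icc (0:ℝ) 1, IsPreconnected T →
      (∀ s ∈ T, ∀ x, CrsPt a b h L x → ¬ (s2 x ≤ s ∧ s ≤ s3 x)) →
      ∀ s ∈ T, ∀ s' ∈ T, ∀ p, w p s = w p s' := by
    intro T hT hTc hTf s hs s' hs' p
    show _ * _ = _ * _
    congr 1
    exact rho_const hTc ((hujc p.1).mono hT) ((hI p.1).lt _ p.2.2)
      (fun r hr => not_flat H hI him (hT hr) (hTf r hr) p.2.2) hs hs'
  have hloc : ∀ s ∈ Icc (0:ℝ) 1, ∀ᶠ s' in 𝓝[Icc 0 1] s,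
      H880.dsum w s s' ≤ La * ‖b - a‖ * dist s' s := by
    intro s hs
    by_cases hx : ∃ x, CrsPt a b h L x ∧ s2 x ≤ s ∧ s ≤ s3 x
    · obtain ⟨x, hx, hsx⟩ := hx
      have a1 := H.a1 x hx
      have a2 := H.a2 x hx
      have a3 := H.a3 x hx
      have a4 := H.a4 x hx
      have a5 := H.a5 x hx
      -- the open free pieces
      have hfr : ∀ r, s1 x < r → r < s4 x → ¬ (s2 x ≤ r ∧ r ≤ s3 x) →
          ∀ y, CrsPt a b h L y → ¬ (s2 y ≤ r ∧ r ≤ s3 y) := by
        intro r h1 h2 h3 y hy hry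
        by_cases hxy : x = y
        · subst hxy; exact h3 hry
        · rcases H.dis x y hx hy hxy with h4 | h4
          · linarith [H.a2 y hy, hry.1]
          · linarith [H.a4 y hy, hry.2]
      filter_upwards [mem_nhdsWithin_of_mem_nhds (Ioo_mem_nhds (by linarith [hsx.1] : s1 x < s)
        (by linarith [hsx.2] : s < s4 x)), self_mem_nhdsWithin] with s' hs' hs'01
      rw [Real.dist_eq, abs_sub_comm]
      by_cases hin : s2 x ≤ s' ∧ s' ≤ s3 x
      · rw [hds]
        exact band_fibre H hI hun hom hx hsx hin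
      · -- `s'` is in a free piece
        have hcase : s' < s2 x ∨ s3 x < s' := by
          by_contra hcon
          push Not at hcon
          exact hin hcon
        rcases hcase with hc | hc
        · have e : ∀ p, w p s' = w p (s2 x) := by
            intro p
            have h1 : ∀ r ∈ Ico s' (s2 x), w p r = w p s' := by
              intro r hr
              refine hfree0 (Ico s' (s2 x)) (fun t ht => ⟨hs'01.1.trans ht.1, by linarith [ht.2]⟩)
                isPreconnected_Ico (fun t ht => hfr t (by linarith [hs'.1, ht.1])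
                  (by linarith [ht.2]) (fun h5 => by linarith [h5.1, ht.2])) r hr s'
                ⟨le_rfl, hc⟩ p
            have h2 : Tendsto (w p) (𝓝[Ico s' (s2 x)] (s2 x)) (𝓝 (w p (s2 x))) :=
              ((hwc p) (s2 x) ⟨by linarith, by linarith⟩).mono_left (nhdsWithin_mono _
                fun t ht => ⟨hs'01.1.trans ht.1, by linarith [ht.2]⟩)
            have h3 : Tendsto (w p) (𝓝[Ico s' (s2 x)] (s2 x)) (𝓝 (w p s')) := by
              refine tendsto_const_nhds.congr' ?_
              filter_upwards [self_mem_nhdsWithin] with r hr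
              exact (h1 r hr).symm
            have h4 : (𝓝[Ico s' (s2 x)] (s2 x)).NeBot := by
              rw [← mem_closure_iff_nhdsWithin_neBot, closure_Ico hc.ne]
              exact ⟨hc.le, le_rfl⟩
            exact tendsto_nhds_unique h3 h2
          have h5 : H880.dsum w s s' = H880.dsum w s (s2 x) := by
            unfold H880.dsum
            exact Finset.sum_congr rfl fun p _ => by rw [e p]
          rw [h5, hds]
          refine (band_fibre H hI hun hom hx hsx ⟨le_rfl, a3.le⟩).trans ?_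
          refine mul_le_mul_of_nonneg_left ?_ (by positivity)
          rw [abs_of_nonneg (by linarith [hsx.1]), abs_of_nonneg (by linarith [hsx.1])]
          linarith
        · have e : ∀ p, w p s' = w p (s3 x) := by
            intro p
            have h1 : ∀ r ∈ Ioc (s3 x) s', w p r = w p s' := by
              intro r hr
              refine hfree0 (Ioc (s3 x) s') (fun t ht => ⟨by linarith [ht.1], ht.2.trans hs'01.2⟩)
                isPreconnected_Ioc (fun t ht => hfr t (by linarith [ht.1])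
                  (by linarith [ht.2, hs'.2]) (fun h5 => by linarith [h5.2, ht.1])) r hr s'
                ⟨hc, le_rfl⟩ p
            have h2 : Tendsto (w p) (𝓝[Ioc (s3 x) s'] (s3 x)) (𝓝 (w p (s3 x))) :=
              ((hwc p) (s3 x) ⟨by linarith, by linarith⟩).mono_left (nhdsWithin_mono _
                fun t ht => ⟨by linarith [ht.1], ht.2.trans hs'01.2⟩)
            have h3 : Tendsto (w p) (𝓝[Ioc (s3 x) s'] (s3 x)) (𝓝 (w p s')) := by
              refine tendsto_const_nhds.congr' ?_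
              filter_upwards [self_mem_nhdsWithin] with r hr
              exact (h1 r hr).symm
            have h4 : (𝓝[Ioc (s3 x) s'] (s3 x)).NeBot := by
              rw [← mem_closure_iff_nhdsWithin_neBot, closure_Ioc hc.ne]
              exact ⟨le_rfl, hc.le⟩
            exact tendsto_nhds_unique h3 h2
          have h5 : H880.dsum w s s' = H880.dsum w s (s3 x) := by
            unfold H880.dsum
            exact Finset.sum_congr rfl fun p _ => by rw [e p]
          rw [h5, hds]
          refine (band_fibre H hI hun hom hx hsx ⟨a3.le, le_rfl⟩).trans ?_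
          refine mul_le_mul_of_nonneg_left ?_ (by positivity)
          rw [abs_of_nonpos (by linarith [hsx.2]), abs_of_nonpos (by linarith [hsx.2])]
          linarith
    · push Not at hx
      -- a free neighbourhood
      have hcl : IsClosed (⋃ x ∈ {x | CrsPt a b h L x}, Icc (s2 x) (s3 x)) :=
        hfin.isClosed_biUnion fun x _ => isClosed_Icc
      have hns : s ∉ ⋃ x ∈ {x | CrsPt a b h L x}, Icc (s2 x) (s3 x) := by
        intro hcon
        obtain ⟨x, hx1, hx2⟩ := mem_iUnion₂.1 hcon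
        exact absurd hx2.2 (not_le.2 (hx x hx1 hx2.1))
      obtain ⟨r, hr, hball⟩ := Metric.isOpen_iff.1 hcl.isOpen_compl s hns
      filter_upwards [mem_nhdsWithin_of_mem_nhds (ball_mem_nhds s hr), self_mem_nhdsWithin]
        with s' hs' hs'01
      have h1 : ∀ p, w p s = w p s' := by
        intro p
        refine hfree0 (ball s r ∩ Icc 0 1) inter_subset_right ?_ (fun t ht x hx1 hx2 => ?_) s
          ⟨mem_ball_self hr, hs⟩ s' ⟨hs', hs'01⟩ p
        · exact ((convex_ball s r).inter (convex_Icc 0 1)).isPreconnected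
        · exact hball ht.1 (mem_iUnion₂.2 ⟨x, hx1, hx2⟩)
      have h2 : H880.dsum w s s' = 0 := by
        unfold H880.dsum
        exact Finset.sum_eq_zero fun p _ => by rw [h1 p, sub_self, abs_zero]
      rw [h2]
      positivity
  intro s hs s' hs'
  have := H880.dsum_le_of_local (convex_Icc (0:ℝ) 1) hwc hloc hs hs'
  rw [hds, Real.dist_eq, abs_sub_comm] at this
  exact this

/-- **[EDGE-BAND]**: the band coordinates are `La`-Lipschitz along the edge -/
theorem band_le_seg (hab : a ≠ b) (H : EdgeNum a b h k L lo hi om La f s1 s2 s3 s4)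
    (hI : ∀ j, Ins1 (k j) (L j : Set ℝ) (lo j) (hi j))
    (hun : ∀ x ∈ segment ℝ a b, ∀ j j', h x j ∈ L j → h x j' ∈ L j' → j = j')
    (hom : ∀ j, ∀ c ∈ L j, 0 ≤ om j c) (hLa : 0 ≤ La)
    (hfin : {x | CrsPt a b h L x}.Finite) (hf : ContinuousOn f (segment ℝ a b))
    (him : ∀ x ∈ segment ℝ a b, prodK k (f x) ∈ h '' segment ℝ a b) :
    ∀ x ∈ segment ℝ a b, ∀ y ∈ segment ℝ a b, bandD L lo hi om (f x) (f y) ≤ La * ‖x - y‖ := by
  intro x hx y hy
  rw [segment_eq_image_lineMap] at hx hy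
  obtain ⟨s, hs, rfl⟩ := hx
  obtain ⟨s', hs', rfl⟩ := hy
  refine (band_le_param H hI hun hom hLa hfin hf him s hs s' hs').trans_eq ?_
  have e : AffineMap.lineMap a b s - AffineMap.lineMap a b s' = (s - s') • (b - a) := by
    rw [AffineMap.lineMap_apply, AffineMap.lineMap_apply]
    simp only [vsub_eq_sub, vadd_eq_add]
    rw [add_sub_add_right_eq_sub, ← sub_smul]
  rw [e, norm_smul, Real.norm_eq_abs]
  ring

end P073.H142
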