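import Vale.Agent.P073.H142.FaceTail3
import Vale.Agent.P073.H471.KillLast

/-!
# P073, block H142 (ESTKILL): the collapse is the last map: from (CONE) to the cone estimate `Est`
-/

open Set Metric Topology Filter MeasureTheory
open scoped ENNReal

namespace P073.H142

open P073 P073.Net P073.PA691 Vale.Agent.P073.H471
open Vale.Agent.P073.St (V)
open Vale.Agent.P073.H73 (Mesh sqr faceL onSeg Adapted)
open Vale.Agent.P073.H193 (Edges edges Cyc)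
open Vale.Agent.P073.H471 (Small)
open Vale.Agent.P073.H155 (ce)

variable {Ω Λ : Set V} {M : Mesh Ω} {E : Edges M} {k : M.κ} {v : V} {K : BoxCx Λ v} {S : Rad K}
  {W : Wid K S}

/-- **(CONE)**: the point `f x` is in the interior of a zone, and the tangential coordinates satisfy
the cone estimate near `x` -/
def ConeAt (W : Wid K S) (L : ℝ) (A : Set V) (f : V → V) (x : V) : Prop :=
  (∃ s, f x ∈ interior (Zs W s) ∧
    ∀ᶠ x' in 𝓝[A] x, ∀ j, j ≠ K.nrm s → |f x' j - f x j| ≤ L * ‖x' - x‖) ∨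
  (∃ i, f x ∈ interior (Ze W i) ∧
    ∀ᶠ x' in 𝓝[A] x, |f x' (K.dir i) - f x (K.dir i)| ≤ L * ‖x' - x‖) ∨
  ∃ i, f x ∈ interior (Zv W i)

/-- **(CONE)** for a face -/
def ConeF (W : Wid K S) (T : FStar E k) (C₁ : ℝ) (b : E.ε → ℝ) (f : V → V) : Prop :=
  ∀ e, E.seg e ⊆ M.F k → ∀ x ∈ coneSetAt T.O (E.seg e),
    ConeAt W (T.con C₁ b e) (coneSetAt T.O (E.seg e)) f x

theorem FStar.cone_sub (T : FStar E k) {e : E.ε} (he : E.seg e ⊆ M.F k) :
    coneSetAt T.O (E.seg e) ⊆ M.F k := by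
  obtain ⟨j, hj, rfl⟩ := Vale.Agent.P073.H155.exists_ce T.C he
  rw [← T.cn_eq]
  exact T.star.cn_sub hj

theorem FStar.con_nonneg (T : FStar E k) {C₁ : ℝ} (hC₁ : 0 ≤ C₁) {b : E.ε → ℝ}
    (hb : ∀ e, E.seg e ⊆ M.F k → 0 ≤ b e) {e : E.ε} (he : E.seg e ⊆ M.F k) :
    0 ≤ T.con C₁ b e := by
  unfold FStar.con
  have h1 := T.rho_pos
  have h2 : 0 ≤ ∑ e ∈ (E.fin_face k).toFinset, b e := Finset.sum_nonneg fun e he =>
    hb e ((E.fin_face k).mem_toFinset.1 he)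
  have h3 := hb e he
  positivity

theorem FStar.con_mul (T : FStar E k) (c C₁ : ℝ) (b : E.ε → ℝ) (e : E.ε) :
    T.con (c * C₁) b e = c * T.con C₁ b e := by
  unfold FStar.con
  ring

/-- one point -/
theorem ConeAt.est {R : Fac K} {f : V → V} {M' ε : M.κ → ℝ} {Φ : ConHomeo Λ Λ}
    (H : Small W R f M.F M' ε) (HΦ : IsKill W R Φ) {A : Set V} {L : ℝ} (hA : A ⊆ M.F k)
    (hf : ContinuousOn f A) {x : V} (hx : x ∈ A) (hL : 0 ≤ L) (hε : ε k ≤ L)
    (h : ConeAt W L A f x) :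
    ∀ᶠ x' in 𝓝[A] x, ‖Φ.toFun (f x') - Φ.toFun (f x)‖ ≤ 8 * L * ‖x' - x‖ := by
  have key : ∀ᶠ x' in 𝓝[A] x, ‖Φ.toFun (f x') - Φ.toFun (f x)‖ ≤ (7 * L + ε k) * ‖x' - x‖ := by
    rcases h with ⟨s, h1, h2⟩ | ⟨i, h1, h2⟩ | ⟨i, h1⟩
    · exact H.local_s HΦ hA hf hx h1 hL h2
    · exact H.local_e HΦ hA hf hx h1 hL h2
    · filter_upwards [H.local_v HΦ hA hf hx h1] with y hy
      refine hy.trans (mul_le_mul_of_nonneg_right ?_ (norm_nonneg _))
      linarith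
  filter_upwards [key] with y hy
  refine hy.trans (mul_le_mul_of_nonneg_right ?_ (norm_nonneg _))
  linarith

/-- **(CONE) ⟹ `Est`** for the collapsed map -/
theorem ConeF.est {T : FStar E k} {C₁ : ℝ} (hC₁ : 0 ≤ C₁) {b : E.ε → ℝ}
    (hb : ∀ e, E.seg e ⊆ M.F k → 0 ≤ b e) {R : Fac K} {f : V → V} {M' ε : M.κ → ℝ}
    {Φ : ConHomeo Λ Λ} (H : Small W R f M.F M' ε) (HΦ : IsKill W R Φ)
    (hf : ContinuousOn f (M.F k)) (hε : ∀ e, E.seg e ⊆ M.F k → ε k ≤ T.con C₁ b e)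
    (h : ConeF W T C₁ b f) : T.Est (8 * C₁) b (fun x => Φ.toFun (f x)) := by
  intro e he x hx
  have h1 := ConeAt.est H HΦ (T.cone_sub he) (hf.mono (T.cone_sub he)) hx
    (T.con_nonneg hC₁ hb he) (hε e he) (h e he x hx)
  filter_upwards [h1] with y hy
  rw [T.con_mul]
  exact hy

/-- the number for the collapse -/
theorem FStar.exists_eps (T : FStar E k) {C₁ : ℝ} (hC₁ : 0 < C₁) {b : E.ε → ℝ}
    (hb : ∀ e, E.seg e ⊆ M.F k → 0 < b e) :
    ∃ ε > 0, ∀ e, E.seg e ⊆ M.F k → ε ≤ T.con C₁ b e := by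
  set F := (E.fin_face k).toFinset with hF
  have hne : F.Nonempty := by
    refine ⟨ce T.C 0, ?_⟩
    rw [hF, Finite.mem_toFinset]
    exact T.C.sub _
  obtain ⟨e₀, he₀, hmin⟩ := F.exists_min_image (fun e => T.con C₁ b e) hne
  have h0 : E.seg e₀ ⊆ M.F k := (E.fin_face k).mem_toFinset.1 (hF ▸ he₀)
  refine ⟨T.con C₁ b e₀, ?_, fun e he => hmin e ?_⟩
  · unfold FStar.con
    have h1 := T.rho_pos
    have h2 : 0 ≤ ∑ e ∈ (E.fin_face k).toFinset, b e := Finset.sum_nonneg fun e he =>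
      (hb e ((E.fin_face k).mem_toFinset.1 he)).le
    have h3 := hb e₀ h0
    have h4 := elen_pos E e₀
    positivity
  · rw [hF, Finite.mem_toFinset]; exact he

end P073.H142
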