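import Vale.Agent.P073.H142.K3Dy
import Vale.Agent.P073.H233.CellpFin

/-!
# P073, block H142 (K3CELL): the energy of a drawn cell in a box
-/

open Set Metric Topology Filter MeasureTheory
open scoped ENNReal

namespace P073.H142

open P073 P073.H936 P073.TR P073.H267 P073.H880 P073.H936.K3 P073.H950
open Vale.Agent.P073.St (V)
open Vale.Agent.P073.AB (Idx squ)
open Vale.Agent.P073.H233 (BdT FaceB fInt ZS cp)
open P073.Net (dyc dyo)

section weight

variable {κ E : Type*} [Fintype κ]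

theorem dsum_mul {om : ℝ} (h : 0 ≤ om) (u : κ → E → ℝ) (x y : E) :
    dsum (fun c z => om * u c z) x y = om * dsum u x y := by
  unfold dsum
  rw [Finset.mul_sum]
  refine Finset.sum_congr rfl fun c _ => ?_
  rw [← mul_sub, abs_mul, abs_of_nonneg h]

end weight

variable {ι : Type*} [Fintype ι] {side : ι → Bool} {ax : Bool → Fin 3} {lo hi : Fin 3 → ℝ}
  {c w : ι → ℝ} {U : Set V} {Q : Type}

/-- the data of the old homeomorphism on the squares `𝓢` of the boundary of a drawn cell: local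
`ℓ¹` Lipschitz bounds `g s` of the levels (weight `om`), and paths with variation at most `A s` -/
structure FaceData (D : BoxK side ax lo hi c w U Q) (v : V) (om : ℝ) (𝓢 : Finset (Idx × Fin 3))
    (g : Idx × Fin 3 → V → ℝ) (A : Idx × Fin 3 → ℝ) : Prop where
  usc : ∀ s ∈ 𝓢, UpperSemicontinuousOn (g s) (squ v s)
  nonneg : ∀ s ∈ 𝓢, ∀ x ∈ squ v s, 0 ≤ g s x
  lip : ∀ s ∈ 𝓢, ∀ x ∈ squ v s, ∀ᶠ y in 𝓝[squ v s] x,
    om * dsum (old D) x y ≤ g s x * dist y x
  A0 : ∀ s ∈ 𝓢, 0 ≤ A s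
  path : ∀ s ∈ 𝓢, ∀ x ∈ squ v s, ∀ y ∈ squ v s, ∃ (γ : ℝ → V) (a b : ℝ), a ≤ b ∧
    ContinuousOn γ (Icc a b) ∧ MapsTo γ (Icc a b) (squ v s) ∧ γ a = x ∧ γ b = y ∧
    cvar (fun s t => ENNReal.ofReal (om * dsum (old D) (γ s) (γ t))) a b ≤ ENNReal.ofReal (A s)

/-- **[K3CELL]** The energy of a drawn cell: the clipped levels of the new homeomorphism have an
upper semicontinuous local `ℓ¹` Lipschitz bound on the closed cell, with a good integral. -/
theorem Loc.cellp {p : ℝ} (hp : 2 < p) {D : BoxK side ax lo hi c w U Q} {κ : Type*} [Fintype κ]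
    {u : κ → V → ℝ} (hu : Loc D u) {q : Q} {v : V} {z : Idx} (hC : dyc v z.1 z.2 = D.K.C q)
    (hS : dyc v z.1 z.2 \ dyo v z.1 z.2 = frontier (D.K.C q))
    (hch : D.K.chart q = (Chart.dya v z).cast hC hS) {𝓢 : Finset (Idx × Fin 3)} (H : BdT v z 𝓢)
    {om : ℝ} (hom : 0 ≤ om) {g : Idx × Fin 3 → V → ℝ} {A : Idx × Fin 3 → ℝ}
    (F : FaceData D v om 𝓢 g A) :
    ∃ K : V → ℝ, UpperSemicontinuous K ∧ (∀ x, 0 ≤ K x) ∧
      (∀ x ∈ D.K.C q, ∀ᶠ y in 𝓝[D.K.C q] x, om * dsum u x y ≤ K x * dist y x) ∧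
      ∫⁻ x in D.K.C q, ENNReal.ofReal (K x ^ p) ≤ ENNReal.ofReal (cp p) *
        ((∑ s ∈ 𝓢, ENNReal.ofReal (2 ^ s.1.1 / 2 ^ z.1) * fInt p v s (g s)) +
          ENNReal.ofReal ((1 / 2 ^ z.1) * ZS p 𝓢 A + (1 / 2 ^ z.1 : ℝ) ^ (3 - p) * om ^ p)) := by
  let _ := D.bi.fintypeJ q
  have hsub : ∀ s ∈ 𝓢, squ v s ⊆ frontier (D.K.C q) := by
    intro s hs x hx
    rw [← hS]
    exact H.bd_eq.ge (mem_iUnion₂.2 ⟨s, hs, hx⟩)
  have e1 : ∀ x y, ∑ d, om * |(D.bi.nestCirc q).D.s d y - (D.bi.nestCirc q).D.s d x| =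
      om * dsum (fun d => (D.bi.nestCirc q).D.s d) x y := by
    intro x y
    rw [dsum, Finset.mul_sum]
  obtain ⟨K, h1, h2, h3, h4⟩ := Vale.Agent.P073.H233.cellp hp H hC hS (D.bi.C_sph q)
    (D.bi.base_mem q) (D.bi.discs q) hom F.A0 (g := g) (A := A) (by
      intro s hs x hx y hy
      obtain ⟨γ, a, b, hab, hγ, hm, hγa, hγb, hv⟩ := F.path s hs y hy x hx
      have h5 := dsum_le_cvar (u := fun d x => om * (D.bi.nestCirc q).D.s d x)
        (Z := frontier (D.K.C q)) (cst := fun x y => om * dsum (old D) x y)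
        (fun x y => by rw [dsum_comm]) (fun θ hθ => by
          filter_upwards [eventually_sum_s_le D q hθ] with θ' h6
          rw [dsum_mul hom]
          exact mul_le_mul_of_nonneg_left h6 hom) hab hγ fun t ht => hsub s hs (hm ht)
      rw [dsum_mul hom, hγa, hγb] at h5
      have h6 := (ENNReal.ofReal_le_ofReal_iff (F.A0 s hs)).1 (h5.trans hv)
      refine le_trans (le_of_eq ?_) h6
      exact e1 y x) ⟨F.usc, F.nonneg, fun s hs θ hθ => by
        filter_upwards [F.lip s hs θ hθ, (eventually_sum_s_le D q (hsub s hs hθ)).filter_mono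
          (nhdsWithin_mono θ (hsub s hs))] with θ' h5 h6
        refine le_trans (le_of_eq (e1 θ θ')) (le_trans (mul_le_mul_of_nonneg_left h6 hom) h5)⟩
  refine ⟨K, h1, h2, fun x hx => ?_, h4⟩
  filter_upwards [h3 x hx, hu.cell q hx] with y h5 h6
  refine le_trans (mul_le_mul_of_nonneg_left h6 hom) (le_trans (le_of_eq ?_) h5)
  rw [dsum, Finset.mul_sum, hch]
  rfl

end P073.H142
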