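import Vale.Agent.P073.H142.MdPath
import Vale.Agent.P073.H579.PFace

/-!
# P073, block H142: paths in a peeled face with controlled variation of the bands
-/

open Set Metric Topology Filter
open scoped ENNReal

namespace P073.H142

open P073 P073.H31 P073.H155 P073.H880 P073.H579

theorem dmd_nonneg {ws : ℝ} {A : ℕ → ArcD} {k : ℕ} (hA : ∀ i < k, 0 < (A i).om) (x y : ℝ × ℝ) :
    0 ≤ dmd ws A k x y :=
  Finset.sum_nonneg fun i hi => mul_nonneg (hA i (Finset.mem_range.1 hi)).le (abs_nonneg _)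

/-- the variation of a multiple of a cost -/
theorem cvar_mul_le {c c' : ℝ → ℝ → ℝ≥0∞} {K : ℝ≥0∞} {a b : ℝ}
    (h : ∀ s ∈ Icc a b, ∀ t ∈ Icc a b, s ≤ t → c s t ≤ K * c' s t) :
    cvar c a b ≤ K * cvar c' a b := by
  rw [cvar_le_iff]
  intro n u hu hu'
  calc ∑ i ∈ Finset.range n, c (u i) (u (i + 1))
      ≤ ∑ i ∈ Finset.range n, K * c' (u i) (u (i + 1)) :=
        Finset.sum_le_sum fun i _ => h _ (hu' i) _ (hu' (i + 1)) (hu (Nat.le_succ i))
    _ = K * ∑ i ∈ Finset.range n, c' (u i) (u (i + 1)) := (Finset.mul_sum _ _ _).symm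
    _ ≤ K * cvar c' a b := by
        gcongr
        exact sum_le_cvar n hu hu'

/-- **[FACE-PATH]** If a cost on the face is at most the weighted distance of the model functions,
any two points of the face are joined by a path with small variation. -/
theorem exists_path {E : Type*} [NormedAddCommGroup E] [NormedSpace ℝ E] {F : Set E}
    (χ : ConHomeo F Rct) {ws : ℝ} {A : ℕ → ArcD} {k : ℕ} (h0 : 0 < ws)
    (hA : ∀ i < k, 0 < (A i).om) {cst : E → E → ℝ} {a₀ : ℝ} (ha : 0 ≤ a₀)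
    (h : ∀ x ∈ F, ∀ y ∈ F, cst x y ≤ a₀ * dmd ws A k (χ.toFun x) (χ.toFun y)) :
    ∀ x ∈ F, ∀ y ∈ F, ∃ γ : ℝ → E, ContinuousOn γ (Icc 0 3) ∧ MapsTo γ (Icc 0 3) F ∧
      γ 0 = x ∧ γ 3 = y ∧ cvar (fun s t => ENNReal.ofReal (cst (γ s) (γ t))) 0 3 ≤
        ENNReal.ofReal (a₀ * (4 * Wt ws A k)) := by
  intro x hx y hy
  have hx' := χ.mapsTo hx
  have hy' := χ.mapsTo hy
  have hm : ∀ t, χ.invFun (pth (χ.toFun x) (χ.toFun y) t) ∈ F := fun t =>
    χ.mapsTo_inv (pth_mem hx' hy' t)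
  refine ⟨fun t => χ.invFun (pth (χ.toFun x) (χ.toFun y) t), ?_, fun t _ => hm t, ?_, ?_, ?_⟩
  · exact χ.cont_inv.comp (continuous_pth _ _).continuousOn fun t _ => pth_mem hx' hy' t
  · show χ.invFun (pth (χ.toFun x) (χ.toFun y) 0) = x
    rw [pth_zero, χ.left_inv hx]
  · show χ.invFun (pth (χ.toFun x) (χ.toFun y) 3) = y
    rw [pth_three, χ.left_inv hy]
  · refine (cvar_mul_le (K := ENNReal.ofReal a₀) (c' := fun s t => ENNReal.ofReal
      (dmd ws A k (pth (χ.toFun x) (χ.toFun y) s) (pth (χ.toFun x) (χ.toFun y) t)))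
      fun s _ t _ _ => ?_).trans ?_
    · rw [← ENNReal.ofReal_mul ha]
      refine ENNReal.ofReal_le_ofReal ?_
      have h1 := h _ (hm s) _ (hm t)
      rwa [χ.right_inv (pth_mem hx' hy' s), χ.right_inv (pth_mem hx' hy' t)] at h1
    · rw [ENNReal.ofReal_mul ha]
      gcongr
      exact cvar_pth h0 hA hx' hy'

/-- the weighted change of all bands -/
noncomputable def bch {m : ℕ} (L : Fin m → Finset ℝ) (lo hi W : Fin m → ℝ → ℝ)
    (y y' : Fin m → ℝ) : ℝ :=
  ∑ j, ∑ a ∈ L j, W j a * (|rho (lo j) (hi j) a (y j) - rho (lo j) (hi j) a (y' j)| /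
    (hi j a - lo j a))

/-- the **BAND** clause of `PFaceOut.ext` in summed form -/
theorem bch_le_dmd {E A' : Type*} {m n : ℕ} {C : Set E} {L : Fin m → Finset ℝ}
    {cd : A' → Fin m} {lev : A' → ℝ} {e : Fin n ≃ A'} {Aq : ℕ → ArcD} {ws : ℝ}
    {lo hi W : Fin m → ℝ → ℝ} {χ : E → ℝ × ℝ} {Φ : E → Fin m → ℝ}
    (hlt : ∀ j, ∀ a ∈ L j, lo j a < hi j a) (hmem : ∀ α, lev α ∈ L (cd α))
    (hom : ∀ i : Fin n, (Aq i).om = W (cd (e i)) (lev (e i))) (hW : ∀ j, ∀ a ∈ L j, 0 ≤ W j a)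
    (hband : ∀ j, ∀ a ∈ L j, ∀ x ∈ C, ∀ x' ∈ C,
        |rho (lo j) (hi j) a (Φ x j) - rho (lo j) (hi j) a (Φ x' j)| ≤
          ∑ i : Fin n, if cd (e i) = j ∧ lev (e i) = a then
            (hi j (lev (e i)) - lo j (lev (e i))) *
            |md ws Aq n i (χ x).1 (χ x).2 - md ws Aq n i (χ x').1 (χ x').2| else 0)
    {x x' : E} (hx : x ∈ C) (hx' : x' ∈ C) :
    bch L lo hi W (Φ x) (Φ x') ≤ dmd ws Aq n (χ x) (χ x') := by
  classical
  set M : Fin n → ℝ := fun i =>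
    |md ws Aq n i (χ x).1 (χ x).2 - md ws Aq n i (χ x').1 (χ x').2| with hM
  have h1 : ∀ j, ∀ a ∈ L j, W j a * (|rho (lo j) (hi j) a (Φ x j) -
      rho (lo j) (hi j) a (Φ x' j)| / (hi j a - lo j a)) ≤
      ∑ i : Fin n, if cd (e i) = j ∧ lev (e i) = a then (Aq i).om * M i else 0 := by
    intro j a ha
    have hpos : 0 < hi j a - lo j a := sub_pos.2 (hlt j a ha)
    have h2 := hband j a ha x hx x' hx'
    have h3 : |rho (lo j) (hi j) a (Φ x j) - rho (lo j) (hi j) a (Φ x' j)| / (hi j a - lo j a) ≤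
        ∑ i : Fin n, if cd (e i) = j ∧ lev (e i) = a then M i else 0 := by
      rw [div_le_iff₀ hpos, Finset.sum_mul]
      refine h2.trans (le_of_eq (Finset.sum_congr rfl fun i _ => ?_))
      by_cases h5 : cd (e i) = j ∧ lev (e i) = a
      · rw [if_pos h5, if_pos h5, h5.2, mul_comm]
      · rw [if_neg h5, if_neg h5, zero_mul]
    refine (mul_le_mul_of_nonneg_left h3 (hW j a ha)).trans (le_of_eq ?_)
    rw [Finset.mul_sum]
    refine Finset.sum_congr rfl fun i _ => ?_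
    by_cases h5 : cd (e i) = j ∧ lev (e i) = a
    · rw [if_pos h5, if_pos h5, hom i, h5.1, h5.2]
    · rw [if_neg h5, if_neg h5, mul_zero]
  calc bch L lo hi W (Φ x) (Φ x')
      ≤ ∑ j, ∑ a ∈ L j, ∑ i : Fin n,
        if cd (e i) = j ∧ lev (e i) = a then (Aq i).om * M i else 0 :=
        Finset.sum_le_sum fun j _ => Finset.sum_le_sum fun a ha => h1 j a ha
    _ = ∑ i : Fin n, ∑ j, ∑ a ∈ L j,
        if cd (e i) = j ∧ lev (e i) = a then (Aq i).om * M i else 0 := by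
        rw [Finset.sum_comm]
        exact Finset.sum_congr rfl fun j _ => Finset.sum_comm
    _ ≤ ∑ i : Fin n, (Aq i).om * M i := by
        refine Finset.sum_le_sum fun i _ => ?_
        rw [Finset.sum_eq_single (cd (e i)) (fun j _ hj => Finset.sum_eq_zero fun a _ => by
          rw [if_neg fun h => hj h.1.symm]) (fun h => absurd (Finset.mem_univ _) h),
          Finset.sum_eq_single (lev (e i)) (fun a _ ha => by
          rw [if_neg fun h => ha h.2.symm]) (fun h => absurd (hmem (e i)) h), if_pos ⟨rfl, rfl⟩]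
    _ = dmd ws Aq n (χ x) (χ x') := by
        rw [dmd, Finset.sum_range]

end P073.H142
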