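import Vale.Agent.P073.H142.FaceBand
import Vale.Agent.P073.H142.K3CellP
import Vale.Agent.P073.H579.HFace
import Vale.Agent.P073.H950.Usc

/-!
# P073, block H142 (FACEDATA): the face data of a drawn cell from the band clauses of the face maps
-/

open Set Metric Topology Filter MeasureTheory
open scoped ENNReal

namespace P073.H142

open P073 P073.H936 P073.TR P073.H267 P073.H880 P073.H936.K3 P073.H950 P073.H579
open Vale.Agent.P073.St (V)
open Vale.Agent.P073.AB (Idx squ)
open P073.Net (dyc dyo)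

theorem bandD_eq_bch {m : ℕ} (L : Fin m → Finset ℝ) (lo hi W : Fin m → ℝ → ℝ)
    (y y' : Fin m → ℝ) : bandD L lo hi W y y' = bch L lo hi W y y' := by
  unfold bandD bch
  refine Finset.sum_congr rfl fun j _ => Finset.sum_congr rfl fun a _ => ?_
  rw [div_mul_eq_mul_div, mul_div_assoc]

/-- the levels of the box are levels of the insertion -/
structure LevIn {ι : Type*} (side : ι → Bool) (ax : Bool → Fin 3) (c w : ι → ℝ)
    (L : Fin 3 → Finset ℝ) (lo hi : Fin 3 → ℝ → ℝ) (lev : ι → ℝ) : Prop where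
  pos : ∀ i, 0 < w i
  mem : ∀ i, lev i ∈ L (ax (side i))
  hlo : ∀ i, lo (ax (side i)) (lev i) = c i - w i
  hhi : ∀ i, hi (ax (side i)) (lev i) = c i + w i
  inj : ∀ i i', ax (side i) = ax (side i') → lev i = lev i' → i = i'
  lt : ∀ j, ∀ a ∈ L j, lo j a < hi j a

variable {ι : Type*} [Fintype ι] {side : ι → Bool} {ax : Bool → Fin 3} {lo hi : Fin 3 → ℝ}
  {c w : ι → ℝ} {U : Set V} {Q : Type} {L : Fin 3 → Finset ℝ} {blo bhi : Fin 3 → ℝ → ℝ}
  {lev : ι → ℝ}

theorem LevIn.dsum_le (H : LevIn side ax c w L blo bhi lev) {om : ℝ} (hom : 0 ≤ om)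
    (g : V → Fin 3 → ℝ) (x y : V) : om * dsum (wlev side ax 1 c w g) x y ≤
      2 * bandD L blo bhi (fun _ _ => om) (g x) (g y) := by
  rw [bandD_eq_bch]
  exact dsum_wlev_le_bch H.pos H.mem H.hlo H.hhi H.inj H.lt hom g x y

/-- **[FACEDATA]** The face data of a drawn cell from the band clauses on the squares: finitely many
closed pieces `S s i` with constants `K s i`, and paths. -/
theorem LevIn.faceData (H : LevIn side ax c w L blo bhi lev) (D : BoxK side ax lo hi c w U Q)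
    {v : V} {om : ℝ} (hom : 0 ≤ om) {𝓢 : Finset (Idx × Fin 3)} {n : Idx × Fin 3 → ℕ}
    {S : ∀ s, Fin (n s) → Set V} {K : ∀ s, Fin (n s) → ℝ} {A : Idx × Fin 3 → ℝ}
    (hS : ∀ s ∈ 𝓢, ∀ i, IsClosed (S s i)) (hcov : ∀ s ∈ 𝓢, squ v s ⊆ ⋃ i, S s i)
    (hA : ∀ s ∈ 𝓢, 0 ≤ A s)
    (hcone : ∀ s ∈ 𝓢, ∀ i, ∀ x ∈ S s i, x ∈ squ v s → ∀ y ∈ S s i, y ∈ squ v s →
      bandD L blo bhi (fun _ _ => om) (D.h.toFun x) (D.h.toFun y) ≤ K s i * ‖x - y‖)
    (hpath : ∀ s ∈ 𝓢, ∀ x ∈ squ v s, ∀ y ∈ squ v s, ∃ γ : ℝ → V, ContinuousOn γ (Icc 0 3) ∧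
      MapsTo γ (Icc 0 3) (squ v s) ∧ γ 0 = x ∧ γ 3 = y ∧ cvar (fun t t' => ENNReal.ofReal
        (bandD L blo bhi (fun _ _ => om) (D.h.toFun (γ t)) (D.h.toFun (γ t')))) 0 3 ≤
        ENNReal.ofReal (A s)) :
    FaceData D v om 𝓢 (fun s x => 2 * pm (S s) (fun i _ => K s i) x) (fun s => 2 * A s) where
  usc := fun s hs => by
    have h1 : UpperSemicontinuous (pm (S s) (fun i (_ : V) => K s i)) :=
      upperSemicontinuous_pm (hS s hs) fun i => upperSemicontinuous_const.upperSemicontinuousOn _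
    have hc : Continuous fun x : ℝ => 2 * x := by fun_prop
    exact (hc.comp_upperSemicontinuous h1 fun a b hab => by
      show 2 * a ≤ 2 * b
      linarith).upperSemicontinuousOn _
  nonneg := fun s _ x _ => mul_nonneg zero_le_two (pm_nonneg x)
  lip := fun s hs x hx => by
    have h1 := eventually_le_pm (A := squ v s) (G := fun i (_ : V) => K s i)
      (d := fun y => bandD L blo bhi (fun _ _ => om) (D.h.toFun x) (D.h.toFun y))
      (r := fun y => dist y x) (x := x) (hS s hs) (hcov s hs) (fun y => dist_nonneg) (by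
        intro i hi
        filter_upwards [self_mem_nhdsWithin] with y hy
        rw [dist_eq_norm, norm_sub_rev]
        exact hcone s hs i x hi hx y hy.1 hy.2)
    filter_upwards [h1] with y hy
    calc om * dsum (old D) x y ≤ 2 * bandD L blo bhi (fun _ _ => om) (D.h.toFun x) (D.h.toFun y) :=
          H.dsum_le hom D.h.toFun x y
      _ ≤ 2 * (pm (S s) (fun i _ => K s i) x * dist y x) := mul_le_mul_of_nonneg_left hy zero_le_two
      _ = 2 * pm (S s) (fun i _ => K s i) x * dist y x := by ring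
  A0 := fun s hs => mul_nonneg zero_le_two (hA s hs)
  path := fun s hs x hx y hy => by
    obtain ⟨γ, h1, h2, h3, h4, h5⟩ := hpath s hs x hx y hy
    refine ⟨γ, 0, 3, by norm_num, h1, h2, h3, h4, ?_⟩
    refine (cvar_mul_le (K := ENNReal.ofReal 2) (c' := fun t t' => ENNReal.ofReal
      (bandD L blo bhi (fun _ _ => om) (D.h.toFun (γ t)) (D.h.toFun (γ t'))))
      fun t _ t' _ _ => ?_).trans ?_
    · rw [← ENNReal.ofReal_mul zero_le_two]
      exact ENNReal.ofReal_le_ofReal (H.dsum_le hom D.h.toFun _ _)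
    · rw [ENNReal.ofReal_mul zero_le_two]
      gcongr

end P073.H142
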