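import Vale.Agent.P073.H267.Glue3
import Vale.Agent.P073.ConicalStrata2
import Vale.Agent.P073.H880.Met2

/-!
# P073, block H142: images of cells are controlled by the images of their boundaries; Lipschitz
constants of conical maps on compact convex sets
-/

open Set Metric Topology Filter MeasureTheory
open scoped ENNReal

namespace P073.H142

open P073

section hull

variable {n : ℕ} {E : Type*} [NormedAddCommGroup E] [NormedSpace ℝ E]

/-- the image of an open subset is open -/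
theorem isOpen_image_of_subset {Ω : Set E} {Λ : Set (Fin n → ℝ)} (hΛ : IsOpen Λ)
    (g : ConHomeo Ω Λ) {O : Set E} (hO : O ⊆ Ω) (hOo : IsOpen O) : IsOpen (g.toFun '' O) := by
  have e : g.toFun '' O = Λ ∩ g.invFun ⁻¹' O := by
    ext y
    constructor
    · rintro ⟨x, hx, rfl⟩
      exact ⟨g.mapsTo (hO hx), by rw [mem_preimage, g.left_inv (hO hx)]; exact hx⟩
    · rintro ⟨hy, hy2⟩
      exact ⟨g.invFun y, hy2, g.right_inv hy⟩
  rw [e]
  exact g.cont_inv.isOpen_inter_preimage hΛ hOo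

/-- the maximum of a coordinate is attained on the boundary -/
theorem exists_frontier_ge {Ω : Set E} {Λ : Set (Fin n → ℝ)} (hΛ : IsOpen Λ) (g : ConHomeo Ω Λ)
    {Q : Set E} (hQ : IsCompact Q) (hQΩ : Q ⊆ Ω) (j : Fin n) {x : E} (hx : x ∈ Q) :
    ∃ a ∈ frontier Q, g.toFun x j ≤ g.toFun a j := by
  have hc : ContinuousOn (fun x => g.toFun x j) Q :=
    (continuous_apply j).comp_continuousOn (g.cont.mono hQΩ)
  obtain ⟨a, ha, hmax⟩ := hQ.exists_isMaxOn ⟨x, hx⟩ hc
  refine ⟨a, ?_, hmax hx⟩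
  rw [hQ.isClosed.frontier_eq]
  refine ⟨ha, fun hi => ?_⟩
  have hopen := isOpen_image_of_subset hΛ g (interior_subset.trans hQΩ) isOpen_interior
  obtain ⟨ε, hε, hb⟩ := Metric.isOpen_iff.1 hopen _ ⟨a, hi, rfl⟩
  have h1 : Function.update (g.toFun a) j (g.toFun a j + ε / 2) ∈ ball (g.toFun a) ε := by
    rw [mem_ball_iff_norm, pi_norm_lt_iff hε]
    intro k
    by_cases hk : k = j
    · subst hk
      rw [Pi.sub_apply, Function.update_self, add_sub_cancel_left, Real.norm_eq_abs,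
        abs_of_pos (by positivity)]
      linarith
    · rw [Pi.sub_apply, Function.update_of_ne hk, sub_self, norm_zero]
      exact hε
  obtain ⟨b, hb1, hb2⟩ := hb h1
  have h2 : g.toFun b j ≤ g.toFun a j := hmax (interior_subset hb1)
  rw [hb2, Function.update_self] at h2
  linarith

/-- the minimum of a coordinate is attained on the boundary -/
theorem exists_frontier_le {Ω : Set E} {Λ : Set (Fin n → ℝ)} (hΛ : IsOpen Λ) (g : ConHomeo Ω Λ)
    {Q : Set E} (hQ : IsCompact Q) (hQΩ : Q ⊆ Ω) (j : Fin n) {x : E} (hx : x ∈ Q) :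
    ∃ a ∈ frontier Q, g.toFun a j ≤ g.toFun x j := by
  have hc : ContinuousOn (fun x => g.toFun x j) Q :=
    (continuous_apply j).comp_continuousOn (g.cont.mono hQΩ)
  obtain ⟨a, ha, hmin⟩ := hQ.exists_isMinOn ⟨x, hx⟩ hc
  refine ⟨a, ?_, hmin hx⟩
  rw [hQ.isClosed.frontier_eq]
  refine ⟨ha, fun hi => ?_⟩
  have hopen := isOpen_image_of_subset hΛ g (interior_subset.trans hQΩ) isOpen_interior
  obtain ⟨ε, hε, hb⟩ := Metric.isOpen_iff.1 hopen _ ⟨a, hi, rfl⟩
  have h1 : Function.update (g.toFun a) j (g.toFun a j - ε / 2) ∈ ball (g.toFun a) ε := by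
    rw [mem_ball_iff_norm, pi_norm_lt_iff hε]
    intro k
    by_cases hk : k = j
    · subst hk
      rw [Pi.sub_apply, Function.update_self, sub_sub_cancel_left, Real.norm_eq_abs, abs_neg,
        abs_of_pos (by positivity)]
      linarith
    · rw [Pi.sub_apply, Function.update_of_ne hk, sub_self, norm_zero]
      exact hε
  obtain ⟨b, hb1, hb2⟩ := hb h1
  have h2 : g.toFun a j ≤ g.toFun b j := hmin (interior_subset hb1)
  rw [hb2, Function.update_self] at h2
  linarith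

/-- **[HULL]** coordinate version: the oscillation of a coordinate on a compact set is the
oscillation on its boundary -/
theorem abs_sub_le_of_frontier {Ω : Set E} {Λ : Set (Fin n → ℝ)} (hΛ : IsOpen Λ)
    (g : ConHomeo Ω Λ) {Q : Set E} (hQ : IsCompact Q) (hQΩ : Q ⊆ Ω) (j : Fin n) {B : ℝ}
    (h : ∀ x ∈ frontier Q, ∀ y ∈ frontier Q, |g.toFun x j - g.toFun y j| ≤ B) :
    ∀ x ∈ Q, ∀ y ∈ Q, |g.toFun x j - g.toFun y j| ≤ B := by
  intro x hx y hy
  obtain ⟨a, ha, h1⟩ := exists_frontier_ge hΛ g hQ hQΩ j hx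
  obtain ⟨b, hb, h2⟩ := exists_frontier_le hΛ g hQ hQΩ j hx
  obtain ⟨a', ha', h3⟩ := exists_frontier_ge hΛ g hQ hQΩ j hy
  obtain ⟨b', hb', h4⟩ := exists_frontier_le hΛ g hQ hQΩ j hy
  have h5 := abs_le.1 (h a ha b' hb')
  have h6 := abs_le.1 (h a' ha' b hb)
  rw [abs_le]
  constructor <;> linarith [h5.1, h5.2, h6.1, h6.2]

/-- **[HULL]** the diameter of the image of a compact set is the diameter of the image of its
boundary -/
theorem norm_sub_le_of_frontier {Ω : Set E} {Λ : Set (Fin n → ℝ)} (hΛ : IsOpen Λ) (hn : 0 < n)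
    (g : ConHomeo Ω Λ) {Q : Set E} (hQ : IsCompact Q) (hQΩ : Q ⊆ Ω) {B : ℝ}
    (h : ∀ x ∈ frontier Q, ∀ y ∈ frontier Q, ‖g.toFun x - g.toFun y‖ ≤ B) :
    ∀ x ∈ Q, ∀ y ∈ Q, ‖g.toFun x - g.toFun y‖ ≤ B := by
  intro x hx y hy
  obtain ⟨a, ha, -⟩ := exists_frontier_ge hΛ g hQ hQΩ ⟨0, hn⟩ hx
  have hB : 0 ≤ B := (norm_nonneg _).trans (h a ha a ha)
  rw [pi_norm_le_iff_of_nonneg hB]
  intro j
  rw [Pi.sub_apply, Real.norm_eq_abs]
  exact abs_sub_le_of_frontier hΛ g hQ hQΩ j (fun a ha b hb =>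
    (norm_le_pi_norm (g.toFun a - g.toFun b) j).trans (h a ha b hb)) x hx y hy

end hull

section lip

variable {E F : Type*} [NormedAddCommGroup E] [NormedSpace ℝ E] [FiniteDimensional ℝ E]
  [NormedAddCommGroup F] [NormedSpace ℝ F]

/-- **conical maps are Lipschitz on compact convex sets** -/
theorem exists_lip_of_compact {h : E → F} {Ω : Set E} (hΩ : IsOpen Ω) (H : ConicalOn h Ω)
    (hc : ContinuousOn h Ω) {C : Set E} (hC : IsCompact C) (hcv : Convex ℝ C) (hCΩ : C ⊆ Ω) :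
    ∃ L : ℝ, 0 ≤ L ∧ ∀ x ∈ C, ∀ y ∈ C, ‖h x - h y‖ ≤ L * ‖x - y‖ := by
  have h1 : ∀ x ∈ C, ∃ δ > 0, ∃ M : NNReal, LipschitzOnWith M h (ball x δ) := fun x hx =>
    let ⟨δ, hδ, _, M, hM⟩ := exists_lipschitz_near hΩ H hc (hCΩ hx)
    ⟨δ, hδ, M, hM⟩
  choose! δ hδ M hM using h1
  obtain ⟨T, hT, hcov⟩ := hC.elim_nhds_subcover (fun x => ball x (δ x))
    fun x hx => ball_mem_nhds x (hδ x hx)
  set K : NNReal := ∑ x ∈ T, M x with hK
  have hloc : ∀ x ∈ C, ∀ᶠ y in 𝓝[C] x, ‖h y - h x‖ ≤ K * ‖y - x‖ := by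
    intro x hx
    obtain ⟨z, hz, hxz⟩ := mem_iUnion₂.1 (hcov hx)
    have h2 : ∀ᶠ y in 𝓝[C] x, y ∈ ball z (δ z) :=
      nhdsWithin_le_nhds (isOpen_ball.mem_nhds hxz)
    filter_upwards [h2] with y hy
    have h3 := (hM z (hT z hz)).dist_le_mul y hy x hxz
    rw [dist_eq_norm, dist_eq_norm] at h3
    refine h3.trans (mul_le_mul_of_nonneg_right ?_ (norm_nonneg _))
    exact_mod_cast Finset.single_le_sum (f := M) (fun _ _ => zero_le) hz
  refine ⟨K, K.2, fun x hx y hy => ?_⟩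
  have h4 := P073.H880.dsum_le_of_local (κ := Unit) hcv (w := fun _ z => ‖h z - h y‖) (K := K)
    (fun _ => ((hc.mono hCΩ).sub continuousOn_const).norm) (fun z hz => by
      filter_upwards [hloc z hz] with t ht
      rw [P073.H880.dsum, Fintype.sum_unique, dist_eq_norm]
      refine (abs_norm_sub_norm_le _ _).trans ?_
      rw [sub_sub_sub_cancel_right]
      exact ht) hy hx
  rw [P073.H880.dsum, Fintype.sum_unique, dist_eq_norm, sub_self, norm_zero, sub_zero,
    abs_norm] at h4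
  exact h4

end lip

end P073.H142
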