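import Vale.Agent.P073.H142.Lat3
import Vale.Agent.P073.H880.RP2
import Vale.Agent.P073.H919.HookG

/-!
# P073, block H142 ([FACE3]), part 2: faces in the plates after the P-hook

`HkGO.eventually_dsum`: the levels of the hooked map `h5` on a face near a plate are locally
controlled by the levels of `h4`.  `HkGO.face_lip`: the local estimate for `f5 = S_σ ∘ h5`.
-/

open Set Metric Topology Filter MeasureTheory
open scoped ENNReal

set_option linter.unusedSectionVars false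

namespace P073.H142

open P073 P073.H936 P073.H936.K3 P073.H880 P073.H880.RP P073.H345 P073.H236 P073.H579 P073.H950
  P073.H919 P073.H228
open Vale.Agent.P073.St (V)
open Vale.Agent.P073.AB (Idx squ)
open Vale.Agent.P073.H73 (Mesh)
open Vale.Agent.P073.H471 Vale.Agent.P073.H267
open P073.Net P073.PA691
open Vale.Agent.P073.H233 (PSet LAt)

variable {Ω Λ : Set V} {v : V} {K : BoxCx Λ v} {S : Rad K} {W : Wid K S} {B : Boxes W}
  {G : Geo B} {L : PLev G} {S₀ : Set K.S} {F : Bool → BFam 3 S₀ Λ}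
  {T : Bool → ConHomeo Λ Λ} {M : Mesh Ω} {κ₀ κ₁ : V → V} {c d : ℝ} {Zb : S₀ → Set M.ι}
  {h2 h3 h4 : ConHomeo Ω Λ} {u : V}

/-- clipping at a smaller level contracts more -/
theorem abs_clp_sub_le {r : ℝ} (h0 : 0 ≤ r) (h1 : r ≤ 1) (s t : ℝ) :
    |H880.clp r s - H880.clp r t| ≤ |H880.clp 1 s - H880.clp 1 t| := by
  have key : ∀ s, H880.clp r s = max (-r) (min (H880.clp 1 s) r) := by
    intro s
    unfold H880.clp
    rcases le_total s r with h2 | h2
    · rw [min_eq_left h2]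
      rcases le_total s (-r) with h3 | h3
      · rw [max_eq_left h3]
        have h4 : max (-1) (min s 1) ≤ -r := max_le (by linarith) ((min_le_left _ _).trans h3)
        rw [min_eq_left (by linarith), max_eq_left h4]
      · rw [max_eq_right h3, min_eq_left (by linarith : s ≤ 1),
          max_eq_right (by linarith : -1 ≤ s), min_eq_left h2, max_eq_right h3]
    · rw [min_eq_right h2]
      have h4 : r ≤ max (-1) (min s 1) := le_max_of_le_right (le_min h2 h1)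
      rw [min_eq_right h4]
  rw [key s, key t]
  have h2 : ∀ a b : ℝ, |min a r - min b r| ≤ |a - b| := fun a b => by
    rcases le_total a r with ha | ha <;> rcases le_total b r with hb | hb
    · rw [min_eq_left ha, min_eq_left hb]
    · rw [min_eq_left ha, min_eq_right hb, abs_sub_comm, abs_sub_comm a b,
        abs_of_nonneg (by linarith), abs_of_nonneg (by linarith)]
      linarith
    · rw [min_eq_right ha, min_eq_left hb, abs_of_nonneg (by linarith),
        abs_of_nonneg (by linarith)]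
      linarith
    · rw [min_eq_right ha, min_eq_right hb, sub_self, abs_zero]
      exact abs_nonneg _
  have h3 : ∀ a b : ℝ, |max (-r) a - max (-r) b| ≤ |a - b| := fun a b => by
    rcases le_total (-r) a with ha | ha <;> rcases le_total (-r) b with hb | hb
    · rw [max_eq_right ha, max_eq_right hb]
    · rw [max_eq_right ha, max_eq_left hb, abs_of_nonneg (by linarith),
        abs_of_nonneg (by linarith)]
      linarith
    · rw [max_eq_left ha, max_eq_right hb, abs_sub_comm, abs_sub_comm a b,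
        abs_of_nonneg (by linarith), abs_of_nonneg (by linarith)]
      linarith
    · rw [max_eq_left ha, max_eq_left hb, sub_self, abs_zero]
      exact abs_nonneg _
  exact (h3 _ _).trans (h2 _ _)

theorem dsum_wlev_le {ι : Type*} [Fintype ι] {side : ι → Bool} {ax : Bool → Fin 3} {r : ℝ}
    (h0 : 0 ≤ r) (h1 : r ≤ 1) {c w : ι → ℝ} (g : V → V) (x y : V) :
    dsum (wlev side ax r c w g) x y ≤ dsum (wlev side ax 1 c w g) x y :=
  Finset.sum_le_sum fun _ _ => abs_clp_sub_le h0 h1 _ _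

theorem abs_clp_sub_le' {r r' : ℝ} (h0 : 0 ≤ r') (h1 : r' ≤ r) (hr : 0 < r) (s t : ℝ) :
    |H880.clp r' s - H880.clp r' t| ≤ |H880.clp r s - H880.clp r t| := by
  have key : ∀ ρ s : ℝ, H880.clp (r * ρ) s = r * H880.clp ρ (s / r) := by
    intro ρ s
    unfold H880.clp
    rw [mul_max_of_nonneg _ _ hr.le, mul_min_of_nonneg _ _ hr.le, mul_div_cancel₀ _ hr.ne',
      mul_neg]
  have h2 := abs_clp_sub_le (r := r' / r) (by positivity) ((div_le_one hr).2 h1) (s / r) (t / r)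
  have e1 : r' = r * (r' / r) := by field_simp
  have e2 : ∀ s, H880.clp r' s = r * H880.clp (r' / r) (s / r) := fun s => by
    conv_lhs => rw [e1]
    exact key _ _
  have e3 : ∀ s, H880.clp r s = r * H880.clp 1 (s / r) := fun s => by
    have := key 1 s
    rwa [mul_one] at this
  rw [e2, e2, e3, e3, ← mul_sub, ← mul_sub, abs_mul, abs_mul]
  exact mul_le_mul_of_nonneg_left h2 (abs_nonneg _)

/-- the levels at a smaller level -/
theorem dsum_wlev_le' {ι : Type*} [Fintype ι] {side : ι → Bool} {ax : Bool → Fin 3} {r r' : ℝ}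
    (h0 : 0 ≤ r') (h1 : r' ≤ r) (hr : 0 < r) {c w : ι → ℝ} (g : V → V) (x y : V) :
    dsum (wlev side ax r' c w g) x y ≤ dsum (wlev side ax r c w g) x y :=
  Finset.sum_le_sum fun _ _ => abs_clp_sub_le' h0 h1 hr _ _

theorem dsum_wlev_congr {ι : Type*} [Fintype ι] {side : ι → Bool} {ax : Bool → Fin 3} {r : ℝ}
    {c w : ι → ℝ} {g g' : V → V} {x y : V} (hx : g x = g' x) (hy : g y = g' y) :
    dsum (wlev side ax r c w g) x y = dsum (wlev side ax r c w g') x y := by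
  unfold dsum wlev
  rw [hx, hy]

/-- **the levels on the faces after the hook** -/
theorem hkGO_eventually_dsum {H : HkG M L (Subtype.val : S₀ → K.S) F T κ₀ κ₁ c d Zb h2 h3 h4 u}
    {hΩ : IsOpen Ω} {r : S₀ → ℝ} {h5 : ConHomeo Ω Λ} (O : HkGO H hΩ r h5) {s : S₀}
    (r0 : 0 < r s) (r1 : r s < 1) {k : M.κ} (hpos : ∀ y ∈ M.F k, h4.toFun y ∈ G.PB (7 / 8) s.1)
    {x : V} (hx : x ∈ M.F k) : ∀ᶠ x' in 𝓝[M.F k] x,
      dsum (wlev (ι := PI L s.1) Sigma.fst (tg s.1) (r s) (pcen L s.1)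
        (pwid L (fun β => (F β).e s) s.1) h5.toFun) x x' ≤
      dsum (wlev (ι := PI L s.1) Sigma.fst (tg s.1) 1 (pcen L s.1)
        (pwid L (fun β => (F β).e s) s.1) h4.toFun) x x' := by
  have hkΩ : M.F k ⊆ Ω := Vale.Agent.P073.H193.mesh_sub M k
  -- off the box the map is not changed
  have hoff : ∀ y ∈ M.F k, h4.toFun y ∉ interior (HB G c d s.1) → h5.toFun y = h4.toFun y := by
    intro y hy hn
    refine O.off (hkΩ hy) fun s' hs' => ?_
    by_cases hss : s' = s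
    · subst hss
      exact hn hs'
    · have h1 : h4.toFun y ∈ G.PB (7 / 8) s'.1 := HB_PB H.hc H.hd s'.1 (interior_subset hs')
      exact Set.disjoint_left.1 (Geo.disjoint_PB (G := G) (c := 7 / 8) (by norm_num)
        fun e => hss (Subtype.ext e)) h1 (hpos y hy)
  -- points off the domain of the box
  have key : ∀ x' ∈ M.F k, h5.toFun x = h4.toFun x → h5.toFun x' = h4.toFun x' →
      dsum (wlev (ι := PI L s.1) Sigma.fst (tg s.1) (r s) (pcen L s.1)
        (pwid L (fun β => (F β).e s) s.1) h5.toFun) x x' ≤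
      dsum (wlev (ι := PI L s.1) Sigma.fst (tg s.1) 1 (pcen L s.1)
        (pwid L (fun β => (F β).e s) s.1) h4.toFun) x x' := fun x' _ e1 e2 => by
    rw [dsum_wlev_congr e1 e2]
    exact dsum_wlev_le r0.le r1.le _ _ _
  have hmemU : ∀ y ∈ M.F k, y ∈ (phook M L (Subtype.val : S₀ → K.S) F c d Zb s).U h4 ↔
      h4.toFun y ∈ HB G c d s.1 := fun y hy => H.mem_U s (hkΩ hy)
  have hcont : ContinuousWithinAt h4.toFun (M.F k) x := (h4.cont.mono hkΩ) x hx
  by_cases hxU : x ∈ (phook M L (Subtype.val : S₀ → K.S) F c d Zb s).U h4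
  · -- the estimate on the domain of the box
    have h6 := (O.loc s r0 r1).rest hxU
    have h7 : ∀ᶠ x' in 𝓝[M.F k] x, x' ∈ (phook M L (Subtype.val : S₀ → K.S) F c d Zb s).U h4 →
        dsum (wlev (ι := PI L s.1) Sigma.fst (tg s.1) (r s) (pcen L s.1)
          (pwid L (fun β => (F β).e s) s.1) h5.toFun) x x' ≤
        dsum (wlev (ι := PI L s.1) Sigma.fst (tg s.1) 1 (pcen L s.1)
          (pwid L (fun β => (F β).e s) s.1) h4.toFun) x x' := by
      have h8 := eventually_nhdsWithin_iff.1 h6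
      filter_upwards [nhdsWithin_le_nhds h8, self_mem_nhdsWithin] with x' h9 h10 h11
      exact h9 h11 fun q => H.off (Or.inr ⟨k, Subset.rfl⟩) q h10
    by_cases hint : h4.toFun x ∈ interior (HB G c d s.1)
    · filter_upwards [h7, hcont.eventually (isOpen_interior.mem_nhds hint),
        self_mem_nhdsWithin] with x' h8 h9 h10
      exact h8 ((hmemU x' h10).2 (interior_subset h9))
    · filter_upwards [h7, self_mem_nhdsWithin] with x' h8 h9
      by_cases h10 : x' ∈ (phook M L (Subtype.val : S₀ → K.S) F c d Zb s).U h4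
      · exact h8 h10
      · exact key x' h9 (hoff x hx hint)
          (hoff x' h9 fun h11 => h10 ((hmemU x' h9).2 (interior_subset h11)))
  · have hn : h4.toFun x ∉ HB G c d s.1 := fun h => hxU ((hmemU x hx).2 h)
    have hcl : IsClosed (HB G c d s.1) := isClosed_Icc
    filter_upwards [hcont.eventually (hcl.isOpen_compl.mem_nhds hn), self_mem_nhdsWithin]
      with x' h8 h9
    exact key x' h9 (hoff x hx fun h => hn (interior_subset h))
      (hoff x' h9 fun h => h8 (interior_subset h))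

section

variable {H : HkG M L (Subtype.val : S₀ → K.S) F T κ₀ κ₁ c d Zb h2 h3 h4 u} {hΩ : IsOpen Ω}
  {r : S₀ → ℝ} {h5 : ConHomeo Ω Λ} (O : HkGO H hΩ r h5) {s : S₀} {k : M.κ}

include O

/-- off the box the map is not changed -/
theorem hkGO_off (hpos : ∀ y ∈ M.F k, h4.toFun y ∈ G.PB (7 / 8) s.1) {y : V} (hy : y ∈ M.F k)
    (hn : h4.toFun y ∉ interior (HB G c d s.1)) : h5.toFun y = h4.toFun y := by
  refine O.off (Vale.Agent.P073.H193.mesh_sub M k hy) fun s' hs' => ?_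
  by_cases hss : s' = s
  · subst hss
    exact hn hs'
  · have h1 : h4.toFun y ∈ G.PB (7 / 8) s'.1 := HB_PB H.hc H.hd s'.1 (interior_subset hs')
    exact Set.disjoint_left.1 (Geo.disjoint_PB (G := G) (c := 7 / 8) (by norm_num)
      fun e => hss (Subtype.ext e)) h1 (hpos y hy)

/-- the hooked map maps the interior of the box to the interior -/
theorem hkGO_interior {y : V} (hy : y ∈ Ω) (hi : h4.toFun y ∈ interior (HB G c d s.1)) :
    h5.toFun y ∈ interior (HB G c d s.1) := by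
  have h1 : h5.toFun y ∈ HB G c d s.1 := (O.mem s hy).2 (interior_subset hi)
  by_contra hn
  have hz : h5.toFun y ∈ Λ := h5.mapsTo hy
  have h2 : h4.invFun (h5.toFun y) ∈ Ω := h4.mapsTo_inv hz
  have h3' : h4.toFun (h4.invFun (h5.toFun y)) = h5.toFun y := h4.right_inv hz
  have h4' : h5.toFun (h4.invFun (h5.toFun y)) = h4.toFun (h4.invFun (h5.toFun y)) := by
    refine O.off h2 fun s' hs' => ?_
    rw [h3'] at hs'
    by_cases hss : s' = s
    · subst hss
      exact hn hs'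
    · exact Set.disjoint_left.1 (Geo.disjoint_PB (G := G) (c := 7 / 8) (by norm_num)
        fun e => hss (Subtype.ext e)) (HB_PB H.hc H.hd s'.1 (interior_subset hs'))
        (HB_PB H.hc H.hd s.1 h1)
  rw [h3'] at h4'
  have h5' : h4.invFun (h5.toFun y) = y := h5.injOn h2 hy h4'
  rw [h5'] at h3'
  rw [← h3'] at hn
  exact hn hi

/-- position after the hook -/
theorem hkGO_pos (hpos : ∀ y ∈ M.F k, h4.toFun y ∈ G.PB (7 / 8) s.1) {y : V} (hy : y ∈ M.F k) :
    h5.toFun y ∈ G.PB (7 / 8) s.1 := by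
  by_cases hi : h4.toFun y ∈ interior (HB G c d s.1)
  · exact HB_PB H.hc H.hd s.1 (interior_subset
      (hkGO_interior O (Vale.Agent.P073.H193.mesh_sub M k hy) hi))
  · rw [hkGO_off O hpos hy hi]
    exact hpos y hy

theorem hkGO_nrm (hpos : ∀ y ∈ M.F k, h4.toFun y ∈ G.PB (7 / 8) s.1 ∧
    |h4.toFun y (K.nrm s.1) - K.slo s.1 (K.nrm s.1)| < B.τ s.1) {y : V} (hy : y ∈ M.F k) :
    |h5.toFun y (K.nrm s.1) - K.slo s.1 (K.nrm s.1)| < B.τ s.1 := by
  have hτ := B.τ_pos s.1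
  by_cases hi : h4.toFun y ∈ interior (HB G c d s.1)
  · have h1 := hkGO_interior O (Vale.Agent.P073.H193.mesh_sub M k hy) hi
    have h2 : interior (HB G c d s.1) ⊆
        {z | |z (K.nrm s.1) - K.slo s.1 (K.nrm s.1)| < B.τ s.1} := by
      intro z hz
      rw [mem_interior_iff_mem_nhds] at hz
      obtain ⟨ε, hε, hb⟩ := Metric.mem_nhds_iff.1 hz
      have key : ∀ σ : ℝ, |σ| < ε → |z (K.nrm s.1) + σ - K.slo s.1 (K.nrm s.1)| ≤
          d * B.τ s.1 := by
        intro σ hσ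
        have h3 : Function.update z (K.nrm s.1) (z (K.nrm s.1) + σ) ∈ HB G c d s.1 := by
          refine hb ?_
          rw [mem_ball, dist_eq_norm]
          refine lt_of_le_of_lt ((pi_norm_le_iff_of_nonneg (abs_nonneg σ)).2 fun i => ?_) hσ
          rw [Pi.sub_apply, Real.norm_eq_abs]
          by_cases hi : i = K.nrm s.1
          · subst hi
            rw [Function.update_self, add_sub_cancel_left]
          · rw [Function.update_of_ne hi, sub_self, abs_zero]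
            exact abs_nonneg _
        have h4 := (mem_HB.1 h3).2
        rwa [Function.update_self] at h4
      have hd1 : d * B.τ s.1 ≤ B.τ s.1 := by
        have := H.hd
        nlinarith
      have h5 := key (ε / 2) (by rw [abs_of_pos (by linarith)]; linarith)
      have h6 := key (-(ε / 2)) (by rw [abs_neg, abs_of_pos (by linarith)]; linarith)
      rw [abs_le] at h5 h6
      show |z (K.nrm s.1) - K.slo s.1 (K.nrm s.1)| < B.τ s.1
      rw [abs_lt]
      constructor <;> linarith [h5.2, h6.1]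
    exact h2 h1
  · rw [hkGO_off O (fun y hy => (hpos y hy).1) hy hi]
    exact (hpos y hy).2

/-- **the local estimate on the faces for `f5 = S_σ ∘ h5`** -/
theorem hkGO_face_lip {Fσ : Bool → BFam 3 S₀ Λ} {ς : Bool → S₀ → ℝ} {Tσ : Bool → ConHomeo Λ Λ}
    (P : Sg3 L S₀ Fσ ς Tσ) {r' : ℝ} (r0' : 0 < r') (rr : r' ≤ r s) (r1 : r s < 1)
    (hpos : ∀ y ∈ M.F k, h4.toFun y ∈ G.PB (7 / 8) s.1)
    (hw : ∀ β, 0 < bw (L.N s.1 β) (K.slo s.1 (tg s.1 β) + G.a s.1)
      (K.shi s.1 (tg s.1 β) - G.a s.1) ((F β).e s))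
    (he : ∀ β, (Fσ β).e s = stp (L.N s.1 β) (K.slo s.1 (tg s.1 β) + G.a s.1)
      (K.shi s.1 (tg s.1 β) - G.a s.1) / 2 - r' * bw (L.N s.1 β)
        (K.slo s.1 (tg s.1 β) + G.a s.1) (K.shi s.1 (tg s.1 β) - G.a s.1) ((F β).e s))
    {a om ρ : ℝ} (hA : ∀ β, slAK (Fσ β) (ς β) s * bw (L.N s.1 β)
      (K.slo s.1 (tg s.1 β) + G.a s.1) (K.shi s.1 (tg s.1 β) - G.a s.1) ((F β).e s) ≤ a * om)
    (ha : 0 ≤ a) (hom : 0 ≤ om)
    (hρ : ∀ β, om ≤ ρ * stp (L.N s.1 β) (K.slo s.1 (tg s.1 β) + G.a s.1)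
      (K.shi s.1 (tg s.1 β) - G.a s.1)) {x : V} (hx : x ∈ M.F k) :
    ∀ᶠ x' in 𝓝[M.F k] x, ∀ j, j ≠ K.nrm s.1 → h5.toFun x j ∈ pwin G s.1 j →
      h5.toFun x' j ∈ pwin G s.1 j →
      |PS.map Tσ (h5.toFun x') j - PS.map Tσ (h5.toFun x) j| ≤
        a * (2 * ρ * bandD (L.lv s.1) (L.loP s.1) (L.hiP s.1) (L.omP s.1) (h3.toFun x)
          (h3.toFun x')) + ς (bt s.1 j) s * |h5.toFun x' j - h5.toFun x j| := by
  have hkΩ : M.F k ⊆ Ω := Vale.Agent.P073.H193.mesh_sub M k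
  have r0 : 0 < r s := r0'.trans_le rr
  filter_upwards [hkGO_eventually_dsum O r0 r1 hpos hx, self_mem_nhdsWithin] with x' h1 hx' j hj
    hwj hwj'
  have h6 := P.lip (g := h5.toFun) (hkGO_pos O hpos hx) (hkGO_pos O hpos hx') r0'.le
    (e := fun β => (F β).e s) hw he hA hj hwj hwj'
  refine h6.trans (add_le_add ?_ le_rfl)
  have h7 := H.P.dsum_le H.map (b := s) (c := 7 / 8) (d := 1) le_rfl (by norm_num) le_rfl hom hρ
    (hkΩ hx) (hkΩ hx') (by rw [HB_one]; exact hpos x hx) (by rw [HB_one]; exact hpos x' hx')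
  have h1' := (dsum_wlev_le' r0'.le rr r0 (side := (Sigma.fst : PI L s.1 → Bool))
    (ax := tg s.1) (c := pcen L s.1) (w := pwid L (fun β => (F β).e s) s.1) h5.toFun x x').trans h1
  calc a * om * dsum (wlev (ι := PI L s.1) Sigma.fst (tg s.1) r' (pcen L s.1)
        (pwid L (fun β => (F β).e s) s.1) h5.toFun) x x'
      ≤ a * om * dsum (wlev (ι := PI L s.1) Sigma.fst (tg s.1) 1 (pcen L s.1)
        (pwid L (fun β => (F β).e s) s.1) h4.toFun) x x' :=
        mul_le_mul_of_nonneg_left h1' (mul_nonneg ha hom)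
    _ = a * (om * dsum (wlev (ι := PI L s.1) Sigma.fst (tg s.1) 1 (pcen L s.1)
        (pwid L (fun β => (F β).e s) s.1) h4.toFun) x x') := by ring
    _ ≤ _ := mul_le_mul_of_nonneg_left h7 ha

/-- **the local cone estimate of `f5`**, coordinates in the windows -/
theorem hkGO_face_cone {Fσ : Bool → BFam 3 S₀ Λ} {ς : Bool → S₀ → ℝ} {Tσ : Bool → ConHomeo Λ Λ}
    (P : Sg3 L S₀ Fσ ς Tσ) {r' : ℝ} (r0' : 0 < r') (rr : r' ≤ r s) (r1 : r s < 1)
    (hpos : ∀ y ∈ M.F k, h4.toFun y ∈ G.PB (7 / 8) s.1)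
    (hw : ∀ β, 0 < bw (L.N s.1 β) (K.slo s.1 (tg s.1 β) + G.a s.1)
      (K.shi s.1 (tg s.1 β) - G.a s.1) ((F β).e s))
    (he : ∀ β, (Fσ β).e s = stp (L.N s.1 β) (K.slo s.1 (tg s.1 β) + G.a s.1)
      (K.shi s.1 (tg s.1 β) - G.a s.1) / 2 - r' * bw (L.N s.1 β)
        (K.slo s.1 (tg s.1 β) + G.a s.1) (K.shi s.1 (tg s.1 β) - G.a s.1) ((F β).e s))
    {a om ρ : ℝ} (hA : ∀ β, slAK (Fσ β) (ς β) s * bw (L.N s.1 β)
      (K.slo s.1 (tg s.1 β) + G.a s.1) (K.shi s.1 (tg s.1 β) - G.a s.1) ((F β).e s) ≤ a * om)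
    (ha : 0 ≤ a) (hom : 0 ≤ om) (hρ0 : 0 ≤ ρ)
    (hρ : ∀ β, om ≤ ρ * stp (L.N s.1 β) (K.slo s.1 (tg s.1 β) + G.a s.1)
      (K.shi s.1 (tg s.1 β) - G.a s.1)) {A : Set V} (hAk : A ⊆ M.F k) {K₁ K₂ ε Lc : ℝ}
    (h1 : ∀ x ∈ A, ∀ y ∈ A, bandD (L.lv s.1) (L.loP s.1) (L.hiP s.1) (L.omP s.1) (h3.toFun x)
      (h3.toFun y) ≤ K₁ * ‖x - y‖)
    (h2 : ∀ x ∈ A, ∀ y ∈ A, ‖h5.toFun x - h5.toFun y‖ ≤ K₂ * ‖x - y‖)
    (hε : ∀ β, ς β s * K₂ ≤ ε) (hL : a * (2 * ρ * K₁) + ε ≤ Lc) {x : V} (hx : x ∈ A) :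
    ∀ᶠ x' in 𝓝[A] x, ∀ j, j ≠ K.nrm s.1 → PS.map Tσ (h5.toFun x) j ∈ pwin G s.1 j →
      PS.map Tσ (h5.toFun x') j ∈ pwin G s.1 j →
      |PS.map Tσ (h5.toFun x') j - PS.map Tσ (h5.toFun x) j| ≤ Lc * ‖x' - x‖ := by
  filter_upwards [(hkGO_face_lip O P r0' rr r1 hpos hw he hA ha hom hρ (hAk hx)).filter_mono
    (nhdsWithin_mono x hAk), self_mem_nhdsWithin] with x' h6 hx' j hj hwj hwj'
  rw [P.mem_win (hkGO_pos O hpos (hAk hx)) hj] at hwj
  rw [P.mem_win (hkGO_pos O hpos (hAk hx')) hj] at hwj'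
  have h7 := h6 j hj hwj hwj'
  have hς := ((P.isS (bt s.1 j)).s0 s).le
  have h8 : |h5.toFun x' j - h5.toFun x j| ≤ K₂ * ‖x' - x‖ := by
    refine le_trans ?_ (h2 x' hx' x hx)
    have := norm_le_pi_norm (h5.toFun x' - h5.toFun x) j
    rwa [Pi.sub_apply, Real.norm_eq_abs] at this
  have h9 : ς (bt s.1 j) s * |h5.toFun x' j - h5.toFun x j| ≤ ε * ‖x' - x‖ := by
    calc _ ≤ ς (bt s.1 j) s * (K₂ * ‖x' - x‖) := mul_le_mul_of_nonneg_left h8 hς
      _ = ς (bt s.1 j) s * K₂ * ‖x' - x‖ := by ring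
      _ ≤ _ := mul_le_mul_of_nonneg_right (hε _) (norm_nonneg _)
  have h10 : a * (2 * ρ * bandD (L.lv s.1) (L.loP s.1) (L.hiP s.1) (L.omP s.1) (h3.toFun x)
      (h3.toFun x')) ≤ a * (2 * ρ * K₁) * ‖x' - x‖ := by
    have h11 := h1 x hx x' hx'
    rw [norm_sub_rev] at h11
    calc _ ≤ a * (2 * ρ * (K₁ * ‖x' - x‖)) := by gcongr
      _ = _ := by ring
  have h12 := mul_le_mul_of_nonneg_right hL (norm_nonneg (x' - x))
  rw [add_mul] at h12
  linarith

/-- **`LAt` for `f5`** on the faces in the plate -/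
theorem hkGO_face_lat {X : PSet K} (hX : PClosed X) (hs : s.1 ∈ X.s)
    {Fσ : Bool → BFam 3 S₀ Λ} {ς : Bool → S₀ → ℝ} {Tσ : Bool → ConHomeo Λ Λ}
    (P : Sg3 L S₀ Fσ ς Tσ) (hpos : ∀ y ∈ M.F k, h4.toFun y ∈ G.PB (7 / 8) s.1 ∧
      |h4.toFun y (K.nrm s.1) - K.slo s.1 (K.nrm s.1)| < B.τ s.1)
    {A : Set V} (hAk : A ⊆ M.F k) {Lc : ℝ} {x : V} (hx : x ∈ A)
    (hlip : ∀ᶠ x' in 𝓝[A] x, ∀ j, j ≠ K.nrm s.1 → PS.map Tσ (h5.toFun x) j ∈ pwin G s.1 j →
      PS.map Tσ (h5.toFun x') j ∈ pwin G s.1 j →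
      |PS.map Tσ (h5.toFun x') j - PS.map Tσ (h5.toFun x) j| ≤ Lc * ‖x' - x‖) :
    LAt B X Lc A (fun y => PS.map Tσ (h5.toFun y)) x := by
  have hkΩ : M.F k ⊆ Ω := Vale.Agent.P073.H193.mesh_sub M k
  have hp := hkGO_pos O (fun y hy => (hpos y hy).1) (hAk hx)
  have hcont : ContinuousOn (fun y => PS.map Tσ (h5.toFun y)) (M.F k) := by
    have h1 : ContinuousOn (Tσ false).toFun Λ := (Tσ false).cont
    have h2 : ContinuousOn (Tσ true).toFun Λ := (Tσ true).cont
    have h6 : ContinuousOn (fun y => (Tσ false).toFun (h5.toFun y)) (M.F k) :=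
      h1.comp (h5.cont.mono hkΩ) fun y hy => h5.mapsTo (hkΩ hy)
    exact h2.comp h6 fun y hy => (Tσ false).mapsTo (h5.mapsTo (hkΩ hy))
  refine lat_peeled G hX hs (c := 7 / 8) (by norm_num) (hcont.mono hAk x hx)
    (P.mem_PB le_rfl (by norm_num) hp) ?_ hlip
  rw [P.nrm hp]
  exact hkGO_nrm O hpos (hAk hx)

end

end P073.H142
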