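import Vale.Agent.P073.H142.Face3P
import Vale.Agent.P073.H196.ThetaQ

/-!
# P073, block H142 ([FACE3]), part 3: the given faces

`LocJ T A q y`: near `y` each coordinate of `T` changes at most by `A` times the change of the same
coordinate, plus `q` times the norm.  `ThP.locJ`, `Sg3.locJ`: the maps of ROUND P have this
property everywhere.
-/

open Set Metric Topology Filter MeasureTheory
open scoped ENNReal

set_option linter.unusedSectionVars false

namespace P073.H142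

open P073 P073.H936 P073.H936.K3 P073.H880 P073.H880.RP P073.H345 P073.H236 P073.H579 P073.H950
  P073.H919 P073.H228 P073.H196
open Vale.Agent.P073.St (V)
open Vale.Agent.P073.AB (Idx squ)
open Vale.Agent.P073.H73 (Mesh)
open Vale.Agent.P073.H471 Vale.Agent.P073.H267
open P073.Net P073.PA691
open Vale.Agent.P073.H233 (PSet LAt)

/-- near `y` each coordinate of `T` changes at most by `A` times the change of the same coordinate,
plus `q` times the norm -/
def LocJ (T : V → V) (A q : ℝ) (y : V) : Prop :=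
  ∀ᶠ y' in 𝓝 y, ∀ j, |T y' j - T y j| ≤ A * |y' j - y j| + q * ‖y' - y‖

theorem LocJ.id (y : V) : LocJ (fun y => y) 1 0 y :=
  Eventually.of_forall fun y' j => by rw [one_mul, zero_mul, add_zero]

theorem LocJ.mono {T : V → V} {A A' q q' : ℝ} {y : V} (h : LocJ T A q y) (hA : A ≤ A')
    (hq : q ≤ q') : LocJ T A' q' y := by
  filter_upwards [h] with y' h1 j
  have h2 := mul_le_mul_of_nonneg_right hA (abs_nonneg (y' j - y j))
  have h3 := mul_le_mul_of_nonneg_right hq (norm_nonneg (y' - y))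
  linarith [h1 j]

theorem LocJ.norm {T : V → V} {A q : ℝ} {y : V} (h : LocJ T A q y) (hA : 0 ≤ A) (hq : 0 ≤ q) :
    ∀ᶠ y' in 𝓝 y, ‖T y' - T y‖ ≤ (A + q) * ‖y' - y‖ := by
  filter_upwards [h] with y' h1
  rw [pi_norm_le_iff_of_nonneg (by positivity)]
  intro j
  rw [Pi.sub_apply, Real.norm_eq_abs]
  have h2 := norm_le_pi_norm (y' - y) j
  rw [Pi.sub_apply, Real.norm_eq_abs] at h2
  have h3 := mul_le_mul_of_nonneg_left h2 hA
  have h4 := h1 j
  rw [add_mul]
  linarith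

theorem LocJ.comp {T₁ T₂ : V → V} {A₁ q₁ A₂ q₂ : ℝ} {y : V} (h₂ : LocJ T₂ A₂ q₂ (T₁ y))
    (h₁ : LocJ T₁ A₁ q₁ y) (hc : ContinuousAt T₁ y) (hA₁ : 0 ≤ A₁) (hq₁ : 0 ≤ q₁) (hA₂ : 0 ≤ A₂)
    (hq₂ : 0 ≤ q₂) : LocJ (fun y => T₂ (T₁ y)) (A₂ * A₁) (A₂ * q₁ + q₂ * (A₁ + q₁)) y := by
  filter_upwards [hc.eventually h₂, h₁, h₁.norm hA₁ hq₁] with y' h3 h4 h5 j
  refine (h3 j).trans ?_
  have h6 := mul_le_mul_of_nonneg_left (h4 j) hA₂
  have h7 := mul_le_mul_of_nonneg_left h5 hq₂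
  nlinarith

/-- **gluing** over disjoint closed sets, locally finite -/
theorem locJ_glue {ι : Type*} {P : ι → Set V} {Λ : Set V} {T : V → V} {A q : ℝ} {y : V}
    (hΛ : IsOpen Λ) (hy : y ∈ Λ) (hT : ContinuousOn T Λ) (hP : ∀ i, IsClosed (P i))
    (hdis : ∀ i i', (P i ∩ P i').Nonempty → i = i')
    (hlf : ∃ U ∈ 𝓝 y, {i | (P i ∩ U).Nonempty}.Finite) (hoff : ∀ z, (∀ i, z ∉ P i) → T z = z)
    (hA : 1 ≤ A) (hq : 0 ≤ q)
    (hin : ∀ i, y ∈ P i → ∀ z ∈ P i, ∀ j, |T z j - T y j| ≤ A * |z j - y j| + q * ‖z - y‖) :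
    LocJ T A q y := by
  -- near `y` only the sets which contain `y`
  have hnear : ∀ᶠ z in 𝓝 y, ∀ i, z ∈ P i → y ∈ P i := by
    obtain ⟨U, hU, hfin⟩ := hlf
    have h1 : ∀ᶠ z in 𝓝 y, ∀ i ∈ {i | (P i ∩ U).Nonempty}, y ∉ P i → z ∉ P i := by
      rw [eventually_all_finite hfin]
      intro i _
      by_cases hyi : y ∈ P i
      · exact Eventually.of_forall fun z h => absurd hyi h
      · filter_upwards [(hP i).isOpen_compl.mem_nhds hyi] with z hz _
        exact hz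
    filter_upwards [h1, hU] with z h2 h3 i hz
    by_contra hyi
    exact h2 i ⟨z, hz, h3⟩ hyi hz
  have hid : T y = y → (∀ᶠ z in 𝓝 y, (∀ i, z ∉ P i) →
      ∀ j, |T z j - T y j| ≤ A * |z j - y j| + q * ‖z - y‖) := by
    intro hTy
    refine Eventually.of_forall fun z hz j => ?_
    rw [hTy, hoff z hz]
    have h1 := abs_nonneg (z j - y j)
    have h2 := mul_nonneg hq (norm_nonneg (z - y))
    nlinarith
  by_cases hyP : ∃ i, y ∈ P i
  · obtain ⟨i, hi⟩ := hyP
    have honly : ∀ᶠ z in 𝓝 y, z ∉ P i → ∀ i', z ∉ P i' := by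
      filter_upwards [hnear] with z hz hzi i' hzi'
      have h1 := hdis i' i ⟨y, hz i' hzi', hi⟩
      subst h1
      exact hzi hzi'
    by_cases hint : y ∈ interior (P i)
    · filter_upwards [mem_interior_iff_mem_nhds.1 hint] with z hz
      exact hin i hi z hz
    · -- `y` is a limit of fixed points
      have hTy : T y = y := by
        have hcl : y ∈ closure (P i)ᶜ := by
          rw [closure_compl]
          exact hint
        have h1 : (𝓝[(P i)ᶜ] y).NeBot := mem_closure_iff_nhdsWithin_neBot.1 hcl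
        have h2 : Tendsto T (𝓝[(P i)ᶜ] y) (𝓝 (T y)) :=
          ((hT y hy).continuousAt (hΛ.mem_nhds hy)).tendsto.mono_left nhdsWithin_le_nhds
        have h3 : Tendsto T (𝓝[(P i)ᶜ] y) (𝓝 y) := by
          refine Tendsto.congr' ?_ (tendsto_id.mono_left nhdsWithin_le_nhds)
          filter_upwards [nhdsWithin_le_nhds honly, self_mem_nhdsWithin] with z h4 h5
          exact (hoff z (h4 h5)).symm
        exact tendsto_nhds_unique h2 h3
      filter_upwards [hid hTy, honly] with z h1 h2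
      by_cases hz : z ∈ P i
      · exact hin i hi z hz
      · exact h1 (h2 hz)
  · push Not at hyP
    have hTy : T y = y := hoff y hyP
    filter_upwards [hid hTy, hnear] with z h1 h2
    exact h1 fun i hi => hyP i (h2 i hi)

variable {Ω Λ : Set V} {v : V} {K : BoxCx Λ v} {S : Rad K} {W : Wid K S} {B : Boxes W}
  {G : Geo B} {L : PLev G} {S₀ : Set K.S} {F : Bool → BFam 3 S₀ Λ} {T Θ : Bool → ConHomeo Λ Λ}

theorem PK_disj (i i' : S₀) (h : (PK G i.1 ∩ PK G i'.1).Nonempty) : i = i' := by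
  obtain ⟨y, h1, h2⟩ := h
  exact Subtype.ext (PK_unique h1 h2)

/-- the staircases after the thick cells (196) -/
theorem thP_locJ {c : K.S → Bool → ℝ} {h0 : ∀ s β, 0 < c s β} {h1 : ∀ s β, c s β ≤ L.c s β}
    {hΛ : IsOpen Λ} {A : ℝ} (H : ThP L c h0 h1 hΛ S₀ F T Θ A) {ε : ℝ} (hε0 : 0 ≤ ε) {y : V}
    (hy : y ∈ Λ) (hε : ∀ s : S₀, y ∈ PK G s.1 → ∀ β,
      (3 * (F β).D s + L.c s.1 β) * (4 / B.τ s.1) ≤ ε) :
    LocJ (fun y => (T true).toFun ((T false).toFun ((Θ true).toFun ((Θ false).toFun y)))) A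
      (ε * (A + ε)) y := by
  have hA := H.A2
  refine locJ_glue (P := fun s : S₀ => PK G s.1) hΛ hy ThP.map_cont (fun s => isClosed_PK G s.1)
    PK_disj (lf_PK_sub G S₀ y hy) (fun z hz => H.map_off fun s hs => hz ⟨s, hs⟩) (by linarith)
    (by positivity) fun s hs z hz j => ?_
  by_cases hj : j = K.nrm s.1
  · subst hj
    show |(T true).toFun ((T false).toFun ((Θ true).toFun ((Θ false).toFun z))) (K.nrm s.1) -
      (T true).toFun ((T false).toFun ((Θ true).toFun ((Θ false).toFun y))) (K.nrm s.1)| ≤ _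
    rw [H.map_nrm s hz, H.map_nrm s hs]
    have h2 := abs_nonneg (z (K.nrm s.1) - y (K.nrm s.1))
    have h3 : 0 ≤ ε * (A + ε) * ‖z - y‖ := by positivity
    nlinarith
  · obtain ⟨β, rfl⟩ : ∃ β, j = tg s.1 β := ⟨bt s.1 j, (tg_bt s.1 hj).symm⟩
    exact H.map_tg_le s (hε s hs) hz hs β

/-- one map of the second staircases -/
theorem sg3_locJ_one {ς : Bool → S₀ → ℝ} (P : Sg3 L S₀ F ς T) (hΛ : IsOpen Λ) (β : Bool)
    {A ε : ℝ} (hA : 1 ≤ A) (hε0 : 0 ≤ ε) {y : V} (hy : y ∈ Λ)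
    (hsl : ∀ s : S₀, y ∈ PK G s.1 → slAK (F β) (ς β) s ≤ A)
    (hε : ∀ s : S₀, y ∈ PK G s.1 → (F β).e s * (4 / B.τ s.1) ≤ ε) :
    LocJ (T β).toFun A ε y := by
  have hoff : ∀ z, (∀ s : S₀, z ∉ PK G s.1) → (T β).toFun z = z := fun z hz =>
    (P.isS β).off z fun s hs => hz s (P.mem_K hs)
  have hon : ∀ s : S₀, ∀ z, z ∈ PK G s.1 →
      (T β).toFun z = gB ((F β).B s) ((F β).e s) (ς β s) z := by
    intro s z hz
    by_cases hK : z ∈ ((F β).B s).K
    · exact (P.isS β).on s z hK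
    · rw [(suppG ((P.isS β).ok s)).id z hK]
      refine (P.isS β).off z fun s' hs' => ?_
      have h2 : s = s' := Subtype.ext (PK_unique hz (P.mem_K hs'))
      subst h2
      exact hK hs'
  refine locJ_glue (P := fun s : S₀ => PK G s.1) hΛ hy (T β).cont (fun s => isClosed_PK G s.1)
    PK_disj (lf_PK_sub G S₀ y hy) hoff hA hε0 fun s hs z hz j => ?_
  rw [hon s z hz, hon s y hs]
  have hτ := B.τ_pos s.1
  have hp := G.τ_p s.1
  have hN := norm_nonneg (z - y)
  by_cases hj : j = ((F β).B s).j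
  · subst hj
    have h2 := abs_gB_sub_le ((P.isS β).ok s) (ρ := B.τ s.1 / 4) (by positivity)
      (fun i => by
        refine le_trans ?_ ((P.B β s).r2 i)
        show _ ≤ (if i = K.nrm s.1 then B.τ s.1 / 2 else G.p s.1 / 8) / 2
        split_ifs
        · linarith
        · linarith) (y := z) (y' := y) (d := ‖z - y‖) (fun i _ => by
          have := norm_le_pi_norm (z - y) i
          rwa [Pi.sub_apply, Real.norm_eq_abs] at this) hN
    refine h2.trans (add_le_add (mul_le_mul_of_nonneg_right (hsl s hs) (abs_nonneg _)) ?_)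
    calc (F β).e s * (‖z - y‖ / (B.τ s.1 / 4)) = (F β).e s * (4 / B.τ s.1) * ‖z - y‖ := by
          field_simp
      _ ≤ _ := mul_le_mul_of_nonneg_right (hε s hs) hN
  · rw [gB_ne hj, gB_ne hj]
    have h2 := abs_nonneg (z j - y j)
    have h3 : 0 ≤ ε * ‖z - y‖ := by positivity
    nlinarith

/-- the second staircases -/
theorem sg3_locJ {ς : Bool → S₀ → ℝ} (P : Sg3 L S₀ F ς T) (hΛ : IsOpen Λ)
    {A ε : ℝ} (hA : 1 ≤ A) (hε0 : 0 ≤ ε) {y : V} (hy : y ∈ Λ)
    (hsl : ∀ s : S₀, y ∈ PK G s.1 → ∀ β, slAK (F β) (ς β) s ≤ A)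
    (hε : ∀ s : S₀, y ∈ PK G s.1 → ∀ β, (F β).e s * (4 / B.τ s.1) ≤ ε) :
    LocJ (fun y => PS.map T y) (A * A) (A * ε + ε * (A + ε)) y := by
  have hin : ∀ s : S₀, (T false).toFun y ∈ PK G s.1 → y ∈ PK G s.1 := by
    intro s hs
    by_cases hK : ∃ s', y ∈ ((F false).B s').K
    · obtain ⟨s', hs'⟩ := hK
      have h2 := P.mem_K ((P.isS false).mem hs')
      have h3 : s = s' := Subtype.ext (PK_unique hs h2)
      subst h3
      exact P.mem_K hs'
    · push Not at hK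
      rwa [(P.isS false).off y hK] at hs
  have h1 := sg3_locJ_one P hΛ false hA hε0 hy (fun s hs => hsl s hs false)
    fun s hs => hε s hs false
  have h2 := sg3_locJ_one P hΛ true hA hε0 ((T false).mapsTo hy)
    (fun s hs => hsl s (hin s hs) true) fun s hs => hε s (hin s hs) true
  exact LocJ.comp (T₂ := (T true).toFun) (T₁ := (T false).toFun) h2 h1
    (((T false).cont y hy).continuousAt (hΛ.mem_nhds hy)) (by linarith) hε0 (by linarith) hε0

/-- **`f5` on the given faces**: the map `SΘ = S ∘ Θ` followed by the second staircases -/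
theorem giv_locJ {c : K.S → Bool → ℝ} {h0 : ∀ s β, 0 < c s β} {h1 : ∀ s β, c s β ≤ L.c s β}
    {hΛ : IsOpen Λ} {A : ℝ} (H : ThP L c h0 h1 hΛ S₀ F T Θ A) {L' : PLev G}
    {Fσ : Bool → BFam 3 S₀ Λ} {ς : Bool → S₀ → ℝ} {Tσ : Bool → ConHomeo Λ Λ}
    (P : Sg3 L' S₀ Fσ ς Tσ) {A' ε ε' : ℝ} (hA' : 1 ≤ A') (hε0 : 0 ≤ ε) (hε0' : 0 ≤ ε') {y : V}
    (hy : y ∈ Λ) (hε : ∀ s : S₀, y ∈ PK G s.1 → ∀ β,
      (3 * (F β).D s + L.c s.1 β) * (4 / B.τ s.1) ≤ ε)
    (hsl : ∀ s : S₀, y ∈ PK G s.1 → ∀ β, slAK (Fσ β) (ς β) s ≤ A')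
    (hε' : ∀ s : S₀, y ∈ PK G s.1 → ∀ β, (Fσ β).e s * (4 / B.τ s.1) ≤ ε') :
    LocJ (fun y => PS.map Tσ
      ((T true).toFun ((T false).toFun ((Θ true).toFun ((Θ false).toFun y)))))
      (A' * A' * A)
      (A' * A' * (ε * (A + ε)) + (A' * ε' + ε' * (A' + ε')) * (A + ε * (A + ε))) y := by
  have hA := H.A2
  have hin : ∀ s : S₀, (T true).toFun ((T false).toFun ((Θ true).toFun ((Θ false).toFun y))) ∈
      PK G s.1 → y ∈ PK G s.1 := by
    intro s hs
    by_cases hK : ∃ s' : S₀, y ∈ PK G s'.1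
    · obtain ⟨s', hs'⟩ := hK
      have h3 : s = s' := Subtype.ext (PK_unique hs (H.map_mem s' hs'))
      subst h3
      exact hs'
    · push Not at hK
      rwa [H.map_off fun s hs => hK ⟨s, hs⟩] at hs
  have hm : (T true).toFun ((T false).toFun ((Θ true).toFun ((Θ false).toFun y))) ∈ Λ :=
    (T true).mapsTo ((T false).mapsTo ((Θ true).mapsTo ((Θ false).mapsTo hy)))
  exact LocJ.comp (T₂ := fun y => PS.map Tσ y)
    (T₁ := fun y => (T true).toFun ((T false).toFun ((Θ true).toFun ((Θ false).toFun y))))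
    (sg3_locJ P hΛ hA' hε0' hm (fun s hs => hsl s (hin s hs))
    fun s hs => hε' s (hin s hs)) (thP_locJ H hε0 hy hε)
    ((ThP.map_cont y hy).continuousAt (hΛ.mem_nhds hy)) (by linarith) (by positivity)
    (by positivity) (by positivity)

/-- a local estimate along a set -/
theorem LocJ.face {T : V → V} {A q : ℝ} {g : V → V} {X : Set V} {x : V}
    (h : LocJ T A q (g x)) (hg : ContinuousWithinAt g X x) {j : Fin 3} {K₁ K₂ Lc : ℝ}
    (h1 : ∀ x' ∈ X, |g x' j - g x j| ≤ K₁ * ‖x' - x‖)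
    (h2 : ∀ x' ∈ X, ‖g x' - g x‖ ≤ K₂ * ‖x' - x‖) (hA : 0 ≤ A) (hq : 0 ≤ q)
    (hL : A * K₁ + q * K₂ ≤ Lc) : ∀ᶠ x' in 𝓝[X] x, |T (g x') j - T (g x) j| ≤ Lc * ‖x' - x‖ := by
  filter_upwards [hg.eventually h, self_mem_nhdsWithin] with x' h3 h4
  refine (h3 j).trans ?_
  have h5 := mul_le_mul_of_nonneg_left (h1 x' h4) hA
  have h6 := mul_le_mul_of_nonneg_left (h2 x' h4) hq
  have h7 := mul_le_mul_of_nonneg_right hL (norm_nonneg (x' - x))
  rw [add_mul] at h7
  linarith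

end P073.H142
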