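import Vale.Agent.P073.H142.FacePath
import Vale.Agent.P073.H880.Box1

/-!
# P073, block H142: clipped levels of a box and bands of the insertion
-/

open Set Metric Topology Filter
open scoped ENNReal

namespace P073.H142

open P073 P073.H31 P073.H155 P073.H880 P073.H579

/-- the clipped level in terms of the band coordinate -/
theorem clp_eq_rho {lo hi : ℝ → ℝ} {a c w : ℝ} (hw : 0 < w) (hlo : lo a = c - w)
    (hhi : hi a = c + w) (t : ℝ) :
    clp 1 ((t - c) / w) = 2 * (rho lo hi a t / (hi a - lo a)) - 1 := by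
  have e : hi a - lo a = 2 * w := by rw [hlo, hhi]; ring
  have e2 : 2 * (rho lo hi a t / (hi a - lo a)) = rho lo hi a t / w := by
    rw [e]; field_simp
  rw [e2]
  rcases le_total t (lo a) with h1 | h1
  · rw [rho_of_le h1, zero_div, zero_sub]
    rw [hlo] at h1
    have h2 : (t - c) / w ≤ -1 := by rw [div_le_iff₀ hw]; linarith
    unfold clp
    rw [min_eq_left (by linarith), max_eq_left h2]
  · rcases le_total (hi a) t with h2 | h2
    · rw [rho_of_ge h2 (by linarith), e]
      rw [hhi] at h2
      have h3 : 1 ≤ (t - c) / w := by rw [le_div_iff₀ hw]; linarith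
      unfold clp
      rw [min_eq_right h3, max_eq_right (by norm_num)]
      field_simp
      norm_num
    · have h3 : rho lo hi a t = t - lo a := by
        rw [rho, min_eq_right (by linarith), max_eq_right (by linarith)]
      rw [h3]
      rw [hlo] at h1 ⊢
      rw [hhi] at h2
      have h4 : |(t - c) / w| ≤ 1 := by
        rw [abs_le]
        constructor
        · rw [le_div_iff₀ hw]; linarith
        · rw [div_le_iff₀ hw]; linarith
      rw [clp_of_le h4]
      field_simp
      ring

variable {ι E : Type*} [Fintype ι] {side : ι → Bool} {ax : Bool → Fin 3} {c w : ι → ℝ}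

/-- the total change of the clipped levels is at most the change of the bands -/
theorem dsum_wlev_le_bch {L : Fin 3 → Finset ℝ} {lo hi : Fin 3 → ℝ → ℝ} {lev : ι → ℝ}
    (hw : ∀ i, 0 < w i) (hmem : ∀ i, lev i ∈ L (ax (side i)))
    (hlo : ∀ i, lo (ax (side i)) (lev i) = c i - w i)
    (hhi : ∀ i, hi (ax (side i)) (lev i) = c i + w i)
    (hinj : ∀ i i', ax (side i) = ax (side i') → lev i = lev i' → i = i')
    (hlt : ∀ j, ∀ a ∈ L j, lo j a < hi j a) {om : ℝ} (hom : 0 ≤ om) (g : E → Fin 3 → ℝ)
    (x y : E) :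
    om * dsum (wlev side ax 1 c w g) x y ≤ 2 * bch L lo hi (fun _ _ => om) (g x) (g y) := by
  classical
  set B : (Σ _ : Fin 3, ℝ) → ℝ := fun z =>
    om * (|rho (lo z.1) (hi z.1) z.2 (g x z.1) - rho (lo z.1) (hi z.1) z.2 (g y z.1)| /
      (hi z.1 z.2 - lo z.1 z.2)) with hB
  have e0 : bch L lo hi (fun _ _ => om) (g x) (g y) =
      ∑ z ∈ (Finset.univ : Finset (Fin 3)).sigma L, B z := by
    rw [Finset.sum_sigma]
    rfl
  set φ : ι → (Σ _ : Fin 3, ℝ) := fun i => ⟨ax (side i), lev i⟩ with hφ
  have hφi : Function.Injective φ := by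
    intro i i' h
    have h1 : ax (side i) = ax (side i') := congrArg (fun z : (Σ _ : Fin 3, ℝ) => z.1) h
    have h2 : lev i = lev i' := congrArg (fun z : (Σ _ : Fin 3, ℝ) => z.2) h
    exact hinj i i' h1 h2
  have e1 : ∀ i, om * |wlev side ax 1 c w g i y - wlev side ax 1 c w g i x| = 2 * B (φ i) := by
    intro i
    have h1 := clp_eq_rho (hw i) (hlo i) (hhi i) (g x (ax (side i)))
    have h2 := clp_eq_rho (hw i) (hlo i) (hhi i) (g y (ax (side i)))
    have hpos : 0 < hi (ax (side i)) (lev i) - lo (ax (side i)) (lev i) :=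
      sub_pos.2 (hlt _ _ (hmem i))
    show om * |clp 1 ((g y (ax (side i)) - c i) / w i) - clp 1 ((g x (ax (side i)) - c i) / w i)| =
      2 * (om * (|rho (lo (ax (side i))) (hi (ax (side i))) (lev i) (g x (ax (side i))) -
        rho (lo (ax (side i))) (hi (ax (side i))) (lev i) (g y (ax (side i)))| /
        (hi (ax (side i)) (lev i) - lo (ax (side i)) (lev i))))
    rw [h1, h2, sub_sub_sub_cancel_right, ← mul_sub, ← sub_div, abs_mul, abs_div,
      abs_of_pos hpos, abs_two, abs_sub_comm]
    ring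
  have hB0 : ∀ z ∈ (Finset.univ : Finset (Fin 3)).sigma L, 0 ≤ B z := by
    intro z hz
    have hpos : 0 < hi z.1 z.2 - lo z.1 z.2 := sub_pos.2 (hlt _ _ (Finset.mem_sigma.1 hz).2)
    exact mul_nonneg hom (div_nonneg (abs_nonneg _) hpos.le)
  calc om * dsum (wlev side ax 1 c w g) x y = ∑ i, 2 * B (φ i) := by
        rw [dsum, Finset.mul_sum]
        exact Finset.sum_congr rfl fun i _ => e1 i
    _ = 2 * ∑ z ∈ Finset.univ.image φ, B z := by
        rw [Finset.mul_sum, Finset.sum_image fun a _ b _ h => hφi h]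
    _ ≤ 2 * bch L lo hi (fun _ _ => om) (g x) (g y) := by
        rw [e0]
        refine mul_le_mul_of_nonneg_left (Finset.sum_le_sum_of_subset_of_nonneg ?_
          fun z hz _ => hB0 z hz) zero_le_two
        intro z hz
        obtain ⟨i, -, rfl⟩ := Finset.mem_image.1 hz
        exact Finset.mem_sigma.2 ⟨Finset.mem_univ _, hmem i⟩

end P073.H142
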