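import Vale.Agent.P073.H142.Face3P
import Vale.Agent.P073.H429.THBox
import Vale.Agent.P073.H399.PassR3
import Vale.Agent.P073.H193.CellPre

/-!
# P073, block H142 ([FACE3]), part 4: the layer of the tubes (T-hook and last staircase)

`TLay`: the last two maps before the collapse: `h6 = f5` with replacements in the boxes `P b` of
the tubes, `f = S ∘ h6`.  `TLay.est`: local estimate of the coordinate of the edge;
`TLay.lat`: `LAt` for `f`.
-/

open Set Metric Topology Filter MeasureTheory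
open scoped ENNReal

namespace P073.H142

open P073 P073.Net P073.PA691 P073.H236 P073.H429 P073.H880 P073.H936 P073.H936.K3
open Vale.Agent.P073.St (V)
open Vale.Agent.P073.H73 (Mesh)
open Vale.Agent.P073.H471 Vale.Agent.P073.H267
open Vale.Agent.P073.H233 (PSet LAt)

section bump

variable {n : ℕ} {j : Fin n} {lo hi r : Fin n → ℝ} {C : ℝ}

theorem gi_full {i : Fin n} (hij : i ≠ j) (hr : 0 < r i) {y : Fin n → ℝ}
    (hy : lo i ≤ y i ∧ y i ≤ hi i) : gi j lo hi r i y = 1 := by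
  unfold gi
  rw [if_neg hij]
  have h3 : 0 ≤ (y i - lo i) / r i := div_nonneg (by linarith) hr.le
  have h4 : 0 ≤ (hi i - y i) / r i := div_nonneg (by linarith) hr.le
  exact le_antisymm (min_le_left _ _) (le_min le_rfl (le_min (by linarith) (by linarith)))

/-- only the coordinates in the fade zones count -/
theorem abs_bmp_sub_le' (hC : 0 ≤ C) {d δ : ℝ} (hδ : 0 < δ) (hr : ∀ i, δ ≤ r i)
    {y y' : Fin n → ℝ} (hd : ∀ i, i ≠ j → (lo i ≤ y i ∧ y i ≤ hi i) ∧ (lo i ≤ y' i ∧ y' i ≤ hi i) ∨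
      |y i - y' i| ≤ d) (hd0 : 0 ≤ d) :
    |bmp j lo hi r C y - bmp j lo hi r C y'| ≤ C * (d / δ) := by
  classical
  have e : bmp j lo hi r C y' = bmp j lo hi r C (fun i =>
      if (lo i ≤ y i ∧ y i ≤ hi i) ∧ (lo i ≤ y' i ∧ y' i ≤ hi i) then y i else y' i) := by
    unfold bmp
    congr 2
    refine Finset.inf'_congr _ rfl fun i _ => ?_
    by_cases hij : i = j
    · unfold gi
      rw [if_pos hij, if_pos hij]
    · by_cases hc : (lo i ≤ y i ∧ y i ≤ hi i) ∧ (lo i ≤ y' i ∧ y' i ≤ hi i)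
      · have hri := hδ.trans_le (hr i)
        rw [gi_full hij hri hc.2, gi_full hij hri]
        rw [if_pos hc]
        exact hc.1
      · unfold gi
        rw [if_neg hij, if_neg hij]
        beta_reduce
        rw [if_neg hc]
  rw [e]
  refine abs_bmp_sub_le hC hδ hr (fun i hij => ?_) hd0
  by_cases hc : (lo i ≤ y i ∧ y i ≤ hi i) ∧ (lo i ≤ y' i ∧ y' i ≤ hi i)
  · rw [if_pos hc, sub_self, abs_zero]
    exact hd0
  · rw [if_neg hc]
    exact (hd i hij).resolve_left hc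

/-- Lipschitz bound everywhere, only the coordinates in the fade zones count -/
theorem hx_abs_sub_le' (B : HX n) {A : ℝ} (hA : 1 ≤ A)
    (hs : ∀ s t, |B.k s - B.k t| ≤ A * |s - t|) {ρ d : ℝ} (hρ : 0 < ρ) (hr : ∀ i, ρ ≤ B.r i)
    {y y' : Fin n → ℝ} (hd : ∀ i, i ≠ B.j → (B.lo i ≤ y i ∧ y i ≤ B.hi i) ∧
      (B.lo i ≤ y' i ∧ y' i ≤ B.hi i) ∨ |y i - y' i| ≤ d) (hd0 : 0 ≤ d) :
    |B.H.toFun y B.j - B.H.toFun y' B.j| ≤ A * |y B.j - y' B.j| + B.D * (d / ρ) := by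
  refine (VD.abs_vc_sub_vc_le hA (hs _ _)).trans ?_
  exact add_le_add_right (abs_bmp_sub_le' B.D0 hρ hr hd hd0) _

end bump

variable {Ω Λ : Set V} {v : V} {K : BoxCx Λ v} {S : Rad K} {W : Wid K S} {B : Boxes W}
  {M : Mesh Ω} {γ : Type} {φ : γ → K.G} {Pb : γ → Set V} {F : HFam 3 γ Λ} {D : Set V}
  {ι : γ → Type} [∀ b, Fintype (ι b)] {l h : ∀ b, ι b → ℝ} {ς : γ → ℝ}
  {f5 h6 : ConHomeo Ω Λ} {Sm : ConHomeo Λ Λ}

/-- **the layer of the tubes**: `h6` is `f5` with replacements in the boxes `Pb b`, `D` is the union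
of the open drawn cells, `Sm` is the last staircase with the bands `[l b i, h b i]`. -/
structure TLay (B : Boxes W) (φ : γ → K.G) (Pb : γ → Set V) (F : HFam 3 γ Λ) (D : Set V)
    {ι : γ → Type} [∀ b, Fintype (ι b)] (l h : ∀ b, ι b → ℝ) (ς : γ → ℝ)
    (f5 h6 : ConHomeo Ω Λ) (Sm : ConHomeo Λ Λ) : Prop where
  inj : Function.Injective φ
  cl : ∀ b, IsClosed (Pb b)
  j : ∀ b, (F.X b).j = K.dir (φ b)
  PF : ∀ b, ∀ y ∈ Pb b, (F.X b).Full y
  KE : ∀ b, (F.X b).K ⊆ B.E (φ b)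
  /-- the supports are smaller than the kill zones in the transversal directions -/
  KT : ∀ b, ∀ y ∈ (F.X b).K, ∀ k, k ≠ K.dir (φ b) → |y k - K.w (K.a (φ b)) k| < B.T (φ b)
  isH : F.IsH Sm
  bs : ∀ b, BS (F.X b).al (F.X b).be (l b) (h b)
  ς0 : ∀ b, 0 < ς b
  ς1 : ∀ b, ς b ≤ 1
  k : ∀ b, (F.X b).k = sgG (F.X b).al (F.X b).be (l b) (h b) (ς b)
  off : ∀ x ∈ Ω, (∀ b, f5.toFun x ∉ interior (Pb b)) → h6.toFun x = f5.toFun x
  mem : ∀ b, ∀ x ∈ Ω, (h6.toFun x ∈ Pb b ↔ f5.toFun x ∈ Pb b)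
  loc : ∀ b, ∀ x ∈ Ω, f5.toFun x ∈ Pb b → ∀ᶠ x' in 𝓝[{x' | x' ∈ Ω ∧ f5.toFun x' ∈ Pb b}] x,
    x' ∉ D → ∑ i, |clam (l b i) (h b i) (h6.toFun x' (F.X b).j) -
        clam (l b i) (h b i) (h6.toFun x (F.X b).j)| ≤
      ∑ i, |clam (l b i) (h b i) (f5.toFun x' (F.X b).j) -
        clam (l b i) (h b i) (f5.toFun x (F.X b).j)|

namespace TLay

variable (H : TLay B φ Pb F D l h ς f5 h6 Sm)

include H

theorem PK (b : γ) : Pb b ⊆ (F.X b).K := fun _ hy => (H.PF b _ hy).mem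

theorem Ese (b : γ) : (F.X b).K ⊆ W.se (φ b) := (H.KE b).trans ((B.E_subset _).trans Ze_subset)

theorem not_K {b b' : γ} (hb : b' ≠ b) {y : V} (hy : y ∈ W.se (φ b)) : y ∉ (F.X b').K :=
  fun h => Set.disjoint_left.1 (disjoint_se fun e => hb (H.inj e)) (H.Ese b' h) hy

/-- near a support the staircase is the map of the box -/
theorem eq_H {b : γ} {y : V} (hy : y ∈ W.se (φ b)) : Sm.toFun y = (F.X b).H.toFun y := by
  by_cases h1 : y ∈ (F.X b).K
  · exact H.isH.on b y h1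
  · rw [H.isH.off y fun b' => ?_, (F.X b).supp.id y h1]
    by_cases hb : b' = b
    · rw [hb]; exact h1
    · exact H.not_K hb hy

theorem memK {b : γ} {x : V} (hx : x ∈ Ω) : h6.toFun x ∈ (F.X b).K ↔ f5.toFun x ∈ (F.X b).K := by
  by_cases h1 : ∀ b', f5.toFun x ∉ interior (Pb b')
  · rw [H.off x hx h1]
  · push Not at h1
    obtain ⟨b', h1⟩ := h1
    have h2 := interior_subset h1
    have h3 := (H.mem b' x hx).2 h2
    by_cases hb : b' = b
    · subst hb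
      exact ⟨fun _ => H.PK b' h2, fun _ => H.PK b' h3⟩
    · exact ⟨fun h => absurd (H.PK b' h3) (H.not_K hb (H.Ese b h)),
        fun h => absurd (H.PK b' h2) (H.not_K hb (H.Ese b h))⟩

theorem mem_se {b : γ} {x : V} (hx : x ∈ Ω) (h : f5.toFun x ∈ W.se (φ b)) :
    h6.toFun x ∈ W.se (φ b) := by
  by_cases h1 : ∀ b', f5.toFun x ∉ interior (Pb b')
  · rw [H.off x hx h1]
    exact h
  · push Not at h1
    obtain ⟨b', h1⟩ := h1
    have h2 := interior_subset h1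
    by_cases hb : b' = b
    · subst hb
      exact H.Ese _ (H.PK _ ((H.mem _ x hx).2 h2))
    · exact absurd (H.PK b' h2) (H.not_K hb h)

omit H in
theorem isOpen_se (e : K.G) : IsOpen (W.se e) := isOpen_spt width_marg

/-- near the supports: either both points are in the box and the levels of `h6` are controlled, or
the map is not changed -/
theorem dich {b : γ} {A : Set V} (hA : A ⊆ Ω) (hD : Disjoint A D) {x : V} (hx : x ∈ A)
    (hse : f5.toFun x ∈ W.se (φ b)) : ∀ᶠ x' in 𝓝[A] x, f5.toFun x' ∈ W.se (φ b) ∧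
      ((f5.toFun x ∈ Pb b ∧ f5.toFun x' ∈ Pb b ∧
        ∑ i, |clam (l b i) (h b i) (h6.toFun x' (F.X b).j) -
          clam (l b i) (h b i) (h6.toFun x (F.X b).j)| ≤
        ∑ i, |clam (l b i) (h b i) (f5.toFun x' (F.X b).j) -
          clam (l b i) (h b i) (f5.toFun x (F.X b).j)|) ∨
      (h6.toFun x = f5.toFun x ∧ h6.toFun x' = f5.toFun x')) := by
  have hc : ContinuousWithinAt f5.toFun A x := (f5.cont.mono hA) x hx
  have e1 : ∀ᶠ x' in 𝓝[A] x, f5.toFun x' ∈ W.se (φ b) :=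
    hc.eventually ((isOpen_se (φ b)).mem_nhds hse)
  have hoff : ∀ y ∈ A, f5.toFun y ∈ W.se (φ b) → f5.toFun y ∉ interior (Pb b) →
      h6.toFun y = f5.toFun y := by
    intro y hy h1 h2
    refine H.off y (hA hy) fun b' h3 => ?_
    by_cases hb : b' = b
    · subst hb; exact h2 h3
    · exact H.not_K hb h1 (H.PK b' (interior_subset h3))
  by_cases h1 : f5.toFun x ∈ Pb b
  · have h2 := H.loc b x (hA hx) h1
    have h3 : ∀ᶠ x' in 𝓝[A] x, f5.toFun x' ∈ Pb b →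
        ∑ i, |clam (l b i) (h b i) (h6.toFun x' (F.X b).j) -
          clam (l b i) (h b i) (h6.toFun x (F.X b).j)| ≤
        ∑ i, |clam (l b i) (h b i) (f5.toFun x' (F.X b).j) -
          clam (l b i) (h b i) (f5.toFun x (F.X b).j)| := by
      have h4 := eventually_nhdsWithin_iff.1 h2
      filter_upwards [nhdsWithin_le_nhds h4, self_mem_nhdsWithin] with x' h5 h6 h7
      exact h5 ⟨hA h6, h7⟩ (Set.disjoint_left.1 hD h6)
    by_cases hint : f5.toFun x ∈ interior (Pb b)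
    · filter_upwards [e1, h3, hc.eventually (isOpen_interior.mem_nhds hint)] with x' h4 h5 h6
      exact ⟨h4, Or.inl ⟨h1, interior_subset h6, h5 (interior_subset h6)⟩⟩
    · filter_upwards [e1, h3, self_mem_nhdsWithin] with x' h4 h5 h6
      refine ⟨h4, ?_⟩
      by_cases h7 : f5.toFun x' ∈ Pb b
      · exact Or.inl ⟨h1, h7, h5 h7⟩
      · exact Or.inr ⟨hoff x hx hse hint, hoff x' h6 h4 fun h8 => h7 (interior_subset h8)⟩
  · filter_upwards [e1, hc.eventually ((H.cl b).isOpen_compl.mem_nhds h1), self_mem_nhdsWithin]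
      with x' h4 h5 h6
    exact ⟨h4, Or.inr ⟨hoff x hx hse fun h8 => h1 (interior_subset h8),
      hoff x' h6 h4 fun h8 => h5 (interior_subset h8)⟩⟩

/-- **the local estimate of the coordinate of the edge**, general costs -/
theorem estC {b : γ} {A : Set V} (hA : A ⊆ Ω) (hD : Disjoint A D) {x : V} (hx : x ∈ A)
    (hse : f5.toFun x ∈ W.se (φ b)) {c₀ c₁ c₂ c : V → ℝ} {sl κ ρ : ℝ} (hρ : 0 < ρ)
    (hr : ∀ i, ρ ≤ (F.X b).r i)
    (hsl : slG (F.X b).al (F.X b).be (l b) (h b) (ς b) ≤ sl) (hκ : (F.X b).D / ρ ≤ κ)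
    (h1 : ∀ᶠ x' in 𝓝[A] x, |f5.toFun x' (F.X b).j - f5.toFun x (F.X b).j| ≤ c₀ x')
    (h2 : ∀ i, i ≠ (F.X b).j → (f5.toFun x i ∈ Ioo ((F.X b).lo i) ((F.X b).hi i) ∨
      ∀ᶠ x' in 𝓝[A] x, |f5.toFun x' i - f5.toFun x i| ≤ c₁ x'))
    (hc₁ : ∀ᶠ x' in 𝓝[A] x, 0 ≤ c₁ x')
    (h3 : ∀ᶠ x' in 𝓝[A] x, |h6.toFun x' (F.X b).j - h6.toFun x (F.X b).j| ≤ c₂ x')
    (hc : ∀ᶠ x' in 𝓝[A] x, sl * c₀ x' + κ * c₁ x' + ς b * c₂ x' ≤ c x') :
    ∀ᶠ x' in 𝓝[A] x, |Sm.toFun (h6.toFun x') (F.X b).j - Sm.toFun (h6.toFun x) (F.X b).j| ≤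
      c x' := by
  classical
  have hcf : ContinuousWithinAt f5.toFun A x := (f5.cont.mono hA) x hx
  have h2' : ∀ᶠ x' in 𝓝[A] x, ∀ i, i ≠ (F.X b).j →
      ((F.X b).lo i ≤ f5.toFun x' i ∧ f5.toFun x' i ≤ (F.X b).hi i) ∧
      ((F.X b).lo i ≤ f5.toFun x i ∧ f5.toFun x i ≤ (F.X b).hi i) ∨
      |f5.toFun x' i - f5.toFun x i| ≤ c₁ x' := by
    rw [eventually_all]
    intro i
    by_cases hij : i = (F.X b).j
    · exact Eventually.of_forall fun x' h => absurd hij h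
    rcases h2 i hij with h4 | h4
    · have h5 : Tendsto (fun x' => f5.toFun x' i) (𝓝[A] x) (𝓝 (f5.toFun x i)) :=
        ((continuous_apply i).tendsto _).comp hcf
      filter_upwards [h5.eventually (Ioo_mem_nhds h4.1 h4.2)] with x' h6 _
      exact Or.inl ⟨⟨h6.1.le, h6.2.le⟩, h4.1.le, h4.2.le⟩
    · filter_upwards [h4] with x' h6 _
      exact Or.inr h6
  have hBS := H.bs b
  have hk := H.k b
  have hς0 := H.ς0 b
  have hς1 := H.ς1 b
  have hsl1 : 1 ≤ slG (F.X b).al (F.X b).be (l b) (h b) (ς b) := hBS.one_le_slG hς1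
  have hκ0 : 0 ≤ κ := (div_nonneg (F.X b).D0 hρ.le).trans hκ
  filter_upwards [H.dich hA hD hx hse, h1, h2', h3, hc₁, hc, self_mem_nhdsWithin]
    with x' h4 h5 h6' h7 hc1 hcc hx'
  obtain ⟨h8, h9⟩ := h4
  rcases h9 with ⟨ha, hb, hc'⟩ | ⟨ha, hb⟩
  · -- both points in the box
    have h10 := abs_isH_sub_le H.isH hBS hς0 hς1 hk
      (H.PF b _ ((H.mem b x' (hA hx')).2 hb)) (H.PF b _ ((H.mem b x (hA hx)).2 ha))
    have h11 : ∑ i, |clam (l b i) (h b i) (f5.toFun x' (F.X b).j) -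
        clam (l b i) (h b i) (f5.toFun x (F.X b).j)| ≤
          |f5.toFun x' (F.X b).j - f5.toFun x (F.X b).j| := by
      have key : ∀ s t, s ≤ t → ∑ i, |clam (l b i) (h b i) t - clam (l b i) (h b i) s| ≤
          t - s := by
        intro s t hst
        have e : ∑ i, |clam (l b i) (h b i) t - clam (l b i) (h b i) s| =
            bt (l b) (h b) t - bt (l b) (h b) s := by
          unfold bt
          rw [← Finset.sum_sub_distrib]
          refine Finset.sum_congr rfl fun i _ => ?_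
          rw [abs_of_nonneg (sub_nonneg.2 (clam_mono _ _ hst))]
        rw [e]
        exact (hBS.bt_sub_le hst).trans (clam_sub_le hst)
      rcases le_total (f5.toFun x (F.X b).j) (f5.toFun x' (F.X b).j) with h12 | h12
      · rw [abs_of_nonneg (sub_nonneg.2 h12)]
        exact key _ _ h12
      · rw [abs_sub_comm (f5.toFun x' (F.X b).j), abs_of_nonneg (sub_nonneg.2 h12)]
        refine le_trans (le_of_eq ?_) (key _ _ h12)
        exact Finset.sum_congr rfl fun i _ => abs_sub_comm _ _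
    have h12 := (hc'.trans h11).trans h5
    have h13 : ς b * |h6.toFun x' (F.X b).j - h6.toFun x (F.X b).j| ≤ ς b * c₂ x' :=
      mul_le_mul_of_nonneg_left h7 hς0.le
    have h14 : slG (F.X b).al (F.X b).be (l b) (h b) (ς b) *
        ∑ i, |clam (l b i) (h b i) (h6.toFun x' (F.X b).j) -
          clam (l b i) (h b i) (h6.toFun x (F.X b).j)| ≤ sl * c₀ x' :=
      mul_le_mul hsl h12 (Finset.sum_nonneg fun _ _ => abs_nonneg _) (by linarith)
    have h16 : 0 ≤ κ * c₁ x' := mul_nonneg hκ0 hc1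
    linarith
  · rw [ha, hb, H.eq_H h8, H.eq_H hse]
    have h10 := hx_abs_sub_le' (F.X b) hsl1 (fun s t => by rw [hk]; exact hBS.lip hς0 hς1 s t)
      hρ hr (y := f5.toFun x') (y' := f5.toFun x) (d := c₁ x') h6' hc1
    have h11 : slG (F.X b).al (F.X b).be (l b) (h b) (ς b) *
        |f5.toFun x' (F.X b).j - f5.toFun x (F.X b).j| ≤ sl * c₀ x' :=
      mul_le_mul hsl h5 (abs_nonneg _) (by linarith)
    have h12 : (F.X b).D * (c₁ x' / ρ) ≤ κ * c₁ x' := by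
      have e : (F.X b).D * (c₁ x' / ρ) = (F.X b).D / ρ * c₁ x' := by ring
      rw [e]
      exact mul_le_mul_of_nonneg_right hκ hc1
    have h16 : 0 ≤ ς b * c₂ x' := mul_nonneg hς0.le ((abs_nonneg _).trans h7)
    linarith

/-- **the local estimate of the coordinate of the edge** -/
theorem est {b : γ} {A : Set V} (hA : A ⊆ Ω) (hD : Disjoint A D) {x : V} (hx : x ∈ A)
    (hse : f5.toFun x ∈ W.se (φ b)) {L₀ L₁ K₂ ε sl κ ρ Lc : ℝ} (hρ : 0 < ρ)
    (hr : ∀ i, ρ ≤ (F.X b).r i)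
    (hsl : slG (F.X b).al (F.X b).be (l b) (h b) (ς b) ≤ sl) (hκ : (F.X b).D / ρ ≤ κ)
    (h1 : ∀ᶠ x' in 𝓝[A] x, |f5.toFun x' (F.X b).j - f5.toFun x (F.X b).j| ≤ L₀ * ‖x' - x‖)
    (h2 : ∀ i, i ≠ (F.X b).j → (f5.toFun x i ∈ Ioo ((F.X b).lo i) ((F.X b).hi i) ∨
      ∀ᶠ x' in 𝓝[A] x, |f5.toFun x' i - f5.toFun x i| ≤ L₁ * ‖x' - x‖)) (hL₁ : 0 ≤ L₁)
    (h3 : ∀ᶠ x' in 𝓝[A] x, |h6.toFun x' (F.X b).j - h6.toFun x (F.X b).j| ≤ K₂ * ‖x' - x‖)
    (hε : ς b * K₂ ≤ ε) (hLc : sl * L₀ + κ * L₁ + ε ≤ Lc) :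
    ∀ᶠ x' in 𝓝[A] x, |Sm.toFun (h6.toFun x') (F.X b).j - Sm.toFun (h6.toFun x) (F.X b).j| ≤
      Lc * ‖x' - x‖ := by
  refine H.estC hA hD hx hse hρ hr hsl hκ h1 h2
    (Eventually.of_forall fun x' => mul_nonneg hL₁ (norm_nonneg _)) h3
    (Eventually.of_forall fun x' => ?_)
  have hn := norm_nonneg (x' - x)
  have h4 := mul_le_mul_of_nonneg_right hLc hn
  have h5 := mul_le_mul_of_nonneg_right hε hn
  calc sl * (L₀ * ‖x' - x‖) + κ * (L₁ * ‖x' - x‖) + ς b * (K₂ * ‖x' - x‖) =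
        (sl * L₀ + κ * L₁) * ‖x' - x‖ + ς b * K₂ * ‖x' - x‖ := by ring
    _ ≤ (sl * L₀ + κ * L₁) * ‖x' - x‖ + ε * ‖x' - x‖ := by linarith
    _ = (sl * L₀ + κ * L₁ + ε) * ‖x' - x‖ := by ring
    _ ≤ _ := h4

/-- off the supports nothing changes -/
theorem eventually_eq {A : Set V} (hA : A ⊆ Ω) {x : V} (hx : x ∈ A)
    (hoff : ∀ b, f5.toFun x ∉ (F.X b).K) :
    ∀ᶠ x' in 𝓝[A] x, Sm.toFun (h6.toFun x') = f5.toFun x' := by
  have hc : ContinuousWithinAt f5.toFun A x := (f5.cont.mono hA) x hx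
  obtain ⟨U, hU, hfin⟩ := F.lf (f5.toFun x) (f5.mapsTo (hA hx))
  have h1 : (⋂ b ∈ {b | ((F.X b).K ∩ U).Nonempty}, ((F.X b).K)ᶜ) ∩ U ∈ 𝓝 (f5.toFun x) := by
    refine inter_mem ?_ hU
    rw [biInter_mem hfin]
    exact fun b _ => (F.X b).isCompact_K.isClosed.isOpen_compl.mem_nhds (hoff b)
  have key : ∀ y ∈ A, (∀ b, f5.toFun y ∉ (F.X b).K) → Sm.toFun (h6.toFun y) = f5.toFun y := by
    intro y hy h2
    rw [H.off y (hA hy) fun b hb => h2 b (H.PK b (interior_subset hb)), H.isH.off _ h2]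
  filter_upwards [hc.eventually h1, self_mem_nhdsWithin] with x' h2 hx'
  refine key x' hx' fun b hb => ?_
  have h3 : b ∈ {b | ((F.X b).K ∩ U).Nonempty} := ⟨_, hb, h2.2⟩
  exact mem_iInter₂.1 h2.1 b h3 hb

/-- the alternatives of `LAt` at a point of a support -/
theorem zone {b : γ} {y : V} (hy : y ∈ (F.X b).K) : y ∈ interior (B.E (φ b)) ∨
    y ∈ interior (Zv W (K.a (φ b))) ∨ y ∈ interior (Zv W (K.b (φ b))) := by
  obtain ⟨⟨h1, h2⟩, -⟩ := H.KE b hy
  have h3 := H.KT b y hy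
  have hT := B.T_pos (φ b)
  have hTa := B.T_le_a (φ b)
  have hTb := B.T_le_b (φ b)
  have hwa := W.wv_pos (K.a (φ b))
  have hwb := W.wv_pos (K.b (φ b))
  by_cases ha : y (K.dir (φ b)) ≤ K.w (K.a (φ b)) (K.dir (φ b)) + W.wv (K.a (φ b)) / 2
  · right; left
    rw [Zv, interior_closedBall _ hwa.ne', mem_ball, dist_pi_lt_iff hwa]
    intro k
    rw [Real.dist_eq, abs_lt]
    by_cases hk : k = K.dir (φ b)
    · subst hk
      constructor <;> linarith
    · have h4 := abs_lt.1 (h3 k hk)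
      constructor <;> linarith
  by_cases hb : K.w (K.b (φ b)) (K.dir (φ b)) - W.wv (K.b (φ b)) / 2 ≤ y (K.dir (φ b))
  · right; right
    rw [Zv, interior_closedBall _ hwb.ne', mem_ball, dist_pi_lt_iff hwb]
    intro k
    rw [Real.dist_eq, abs_lt]
    by_cases hk : k = K.dir (φ b)
    · subst hk
      constructor <;> linarith
    · have h4 := abs_lt.1 (h3 k hk)
      rw [← wab K (φ b) hk]
      constructor <;> linarith
  left
  push Not at ha hb
  rw [mem_interior_iff_mem_nhds]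
  have e1 : ∀ᶠ z : V in 𝓝 y, K.w (K.a (φ b)) (K.dir (φ b)) + W.wv (K.a (φ b)) / 2 <
      z (K.dir (φ b)) ∧ z (K.dir (φ b)) < K.w (K.b (φ b)) (K.dir (φ b)) - W.wv (K.b (φ b)) / 2 :=
    ((continuous_apply (K.dir (φ b))).tendsto y).eventually (Ioo_mem_nhds ha hb)
  have e2 : ∀ᶠ z : V in 𝓝 y, ∀ k, k ≠ K.dir (φ b) →
      |z k - K.w (K.a (φ b)) k| < B.T (φ b) := by
    rw [eventually_all]
    intro k
    by_cases hk : k = K.dir (φ b)
    · exact Eventually.of_forall fun z h => absurd hk h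
    · have h4 : Continuous fun z : V => |z k - K.w (K.a (φ b)) k| := by fun_prop
      filter_upwards [h4.tendsto y |>.eventually (gt_mem_nhds (h3 k hk))] with z hz _
      exact hz
  filter_upwards [e1, e2] with z h4 h5
  exact ⟨⟨h4.1.le, h4.2.le⟩, fun k hk => (h5 k hk).le⟩

open Vale.Agent.P073.H193 (LAtC) in
/-- **`LAtC` for the final map** -/
theorem latC {X : PSet K} {A : Set V} (hA : A ⊆ Ω) {x : V} (hx : x ∈ A)
    {c : V → ℝ} (h1 : (∀ b, f5.toFun x ∉ (F.X b).K) → LAtC B X c A f5.toFun x)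
    (h2 : ∀ b, f5.toFun x ∈ (F.X b).K → φ b ∈ X.e ∧ K.a (φ b) ∈ X.w ∧ K.b (φ b) ∈ X.w ∧
      ∀ᶠ x' in 𝓝[A] x, |Sm.toFun (h6.toFun x') (F.X b).j - Sm.toFun (h6.toFun x) (F.X b).j| ≤
        c x') : LAtC B X c A (fun y => Sm.toFun (h6.toFun y)) x := by
  by_cases h : ∃ b, f5.toFun x ∈ (F.X b).K
  · obtain ⟨b, hb⟩ := h
    obtain ⟨h3, h4, h5, h6'⟩ := h2 b hb
    have h7 : Sm.toFun (h6.toFun x) ∈ (F.X b).K := H.isH.mem ((H.memK (hA hx)).2 hb)
    rcases H.zone h7 with h8 | h8 | h8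
    · refine Or.inr (Or.inr (Or.inl ⟨φ b, h3, h8, ?_⟩))
      rw [H.j b] at h6'
      exact h6'
    · exact Or.inr (Or.inr (Or.inr ⟨_, h4, h8⟩))
    · exact Or.inr (Or.inr (Or.inr ⟨_, h5, h8⟩))
  · push Not at h
    have e := H.eventually_eq hA hx h
    have e0 : Sm.toFun (h6.toFun x) = f5.toFun x := e.self_of_nhdsWithin hx
    rcases h1 h with h3 | ⟨s, hs, h3, h4⟩ | ⟨i, hi, h3, h4⟩ | ⟨i, hi, h3⟩
    · refine Or.inl ?_
      filter_upwards [h3, e] with x' h4 h5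
      rw [h5, e0]; exact h4
    · refine Or.inr (Or.inl ⟨s, hs, by beta_reduce; rw [e0]; exact h3, ?_⟩)
      filter_upwards [h4, e] with x' h4 h5
      rw [h5, e0]; exact h4
    · refine Or.inr (Or.inr (Or.inl ⟨i, hi, by beta_reduce; rw [e0]; exact h3, ?_⟩))
      filter_upwards [h4, e] with x' h4 h5
      rw [h5, e0]; exact h4
    · exact Or.inr (Or.inr (Or.inr ⟨i, hi, by beta_reduce; rw [e0]; exact h3⟩))

/-- **`LAt` for the final map** -/
theorem lat {X : PSet K} {A : Set V} (hA : A ⊆ Ω) {x : V} (hx : x ∈ A)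
    {Lc : ℝ} (h1 : (∀ b, f5.toFun x ∉ (F.X b).K) → LAt B X Lc A f5.toFun x)
    (h2 : ∀ b, f5.toFun x ∈ (F.X b).K → φ b ∈ X.e ∧ K.a (φ b) ∈ X.w ∧ K.b (φ b) ∈ X.w ∧
      ∀ᶠ x' in 𝓝[A] x, |Sm.toFun (h6.toFun x') (F.X b).j - Sm.toFun (h6.toFun x) (F.X b).j| ≤
        Lc * ‖x' - x‖) : LAt B X Lc A (fun y => Sm.toFun (h6.toFun y)) x :=
  H.latC hA hx h1 h2

end TLay

/-! ### from the hook of the tubes -/

theorem clam_eq_clp {c w t : ℝ} (hw : 0 < w) :
    clam (c - w) (c + w) t = w * H880.clp 1 ((t - c) / w) + w := by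
  unfold clam H880.clp
  have e1 : c + w - (c - w) = w * 2 := by ring
  have e2 : w * max (-1) (min ((t - c) / w) 1) = max (-w) (min (t - c) w) := by
    rw [mul_max_of_nonneg _ _ hw.le, mul_min_of_nonneg _ _ hw.le, mul_div_cancel₀ _ hw.ne']
    simp
  rw [e1, e2, ← max_add_add_right, ← min_add_add_right]
  congr 1
  · ring
  · congr 1 <;> ring

section hook

open P073.H919 P073.H142 P073.H669 P073.H579

variable {Y : Lat B} {sl : γ → Finset (ℝ × ℝ)} {μ : γ → ℝ}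
  {T : ∀ b, Thn (eal W (φ b)) (ebe W (φ b)) (sl b) (μ b)} {Zb : γ → Set M.ι}
  {r : K.G → Fin 3 → ℝ} {hr : ∀ e k, 0 < r e k}
  {Y' : Lat B} {hp : ∀ e k, Y'.p e k + r e k ≤ B.T e} {hq : ∀ e k, Y'.q e k + r e k ≤ B.T e}
  {hφ : Function.Injective φ} {h0 : ∀ b, 0 < ς b} {h1 : ∀ b, ς b ≤ 1}

/-- the sums of the levels -/
theorem sum_clam_eq {Th : γ} {g : V → V} {x x' : V} :
    ∑ i : (T Th).I, |clam ((T Th).c i - (T Th).w i) ((T Th).c i + (T Th).w i)
        (g x' (K.dir (φ Th))) -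
      clam ((T Th).c i - (T Th).w i) ((T Th).c i + (T Th).w i) (g x (K.dir (φ Th)))| =
    ((T Th).om / 2 - (T Th).e) * dsum (wlev (ι := (T Th).I) (fun _ => true) (dax (φ Th)) 1
      (T Th).c (T Th).w g) x x' := by
  unfold dsum
  rw [Finset.mul_sum]
  refine Finset.sum_congr rfl fun i _ => ?_
  have hw := (T Th).w_pos i
  rw [clam_eq_clp hw, clam_eq_clp hw]
  have e : ∀ a b : ℝ, (T Th).w i * a + (T Th).w i - ((T Th).w i * b + (T Th).w i) =
      (T Th).w i * (a - b) := fun a b => by ring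
  rw [e, abs_mul, abs_of_pos hw]
  rfl

/-- **the layer of the tubes from the hook**; `Y` are the boxes of the hook, `Y'` the larger boxes
where the staircase is full -/
theorem tlay_of (hΩ : IsOpen Ω) (I : ∀ b, (thook Y M φ T Zb b).In f5)
    (hIC : ∀ b (q : (thook Y M φ T Zb b).Q), (I b).K.C q = M.Q q.1)
    (HG : Glued (thook Y M φ T Zb) f5 h6)
    (hg : ∀ b, ∃ g : ConHomeo ((thook Y M φ T Zb b).U f5)
      (Icc (thook Y M φ T Zb b).lo (thook Y M φ T Zb b).hi),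
      ((I b).boxK hΩ).Tube g ∧ EqOn h6.toFun g.toFun ((thook Y M φ T Zb b).U f5))
    (hYp : ∀ e k, Y.p e k ≤ Y'.p e k) (hYq : ∀ e k, Y.q e k ≤ Y'.q e k)
    (hS : (tfam Y' r hr hp hq hφ T h0 h1).IsH Sm)
    (hp' : ∀ e k, Y'.p e k + r e k < B.T e) (hq' : ∀ e k, Y'.q e k + r e k < B.T e) :
    TLay B φ (fun b => YB Y (φ b)) (tfam Y' r hr hp hq hφ T h0 h1)
      (⋃ b, ⋃ i ∈ Zb b, interior (M.Q i)) (fun b i => (T b).c i - (T b).w i)
      (fun b i => (T b).c i + (T b).w i) ς f5 h6 Sm where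
  inj := hφ
  cl := fun b => isClosed_Icc
  j := fun b => rfl
  PF := fun b y hy => by
    show (tX Y' r hr (T b) (h0 b) (h1 b)).Full y
    exact tX_full.2 (YB_mono hYp hYq _ hy)
  KE := fun b => by
    show (tX Y' r hr (T b) (h0 b) (h1 b)).K ⊆ _
    rw [tX_K (hp := hp) (hq := hq)]
    exact YB_sub_E _ _
  KT := fun b y hy k hk => by
    change y ∈ (tX Y' r hr (T b) (h0 b) (h1 b)).K at hy
    rw [tX_K (hp := hp) (hq := hq)] at hy
    obtain ⟨-, h3⟩ := mem_YB.1 hy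
    have h4 := h3 k hk
    have h5 := hp' (φ b) k
    have h6 := hq' (φ b) k
    change K.w (K.a (φ b)) k - (Y'.p (φ b) k + r (φ b) k) ≤ y k ∧
      y k ≤ K.w (K.a (φ b)) k + (Y'.q (φ b) k + r (φ b) k) at h4
    rw [abs_lt]
    constructor <;> linarith [h4.1, h4.2]
  isH := hS
  bs := fun b => (T b).bs
  ς0 := h0
  ς1 := h1
  k := fun b => rfl
  off := fun x hx h => HG.off x hx h
  mem := fun b x hx => HG.mem b x hx
  loc := by
    intro b x hx hxP
    obtain ⟨g, hT, he⟩ := hg b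
    have hxU : x ∈ (thook Y M φ T Zb b).U f5 := (HBox.mem_U (I b) hx).2 hxP
    have h2 := (Loc.of_tube hT).rest hxU
    have h3 : {x' | x' ∈ Ω ∧ f5.toFun x' ∈ YB Y (φ b)} = (thook Y M φ T Zb b).U f5 := by
      ext y
      constructor
      · rintro ⟨h4, h5⟩
        exact (HBox.mem_U (I b) h4).2 h5
      · intro h4
        exact ⟨HBox.U_sub (I b) h4, (HBox.mem_U (I b) (HBox.U_sub (I b) h4)).1 h4⟩
    rw [h3]
    filter_upwards [h2, self_mem_nhdsWithin] with y h4 hy hD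
    have h5 := h4 fun q hq' => hD (by
      have e : ((I b).boxK hΩ).K.C q = M.Q q.1 := hIC b q
      rw [e] at hq'
      exact mem_iUnion.2 ⟨b, mem_iUnion₂.2 ⟨q.1, q.2, hq'⟩⟩)
    show ∑ i : (T b).I, |clam ((T b).c i - (T b).w i) ((T b).c i + (T b).w i)
        (h6.toFun y (K.dir (φ b))) - clam ((T b).c i - (T b).w i) ((T b).c i + (T b).w i)
        (h6.toFun x (K.dir (φ b)))| ≤ ∑ i : (T b).I, |clam ((T b).c i - (T b).w i)
        ((T b).c i + (T b).w i) (f5.toFun y (K.dir (φ b))) -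
        clam ((T b).c i - (T b).w i) ((T b).c i + (T b).w i) (f5.toFun x (K.dir (φ b)))|
    rw [sum_clam_eq, sum_clam_eq]
    have hpos : 0 ≤ (T b).om / 2 - (T b).e := by
      have h6 := (T b).eo
      have h7 := (T b).om_pos
      have h8 := (T b).e0
      change 8 * (T b).e ≤ (T b).om at h6
      linarith
    refine mul_le_mul_of_nonneg_left ?_ hpos
    refine le_trans (le_of_eq ?_) h5
    unfold dsum wlev
    rw [he hxU, he hy]
    rfl

end hook

end P073.H142
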