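import Vale.Agent.P073.H142.Hull
import Vale.Agent.P073.H155.Ener
import Vale.Agent.P073.H155.CycSum
import Vale.Agent.P073.H304.SpecB

/-!
# P073, block H142 (FACETAIL): from the cone estimates on a face to the clauses of the output
-/

open Set Metric Topology Filter MeasureTheory
open scoped ENNReal

namespace P073.H142

open P073
open Vale.Agent.P073.St (V)
open Vale.Agent.P073.SQ (cube ev)
open Vale.Agent.P073.H73 (Mesh sqr faceL onSeg Adapted)
open Vale.Agent.P073.H193 (Edges Cyc)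
open Vale.Agent.P073.H155 (vv ce)
open Vale.Agent.P073.H304 (LipBd)
open P073.H155 (Star cn cm ab dp)
open P073.Net (len)

section local_lip

variable {E F : Type*} [NormedAddCommGroup E] [NormedSpace ℝ E]
  [NormedAddCommGroup F] [NormedSpace ℝ F]

/-- a local Lipschitz constant on a convex set is a global one -/
theorem lip_of_local {C : Set E} (hC : Convex ℝ C) {g : E → F} {K : ℝ}
    (h : ∀ x ∈ C, ∀ᶠ y in 𝓝[C] x, ‖g y - g x‖ ≤ K * ‖y - x‖) :
    ∀ x ∈ C, ∀ y ∈ C, ‖g x - g y‖ ≤ K * ‖x - y‖ := by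
  have hc : ContinuousOn g C := by
    intro x hx
    show Tendsto g (𝓝[C] x) (𝓝 (g x))
    rw [tendsto_iff_norm_sub_tendsto_zero]
    have h1 : Tendsto (fun y => K * ‖y - x‖) (𝓝[C] x) (𝓝 0) := by
      have h2 : Continuous fun y : E => K * ‖y - x‖ := by fun_prop
      have h3 := (h2.tendsto x).mono_left (nhdsWithin_le_nhds (s := C))
      simpa using h3
    refine tendsto_of_tendsto_of_tendsto_of_le_of_le' tendsto_const_nhds h1
      (Eventually.of_forall fun y => norm_nonneg _) (h x hx)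
  intro x hx y hy
  have h4 := P073.H880.dsum_le_of_local (κ := Unit) hC (w := fun _ z => ‖g z - g y‖) (K := K)
    (fun _ => (hc.sub continuousOn_const).norm) (fun z hz => by
      filter_upwards [h z hz] with t ht
      rw [P073.H880.dsum, Fintype.sum_unique, dist_eq_norm]
      refine (abs_norm_sub_norm_le _ _).trans ?_
      rw [sub_sub_sub_cancel_right]
      exact ht) hy hx
  rw [P073.H880.dsum, Fintype.sum_unique, dist_eq_norm, sub_self, norm_zero, sub_zero,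
    abs_norm] at h4
  exact h4

/-- the cone over a convex set is convex -/
theorem convex_coneSetAt (O : E) {S : Set E} (hS : Convex ℝ S) : Convex ℝ (coneSetAt O S) := by
  rintro x ⟨s, hs, a, ha, rfl⟩ y ⟨t, ht, b, hb, rfl⟩ α β hα hβ hαβ
  have h0 : 0 ≤ α * s + β * t := add_nonneg (mul_nonneg hα hs.1) (mul_nonneg hβ ht.1)
  have h1 : α * s + β * t ≤ 1 := by
    calc α * s + β * t ≤ α * 1 + β * 1 := add_le_add (mul_le_mul_of_nonneg_left hs.2 hα)
          (mul_le_mul_of_nonneg_left ht.2 hβ)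
      _ = 1 := by rw [mul_one, mul_one, hαβ]
  rcases h0.eq_or_lt with h | h
  · refine ⟨0, ⟨le_rfl, zero_le_one⟩, a, ha, ?_⟩
    have hαs : α * s = 0 := by nlinarith [mul_nonneg hα hs.1, mul_nonneg hβ ht.1]
    have hβt : β * t = 0 := by nlinarith [mul_nonneg hα hs.1, mul_nonneg hβ ht.1]
    rw [zero_smul, add_zero, smul_add, smul_add, smul_smul, smul_smul, hαs, hβt, zero_smul,
      zero_smul, add_zero, add_zero, ← add_smul, hαβ, one_smul]
  · set r := α * s + β * t with hr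
    refine ⟨r, ⟨h0, h1⟩, (α * s / r) • a + (β * t / r) • b, hS ha hb
      (div_nonneg (mul_nonneg hα hs.1) h0) (div_nonneg (mul_nonneg hβ ht.1) h0)
      (by rw [← add_div, ← hr, div_self h.ne']), ?_⟩
    have hO : α • O + β • O = O := by rw [← add_smul, hαβ, one_smul]
    have e1 : r • ((α * s / r) • a + (β * t / r) • b - O) =
        (α * s) • (a - O) + (β * t) • (b - O) := by
      rw [smul_sub, smul_add, smul_smul, smul_smul, mul_div_cancel₀ _ h.ne',
        mul_div_cancel₀ _ h.ne', hr, add_smul, smul_sub, smul_sub]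
      abel
    have e2 : α • (O + s • (a - O)) + β • (O + t • (b - O)) =
        (α • O + β • O) + ((α * s) • (a - O) + (β * t) • (b - O)) := by
      rw [smul_add, smul_add, smul_smul, smul_smul]; abel
    rw [e1, e2, hO]

end local_lip

variable {Ω : Set V} {M : Mesh Ω} {E : Edges M} {k : M.κ}

/-- a face as a star, with the cyclic enumeration of its edges -/
structure FStar (E : Edges M) (k : M.κ) where
  /-- the cyclic enumeration -/
  C : Cyc E k
  /-- centre -/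
  O : V
  /-- inner radius -/
  rho : ℝ
  /-- outer radius -/
  R : ℝ
  mem : O ∈ M.F k
  star : Star (C.n + 1) (vv C) O rho R (M.F k)
  R0 : 0 ≤ R
  ratio : R / rho ≤ M.c k ^ 2
  size : M.r k ≤ 2 * M.c k * rho
  sq : ∀ (a : V) (l : Fin 3) (σ : ℝ), 0 < σ → M.F k = sqr a l σ → O = a ∧ rho = σ ∧ R = σ

theorem exists_fstar (E : Edges M) (k : M.κ) : Nonempty (FStar E k) := by
  obtain ⟨C⟩ := Vale.Agent.P073.H193.exists_cyc E k
  obtain ⟨O, rho, R, h1, h2, h3, h4, h5, h6⟩ := Vale.Agent.P073.H155.exists_star C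
  exact ⟨⟨C, O, rho, R, h1, h2, h3, h4, h5, h6⟩⟩

/-- the constant on the cone over the edge `e` -/
noncomputable def FStar.con (S : FStar E k) (C₁ : ℝ) (b : E.ε → ℝ) (e : E.ε) : ℝ :=
  C₁ * (b e / ‖E.b e - E.a e‖ + (∑ e ∈ (E.fin_face k).toFinset, b e) / S.rho)

theorem FStar.ab_eq (S : FStar E k) (C₁ : ℝ) (b : E.ε → ℝ) (j : ℕ) :
    ab C₁ S.rho (S.C.n + 1) (vv S.C) (fun j => b (ce S.C j)) j = S.con C₁ b (ce S.C j) := by
  unfold ab FStar.con
  rw [Vale.Agent.P073.H155.norm_vv, Vale.Agent.P073.H155.sum_ce]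

theorem FStar.cn_eq (S : FStar E k) (j : ℕ) :
    cn (vv S.C) S.O j = coneSetAt S.O (E.seg (ce S.C j)) := by
  rw [Vale.Agent.P073.H155.seg_vv]; rfl

/-- the cone estimate, local form: for `g` on the cone over every edge of the face -/
def FStar.Est (S : FStar E k) (C₁ : ℝ) (b : E.ε → ℝ) (g : V → V) : Prop :=
  ∀ e, E.seg e ⊆ M.F k → ∀ x ∈ coneSetAt S.O (E.seg e), ∀ᶠ y in 𝓝[coneSetAt S.O (E.seg e)] x,
    ‖g y - g x‖ ≤ S.con C₁ b e * ‖y - x‖

theorem convex_cone_seg (O : V) (e : E.ε) : Convex ℝ (coneSetAt O (E.seg e)) :=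
  convex_coneSetAt O (convex_segment _ _)

theorem FStar.Est.glob {S : FStar E k} {C₁ : ℝ} {b : E.ε → ℝ} {g : V → V} (H : S.Est C₁ b g)
    {e : E.ε} (he : E.seg e ⊆ M.F k) : ∀ x ∈ coneSetAt S.O (E.seg e),
      ∀ y ∈ coneSetAt S.O (E.seg e), ‖g x - g y‖ ≤ S.con C₁ b e * ‖x - y‖ :=
  lip_of_local (convex_cone_seg S.O e) (H e he)

theorem FStar.Est.cone {S : FStar E k} {C₁ : ℝ} {b : E.ε → ℝ} {g : V → V} (H : S.Est C₁ b g)
    (j : ℕ) : ∀ x ∈ cn (vv S.C) S.O j, ∀ y ∈ cn (vv S.C) S.O j, ‖g x - g y‖ ≤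
      ab C₁ S.rho (S.C.n + 1) (vv S.C) (fun j => b (ce S.C j)) j * ‖x - y‖ := by
  rw [S.ab_eq, S.cn_eq]
  exact H.glob (S.C.sub _)

/-- **(lip)** on one face -/
theorem FStar.Est.lip {S : FStar E k} {C₁ : ℝ} (hC₁ : 0 ≤ C₁) {b : E.ε → ℝ} {g : V → V}
    (H : S.Est C₁ b g) {K : ℝ} (hK : 0 ≤ K)
    (hb : ∀ e, E.seg e ⊆ M.F k → b e ≤ K * ‖E.b e - E.a e‖) :
    ∀ x ∈ M.F k, ∀ y ∈ M.F k, ‖g x - g y‖ ≤ C₁ * (1 + 12 * M.c k ^ 2) * K * ‖x - y‖ := by
  intro x hx y hy
  obtain ⟨ν, t, hν, hpl⟩ := (M.fat k).plane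
  have hcv : Convex ℝ (M.F k) := (Vale.Agent.P073.H193.pgn_of_fat (M.fat k)).convex
  have h1 := S.star.ener_lip hcv hν hpl (g := g) (C := C₁) (K := K) hC₁ hK
    (b := fun j => b (ce S.C j)) (fun j _ => by
      rw [Vale.Agent.P073.H155.norm_vv]; exact hb _ (S.C.sub _))
    (fun j _ x hx y hy => by rw [dist_eq_norm, dist_eq_norm]; exact H.cone j x hx y hy) hx hy
  rw [dist_eq_norm, dist_eq_norm] at h1
  refine h1.trans (mul_le_mul_of_nonneg_right ?_ (norm_nonneg _))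
  refine mul_le_mul_of_nonneg_right ?_ hK
  refine mul_le_mul_of_nonneg_left ?_ hC₁
  linarith [S.ratio]

/-- **(energy)** on one face -/
theorem FStar.Est.energy {S : FStar E k} {C₁ p : ℝ} (hC₁ : 0 ≤ C₁) (hp : 1 ≤ p) {b : E.ε → ℝ}
    {g : V → V} (H : S.Est C₁ b g) (hb : ∀ e, E.seg e ⊆ M.F k → 0 ≤ b e) {a : V} {l : Fin 3}
    {σ : ℝ} (hσ : 0 < σ) (hF : M.F k = sqr a l σ) :
    faceL p g a l σ ≤ 2 * ENNReal.ofReal (dp p * C₁ ^ p * σ ^ 2 *
      ∑ e ∈ (E.fin_face k).toFinset, ‖E.b e - E.a e‖ ^ (1 - p) * b e ^ p) := by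
  obtain ⟨h1, h2, h3⟩ := S.sq a l σ hσ hF
  have hS : Star (S.C.n + 1) (vv S.C) a σ σ (sqr a l σ) := by
    have := S.star
    rw [h1, h2, h3, hF] at this
    exact this
  have h4 := P073.H155.ener_face hσ hS hp hC₁ (b := fun j => b (ce S.C j))
    (fun j _ => hb _ (S.C.sub _)) (g := g) (fun j _ x hx y hy => by
      have := H.cone j x (by rw [h1]; exact hx) y (by rw [h1]; exact hy)
      rw [h2] at this
      exact this)
  refine h4.trans_eq ?_
  congr 3
  rw [← Vale.Agent.P073.H155.sum_ce S.C fun e => ‖E.b e - E.a e‖ ^ (1 - p) * b e ^ p]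
  refine Finset.sum_congr rfl fun j _ => ?_
  rw [Vale.Agent.P073.H155.norm_vv]

/-- the local Lipschitz bound on one face -/
noncomputable def FStar.G (S : FStar E k) (C₁ : ℝ) (b : E.ε → ℝ) : V → ℝ :=
  cm (S.C.n + 1) (vv S.C) S.O (ab C₁ S.rho (S.C.n + 1) (vv S.C) (fun j => b (ce S.C j)))

/-- **(face)** on one face -/
theorem FStar.Est.lipBd {S : FStar E k} {C₁ : ℝ} {b : E.ε → ℝ}
    {g : V → V} (H : S.Est C₁ b g) : LipBd g (M.F k) (S.G C₁ b) where
  usc := (P073.H155.usc_cm _ _ _ _).upperSemicontinuousOn _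
  nonneg := fun x _ => P073.H155.cm_nonneg _ _ _ _ x
  bdd := by
    refine ⟨∑ j ∈ Finset.range (S.C.n + 1),
      |ab C₁ S.rho (S.C.n + 1) (vv S.C) (fun j => b (ce S.C j)) j|, ?_⟩
    rintro _ ⟨x, -, rfl⟩
    refine P073.H155.cm_le.2 ⟨Finset.sum_nonneg fun j _ => abs_nonneg _, fun j hj _ => ?_⟩
    exact (le_abs_self _).trans (Finset.single_le_sum
      (f := fun j => |ab C₁ S.rho (S.C.n + 1) (vv S.C) (fun j => b (ce S.C j)) j|)
      (fun j _ => abs_nonneg _) (Finset.mem_range.2 hj))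
  lip := fun x _ => by
    have h1 := S.star.ev_lip (cost := fun y x => ‖g y - g x‖) (fun j _ x hx y hy => by
      show ‖g y - g x‖ ≤ _ * dist y x
      rw [dist_eq_norm]; exact H.cone j y hy x hx) x
    filter_upwards [h1] with y hy
    rw [dist_eq_norm] at hy
    exact hy

/-- **(face)**, the integral -/
theorem FStar.int_le {S : FStar E k} {C₁ p : ℝ} (hC₁ : 0 ≤ C₁) (hp : 1 ≤ p) {b : E.ε → ℝ}
    (hb : ∀ e, E.seg e ⊆ M.F k → 0 ≤ b e) {a : V} {l : Fin 3}
    {σ : ℝ} (hσ : 0 < σ) (hF : M.F k = sqr a l σ) :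
    ∫⁻ x in cube a σ, ENNReal.ofReal (S.G C₁ b (Function.update x l (a l)) ^ p) ≤
      ENNReal.ofReal (dp p * C₁ ^ p * σ ^ 2 *
      ∑ e ∈ (E.fin_face k).toFinset, ‖E.b e - E.a e‖ ^ (1 - p) * b e ^ p) := by
  obtain ⟨h1, h2, h3⟩ := S.sq a l σ hσ hF
  have hS : Star (S.C.n + 1) (vv S.C) a σ σ (sqr a l σ) := by
    have := S.star
    rw [h1, h2, h3, hF] at this
    exact this
  have h4 := P073.H155.ener_int hσ hS hp hC₁ (b := fun j => b (ce S.C j))
    (fun j _ => hb _ (S.C.sub _))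
  unfold FStar.G
  rw [h1, h2]
  refine h4.trans_eq ?_
  congr 2
  rw [← Vale.Agent.P073.H155.sum_ce S.C fun e => ‖E.b e - E.a e‖ ^ (1 - p) * b e ^ p]
  refine Finset.sum_congr rfl fun j _ => ?_
  rw [Vale.Agent.P073.H155.norm_vv]

end P073.H142
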