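import Vale.Agent.P073.H142.FaceR
import Vale.Agent.P073.H429.TEx

/-!
# P073, block H142 ([FACE3]), part 6: the final map on passive sets

* `TFit`: the box of a tube fits to a plate at its edge.
* `TLay.latC_peeled`: at a point of a plate.
* `TLay.latC_edge`: at a point of the zone of an edge.
-/

open Set Metric Topology Filter MeasureTheory
open scoped ENNReal

namespace P073.H142

open P073 P073.Net P073.PA691 P073.H236 P073.H429 P073.H880 P073.H936 P073.H936.K3 P073.H345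
  P073.H579
open Vale.Agent.P073.St (V)
open Vale.Agent.P073.H73 (Mesh)
open Vale.Agent.P073.H471 Vale.Agent.P073.H267
open Vale.Agent.P073.H233 (PSet LAt)
open Vale.Agent.P073.H193 (LAtC)

variable {Ω Λ : Set V} {v : V} {K : BoxCx Λ v} {S : Rad K} {W : Wid K S} {B : Boxes W}
  {M : Mesh Ω} {γ : Type} {φ : γ → K.G} {Pb : γ → Set V} {F : HFam 3 γ Λ} {D : Set V}
  {ι : γ → Type} [∀ b, Fintype (ι b)] {l h : ∀ b, ι b → ℝ} {ς : γ → ℝ}
  {f5 h6 : ConHomeo Ω Λ} {Sm : ConHomeo Λ Λ}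

/-- the box `Xb` of a tube fits to the plate `s` at its edge -/
structure TFit (G : Geo B) (Xb : HX 3) (s : K.S) : Prop where
  jne : Xb.j ≠ K.nrm s
  al : K.slo s Xb.j + G.a s < Xb.al
  be : Xb.be < K.shi s Xb.j - G.a s
  nlo : Xb.lo (K.nrm s) ≤ K.slo s (K.nrm s) - B.τ s
  nhi : K.slo s (K.nrm s) + B.τ s ≤ Xb.hi (K.nrm s)
  tan : ∀ i, i ≠ Xb.j → i ≠ K.nrm s →
    (Xb.lo i ≤ K.slo s i ∧ K.slo s i + G.a s < Xb.hi i ∧
      Xb.hi i + Xb.r i < K.shi s i - G.a s) ∨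
    (K.shi s i ≤ Xb.hi i ∧ Xb.lo i < K.shi s i - G.a s ∧
      K.slo s i + G.a s < Xb.lo i - Xb.r i)

/-- a point of a plate in a tube: the edge belongs to the square -/
theorem edge_sub_of_PB {G : Geo B} {c : ℝ} (hc : 3 / 4 ≤ c) {s : K.S} {e : K.G} {y : V}
    (h1 : y ∈ G.PB c s) (h2 : y ∈ B.E e) : K.edge e ⊆ K.sq s := by
  have h3 := B.E_subset e h2
  exact edge_subset_sq (W := W) (PK_sub_ss s (PB_sub_PK hc s h1)) h3.1 (Ze_nJ h3)

namespace TLay

variable (H : TLay B φ Pb F D l h ς f5 h6 Sm)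

include H

/-- **the final map at a point of a plate** -/
theorem latC_peeled (G : Geo B) {X : PSet K} (hX : PClosed X) {s : K.S} (hs : s ∈ X.s)
    {A : Set V} (hA : A ⊆ Ω) (hD : Disjoint A D) {x : V} (hx : x ∈ A)
    (hPB : f5.toFun x ∈ G.PB (7 / 8) s)
    (hn : |f5.toFun x (K.nrm s) - K.slo s (K.nrm s)| < B.τ s)
    {c c₀ c₂ : V → ℝ} {sl κ ςm ρ : ℝ}
    (hlip : ∀ᶠ x' in 𝓝[A] x, ∀ j, j ≠ K.nrm s → f5.toFun x j ∈ pwin G s j →
      f5.toFun x' j ∈ pwin G s j → |f5.toFun x' j - f5.toFun x j| ≤ c₀ x')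
    (hc0 : ∀ᶠ x' in 𝓝[A] x, 0 ≤ c₀ x') (hc2 : ∀ᶠ x' in 𝓝[A] x, 0 ≤ c₂ x')
    (hfit : ∀ b, K.edge (φ b) ⊆ K.sq s → TFit G (F.X b) s)
    (hT : ∀ b, f5.toFun x ∈ (F.X b).K → ς b ≤ ςm ∧ 0 < ρ ∧ (∀ i, ρ ≤ (F.X b).r i) ∧
      slG (F.X b).al (F.X b).be (l b) (h b) (ς b) ≤ sl ∧ (F.X b).D / ρ ≤ κ ∧
      ∀ᶠ x' in 𝓝[A] x, |h6.toFun x' (F.X b).j - h6.toFun x (F.X b).j| ≤ c₂ x')
    (hc : ∀ᶠ x' in 𝓝[A] x, c₀ x' ≤ c x' ∧ (sl + κ) * c₀ x' + ςm * c₂ x' ≤ c x') :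
    LAtC B X c A (fun y => Sm.toFun (h6.toFun y)) x := by
  have hcf : ContinuousWithinAt f5.toFun A x := (f5.cont.mono hA) x hx
  have ha := G.a_pos s
  have hau := G.a_u s
  have hp := Geo.p_pos (G := G) s
  have key : ∀ j, j ≠ K.nrm s → f5.toFun x j ∈ Ioo (K.slo s j + G.a s) (K.shi s j - G.a s) →
      ∀ᶠ x' in 𝓝[A] x, |f5.toFun x' j - f5.toFun x j| ≤ c₀ x' := by
    intro j hj h1
    have h3 : Tendsto (fun x' => f5.toFun x' j) (𝓝[A] x) (𝓝 (f5.toFun x j)) :=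
      ((continuous_apply j).tendsto _).comp hcf
    filter_upwards [h3 (Ioo_mem_nhds h1.1 h1.2), hlip] with x' h5 h6
    exact h6 j hj ⟨h1.1.le, h1.2.le⟩ ⟨h5.1.le, h5.2.le⟩
  refine H.latC hA hx (fun _ => ?_) fun b hb => ?_
  · -- off the supports
    have key2 : ∀ j, j ≠ K.nrm s → K.slo s j + 2 * G.a s ≤ f5.toFun x j →
        f5.toFun x j ≤ K.shi s j - 2 * G.a s →
        ∀ᶠ x' in 𝓝[A] x, |f5.toFun x' j - f5.toFun x j| ≤ c x' := by
      intro j hj h1 h2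
      filter_upwards [key j hj ⟨by linarith, by linarith⟩, hc] with x' h3 h4
      exact h3.trans h4.1
    rcases G.cover_pt (by norm_num) hPB hn with ⟨h1, -, h2⟩ | ⟨i, h1, -, h2, h3, h4⟩ |
      ⟨i, hi, h1⟩
    · refine Or.inr (Or.inl ⟨s, hs, h1, ?_⟩)
      rw [eventually_all]
      intro j
      by_cases hj : j = K.nrm s
      · exact Eventually.of_forall fun x' h => absurd hj h
      · obtain ⟨h3, h4⟩ := h2 j hj
        filter_upwards [key2 j hj (by linarith) (by linarith)] with x' hx' _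
        exact hx'
    · refine Or.inr (Or.inr (Or.inl ⟨i, hX.e s hs i h1, ?_,
        key2 _ (nrm_ne_dir h1).symm (by linarith) (by linarith)⟩))
      have hT := B.T_pos i
      exact mem_interior_iff_mem_nhds.2 (mem_of_superset (closedBall_mem_nhds _ (by positivity)) h2)
    · rcases h1 with h1 | h1
      · exact Or.inr (Or.inr (Or.inr ⟨_, hX.a s hs i hi, h1.1⟩))
      · exact Or.inr (Or.inr (Or.inr ⟨_, hX.b s hs i hi, h1.1⟩))
  · -- in the support of the tube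
    have hes : K.edge (φ b) ⊆ K.sq s := edge_sub_of_PB (by norm_num) hPB (H.KE b hb)
    obtain ⟨T1, T2, T3, T4, T5, T6⟩ := hT b hb
    have Ft := hfit b hes
    refine ⟨hX.e s hs _ hes, hX.a s hs _ hes, hX.b s hs _ hes, ?_⟩
    have hbK := hb
    obtain ⟨⟨hv1, hv2⟩, hb2⟩ := hb
    refine H.estC hA hD hx (H.Ese b hbK) T2 T3 T4 T5
      (key _ Ft.jne ⟨by linarith [Ft.al], by linarith [Ft.be]⟩) (fun i hi => ?_) hc0
      T6 ?_
    · have hbi := hb2 i hi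
      by_cases hin : i = K.nrm s
      · subst hin
        left
        have h1 := abs_lt.1 hn
        exact ⟨by linarith [Ft.nlo], by linarith [Ft.nhi]⟩
      · have hPl := hPB.1 i
        have hPh := hPB.2 i
        simp only [Geo.plo, Geo.phi, if_neg hin] at hPl hPh
        rcases Ft.tan i hi hin with ⟨h1, h2, h3⟩ | ⟨h1, h2, h3⟩
        · by_cases h4 : f5.toFun x i < (F.X b).hi i
          · left
            exact ⟨by linarith, h4⟩
          · right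
            push Not at h4
            exact key i hin ⟨by linarith, by linarith [hbi.2]⟩
        · by_cases h4 : (F.X b).lo i < f5.toFun x i
          · left
            exact ⟨h4, by linarith⟩
          · right
            push Not at h4
            exact key i hin ⟨by linarith [hbi.1], by linarith⟩
    · filter_upwards [hc, hc0, hc2] with x' h1 h2 h3
      have h4 := mul_le_mul_of_nonneg_right T1 h3
      have h5 : (sl + κ) * c₀ x' = sl * c₀ x' + κ * c₀ x' := by ring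
      linarith [h1.2]

/-- **the final map at a point of the zone of an edge** -/
theorem latC_edge {X : PSet K} {e : K.G} (he : e ∈ X.e) (hea : K.a e ∈ X.w) (heb : K.b e ∈ X.w)
    {A : Set V} (hA : A ⊆ Ω) (hD : Disjoint A D) {x : V} (hx : x ∈ A)
    (hE : f5.toFun x ∈ interior (B.E e)) {c c₀ c₂ : V → ℝ} {sl κ ςm ρ : ℝ}
    (hlip : ∀ᶠ x' in 𝓝[A] x, |f5.toFun x' (K.dir e) - f5.toFun x (K.dir e)| ≤ c₀ x')
    (hc0 : ∀ᶠ x' in 𝓝[A] x, 0 ≤ c₀ x') (hc2 : ∀ᶠ x' in 𝓝[A] x, 0 ≤ c₂ x') (hκ0 : 0 ≤ κ)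
    (hT : ∀ b, φ b = e → f5.toFun x ∈ (F.X b).K → ς b ≤ ςm ∧ 0 < ρ ∧ (∀ i, ρ ≤ (F.X b).r i) ∧
      slG (F.X b).al (F.X b).be (l b) (h b) (ς b) ≤ sl ∧ (F.X b).D / ρ ≤ κ ∧
      (∀ i, i ≠ K.dir e → (f5.toFun x i ∈ Ioo ((F.X b).lo i) ((F.X b).hi i) ∨
        ∀ᶠ x' in 𝓝[A] x, |f5.toFun x' i - f5.toFun x i| ≤ c₀ x')) ∧
      ∀ᶠ x' in 𝓝[A] x, |h6.toFun x' (F.X b).j - h6.toFun x (F.X b).j| ≤ c₂ x')
    (hc : ∀ᶠ x' in 𝓝[A] x, c₀ x' ≤ c x' ∧ (sl + κ) * c₀ x' + ςm * c₂ x' ≤ c x') :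
    LAtC B X c A (fun y => Sm.toFun (h6.toFun y)) x := by
  refine H.latC hA hx (fun _ => ?_) fun b hb => ?_
  · refine Or.inr (Or.inr (Or.inl ⟨e, he, hE, ?_⟩))
    filter_upwards [hlip, hc] with x' h1 h2
    exact h1.trans h2.1
  · have hbe : φ b = e := by
      by_contra hne
      exact Set.disjoint_left.1 (disjoint_se (W := W) hne) (H.Ese b hb)
        ((B.E_subset e).trans Ze_subset (interior_subset hE))
    obtain ⟨T1, T2, T3, T4, T5, T6, T7⟩ := hT b hbe hb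
    have hj : (F.X b).j = K.dir e := by rw [H.j b, hbe]
    rw [hbe]
    refine ⟨he, hea, heb, H.estC hA hD hx (H.Ese b hb) T2 T3 T4 T5 (by rw [hj]; exact hlip)
      (fun i hi => T6 i (by rwa [hj] at hi)) hc0 T7 ?_⟩
    filter_upwards [hc, hc0, hc2] with x' h1 h2 h3
    have h4 := mul_le_mul_of_nonneg_right T1 h3
    have h5 : (sl + κ) * c₀ x' = sl * c₀ x' + κ * c₀ x' := by ring
    linarith [h1.2]

end TLay

section fit

open Vale.Agent.P073.H669 (eLo eHi eLo_P)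

variable {G : Geo B} {sl : γ → Finset (ℝ × ℝ)} {μ : γ → ℝ}
  {T : ∀ b, Thn (eal W (φ b)) (ebe W (φ b)) (sl b) (μ b)} {hφ : Function.Injective φ}
  {h0 : ∀ b, 0 < ς b} {h1 : ∀ b, ς b ≤ 1}
  {hr : ∀ e k, 0 < H429.rT G e k} {hp : ∀ e k, (YS G).p e k + H429.rT G e k ≤ B.T e}
  {hq : ∀ e k, (YS G).q e k + H429.rT G e k ≤ B.T e}

/-- **the boxes of the tubes fit to the plates** -/
theorem tfit_of {b : γ} {s : K.S} (hes : K.edge (φ b) ⊆ K.sq s) :
    TFit G ((tfam (YS G) (H429.rT G) hr hp hq hφ T h0 h1).X b) s := by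
  obtain ⟨ha1, ha2⟩ := eLo_P G hes
  have ha := G.a_pos s
  have hau := G.a_u s
  have huT := G.u_T s _ hes
  have h16 := uT_le_T G (φ b)
  have huT0 := G.uT_pos (φ b)
  have hTq := (B.T_le (φ b)).trans (W.we_le (φ b))
  have hTp := B.T_pos (φ b)
  have hτp := G.τ_p s
  have hpu := G.p_uT s _ hes
  have hτ := B.τ_pos s
  have hab := hes (TM.wa_mem K (φ b))
  have hnrm : K.w (K.a (φ b)) (K.nrm s) = K.slo s (K.nrm s) := TM.nrm_eq hab
  have hjn := nrm_ne_dir hes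
  refine ⟨hjn.symm, ?_, ?_, ?_, ?_, fun i hi hin => ?_⟩
  · show K.slo s (K.dir (φ b)) + G.a s < eLo W (φ b)
    linarith
  · show eHi W (φ b) < K.shi s (K.dir (φ b)) - G.a s
    linarith
  · show ylo (YS G) (φ b) (K.nrm s) ≤ _
    unfold ylo
    rw [if_neg hjn, hnrm, YS_p]
    linarith
  · show _ ≤ yhi (YS G) (φ b) (K.nrm s)
    unfold yhi
    rw [if_neg hjn, hnrm, YS_q]
    linarith
  · have hi' : i ≠ K.dir (φ b) := hi
    have hside := side_ge S hes hin hi'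
    have hl := K.s_lt s i hin
    show (ylo (YS G) (φ b) i ≤ _ ∧ _ < yhi (YS G) (φ b) i ∧
      yhi (YS G) (φ b) i + H429.rT G (φ b) i < _) ∨ (_ ≤ yhi (YS G) (φ b) i ∧
      ylo (YS G) (φ b) i < _ ∧ _ < ylo (YS G) (φ b) i - H429.rT G (φ b) i)
    unfold ylo yhi H429.rT
    simp only [if_neg hi', YS_p, YS_q]
    rcases edge_side hes hin hi' with h2 | h2
    · left
      rw [h2]
      refine ⟨by linarith, by linarith, by linarith⟩
    · right
      rw [h2]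
      refine ⟨by linarith, by linarith, by linarith⟩

end fit

end P073.H142
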