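import Vale.Agent.P073.H142.FaceF
import Vale.Agent.P073.H579.FaceCl3

/-!
# P073, block H142 ([FACE3]), part 7: given faces and peeled faces, the final estimates

* `giv_rel`: on a passive set with the given map, the coordinate `j` of `f5` is controlled by the
  coordinate `j` of `h1`.
* `faceOK3_of_latC`: `FaceOK3` from `LAtC` with a cost, and the clauses of the face for the cost.
* `latC_pk`: the final map on a peeled face.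
-/

open Set Metric Topology Filter MeasureTheory
open scoped ENNReal

set_option linter.unusedSectionVars false

namespace P073.H142

open P073 P073.Net P073.PA691 P073.H236 P073.H429 P073.H880 P073.H880.RP P073.H936 P073.H936.K3
  P073.H345 P073.H579 P073.H950 P073.H919 P073.H228 P073.H196
open Vale.Agent.P073.St (V)
open Vale.Agent.P073.AB (Idx squ)
open Vale.Agent.P073.H73 (Mesh)
open Vale.Agent.P073.H471 Vale.Agent.P073.H267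
open Vale.Agent.P073.H233 (PSet LAt FaceOK3)
open Vale.Agent.P073.H193 (LAtC FaceCl edges)

/-! ### `FaceOK3` from a cost -/

section ok

variable {Ω Λ : Set V} {v : V} {K : BoxCx Λ v} {S : Rad K} {W : Wid K S} {B : Boxes W}
  {M : Mesh Ω} {X : PSet K}

/-- **`FaceOK3`** from `LAtC` with a cost, and the clauses of the face for this cost -/
theorem faceOK3_of_latC {k : M.κ} {T : FStar (edges M) k} {b : (edges M).ε → ℝ}
    {h f : V → V} {D₀ ε C₁ C₂ a e₀ C : ℝ} (hN : Num k h D₀ ε b)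
    (hb : ∀ e, (edges M).seg e ⊆ M.F k → 0 < b e) {cst : V → V → ℝ}
    (hcl : FaceCl M k T b C₁ C₂ cst) (ha : 0 ≤ a)
    (he : ∀ e, (edges M).seg e ⊆ M.F k → e₀ ≤ T.con 1 b e) (hC : a * C₁ + 1 ≤ C)
    (hlat : ∀ x ∈ M.F k, LAtC B X (fun y => a * cst x y + e₀ * ‖y - x‖) (M.F k) f x) :
    FaceOK3 B X h f C D₀ ε k := by
  refine ⟨T, b, hN, hb, fun e hek x hx => ?_⟩
  have hsub := T.cone_sub hek
  refine ((hlat x (hsub hx)).anti hsub).lat ?_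
  filter_upwards [self_mem_nhdsWithin] with y hy
  have h1 := mul_le_mul_of_nonneg_left (hcl.cone e hek x hx y hy) ha
  have h2 := mul_le_mul_of_nonneg_right (he e hek) (norm_nonneg (y - x))
  have h3 : a * (T.con C₁ b e * ‖x - y‖) + T.con 1 b e * ‖y - x‖ =
      T.con (a * C₁ + 1) b e * ‖y - x‖ := by
    rw [norm_sub_rev x y]
    unfold FStar.con
    ring
  have h4 : T.con (a * C₁ + 1) b e ≤ T.con C b e :=
    Vale.Agent.P073.H193.con_mono hek (fun e he => (hb e he).le) hC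
  have h5 := mul_le_mul_of_nonneg_right h4 (norm_nonneg (y - x))
  linarith

end ok

variable {Ω Λ : Set V} {v : V} {K : BoxCx Λ v} {S : Rad K} {W : Wid K S} {B : Boxes W}
  {G : Geo B} {L : PLev G} {S₀ : Set K.S} {F : Bool → BFam 3 S₀ Λ}
  {T : Bool → ConHomeo Λ Λ} {M : Mesh Ω} {κ₀ κ₁ : V → V} {c d : ℝ} {Zb : S₀ → Set M.ι}
  {h2 h3 h4 : ConHomeo Ω Λ} {u : V}

theorem bandD_nonneg_P (L : PLev G) (s : K.S) (y y' : V) :
    0 ≤ bandD (L.lv s) (L.loP s) (L.hiP s) (L.omP s) y y' := by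
  refine Finset.sum_nonneg fun j _ => Finset.sum_nonneg fun a ha => ?_
  have h2 := L.omP_pos s j a
  have h3 := (L.ins1P s j).lt a ha
  have h4 : 0 < L.hiP s j a - L.loP s j a := by linarith
  positivity

/-! ### given faces -/

section giv

variable {H : HkG M L (Subtype.val : S₀ → K.S) F T κ₀ κ₁ c d Zb h2 h3 h4 u} {hΩ : IsOpen Ω}
  {r : S₀ → ℝ} {h5 : ConHomeo Ω Λ} (O : HkGO H hΩ r h5)

include O

/-- **[REL] for given sets**: the coordinate `j` of `f5` is controlled by the coordinate `j` of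
`g1` (the map before ROUND P) -/
theorem giv_rel (hΛ : IsOpen Λ) {Fσ : Bool → BFam 3 S₀ Λ} {ς : Bool → S₀ → ℝ}
    {Tσ : Bool → ConHomeo Λ Λ} (P : Sg3 L S₀ Fσ ς Tσ) {A : Set V} (hA : A ⊆ Ω)
    (hpas : ∀ s : S₀, ∀ i ∈ Zb s, Disjoint A (interior (M.Q i)))
    -- the given map
    {L₀ : PLev G} {cθ : K.S → Bool → ℝ} {c0 : ∀ s β, 0 < cθ s β} {c1 : ∀ s β, cθ s β ≤ L₀.c s β}
    {Θ : Bool → ConHomeo Λ Λ} {Aθ : ℝ} (HΘ : ThP L₀ cθ c0 c1 hΛ S₀ F T Θ Aθ) {g1 : ConHomeo Ω Λ}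
    (hg : ∀ y ∈ A, h4.toFun y =
      (T true).toFun ((T false).toFun ((Θ true).toFun ((Θ false).toFun (g1.toFun y)))))
    {x : V} (hx : x ∈ A) {j : Fin 3} {A' εθ ε' ςm : ℝ} (hA' : 1 ≤ A') (hεθ0 : 0 ≤ εθ)
    (hε0 : 0 ≤ ε') (hςm : 0 ≤ ςm)
    (hεθ : ∀ s : S₀, g1.toFun x ∈ PK G s.1 → ∀ β,
      (3 * (F β).D s + L₀.c s.1 β) * (4 / B.τ s.1) ≤ εθ)
    (hsl : ∀ s : S₀, h4.toFun x ∈ PK G s.1 → ∀ β, slAK (Fσ β) (ς β) s ≤ A')
    (hε : ∀ s : S₀, h4.toFun x ∈ PK G s.1 → ∀ β, (Fσ β).e s * (4 / B.τ s.1) ≤ ε')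
    (hς : ∀ s : S₀, h4.toFun x ∈ HB G c d s.1 → ∀ β, ς β s ≤ ςm)
    {r' : S₀ → ℝ} (r0' : ∀ s, 0 < r' s) (rr : ∀ s, r' s ≤ r s) (r1 : ∀ s, r s < 1)
    (he : ∀ s : S₀, ∀ β, (Fσ β).e s = stp (L.N s.1 β) (K.slo s.1 (tg s.1 β) + G.a s.1)
      (K.shi s.1 (tg s.1 β) - G.a s.1) / 2 - r' s * bw (L.N s.1 β)
        (K.slo s.1 (tg s.1 β) + G.a s.1) (K.shi s.1 (tg s.1 β) - G.a s.1) ((F β).e s))
    (he0 : ∀ s : S₀, ∀ β, 0 < (F β).e s)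
    (heo : ∀ s : S₀, ∀ β, 2 * (F β).e s < stp (L.N s.1 β) (K.slo s.1 (tg s.1 β) + G.a s.1)
      (K.shi s.1 (tg s.1 β) - G.a s.1))
    (hcol : ∀ s : S₀, h4.toFun x ∈ HB G c d s.1 → ∃ β, j = tg s.1 β ∧
      PS.map Tσ (h5.toFun x) j ∈ Ioo (K.slo s.1 j + G.a s.1) (K.shi s.1 j - G.a s.1) ∧
      ∀ k : Fin (L.N s.1 (!β)), pwid L (fun β => (F β).e s) s.1 ⟨!β, k⟩ <
        |h4.toFun x (tg s.1 (!β)) - pcen L s.1 ⟨!β, k⟩|)
    {Q : ℝ} (hQ : A' * A' * (εθ * (Aθ + εθ)) +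
      (A' * ε' + ε' * (A' + ε')) * (Aθ + εθ * (Aθ + εθ)) ≤ Q) :
    ∀ᶠ x' in 𝓝[A] x, |PS.map Tσ (h5.toFun x') j - PS.map Tσ (h5.toFun x) j| ≤
      A' * A' * Aθ * |g1.toFun x' j - g1.toFun x j| + ςm * |h5.toFun x' j - h5.toFun x j| +
        Q * ‖g1.toFun x' - g1.toFun x‖ := by
  have hAθ := HΘ.A2
  have hxΛ : g1.toFun x ∈ Λ := g1.mapsTo (hA hx)
  have hc1 : ContinuousWithinAt g1.toFun A x := (g1.cont.mono hA) x hx
  have e1 := hkGO_rel O hΛ P hA hpas hx (j := j) hA' hε0 hςm hsl hε hς r0' rr r1 he he0 heo hcol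
  have e2 := thP_locJ HΘ hεθ0 hxΛ hεθ
  have e3 := hc1.eventually e2
  have e4 := hc1.eventually (e2.norm (by linarith) (by positivity))
  filter_upwards [e1, e3, e4, self_mem_nhdsWithin] with x' h1' h2' h3' hx'
  rw [hg x' hx', hg x hx] at h1'
  have h5 := h2' j
  have hN := norm_nonneg (g1.toFun x' - g1.toFun x)
  have hq : 0 ≤ A' * ε' + ε' * (A' + ε') := by positivity
  have h6 := mul_le_mul_of_nonneg_left h5 (show 0 ≤ A' * A' by positivity)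
  have h7 := mul_le_mul_of_nonneg_left h3' hq
  have h8 := mul_le_mul_of_nonneg_right hQ hN
  nlinarith

/-- **the final map on a peeled face** -/
theorem latC_pk {γ : Type} {φ : γ → K.G} {Pb : γ → Set V} {Ft : HFam 3 γ Λ} {D : Set V}
    {ι : γ → Type} [∀ b, Fintype (ι b)] {l hh : ∀ b, ι b → ℝ} {ςt : γ → ℝ}
    {f5 h6 : ConHomeo Ω Λ} {Sm : ConHomeo Λ Λ} (HT : TLay B φ Pb Ft D l hh ςt f5 h6 Sm)
    {X : PSet K} (hX : PClosed X) {s : S₀} (hs : s.1 ∈ X.s)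
    {Fσ : Bool → BFam 3 S₀ Λ} {ς : Bool → S₀ → ℝ} {Tσ : Bool → ConHomeo Λ Λ}
    (P : Sg3 L S₀ Fσ ς Tσ) (hf5 : ∀ y ∈ Ω, f5.toFun y = PS.map Tσ (h5.toFun y))
    {r' : ℝ} (r0' : 0 < r') (rr : r' ≤ r s) (r1 : r s < 1) {k : M.κ}
    (hpos : ∀ y ∈ M.F k, h4.toFun y ∈ G.PB (7 / 8) s.1 ∧
      |h4.toFun y (K.nrm s.1) - K.slo s.1 (K.nrm s.1)| < B.τ s.1)
    (hw : ∀ β, 0 < bw (L.N s.1 β) (K.slo s.1 (tg s.1 β) + G.a s.1)
      (K.shi s.1 (tg s.1 β) - G.a s.1) ((F β).e s))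
    (he : ∀ β, (Fσ β).e s = stp (L.N s.1 β) (K.slo s.1 (tg s.1 β) + G.a s.1)
      (K.shi s.1 (tg s.1 β) - G.a s.1) / 2 - r' * bw (L.N s.1 β)
        (K.slo s.1 (tg s.1 β) + G.a s.1) (K.shi s.1 (tg s.1 β) - G.a s.1) ((F β).e s))
    {a om ρ : ℝ} (hA : ∀ β, slAK (Fσ β) (ς β) s * bw (L.N s.1 β)
      (K.slo s.1 (tg s.1 β) + G.a s.1) (K.shi s.1 (tg s.1 β) - G.a s.1) ((F β).e s) ≤ a * om)
    (ha : 0 ≤ a) (hom : 0 ≤ om) (hρ0 : 0 ≤ ρ)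
    (hρ : ∀ β, om ≤ ρ * stp (L.N s.1 β) (K.slo s.1 (tg s.1 β) + G.a s.1)
      (K.shi s.1 (tg s.1 β) - G.a s.1))
    (hDk : Disjoint (M.F k) D) (hfit : ∀ b, K.edge (φ b) ⊆ K.sq s.1 → TFit G (Ft.X b) s.1)
    {x : V} (hx : x ∈ M.F k) {K₅ K₆ e₁ sl κ ςm ρt a' e₀ : ℝ}
    (hK₅ : ∀ᶠ x' in 𝓝[M.F k] x, ‖h5.toFun x' - h5.toFun x‖ ≤ K₅ * ‖x' - x‖)
    (he₁ : ∀ β, ς β s * K₅ ≤ e₁) (he₁0 : 0 ≤ e₁) (hK₆0 : 0 ≤ K₆)
    (hT : ∀ b, f5.toFun x ∈ (Ft.X b).K → ςt b ≤ ςm ∧ 0 < ρt ∧ (∀ i, ρt ≤ (Ft.X b).r i) ∧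
      slG (Ft.X b).al (Ft.X b).be (l b) (hh b) (ςt b) ≤ sl ∧ (Ft.X b).D / ρt ≤ κ ∧
      ∀ᶠ x' in 𝓝[M.F k] x, |h6.toFun x' (Ft.X b).j - h6.toFun x (Ft.X b).j| ≤ K₆ * ‖x' - x‖)
    (h1 : 1 ≤ sl + κ) (ha' : (sl + κ) * (2 * a) ≤ a')
    (he₀ : (sl + κ) * e₁ + ςm * K₆ ≤ e₀) (hςm : 0 ≤ ςm) :
    LAtC B X (fun y => a' * (ρ * bandD (L.lv s.1) (L.loP s.1) (L.hiP s.1) (L.omP s.1)
      (h3.toFun x) (h3.toFun y)) + e₀ * ‖y - x‖) (M.F k) (fun y => Sm.toFun (h6.toFun y)) x := by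
  have hkΩ : M.F k ⊆ Ω := Vale.Agent.P073.H193.mesh_sub M k
  have hp7 : ∀ y ∈ M.F k, h4.toFun y ∈ G.PB (7 / 8) s.1 := fun y hy => (hpos y hy).1
  have hp5 := hkGO_pos O hp7 hx
  have hbd := fun y y' => bandD_nonneg_P L s.1 y y'
  have hf := hkGO_face_lip O P r0' rr r1 hp7 hw he hA ha hom hρ hx
  have hp5' : f5.toFun x ∈ G.PB (7 / 8) s.1 := by
    rw [hf5 x (hkΩ hx)]
    exact P.mem_PB le_rfl (by norm_num) hp5
  refine HT.latC_peeled G hX hs hkΩ hDk hx hp5' ?_ (c₀ := fun x' => a * (2 * ρ * bandD (L.lv s.1) (L.loP s.1) (L.hiP s.1)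
      (L.omP s.1) (h3.toFun x) (h3.toFun x')) + e₁ * ‖x' - x‖) (c₂ := fun x' => K₆ * ‖x' - x‖)
      ?_ ?_ ?_ hfit hT ?_
  · rw [hf5 x (hkΩ hx), P.nrm hp5]
    exact hkGO_nrm O hpos hx
  · filter_upwards [hf, hK₅, self_mem_nhdsWithin] with x' h2 h3 hx' j hj hwj hwj'
    rw [hf5 x (hkΩ hx), P.mem_win hp5 hj] at hwj
    rw [hf5 x' (hkΩ hx'), P.mem_win (hkGO_pos O hp7 hx') hj] at hwj'
    rw [hf5 x (hkΩ hx), hf5 x' (hkΩ hx')]
    refine (h2 j hj hwj hwj').trans (add_le_add le_rfl ?_)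
    have hς := ((P.isS (bt s.1 j)).s0 s).le
    have h4 := norm_le_pi_norm (h5.toFun x' - h5.toFun x) j
    rw [Pi.sub_apply, Real.norm_eq_abs] at h4
    calc ς (bt s.1 j) s * |h5.toFun x' j - h5.toFun x j|
        ≤ ς (bt s.1 j) s * (K₅ * ‖x' - x‖) := mul_le_mul_of_nonneg_left (h4.trans h3) hς
      _ = ς (bt s.1 j) s * K₅ * ‖x' - x‖ := by ring
      _ ≤ _ := mul_le_mul_of_nonneg_right (he₁ _) (norm_nonneg _)
  · exact Eventually.of_forall fun x' => by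
      have := hbd (h3.toFun x) (h3.toFun x')
      positivity
  · exact Eventually.of_forall fun x' => mul_nonneg hK₆0 (norm_nonneg _)
  · refine Eventually.of_forall fun x' => ?_
    beta_reduce
    have hb := mul_nonneg hρ0 (hbd (h3.toFun x) (h3.toFun x'))
    set bd := bandD (L.lv s.1) (L.loP s.1) (L.hiP s.1) (L.omP s.1) (h3.toFun x) (h3.toFun x')
    have hN := norm_nonneg (x' - x)
    have h2 := mul_le_mul_of_nonneg_right ha' hb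
    have h3 := mul_le_mul_of_nonneg_right he₀ hN
    have h4 : 0 ≤ a * (2 * ρ * bd) + e₁ * ‖x' - x‖ := by
      have := mul_nonneg ha hb
      have := mul_nonneg he₁0 hN
      nlinarith
    have h5 := mul_le_mul_of_nonneg_right h1 h4
    have h6 : (sl + κ) * (a * (2 * ρ * bd) + e₁ * ‖x' - x‖) + ςm * (K₆ * ‖x' - x‖) ≤
        a' * (ρ * bd) + e₀ * ‖x' - x‖ := by
      have e : (sl + κ) * (a * (2 * ρ * bd) + e₁ * ‖x' - x‖) + ςm * (K₆ * ‖x' - x‖) =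
          (sl + κ) * (2 * a) * (ρ * bd) + ((sl + κ) * e₁ + ςm * K₆) * ‖x' - x‖ := by ring
      rw [e]
      linarith
    refine ⟨?_, h6⟩
    have h7 : 0 ≤ ςm * (K₆ * ‖x' - x‖) := by positivity
    linarith

end giv

end P073.H142
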