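import Vale.Agent.P073.H142.FaceG

/-!
# P073, block H142 ([FACE3]), part 8: passive sets in the boxes of the hook of the plates

`hkGO_col_dsum`: at a point of the box of the plate `s` the levels of `h5` are controlled by the
levels of `h4`.  `hkGO_col`: if the bands of the side `!β` are clear, both coordinates of
`f5 = S_σ ∘ h5` are controlled by the coordinate `tg s β` of `h4`.  `hkGO_col0`: all bands are
clear.  No position after the hook is used.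
-/

open Set Metric Topology Filter MeasureTheory
open scoped ENNReal

set_option linter.unusedSectionVars false

namespace P073.H142

open P073 P073.Net P073.PA691 P073.H236 P073.H429 P073.H880 P073.H880.RP P073.H936 P073.H936.K3
  P073.H345 P073.H579 P073.H950 P073.H919 P073.H228 P073.H196
open Vale.Agent.P073.St (V)
open Vale.Agent.P073.AB (Idx squ)
open Vale.Agent.P073.H73 (Mesh)
open Vale.Agent.P073.H471 Vale.Agent.P073.H267
open Vale.Agent.P073.H233 (PSet LAt FaceOK3)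
open Vale.Agent.P073.H193 (LAtC FaceCl edges)

variable {Ω Λ : Set V} {v : V} {K : BoxCx Λ v} {S : Rad K} {W : Wid K S} {B : Boxes W}
  {G : Geo B} {L : PLev G} {S₀ : Set K.S} {F : Bool → BFam 3 S₀ Λ}
  {T : Bool → ConHomeo Λ Λ} {M : Mesh Ω} {κ₀ κ₁ : V → V} {c d : ℝ} {Zb : S₀ → Set M.ι}
  {h2 h3 h4 : ConHomeo Ω Λ} {u : V}

/-- the bands of the side `β` of the plate `s` are clear at `y` -/
def ClrB (L : PLev G) (e : Bool → ℝ) (s : K.S) (β : Bool) (y : V) : Prop :=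
  ∀ k : Fin (L.N s β), pwid L e s ⟨β, k⟩ < |y (tg s β) - pcen L s ⟨β, k⟩|

section

variable {H : HkG M L (Subtype.val : S₀ → K.S) F T κ₀ κ₁ c d Zb h2 h3 h4 u} {hΩ : IsOpen Ω}
  {r : S₀ → ℝ} {h5 : ConHomeo Ω Λ} (O : HkGO H hΩ r h5) {s : S₀}

include O

theorem hkGO_mem_ss {y : V} (hy : h4.toFun y ∈ HB G c d s.1) : h4.toFun y ∈ W.ss s.1 :=
  PK_sub_ss s.1 (HB_sub_PK H s hy)

/-- **the levels on a passive set at a point of the box** -/
theorem hkGO_col_dsum (hc' : 7 / 8 < c) (hd' : d < 1) {r' : ℝ} (r0' : 0 < r') (rr : r' ≤ r s)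
    (r1 : r s < 1) {A : Set V} (hA : A ⊆ Ω) (hpas : ∀ i ∈ Zb s, Disjoint A (interior (M.Q i)))
    {x : V} (hx : x ∈ A) (hs : h4.toFun x ∈ HB G c d s.1) : ∀ᶠ x' in 𝓝[A] x,
      h5.toFun x' ∈ G.PB (7 / 8) s.1 ∧
      dsum (wlev (ι := PI L s.1) Sigma.fst (tg s.1) r' (pcen L s.1)
        (pwid L (fun β => (F β).e s) s.1) h5.toFun) x x' ≤
      dsum (wlev (ι := PI L s.1) Sigma.fst (tg s.1) 1 (pcen L s.1)
        (pwid L (fun β => (F β).e s) s.1) h4.toFun) x x' := by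
  have r0 : 0 < r s := r0'.trans_le rr
  have hc4 : ContinuousWithinAt h4.toFun A x := (h4.cont.mono hA) x hx
  have hint : h4.toFun x ∈ interior (G.PB (7 / 8) s.1) := by
    have h1 := HB_interior (G := G) (c := 7 / 8) (c' := c) (d := 1) (d' := d) hc' hd' s.1 hs
    rwa [HB_one] at h1
  filter_upwards [hkGO_dich O r0 r1 hA hpas hx (hkGO_mem_ss O hs),
    hc4.eventually (isOpen_interior.mem_nhds hint), self_mem_nhdsWithin] with x' h1 h2 hx'
  have hle : ∀ g : V → V, dsum (wlev (ι := PI L s.1) Sigma.fst (tg s.1) r' (pcen L s.1)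
        (pwid L (fun β => (F β).e s) s.1) g) x x' ≤
      dsum (wlev (ι := PI L s.1) Sigma.fst (tg s.1) (r s) (pcen L s.1)
        (pwid L (fun β => (F β).e s) s.1) g) x x' := fun g =>
    dsum_wlev_le' r0'.le rr r0 g x x'
  rcases h1 with ⟨ha, hb, hc⟩ | ⟨ha, hb⟩
  · exact ⟨HB_PB H.hc H.hd s.1 ((O.mem s (hA hx')).2 hb), (hle _).trans hc⟩
  · refine ⟨by rw [hb]; exact interior_subset h2, ?_⟩
    rw [dsum_wlev_congr ha hb]
    exact dsum_wlev_le r0'.le (rr.trans r1.le) _ _ _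

/-- clear bands: the levels are locally constant -/
theorem hkGO_clr {A : Set V} (hA : A ⊆ Ω) {x : V} (hx : x ∈ A) {β : Bool}
    (heo : 2 * (F β).e s < stp (L.N s.1 β) (K.slo s.1 (tg s.1 β) + G.a s.1)
      (K.shi s.1 (tg s.1 β) - G.a s.1)) (hclr : ClrB L (fun β => (F β).e s) s.1 β (h4.toFun x)) :
    ∀ᶠ x' in 𝓝[A] x, ∀ k : Fin (L.N s.1 β),
      wlev (ι := PI L s.1) Sigma.fst (tg s.1) 1 (pcen L s.1)
        (pwid L (fun β => (F β).e s) s.1) h4.toFun ⟨β, k⟩ x' =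
      wlev (ι := PI L s.1) Sigma.fst (tg s.1) 1 (pcen L s.1)
        (pwid L (fun β => (F β).e s) s.1) h4.toFun ⟨β, k⟩ x := by
  have hc4 : ContinuousWithinAt h4.toFun A x := (h4.cont.mono hA) x hx
  rw [eventually_all]
  intro k
  have hw : 0 < pwid L (fun β => (F β).e s) s.1 ⟨β, k⟩ := by
    show 0 < stp _ _ _ / 2 - _
    linarith
  have h5 : Tendsto (fun x' => h4.toFun x' (tg s.1 β)) (𝓝[A] x)
      (𝓝 (h4.toFun x (tg s.1 β))) := ((continuous_apply _).tendsto _).comp hc4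
  filter_upwards [h5.eventually (clp_const hw (hclr k))] with x' h6
  exact h6

/-- **[REL] in the collar**: the bands of the side `!β` are clear -/
theorem hkGO_col (hc' : 7 / 8 < c) (hd' : d < 1) {Fσ : Bool → BFam 3 S₀ Λ}
    {ς : Bool → S₀ → ℝ} {Tσ : Bool → ConHomeo Λ Λ} (P : Sg3 L S₀ Fσ ς Tσ)
    {r' : ℝ} (r0' : 0 < r') (rr : r' ≤ r s) (r1 : r s < 1) {A : Set V} (hA : A ⊆ Ω)
    (hpas : ∀ i ∈ Zb s, Disjoint A (interior (M.Q i)))
    (he : ∀ β, (Fσ β).e s = stp (L.N s.1 β) (K.slo s.1 (tg s.1 β) + G.a s.1)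
      (K.shi s.1 (tg s.1 β) - G.a s.1) / 2 - r' * bw (L.N s.1 β)
        (K.slo s.1 (tg s.1 β) + G.a s.1) (K.shi s.1 (tg s.1 β) - G.a s.1) ((F β).e s))
    (he0 : ∀ β, 0 < (F β).e s)
    (heo : ∀ β, 2 * (F β).e s < stp (L.N s.1 β) (K.slo s.1 (tg s.1 β) + G.a s.1)
      (K.shi s.1 (tg s.1 β) - G.a s.1))
    {a om ρw : ℝ} (hAa : ∀ β, slAK (Fσ β) (ς β) s * bw (L.N s.1 β)
      (K.slo s.1 (tg s.1 β) + G.a s.1) (K.shi s.1 (tg s.1 β) - G.a s.1) ((F β).e s) ≤ a * om)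
    (ha : 0 ≤ a) (hom : 0 ≤ om)
    (hρw : ∀ β, om ≤ ρw * bw (L.N s.1 β)
      (K.slo s.1 (tg s.1 β) + G.a s.1) (K.shi s.1 (tg s.1 β) - G.a s.1) ((F β).e s))
    {x : V} (hx : x ∈ A) (hs : h4.toFun x ∈ HB G c d s.1) {β : Bool}
    (hclr : ClrB L (fun β => (F β).e s) s.1 (!β) (h4.toFun x)) :
    ∀ᶠ x' in 𝓝[A] x, ∀ j, j ≠ K.nrm s.1 → PS.map Tσ (h5.toFun x) j ∈ pwin G s.1 j →
      PS.map Tσ (h5.toFun x') j ∈ pwin G s.1 j →
      |PS.map Tσ (h5.toFun x') j - PS.map Tσ (h5.toFun x) j| ≤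
        a * ρw * |h4.toFun x' (tg s.1 β) - h4.toFun x (tg s.1 β)| +
          ς (bt s.1 j) s * |h5.toFun x' j - h5.toFun x j| := by
  have hw0 : ∀ β, 0 < bw (L.N s.1 β) (K.slo s.1 (tg s.1 β) + G.a s.1)
      (K.shi s.1 (tg s.1 β) - G.a s.1) ((F β).e s) := by
    intro β
    have := heo β
    unfold bw
    linarith
  have hp : h5.toFun x ∈ G.PB (7 / 8) s.1 := HB_PB H.hc H.hd s.1 ((O.mem s (hA hx)).2 hs)
  filter_upwards [hkGO_col_dsum O hc' hd' r0' rr r1 hA hpas hx hs,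
    hkGO_clr O hA hx (heo (!β)) hclr] with x' h1 h3 j hj hwj hwj'
  obtain ⟨hp', hle⟩ := h1
  rw [P.mem_win hp hj] at hwj
  rw [P.mem_win hp' hj] at hwj'
  refine (P.lip (g := h5.toFun) hp hp' r0'.le (e := fun β => (F β).e s) hw0 he hAa hj hwj
    hwj').trans (add_le_add ?_ le_rfl)
  have h8 : bw (L.N s.1 β) (K.slo s.1 (tg s.1 β) + G.a s.1)
      (K.shi s.1 (tg s.1 β) - G.a s.1) ((F β).e s) *
      dsum (wlev (ι := PI L s.1) Sigma.fst (tg s.1) 1 (pcen L s.1)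
        (pwid L (fun β => (F β).e s) s.1) h4.toFun) x x' ≤
      |h4.toFun x' (tg s.1 β) - h4.toFun x (tg s.1 β)| := by
    have e1 : dsum (wlev (ι := PI L s.1) Sigma.fst (tg s.1) 1 (pcen L s.1)
        (pwid L (fun β => (F β).e s) s.1) h4.toFun) x x' =
        ∑ k : Fin (L.N s.1 β), |H880.clp 1 ((h4.toFun x' (tg s.1 β) -
          pcen L s.1 ⟨β, k⟩) / bw (L.N s.1 β) (K.slo s.1 (tg s.1 β) + G.a s.1)
            (K.shi s.1 (tg s.1 β) - G.a s.1) ((F β).e s)) -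
          H880.clp 1 ((h4.toFun x (tg s.1 β) -
          pcen L s.1 ⟨β, k⟩) / bw (L.N s.1 β) (K.slo s.1 (tg s.1 β) + G.a s.1)
            (K.shi s.1 (tg s.1 β) - G.a s.1) ((F β).e s))| := by
      unfold dsum
      rw [Fintype.sum_sigma]
      have e2 : ∑ k : Fin (L.N s.1 (!β)), |wlev (ι := PI L s.1) Sigma.fst (tg s.1) 1
          (pcen L s.1) (pwid L (fun β => (F β).e s) s.1) h4.toFun ⟨!β, k⟩ x' -
          wlev (ι := PI L s.1) Sigma.fst (tg s.1) 1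
          (pcen L s.1) (pwid L (fun β => (F β).e s) s.1) h4.toFun ⟨!β, k⟩ x| = 0 :=
        Finset.sum_eq_zero fun k _ => by rw [h3 k, sub_self, abs_zero]
      cases β with
      | false =>
        rw [Fintype.sum_bool]
        refine (add_eq_right.2 e2).trans rfl
      | true =>
        rw [Fintype.sum_bool]
        refine (add_eq_left.2 e2).trans rfl
    rw [e1]
    exact sum_clp_le (hw0 β) (bs_plate L s.1 (e := fun β => (F β).e s) he0 heo β) _ _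
  have hD0 : 0 ≤ dsum (wlev (ι := PI L s.1) Sigma.fst (tg s.1) 1 (pcen L s.1)
        (pwid L (fun β => (F β).e s) s.1) h4.toFun) x x' :=
    Finset.sum_nonneg fun _ _ => abs_nonneg _
  have hρ0 : 0 ≤ ρw := by
    by_contra hn
    push Not at hn
    have := hρw β
    nlinarith [hw0 β]
  calc a * om * dsum (wlev (ι := PI L s.1) Sigma.fst (tg s.1) r' (pcen L s.1)
        (pwid L (fun β => (F β).e s) s.1) h5.toFun) x x'
      ≤ a * om * dsum (wlev (ι := PI L s.1) Sigma.fst (tg s.1) 1 (pcen L s.1)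
        (pwid L (fun β => (F β).e s) s.1) h4.toFun) x x' :=
        mul_le_mul_of_nonneg_left hle (mul_nonneg ha hom)
    _ ≤ a * (ρw * bw (L.N s.1 β) (K.slo s.1 (tg s.1 β) + G.a s.1)
        (K.shi s.1 (tg s.1 β) - G.a s.1) ((F β).e s)) *
        dsum (wlev (ι := PI L s.1) Sigma.fst (tg s.1) 1 (pcen L s.1)
        (pwid L (fun β => (F β).e s) s.1) h4.toFun) x x' :=
        mul_le_mul_of_nonneg_right (mul_le_mul_of_nonneg_left (hρw β) ha) hD0
    _ = a * ρw * (bw (L.N s.1 β) (K.slo s.1 (tg s.1 β) + G.a s.1)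
        (K.shi s.1 (tg s.1 β) - G.a s.1) ((F β).e s) *
        dsum (wlev (ι := PI L s.1) Sigma.fst (tg s.1) 1 (pcen L s.1)
        (pwid L (fun β => (F β).e s) s.1) h4.toFun) x x') := by ring
    _ ≤ _ := mul_le_mul_of_nonneg_left h8 (mul_nonneg ha hρ0)

/-- **[REL] at a point where all bands are clear** -/
theorem hkGO_col0 (hc' : 7 / 8 < c) (hd' : d < 1) {Fσ : Bool → BFam 3 S₀ Λ}
    {ς : Bool → S₀ → ℝ} {Tσ : Bool → ConHomeo Λ Λ} (P : Sg3 L S₀ Fσ ς Tσ)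
    {r' : ℝ} (r0' : 0 < r') (rr : r' ≤ r s) (r1 : r s < 1) {A : Set V} (hA : A ⊆ Ω)
    (hpas : ∀ i ∈ Zb s, Disjoint A (interior (M.Q i)))
    (he : ∀ β, (Fσ β).e s = stp (L.N s.1 β) (K.slo s.1 (tg s.1 β) + G.a s.1)
      (K.shi s.1 (tg s.1 β) - G.a s.1) / 2 - r' * bw (L.N s.1 β)
        (K.slo s.1 (tg s.1 β) + G.a s.1) (K.shi s.1 (tg s.1 β) - G.a s.1) ((F β).e s))
    (heo : ∀ β, 2 * (F β).e s < stp (L.N s.1 β) (K.slo s.1 (tg s.1 β) + G.a s.1)
      (K.shi s.1 (tg s.1 β) - G.a s.1))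
    {x : V} (hx : x ∈ A) (hs : h4.toFun x ∈ HB G c d s.1)
    (hclr : ∀ β, ClrB L (fun β => (F β).e s) s.1 β (h4.toFun x)) :
    ∀ᶠ x' in 𝓝[A] x, ∀ j, j ≠ K.nrm s.1 → PS.map Tσ (h5.toFun x) j ∈ pwin G s.1 j →
      PS.map Tσ (h5.toFun x') j ∈ pwin G s.1 j →
      |PS.map Tσ (h5.toFun x') j - PS.map Tσ (h5.toFun x) j| ≤
          ς (bt s.1 j) s * |h5.toFun x' j - h5.toFun x j| := by
  have hw0 : ∀ β, 0 < bw (L.N s.1 β) (K.slo s.1 (tg s.1 β) + G.a s.1)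
      (K.shi s.1 (tg s.1 β) - G.a s.1) ((F β).e s) := by
    intro β
    have := heo β
    unfold bw
    linarith
  have hp : h5.toFun x ∈ G.PB (7 / 8) s.1 := HB_PB H.hc H.hd s.1 ((O.mem s (hA hx)).2 hs)
  filter_upwards [hkGO_col_dsum O hc' hd' r0' rr r1 hA hpas hx hs,
    hkGO_clr O hA hx (heo false) (hclr false), hkGO_clr O hA hx (heo true) (hclr true)]
    with x' h1 h3 h4' j hj hwj hwj'
  obtain ⟨hp', hle⟩ := h1
  rw [P.mem_win hp hj] at hwj
  rw [P.mem_win hp' hj] at hwj'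
  set A₀ : ℝ := max (slAK (Fσ false) (ς false) s * bw (L.N s.1 false)
    (K.slo s.1 (tg s.1 false) + G.a s.1) (K.shi s.1 (tg s.1 false) - G.a s.1) ((F false).e s))
    (slAK (Fσ true) (ς true) s * bw (L.N s.1 true)
    (K.slo s.1 (tg s.1 true) + G.a s.1) (K.shi s.1 (tg s.1 true) - G.a s.1) ((F true).e s))
    with hA₀
  have hAa : ∀ β, slAK (Fσ β) (ς β) s * bw (L.N s.1 β)
      (K.slo s.1 (tg s.1 β) + G.a s.1) (K.shi s.1 (tg s.1 β) - G.a s.1) ((F β).e s) ≤ A₀ := by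
    intro β
    cases β
    · exact le_max_left _ _
    · exact le_max_right _ _
  have h6 := P.lip (g := h5.toFun) hp hp' r0'.le (e := fun β => (F β).e s) hw0 he hAa hj hwj
    hwj'
  have h7 : dsum (wlev (ι := PI L s.1) Sigma.fst (tg s.1) r' (pcen L s.1)
        (pwid L (fun β => (F β).e s) s.1) h5.toFun) x x' = 0 := by
    refine le_antisymm (hle.trans (le_of_eq ?_)) (Finset.sum_nonneg fun _ _ => abs_nonneg _)
    refine Finset.sum_eq_zero fun k _ => ?_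
    obtain ⟨β, k⟩ := k
    cases β
    · rw [h3 k, sub_self, abs_zero]
    · rw [h4' k, sub_self, abs_zero]
  rw [h7, mul_zero, zero_add] at h6
  exact h6

end

end P073.H142
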