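import Vale.Agent.P073.H142.WPos

/-!
# P073, block H142 ([FACE3-W]): frontier points near a tube and off the plates

`KIn3.z_edge`: if a point is close to a frontier point `z` of a processed tile, is in no box of the
hook of the plates and (after a small motion) in a tube, then `z` is close to the edge of the tube.
-/

open Set Metric Topology Filter

set_option linter.unusedSectionVars false

namespace Vale.Agent.P073.H926

open _root_.P073 _root_.P073.Net _root_.P073.PA691 _root_.P073.TM _root_.P073.H236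
  _root_.P073.H142 _root_.P073.H196
open Vale.Agent.P073.St (V)
open Vale.Agent.P073.H471 Vale.Agent.P073.H267
open Vale.Agent.P073.H73 (Mesh)
open Vale.Agent.P073.H304 (Nb In Zmax)
open _root_.P073.H345 (PK PK_sub_ss τ_as_PK PB_sub_PK tg)
open _root_.P073.H429 (Lat YB mem_YB eal ebe mem_YB_interior YT Low Upp YT_p_low YT_q_upp YT_p_ge
  YT_q_ge uT_le_T)
open _root_.P073.H919 (HB mem_HB HB_PB HB_interior)

section geo

variable {Λ : Set V} {v : V} {K : BoxCx Λ v} {S : Rad K} {W : Wid K S} {B : Boxes W}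
  {G : Geo B} {x y y' z : V} {q t : K.T}

/-- frontier points close to a tube and off the plates are close to the edge -/
theorem z_edge_geo {S₀ : Set K.S} (hS₀ : ∀ s, (t = K.sm s ∨ t = K.sp s) → s ∈ S₀)
    (hz : z ∈ frontier (K.cube t)) (hy : ‖y - z‖ ≤ G.κ t / 64)
    (hoff : ∀ s ∈ S₀, y ∉ HB G (29 / 32) (3 / 4) s)
    (hy' : ∀ k, |y' k - y k| ≤ G.κ t / 64) {e : K.G} (he : y' ∈ B.E e)
    (hκt : 2 * G.κ t ≤ G.uT e) :
    K.edge e ⊆ K.cube t ∧
      (K.w (K.a e) (K.dir e) + W.wv (K.a e) / 2 - G.uT e / 64 ≤ z (K.dir e) ∧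
        z (K.dir e) ≤ K.w (K.b e) (K.dir e) - W.wv (K.b e) / 2 + G.uT e / 64) ∧
      ∀ k, k ≠ K.dir e → |z k - K.w (K.a e) k| ≤ G.uT e / 4 := by
  obtain ⟨⟨he1, he2⟩, he3⟩ := he
  have hT := B.T_pos e
  have hTw := B.T_le e
  have hwq := W.we_le e
  have hTa := B.T_le_a e
  have hTb := B.T_le_b e
  have huT := uT_le_T G e
  have huT0 := G.uT_pos e
  have hκ0 := G.κ_pos t
  have hwa := W.wv_pos (K.a e)
  have hwb := W.wv_pos (K.b e)
  have hyz : ∀ k, |y' k - z k| ≤ G.κ t / 32 := by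
    intro k
    have h1 := (abs_sub_le_norm y z k).trans hy
    have h2 := abs_sub_le (y' k) (y k) (z k)
    linarith [hy' k]
  have hzl : ∀ k, k ≠ K.dir e → |z k - K.w (K.a e) k| ≤ B.T e + G.uT e / 64 := by
    intro k hk
    have h1 := hyz k
    rw [abs_sub_comm] at h1
    have h2 := abs_sub_le (z k) (y' k) (K.w (K.a e) k)
    linarith [he3 k hk]
  have hzd := abs_le.1 (hyz (K.dir e))
  have hd1 : K.w (K.a e) (K.dir e) + W.wv (K.a e) / 2 - G.uT e / 64 ≤ z (K.dir e) := by linarith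
  have hd2 : z (K.dir e) ≤ K.w (K.b e) (K.dir e) - W.wv (K.b e) / 2 + G.uT e / 64 := by linarith
  have hIn : InTube S e z := ⟨fun k hk => (hzl k hk).trans (by linarith), by linarith, by linarith⟩
  have hxf := TM.mem_frontier_Icc3.1 hz
  have hxc : z ∈ K.cube t := hxf.1
  have het : K.edge e ⊆ K.cube t := hIn.tile hxc
  refine ⟨het, ⟨hd1, hd2⟩, ?_⟩
  -- `z` is in the support
  have hae : 15 / 16 * B.T e ≤ W.ae e z := le_marg (by linarith) fun k hk => by
    have hk' : k = K.dir e := by by_contra h; exact hk (mem_Je.2 h)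
    subst hk'
    constructor <;> linarith
  have hzse : z ∈ W.se e := by
    show nJ (Wid.Je K e) (K.w (K.a e)) z < 2 * W.ae e z
    have : nJ (Wid.Je K e) (K.w (K.a e)) z ≤ B.T e + G.uT e / 64 :=
      (nJ_le_iff (by linarith)).2 fun k hk => hzl k (mem_Je.1 hk)
    linarith
  by_cases hE : ∃ e', z ∈ K.edge e'
  · obtain ⟨e', he'⟩ := hE
    by_cases hne : e' = e
    · subst hne
      intro k hk
      rw [edge_coord he' hk, sub_self, abs_zero]
      linarith
    · exact absurd hzse (edge_notMem_se hne he')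
  obtain ⟨s, hs, h1, h2⟩ := K.face_cover t z hxc hxf.2 (by push Not at hE; exact hE)
  have hsS := hS₀ s hs
  have hzs : z ∈ K.sq s := sqo_subset_sq s ⟨h1, h2⟩
  have hes : K.edge e ⊆ K.sq s := by
    have hsub := TM.sq_subset K s
    have h7 := hIn.tile (hsub.1 hzs)
    have h8 := hIn.tile (hsub.2 hzs)
    intro x hx
    show x ∈ Icc (K.slo s) (K.shi s)
    rw [K.s_eq]
    exact ⟨h7 hx, h8 hx⟩
  have hea := hes (TM.wa_mem K e)
  have heb := hes (TM.wb_mem K e)
  have hpu := G.p_uT s e hes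
  have hp := Geo.p_pos (G := G) s
  have hκτ := G.κ_τ t s hs
  have hτp := G.τ_p s
  have hτ := B.τ_pos s
  have hyk : ∀ k, |y k - z k| ≤ G.κ t / 64 := fun k => (abs_sub_le_norm y z k).trans hy
  have hwan := TM.nrm_eq hea
  intro k hk
  by_cases hkn : k = K.nrm s
  · rw [hkn, h1, hwan, sub_self, abs_zero]
    linarith
  by_contra hcon
  push Not at hcon
  have hp4 : G.p s < |z k - K.w (K.a e) k| := by linarith
  refine hoff s hsS (mem_HB.2 ⟨fun l hl => ?_, ?_⟩)
  · have h3 := abs_le.1 (hyk l)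
    by_cases hlk : l = k
    · subst hlk
      have h9 := side_ge S hes hkn hk
      have h4 := abs_le.1 (hzl l hk)
      rcases edge_side hes hkn hk with h5 | h5
      · have h6 := (h2 l hkn).1
        rw [h5] at hp4 h4
        rw [abs_of_pos (by linarith)] at hp4
        constructor <;> linarith
      · have h6 := (h2 l hkn).2
        rw [h5] at hp4 h4
        rw [abs_of_neg (by linarith)] at hp4
        constructor <;> linarith
    · -- the direction of the edge
      have hld : l = K.dir e := by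
        rcases Vale.Agent.P073.H267.Geo.fin3_cases hkn hk (nrm_ne_dir hes) l with h | h | h
        · exact absurd h hlk
        · exact absurd h hl
        · exact h
      subst hld
      have h4 := hea.1 (K.dir e)
      have h5 := heb.2 (K.dir e)
      constructor <;> linarith
  · have h3 := abs_le.1 (hyk (K.nrm s))
    rw [h1] at h3
    rw [abs_le]
    constructor <;> linarith

end geo

variable {c₀ n δ : ℝ} {j : ℕ} {Ω Λ : Set V} {v w : V} {ρ : V → ℝ} {M : Mesh Ω} {h : ConHomeo Ω Λ}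
  {J₀ J : Set (ℕ × (Fin 3 → ℤ))} {P Z : Set M.ι} {K : BoxCx Λ w} {x y y' z : V} {q t : K.T}

/-- frontier points close to a tube and off the plates are close to the edge -/
theorem KIn3.z_edge (D : KIn3 c₀ n j δ v w ρ M h J₀ J P Z) (C : Cells ρ w K) (ht : t ∈ pT C J₀)
    (hz : z ∈ frontier (K.cube t)) (hy : ‖y - z‖ ≤ (D.G C).κ t / 64)
    (hoff : ∀ s ∈ pS C J₀, y ∉ HB (D.G C) (29 / 32) (3 / 4) s) (hyΛ : y' ∈ Λ)
    (hy' : ∀ k, |y' k - y k| ≤ (D.G C).κ t / 64) {e : K.G} (he : y' ∈ (D.B C).E e) :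
    K.edge e ⊆ K.cube t ∧
      (K.w (K.a e) (K.dir e) + (D.W C).wv (K.a e) / 2 - (D.G C).uT e / 64 ≤ z (K.dir e) ∧
        z (K.dir e) ≤ K.w (K.b e) (K.dir e) - (D.W C).wv (K.b e) / 2 + (D.G C).uT e / 64) ∧
      ∀ k, k ≠ K.dir e → |z k - K.w (K.a e) k| ≤ (D.G C).uT e / 4 := by
  have hse : y' ∈ (D.W C).se e := Ze_subset ((D.B C).E_subset e he)
  have hκ0 := (D.G C).κ_pos t
  have hyz : ∀ k, |y' k - z k| ≤ (D.G C).κ t / 32 := by
    intro k
    have h1 := (abs_sub_le_norm y z k).trans hy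
    have h2 := abs_sub_le (y' k) (y k) (z k)
    linarith [hy' k]
  -- the sizes
  obtain ⟨q, hq⟩ := K.cover _ hyΛ
  change y' ∈ K.cube q at hq
  have heq : K.edge e ⊆ K.cube q := (inTube_of_se hse).tile hq
  have hκq := (D.G C).κ_uT q e heq
  have hκ3 := κ3_pos D.pos
  have hκn := D.κ_lt
  have hsT := C.sT_pos t
  have e1 : ‖y' - z‖ ≤ κ3 n / 32 * C.sT t := by
    refine (pi_norm_le_iff_of_nonneg (by positivity)).2 fun k => ?_
    rw [Pi.sub_apply, Real.norm_eq_abs]
    refine (hyz k).trans (le_of_eq ?_)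
    show κ3 n * C.sT t / 32 = _
    ring
  have hcmp := (D.comp C (c' := κ3 n / 32) (by linarith) hz hq e1).2
  have hκt : (D.G C).κ t ≤ 4 * (D.G C).κ q := by
    show κ3 n * C.sT t ≤ 4 * (κ3 n * C.sT q)
    have := mul_le_mul_of_nonneg_left hcmp hκ3.le
    linarith
  exact z_edge_geo (fun s hs => mem_pS ht hs) hz hy hoff hy' he (by linarith)

/-- a face close to a frontier point which is close to an edge is deep in the box of the edge -/
theorem KIn3.inTm_inl (D : KIn3 c₀ n j δ v w ρ M h J₀ J P Z) (C : Cells ρ w K) {e : K.G}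
    (het : K.edge e ⊆ K.cube t)
    (hz1 : K.w (K.a e) (K.dir e) + (D.W C).wv (K.a e) / 2 - (D.G C).uT e / 64 ≤ z (K.dir e) ∧
        z (K.dir e) ≤ K.w (K.b e) (K.dir e) - (D.W C).wv (K.b e) / 2 + (D.G C).uT e / 64)
    (hz2 : ∀ k, k ≠ K.dir e → |z k - K.w (K.a e) k| ≤ (D.G C).uT e / 4) {k : M.κ}
    (hk : ∀ x ∈ M.F k, ‖h.toFun x - z‖ ≤ 3 * (D.G C).om t) :
    InTm 64 (D.G C) M h (ω3T δ C) (.inl e) k := by
  intro x hx y hy
  rw [mem_closedBall, dist_eq_norm] at hy
  have h1 := D.ω3T_oT C (.inl e)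
  change 16777216 * ω3T δ C (.inl e) ≤ (D.G C).oG e at h1
  have h2 := (D.G C).om_oG t e het
  have h3 := (D.G C).oG_uT e
  have h4 := (D.G C).be_wv (K.a e)
  have h5 := (D.G C).be_wv (K.b e)
  have h6 := (D.G C).uT_lam e
  have h7 := (D.G C).lam_a e
  have h8 := (D.G C).lam_b e
  have h9 := (D.G C).be_pos (K.a e)
  have h10 := (D.G C).be_pos (K.b e)
  have h11 := (D.G C).uT_pos e
  have hω := D.ω3T_pos C (.inl e)
  have hyz : ∀ l, |y l - z l| ≤ (D.G C).uT e / 64 := by
    intro l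
    have e1 := abs_sub_le_norm y (h.toFun x) l
    have e2 := abs_sub_le_norm (h.toFun x) z l
    have e3 := hk x hx
    have e4 := abs_sub_le (y l) (h.toFun x l) (z l)
    linarith
  rw [Geo.mem_inl]
  refine ⟨?_, fun l hl => ?_⟩
  · have e1 := abs_le.1 (hyz (K.dir e))
    constructor <;> linarith
  · have e1 := abs_sub_le (y l) (z l) (K.w (K.a e) l)
    have e2 := hz2 l hl
    simp only [if_true]
    linarith [hyz l]

end Vale.Agent.P073.H926
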