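import Vale.Agent.P073.H142.PCone4
import Vale.Agent.P073.H880.RP0

/-!
# P073, block H142 ([PS3]): the staircases of ROUND P on a set of processed squares

The twins of `PlateBox`, `PS` for families indexed by `S₀ : Set K.S` (`L` = `thinL ..` of H880).
-/

open Set Metric Topology Filter MeasureTheory
open scoped ENNReal

namespace P073.H142

open P073 P073.Net P073.PA691 Vale.Agent.P073.H471 Vale.Agent.P073.H267 P073.H236 P073.H345
  P073.H579
open Vale.Agent.P073.St (V)
open Vale.Agent.P073.H73 (Mesh)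
open Vale.Agent.P073.H193 (Edges)

variable {Ω Λ : Set V} {M : Mesh Ω} {E : Edges M} {k : M.κ} {v : V} {K : BoxCx Λ v} {S : Rad K}
  {W : Wid K S} {B : Boxes W} {G : Geo B}

/-! ### One family, one box -/

/-- the box `b` of a family `F` (direction `j`) is the box of the plate `s` -/
structure PlateB (G : Geo B) {ι : Type*} (F : BFam 3 ι Λ) (b : ι) (s : K.S) (j : Fin 3) :
    Prop where
  dir : (F.B b).j = j
  ne : j ≠ K.nrm s
  al : (F.B b).al = K.slo s j + G.a s
  be : (F.B b).be = K.shi s j - G.a s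
  full : ∀ y ∈ G.PB (7 / 8) s, (F.B b).Full y
  disj : ∀ b', b' ≠ b → Disjoint (F.B b').K (G.PB (7 / 8) s)

section plate

variable {ι : Type*} {F : BFam 3 ι Λ} {b : ι} {s : K.S} {j : Fin 3} {T : ConHomeo Λ Λ} {y : V}

/-- **the staircase in the plate** -/
theorem PlateB.map_eq (P : PlateB G F b s j) (hT : F.IsS T) (hy : y ∈ G.PB (7 / 8) s) :
    T.toFun y = Function.update y j (F.σ b (y j)) := by
  have hj := P.dir
  by_cases hw : (F.B b).al ≤ y j ∧ y j ≤ (F.B b).be
  · have h1 : F.FullK b y := ⟨by rw [hj]; exact hw, P.full y hy⟩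
    rw [hT.full h1, hj]
  · have hw' : y j ≤ (F.B b).al ∨ (F.B b).be ≤ y j := by
      by_contra hcon
      push Not at hcon
      exact hw ⟨hcon.1.le, hcon.2.le⟩
    have h1 : ∀ b', y ∉ (F.B b').K := by
      intro b' hb
      by_cases hbs : b' = b
      · subst hbs
        refine hw ?_
        have := hb.1
        rw [hj] at this
        exact this
      · exact Set.disjoint_left.1 (P.disj b' hbs) hb hy
    rw [hT.off y h1, F.σ_out hw', Function.update_eq_self]

theorem PlateB.σ_mem (P : PlateB G F b s j) {t : ℝ} :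
    F.σ b t ∈ pwin G s j ↔ t ∈ pwin G s j := by
  have e : pwin G s j = Icc (F.B b).al (F.B b).be := by rw [P.al, P.be]; rfl
  rw [e]
  constructor
  · intro h
    have := F.σi_win h
    rwa [F.σi_σ] at this
  · exact fun h => F.σ_win h

/-- outside of the window the staircase is the identity -/
theorem PlateB.σ_eq (P : PlateB G F b s j) {t : ℝ} (ht : t ∉ pwin G s j) : F.σ b t = t := by
  refine F.σ_out ?_
  have e : pwin G s j = Icc (F.B b).al (F.B b).be := by rw [P.al, P.be]; rfl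
  rw [e] at ht
  by_contra hcon
  push Not at hcon
  exact ht ⟨hcon.1.le, hcon.2.le⟩

theorem PlateB.mem_PB (P : PlateB G F b s j) {c : ℝ} (hc : c ≤ 1) :
    Function.update y j (F.σ b (y j)) ∈ G.PB c s ↔ y ∈ G.PB c s := by
  have hp := G.p_pos s
  have hpa := G.p_a s
  have key : (K.slo s j + c * G.p s ≤ F.σ b (y j) ∧ F.σ b (y j) ≤ K.shi s j - c * G.p s) ↔
      (K.slo s j + c * G.p s ≤ y j ∧ y j ≤ K.shi s j - c * G.p s) := by
    by_cases hw : y j ∈ pwin G s j
    · have hw' := P.σ_mem.2 hw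
      constructor
      · intro _
        constructor <;> nlinarith [hw.1, hw.2]
      · intro _
        constructor <;> nlinarith [hw'.1, hw'.2]
    · rw [P.σ_eq hw]
  rw [Geo.mem_PB, Geo.mem_PB, Function.update_of_ne P.ne.symm]
  refine and_congr_left fun _ => ?_
  constructor
  · intro h i hi
    by_cases hij : i = j
    · subst hij
      have := h i hi
      rw [Function.update_self] at this
      exact key.1 this
    · have := h i hi
      rwa [Function.update_of_ne hij] at this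
  · intro h i hi
    by_cases hij : i = j
    · subst hij
      rw [Function.update_self]
      exact key.2 (h i hi)
    · rw [Function.update_of_ne hij]
      exact h i hi

end plate

/-! ### The two families -/

/-- `b` is the box `b'` with smaller fade radii (between one half and one) -/
structure BxR (b b' : BX 3) : Prop where
  j : b.j = b'.j
  N : b.N = b'.N
  a : b.a = b'.a
  c : b.c = b'.c
  al : b.al = b'.al
  be : b.be = b'.be
  lo : b.lo = b'.lo
  hi : b.hi = b'.hi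
  r2 : ∀ i, b'.r i / 2 ≤ b.r i
  r : ∀ i, b.r i ≤ b'.r i

theorem BxR.refl (b : BX 3) : BxR b b :=
  ⟨rfl, rfl, rfl, rfl, rfl, rfl, rfl, rfl, fun i => by linarith [b.hr i], fun _ => le_rfl⟩

/-- half the fade radii -/
theorem BxR.half (b : BX 3) (hr : ∀ i, 0 < b.r i / 2) :
    BxR { b with r := fun i => b.r i / 2, hr := hr } b :=
  ⟨rfl, rfl, rfl, rfl, rfl, rfl, rfl, rfl, fun _ => le_rfl, fun i => by
    have := b.hr i
    show b.r i / 2 ≤ b.r i
    linarith⟩

theorem BxR.sub_K {b b' : BX 3} (h : BxR b b') : b.K ⊆ b'.K := by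
  intro y hy
  obtain ⟨h1, h2⟩ := hy
  refine ⟨?_, fun i hi => ?_⟩
  · rw [← h.j, ← h.al, ← h.be]
    exact h1
  · rw [← h.j] at hi
    have h3 := h2 i hi
    have h4 := h.r i
    rw [← h.lo, ← h.hi]
    constructor <;> linarith [h3.1, h3.2]

theorem BxR.full {b b' : BX 3} (h : BxR b b') {y : V} : b.Full y ↔ b'.Full y := by
  unfold BX.Full
  rw [h.j, h.lo, h.hi]

/-- the staircases of ROUND P at the squares of `S₀` -/
structure PS3 (L : PLev G) (S₀ : Set K.S) (F : Bool → BFam 3 S₀ Λ) (T : Bool → ConHomeo Λ Λ) :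
    Prop where
  B : ∀ β s, BxR ((F β).B s) (L.bx β s.1)
  isS : ∀ β, (F β).IsS (T β)

section

variable {L : PLev G} {S₀ : Set K.S} {F : Bool → BFam 3 S₀ Λ} {T : Bool → ConHomeo Λ Λ}
  {s : S₀} {β : Bool} {y y' : V}

theorem PS3.mem_K' (P : PS3 L S₀ F T) (hK : y ∈ ((F β).B s).K) : y ∈ (L.bx β s.1).K :=
  (P.B β s).sub_K hK

theorem PS3.mem_K (P : PS3 L S₀ F T) (hK : y ∈ ((F β).B s).K) : y ∈ PK G s.1 :=
  (PLev.mem_bxK.1 (P.mem_K' hK)).1

theorem PS3.plate (P : PS3 L S₀ F T) (s : S₀) (β : Bool) :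
    PlateB G (F β) s s.1 (tg s.1 β) where
  dir := (P.B β s).j
  ne := tg_ne s.1 β
  al := (P.B β s).al
  be := (P.B β s).be
  full := fun y hy => (P.B β s).full.2 (PLev.PB_full hy)
  disj := fun s' hs' => by
    rw [Set.disjoint_left]
    intro y hy hy'
    exact hs' (Subtype.ext (PK_unique (P.mem_K hy) (PB_sub_PK (by norm_num) s.1 hy')))

/-- the composition of the two staircases in the plate -/
theorem PS3.map_eq (P : PS3 L S₀ F T) (hy : y ∈ G.PB (7 / 8) s.1) :
    PS.map T y = Function.update (Function.update y (tg s.1 false)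
      ((F false).σ s (y (tg s.1 false)))) (tg s.1 true) ((F true).σ s (y (tg s.1 true))) := by
  have h1 := (P.plate s false).map_eq (P.isS false) hy
  have h2 : (T false).toFun y ∈ G.PB (7 / 8) s.1 := by
    rw [h1]
    exact ((P.plate s false).mem_PB (by norm_num)).2 hy
  have hne : tg s.1 false ≠ tg s.1 true := tg_ne_not s.1 false
  unfold PS.map
  rw [(P.plate s true).map_eq (P.isS true) h2, h1, Function.update_of_ne hne.symm]

theorem PS3.apply (P : PS3 L S₀ F T) (hy : y ∈ G.PB (7 / 8) s.1) (β : Bool) :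
    PS.map T y (tg s.1 β) = (F β).σ s (y (tg s.1 β)) := by
  have hne : tg s.1 false ≠ tg s.1 true := tg_ne_not s.1 false
  rw [P.map_eq hy]
  cases β
  · rw [Function.update_of_ne hne, Function.update_self]
  · rw [Function.update_self]

theorem PS3.nrm (P : PS3 L S₀ F T) (hy : y ∈ G.PB (7 / 8) s.1) :
    PS.map T y (K.nrm s.1) = y (K.nrm s.1) := by
  rw [P.map_eq hy, Function.update_of_ne (tg_ne s.1 true).symm,
    Function.update_of_ne (tg_ne s.1 false).symm]

theorem PS3.mem_PB (P : PS3 L S₀ F T) {c : ℝ} (hc : 7 / 8 ≤ c) (hc1 : c ≤ 1)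
    (hy : y ∈ G.PB c s.1) : PS.map T y ∈ G.PB c s.1 := by
  have hy' : y ∈ G.PB (7 / 8) s.1 := Vale.Agent.P073.H805.PB_mono hc s.1 hy
  have h1 := (P.plate s false).map_eq (P.isS false) hy'
  have h2 : (T false).toFun y ∈ G.PB c s.1 := by
    rw [h1]
    exact ((P.plate s false).mem_PB hc1).2 hy
  unfold PS.map
  rw [(P.plate s true).map_eq (P.isS true) (Vale.Agent.P073.H805.PB_mono hc s.1 h2)]
  exact ((P.plate s true).mem_PB hc1).2 h2

theorem PS3.mem_win (P : PS3 L S₀ F T) (hy : y ∈ G.PB (7 / 8) s.1) {j : Fin 3}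
    (hj : j ≠ K.nrm s.1) : PS.map T y j ∈ pwin G s.1 j ↔ y j ∈ pwin G s.1 j := by
  obtain ⟨β, rfl⟩ : ∃ β, j = tg s.1 β := ⟨bt s.1 j, (tg_bt s.1 hj).symm⟩
  rw [P.apply hy]
  exact (P.plate s β).σ_mem

/-- off the windows nothing moves -/
theorem PS3.eq_off (P : PS3 L S₀ F T) (hy : y ∈ G.PB (7 / 8) s.1) {j : Fin 3}
    (hw : y j ∉ pwin G s.1 j) : PS.map T y j = y j := by
  by_cases hj : j = K.nrm s.1
  · subst hj; exact P.nrm hy
  · obtain ⟨β, rfl⟩ : ∃ β, j = tg s.1 β := ⟨bt s.1 j, (tg_bt s.1 hj).symm⟩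
    rw [P.apply hy]
    exact (P.plate s β).σ_eq hw

/-- **the estimate in the plate**, one coordinate in the window -/
theorem PS3.lip (P : PS3 L S₀ F T) {y y' : V} (hy : y ∈ G.PB (7 / 8) s.1)
    (hy' : y' ∈ G.PB (7 / 8) s.1) {K₁ K₂ r : ℝ}
    (h1 : bandD (L.lv s.1) (L.loP s.1) (L.hiP s.1) (L.omP s.1) y y' ≤ K₁ * r)
    (h2 : ∀ j, |y j - y' j| ≤ K₂ * r) {ε : ℝ} (hε : ∀ β, (F β).e s / L.c s.1 β * K₂ ≤ ε)
    (hr : 0 ≤ r) {j : Fin 3} (hj : j ≠ K.nrm s.1) (hw : y j ∈ pwin G s.1 j)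
    (hw' : y' j ∈ pwin G s.1 j) :
    |PS.map T y j - PS.map T y' j| ≤ (K₁ + ε) * r := by
  obtain ⟨β, rfl⟩ : ∃ β, j = tg s.1 β := ⟨bt s.1 j, (tg_bt s.1 hj).symm⟩
  have e : BxR ((F β).B s) (L.bx β s.1) := P.B β s
  rw [P.apply hy, P.apply hy']
  have e2 : pwin G s.1 (tg s.1 β) = Icc ((F β).B s).al ((F β).B s).be := by
    rw [e.al, e.be]; rfl
  rw [e2] at hw hw'
  have hc := ((F β).B s).lvs.c0
  have he := (F β).he s
  refine (abs_sm_sub_le_win ((F β).B s).lvs he ((F β).heo s) hw hw').trans ?_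
  have h0 : 0 ≤ ∑ k ∈ Finset.range ((F β).B s).N,
      |fl ((F β).B s).c (((F β).B s).a k) (y (tg s.1 β)) -
        fl ((F β).B s).c (((F β).B s).a k) (y' (tg s.1 β))| :=
    Finset.sum_nonneg fun _ _ => abs_nonneg _
  have h3 : (stp ((F β).B s).N ((F β).B s).al ((F β).B s).be - 2 * (F β).e s) /
      (2 * ((F β).B s).c) * ∑ k ∈ Finset.range ((F β).B s).N,
        |fl ((F β).B s).c (((F β).B s).a k) (y (tg s.1 β)) -
          fl ((F β).B s).c (((F β).B s).a k) (y' (tg s.1 β))| ≤ K₁ * r := by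
    refine le_trans ?_ ((PLev.term_le L s.1 β y y').trans h1)
    have e3 : stp (L.N s.1 β) (K.slo s.1 (tg s.1 β) + G.a s.1) (K.shi s.1 (tg s.1 β) - G.a s.1) =
        stp ((F β).B s).N ((F β).B s).al ((F β).B s).be := by rw [e.N, e.al, e.be]; rfl
    have e4 : ∑ n ∈ Finset.range (L.N s.1 β), |fl (L.c s.1 β) (L.a s.1 β n) (y (tg s.1 β)) -
        fl (L.c s.1 β) (L.a s.1 β n) (y' (tg s.1 β))| / (2 * L.c s.1 β) =
        (∑ k ∈ Finset.range ((F β).B s).N,
        |fl ((F β).B s).c (((F β).B s).a k) (y (tg s.1 β)) -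
          fl ((F β).B s).c (((F β).B s).a k) (y' (tg s.1 β))|) / (2 * ((F β).B s).c) := by
      rw [← Finset.sum_div, e.N, e.c, e.a]; rfl
    rw [e3, e4, ← mul_div_assoc, div_mul_eq_mul_div]
    gcongr
    linarith
  have h4 : (F β).e s / ((F β).B s).c * |y (tg s.1 β) - y' (tg s.1 β)| ≤
      (F β).e s / ((F β).B s).c * (K₂ * r) :=
    mul_le_mul_of_nonneg_left (h2 _) (div_nonneg he.le hc.le)
  have h5 : (F β).e s / ((F β).B s).c * K₂ ≤ ε := by
    have := hε β
    rwa [show L.c s.1 β = ((F β).B s).c from e.c.symm] at this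
  have h6 : (F β).e s / ((F β).B s).c * (K₂ * r) ≤ ε * r := by
    rw [← mul_assoc]
    exact mul_le_mul_of_nonneg_right h5 hr
  linarith

/-- **(CONE) in the plates**, on any set `A` -/
theorem PS3.coneAt (P : PS3 L S₀ F T) {A : Set V} {g : V → V}
    (hg : ContinuousOn (PS.map T ∘ g) A)
    (hA : ∀ x ∈ A, g x ∈ G.PB (7 / 8) s.1 ∧ |g x (K.nrm s.1) - K.slo s.1 (K.nrm s.1)| < B.τ s.1)
    {K₁ K₂ ε : ℝ} (h1 : ∀ x ∈ A, ∀ y ∈ A,
      bandD (L.lv s.1) (L.loP s.1) (L.hiP s.1) (L.omP s.1) (g x) (g y) ≤ K₁ * ‖x - y‖)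
    (h2 : ∀ x ∈ A, ∀ y ∈ A, ‖g x - g y‖ ≤ K₂ * ‖x - y‖)
    (hε : ∀ β, (F β).e s / L.c s.1 β * K₂ ≤ ε) {Lc : ℝ} (hL : K₁ + ε ≤ Lc) {x : V} (hx : x ∈ A) :
    ConeAtB B Lc A (fun x => PS.map T (g x)) x := by
  refine coneAt_peeled G (s := s.1) (c := 7 / 8) (by norm_num) hx (hg x hx)
    (P.mem_PB le_rfl (by norm_num) (hA x hx).1) ?_ ?_
  · rw [P.nrm (hA x hx).1]
    exact (hA x hx).2
  · intro x' hx' j hj hw hw'
    rw [P.mem_win (hA x hx).1 hj] at hw
    rw [P.mem_win (hA x' hx').1 hj] at hw'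
    refine (P.lip (hA x' hx').1 (hA x hx).1 (h1 x' hx' x hx) (fun i => ?_) hε (norm_nonneg _) hj
      hw' hw).trans (mul_le_mul_of_nonneg_right hL (norm_nonneg _))
    refine le_trans ?_ (h2 x' hx' x hx)
    have := norm_le_pi_norm (g x' - g x) i
    rwa [Pi.sub_apply, Real.norm_eq_abs] at this

/-! ### Points near an edge -/

theorem PS3.near_tg (P : PS3 L S₀ F T) {i : K.G} (hy : NearE G i y) (hK : y ∈ ((F β).B s).K) :
    y ∈ PK G s.1 ∧ tg s.1 β = K.dir i := by
  obtain ⟨h1, h2⟩ := PLev.mem_bxK.1 (P.mem_K' hK)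
  refine ⟨h1, ?_⟩
  by_contra hne
  exact (hy s.1 h1).2 _ (tg_ne s.1 β) hne h2

/-- only the coordinate along the edge is moved -/
theorem PS3.near_step (P : PS3 L S₀ F T) {i : K.G} (hy : NearE G i y) (β : Bool) :
    (∀ j, j ≠ K.dir i → (T β).toFun y j = y j) ∧ NearE G i ((T β).toFun y) ∧
      ∀ s : K.S, (T β).toFun y ∈ PK G s → y ∈ PK G s := by
  by_cases hK : ∃ s, y ∈ ((F β).B s).K
  · obtain ⟨s, hs⟩ := hK
    obtain ⟨h1, h2⟩ := P.near_tg hy hs
    have h3 : ∀ j, j ≠ K.dir i → (T β).toFun y j = y j := by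
      intro j hj
      refine (P.isS β).ne hs ?_
      rw [(P.plate s β).dir, h2]
      exact hj
    have h4 := P.mem_K ((P.isS β).mem hs)
    refine ⟨h3, fun s' hs' => ?_, fun s' hs' => ?_⟩
    · have h5 : s' = s.1 := PK_unique hs' h4
      subst h5
      refine ⟨(hy s.1 h1).1, fun j hj hjd => ?_⟩
      rw [h3 j hjd]
      exact (hy s.1 h1).2 j hj hjd
    · have h5 : s' = s.1 := PK_unique hs' h4
      subst h5
      exact h1
  · push Not at hK
    rw [(P.isS β).off y hK]
    exact ⟨fun _ _ => rfl, hy, fun _ h => h⟩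

/-- **Lipschitz bound of the coordinate along the edge**, one family; `A` is the slope of the
staircase, and `q` the cost of the fade-out -/
theorem PS3.lip_near (P : PS3 L S₀ F T) {A : ℝ} (hA : 1 ≤ A)
    (hs : ∀ β s t t', |(F β).σ s t - (F β).σ s t'| ≤ A * |t - t'|) {i : K.G} {z z' : V}
    (hz : NearE G i z) (hz' : NearE G i z') {d q : ℝ} (hd : ∀ j, j ≠ K.dir i → |z j - z' j| ≤ d)
    (hd0 : 0 ≤ d) (hq0 : 0 ≤ q)
    (hq : ∀ s : S₀, (z ∈ PK G s.1 ∨ z' ∈ PK G s.1) → (F β).D s * (d / (B.τ s.1 / 4)) ≤ q) :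
    |(T β).toFun z (K.dir i) - (T β).toFun z' (K.dir i)| ≤
      3 * A * |z (K.dir i) - z' (K.dir i)| + 2 * q := by
  have hnn := abs_nonneg (z (K.dir i) - z' (K.dir i))
  have key : ∀ s : S₀, (z ∈ PK G s.1 ∨ z' ∈ PK G s.1) → tg s.1 β = K.dir i →
      |((F β).Sb s).toFun z (K.dir i) - ((F β).Sb s).toFun z' (K.dir i)| ≤
        A * |z (K.dir i) - z' (K.dir i)| + q := by
    intro s hsz hsi
    have e : BxR ((F β).B s) (L.bx β s.1) := P.B β s
    have ej : ((F β).B s).j = K.dir i := by rw [(P.plate s β).dir, hsi]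
    have hτ := B.τ_pos s.1
    have hp := G.τ_p s.1
    have h1 := ((F β).B s).abs_S_sub_le ((F β).tgt s) ((F β).D0 s) hA (hs β s)
      (ρ := B.τ s.1 / 4) (d := d) (by positivity) (fun l => by
        refine le_trans ?_ (e.r2 l)
        show _ ≤ (if l = K.nrm s.1 then B.τ s.1 / 2 else G.p s.1 / 8) / 2
        split_ifs
        · linarith
        · linarith) (y := z) (y' := z') (fun l hl => hd l (by rwa [ej] at hl)) hd0
    rw [ej] at h1
    exact h1.trans (add_le_add_right (hq s hsz) _)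
  have hid : ∀ s, ∀ y, y ∉ ((F β).B s).K → ((F β).Sb s).toFun y = y := fun s y hy =>
    ((F β).supp s).id y hy
  by_cases hK : ∃ s, z ∈ ((F β).B s).K
  · obtain ⟨s, hzs⟩ := hK
    obtain ⟨h1, h2⟩ := P.near_tg hz hzs
    have h3 := key s (Or.inl h1) h2
    rw [← (P.isS β).on s z hzs] at h3
    by_cases hK' : ∃ s, z' ∈ ((F β).B s).K
    · obtain ⟨s', hzs'⟩ := hK'
      obtain ⟨h1', h2'⟩ := P.near_tg hz' hzs'
      by_cases hss : s = s'
      · subst hss
        rw [← (P.isS β).on s z' hzs'] at h3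
        nlinarith
      · have h4 := key s' (Or.inr h1') h2'
        rw [← (P.isS β).on s' z' hzs'] at h4
        rw [hid s z' fun h => hss (Subtype.ext (PK_unique (P.mem_K h) h1'))] at h3
        rw [hid s' z fun h => hss (Subtype.ext (PK_unique h1 (P.mem_K h)))] at h4
        have h5 : |(T β).toFun z (K.dir i) - (T β).toFun z' (K.dir i)| ≤
            |(T β).toFun z (K.dir i) - z' (K.dir i)| + |z' (K.dir i) - z (K.dir i)| +
              |z (K.dir i) - (T β).toFun z' (K.dir i)| := by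
          have h6 := abs_sub_le ((T β).toFun z (K.dir i)) (z' (K.dir i)) ((T β).toFun z' (K.dir i))
          have h7 := abs_sub_le (z' (K.dir i)) (z (K.dir i)) ((T β).toFun z' (K.dir i))
          linarith
        rw [abs_sub_comm (z' (K.dir i)) (z (K.dir i))] at h5
        nlinarith
    · push Not at hK'
      rw [hid s z' (hK' s)] at h3
      rw [(P.isS β).off z' hK']
      nlinarith
  · push Not at hK
    rw [(P.isS β).off z hK]
    by_cases hK' : ∃ s, z' ∈ ((F β).B s).K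
    · obtain ⟨s', hzs'⟩ := hK'
      obtain ⟨h1', h2'⟩ := P.near_tg hz' hzs'
      have h4 := key s' (Or.inr h1') h2'
      rw [← (P.isS β).on s' z' hzs', hid s' z (hK s')] at h4
      nlinarith
    · push Not at hK'
      rw [(P.isS β).off z' hK']
      nlinarith

/-- **Lipschitz bound of the coordinate along the edge** -/
theorem PS3.lip_tube (P : PS3 L S₀ F T) {A : ℝ} (hA : 1 ≤ A)
    (hs : ∀ β s t t', |(F β).σ s t - (F β).σ s t'| ≤ A * |t - t'|) {i : K.G} {z z' : V}
    (hz : NearE G i z) (hz' : NearE G i z') {d q : ℝ} (hd : ∀ j, j ≠ K.dir i → |z j - z' j| ≤ d)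
    (hd0 : 0 ≤ d) (hq0 : 0 ≤ q)
    (hq : ∀ β, ∀ s : S₀, (z ∈ PK G s.1 ∨ z' ∈ PK G s.1) →
      (F β).D s * (d / (B.τ s.1 / 4)) ≤ q) :
    |PS.map T z (K.dir i) - PS.map T z' (K.dir i)| ≤
      9 * A ^ 2 * |z (K.dir i) - z' (K.dir i)| + (6 * A + 2) * q := by
  obtain ⟨h1, h2, h3⟩ := P.near_step hz false
  obtain ⟨h1', h2', h3'⟩ := P.near_step hz' false
  have h4 := P.lip_near hA hs hz hz' hd hd0 hq0 (hq false)
  have h5 := P.lip_near (β := true) hA hs h2 h2' (d := d) (q := q) (fun j hj => by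
    rw [h1 j hj, h1' j hj]; exact hd j hj) hd0 hq0 (fun s hs' => hq true s (by
      rcases hs' with h | h
      · exact Or.inl (h3 s.1 h)
      · exact Or.inr (h3' s.1 h)))
  unfold PS.map
  have h6 : 3 * A * |(T false).toFun z (K.dir i) - (T false).toFun z' (K.dir i)| ≤
      3 * A * (3 * A * |z (K.dir i) - z' (K.dir i)| + 2 * q) :=
    mul_le_mul_of_nonneg_left h4 (by linarith)
  refine h5.trans ?_
  nlinarith

/-- displacement of one staircase -/
theorem PS3.disp (P : PS3 L S₀ F T) {d : ℝ} (hd : 0 ≤ d) (hD : ∀ s : S₀, y ∈ PK G s.1 →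
    (F β).D s ≤ d) : ‖(T β).toFun y - y‖ ≤ d := by
  by_cases hK : ∃ s, y ∈ ((F β).B s).K
  · obtain ⟨s, hs⟩ := hK
    exact ((P.isS β).norm_sub_le hs).trans (hD s (P.mem_K hs))
  · push Not at hK
    rw [(P.isS β).off y hK, sub_self, norm_zero]
    exact hd

/-- off the supports nothing moves -/
theorem PS3.map_off (P : PS3 L S₀ F T) (hy : ∀ s : S₀, y ∉ PK G s.1) : PS.map T y = y := by
  have h1 : ∀ β, (T β).toFun y = y := fun β =>
    (P.isS β).off y fun s hs => hy s (P.mem_K hs)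
  unfold PS.map
  rw [h1, h1]

/-- displacement of the two staircases -/
theorem PS3.disp2 (P : PS3 L S₀ F T) {d : ℝ} (hd : 0 ≤ d) (hD : ∀ β, ∀ s : S₀, y ∈ PK G s.1 →
    (F β).D s ≤ d) : ‖PS.map T y - y‖ ≤ d := by
  by_cases hK : ∃ s : S₀, y ∈ PK G s.1
  · obtain ⟨s, hs⟩ := hK
    have h0 : (T false).toFun y ∈ PK G s.1 := by
      by_cases hK' : ∃ s', y ∈ ((F false).B s').K
      · obtain ⟨s', hs'⟩ := hK'
        have h2 := P.mem_K ((P.isS false).mem hs')
        have h3 : s.1 = s'.1 := PK_unique hs (P.mem_K hs')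
        rwa [h3]
      · push Not at hK'
        rwa [(P.isS false).off y hK']
    have hmv : ∀ β z, z ∈ PK G s.1 → ∀ j, j ≠ tg s.1 β → (T β).toFun z j = z j := by
      intro β z hz j hj
      by_cases hK' : ∃ s', z ∈ ((F β).B s').K
      · obtain ⟨s', hs'⟩ := hK'
        have h3 : s.1 = s'.1 := PK_unique hz (P.mem_K hs')
        refine (P.isS β).ne hs' ?_
        rw [(P.plate s' β).dir, ← h3]
        exact hj
      · push Not at hK'
        rw [(P.isS β).off z hK']
    have h1 : ‖(T false).toFun y - y‖ ≤ d := P.disp hd (hD false)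
    have h2 : ‖(T true).toFun ((T false).toFun y) - (T false).toFun y‖ ≤ d :=
      P.disp hd fun s' hs' => hD true s' (by
        have h3 : s.1 = s'.1 := PK_unique h0 hs'
        rw [← h3]; exact hs)
    unfold PS.map
    rw [pi_norm_le_iff_of_nonneg hd]
    intro j
    rw [Pi.sub_apply]
    by_cases hj : j = tg s.1 true
    · have hne : j ≠ tg s.1 false := by
        rw [hj]; exact (tg_ne_not s.1 false).symm
      rw [← hmv false y hs j hne]
      exact (norm_le_pi_norm _ j).trans h2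
    · rw [hmv true _ h0 j hj]
      exact (norm_le_pi_norm _ j).trans h1
  · push Not at hK
    rw [P.map_off hK, sub_self, norm_zero]
    exact hd

end

end P073.H142
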