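import Vale.Agent.P073.H579.Act3
import Vale.Agent.P073.H880.RP1
import Vale.Agent.P073.H244.PWe
import Vale.Agent.P073.H31.FRound

/-!
# P073, block H142 ([STAGE3F]): the insertion step of ROUND P for `K3C`, with good face maps

`ROut3.hWe`: the sum of the weights on the active edges ([P-WE]) for the output of the exchange of
`K3C`.  `exists_stage3F`: `exists_stage3` with `GE = GEP` (the maps of `PAct.hedge` on the own
edges, `Θ ∘ h1` on the shared edges) and any good face maps.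
-/

set_option linter.unusedSectionVars false

open Set Metric Topology Filter
open scoped ENNReal

namespace P073.H880.RP

open _root_.P073 _root_.P073.Net _root_.P073.PA691 _root_.P073.H236 _root_.P073.H579
  _root_.P073.H345 _root_.P073.H880
open Vale.Agent.P073.St (V)
open Vale.Agent.P073.H471 Vale.Agent.P073.H267 Vale.Agent.P073.H267.Geo
open Vale.Agent.P073.H805 (t1 t2 EdgeOk lvs)
open Vale.Agent.P073.H73 (Mesh)
open Vale.Agent.P073.H193 (Edges Cyc edges)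
open Vale.Agent.P073.H155 (vv)
open Vale.Agent.P073.H304 (IsEdge)

variable {Ω Λ : Set V} {v : V} {K : BoxCx Λ v} {S : Rad K} {W : Wid K S} {B : Boxes W}
  {G : Geo B} {M : Mesh Ω} {E : Edges M} {D : Dat K M} {h1 h2 : ConHomeo Ω Λ}
  {ι : Type} {F : ι → Set V}

/-! ### congruence of the good edge maps -/

theorem lm_mem (a b : V) {s : ℝ} (hs : s ∈ Icc (0:ℝ) 1) :
    AffineMap.lineMap a b s ∈ segment ℝ a b := by
  rw [segment_eq_image_lineMap]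
  exact mem_image_of_mem _ hs

theorem edgeNum_congr {a b : V} {h : V → V} {k : Fin 3 → ℝ → ℝ} {L : Fin 3 → Finset ℝ}
    {lo hi om : Fin 3 → ℝ → ℝ} {La : ℝ} {f g : V → V} {s1 s2 s3 s4 : V → ℝ}
    (hfg : EqOn f g (segment ℝ a b))
    (H : EdgeNum a b h k L lo hi om La f s1 s2 s3 s4) :
    EdgeNum a b h k L lo hi om La g s1 s2 s3 s4 := by
  have key : ∀ s ∈ Icc (0:ℝ) 1, f (AffineMap.lineMap a b s) = g (AffineMap.lineMap a b s) :=
    fun s hs => hfg (lm_mem a b hs)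
  refine ⟨H.a1, H.a2, H.a3, H.a4, H.a5, H.dis, fun x hx s hs => ?_, H.g1, H.g2,
    fun x hx j hj s hs s' hs' => ?_⟩
  · rw [← key s hs]
    exact H.fib x hx s hs
  · have hc : CrsPt a b h L x := ⟨hx, j, hj⟩
    have e1 := H.a1 x hc
    have e2 := H.a2 x hc
    have e4 := H.a4 x hc
    have e5 := H.a5 x hc
    rw [← key s ⟨by linarith [hs.1], by linarith [hs.2]⟩,
      ← key s' ⟨by linarith [hs'.1], by linarith [hs'.2]⟩]
    exact H.lip x hx j hj s hs s' hs'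

theorem even_congr {a b : V} {h : V → V} {k : Fin 3 → ℝ → ℝ} {L : Fin 3 → Finset ℝ}
    {lo hi om : Fin 3 → ℝ → ℝ} {La mu : ℝ} {f g : V → V} {s1 s2 s3 s4 : V → ℝ}
    (hfg : EqOn f g (segment ℝ a b))
    (H : EdgeNum a b h k L lo hi om La f s1 s2 s3 s4)
    (H' : Even a b h L lo hi om mu f s1 s2 s3 s4) : Even a b h L lo hi om mu g s1 s2 s3 s4 := by
  obtain ⟨X, h1, h2, h3⟩ := H'
  refine ⟨X, h1, h2, fun x hx j hj => ?_⟩
  have hc := (h1 x).1 hx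
  have e1 := H.a1 x hc
  have e2 := H.a2 x hc
  have e4 := H.a4 x hc
  have e5 := H.a5 x hc
  have key : ∀ s ∈ Icc (s2 x) (s3 x), f (AffineMap.lineMap a b s) = g (AffineMap.lineMap a b s) :=
    fun s hs => hfg (lm_mem a b
      ⟨by linarith [hs.1], by linarith [hs.2]⟩)
  rcases h3 x hx j hj with h4 | h4
  · exact Or.inl fun s hs => by rw [← key s hs]; exact h4 s hs
  · exact Or.inr fun s hs => by rw [← key s hs]; exact h4 s hs

theorem gep_congr {σ : Type*} {M : Mesh Ω} {E : Edges M} {h : ConHomeo Ω Λ}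
    {Ak : σ → M.κ → Prop} {kP : σ → Fin 3 → ℝ → ℝ} {LP : σ → Fin 3 → Finset ℝ}
    {loP hiP omP : σ → Fin 3 → ℝ → ℝ} {La mu : E.ε → ℝ} {e : E.ε} {f g : V → V}
    (hfg : EqOn f g (E.seg e)) (H : GEP E h Ak kP LP loP hiP omP La mu e f) :
    GEP E h Ak kP LP loP hiP omP La mu e g := by
  intro s hs
  obtain ⟨s1, s2, s3, s4, h1, h2⟩ := H s hs
  exact ⟨s1, s2, s3, s4, edgeNum_congr hfg h1, fun ho => even_congr (k := kP s) hfg h1 (h2 ho)⟩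

/-! ### the weights of the active edges -/

/-- thin flats have the same weights -/
theorem thinL_omP {L : PLev G} {c : K.S → Bool → ℝ} {h0 : ∀ s β, 0 < c s β}
    {h1 : ∀ s β, c s β ≤ L.c s β} : (thinL L c h0 h1).omP = L.omP := rfl

theorem thinL_lv' {L : PLev G} {c : K.S → Bool → ℝ} {h0 : ∀ s β, 0 < c s β}
    {h1 : ∀ s β, c s β ≤ L.c s β} : (thinL L c h0 h1).lv = L.lv :=
  funext fun s => funext fun j => thinL_lv s j

namespace ROut3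

/-- the number of crossing points of `h2` on an active edge -/
theorem encard_crs {L : PLev G} (O : ROut3 G E D h1 h2 L.lv F) (hFe : ∀ e, ∃ i, F i = E.seg e)
    (hPE : ∀ s ∈ D.S₀, ∀ s' ∈ D.S₀, s' ≠ s → Disjoint (G.PB (15 / 16) s) (D.PE G s'))
    {P : K.S × Bool → Set V} (hP : ∀ s β, G.PB (15 / 16) s ⊆ P (s, β)) {s : K.S} {e : E.ε}
    (he : EAct E (D.PkS G h1) s e) (Y : Finset V)
    (hY : ∀ x ∈ Y, CrsPt (E.a e) (E.b e) h2.toFun (L.lv s) x) :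
    (Y : Set V).encard ≤ (L.crP E h1 P e (s, true)).encard +
      (L.crP E h1 P e (s, false)).encard := by
  classical
  obtain ⟨k, hk, hek⟩ := he
  obtain ⟨i, hi⟩ := hFe e
  have hpos : ∀ x ∈ E.seg e, h1.toFun x ∈ G.PB (15 / 16) s := fun x hx =>
    (O.near s k hk x (hek hx)).1
  obtain ⟨-, hf2, hf1, hle⟩ := O.cnt i ⟨E.a e, E.b e, hi⟩ (by rw [hi]; exact E.seg_sub_Ω e) s hk.1
    (fun s' hs' hne x hx => Set.disjoint_left.1 (hPE s hk.1 s' hs' hne) (hpos x (by rwa [hi] at hx)))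
  rw [hi, L.lvs_lv s] at hf2 hle
  rw [hi, L.lvs_lv s] at hf1
  have h3 : (Y : Set V) ⊆ {x | x ∈ E.seg e ∧ ∃ l, h2.toFun x l ∈ L.lv s l} := fun x hx =>
    ⟨(hY x hx).1, (hY x hx).2⟩
  have h4 : {x | x ∈ E.seg e ∧ ∃ l, h1.toFun x l ∈ L.lv s l} ⊆
      (fun t : ℝ => E.a e + t • (E.b e - E.a e)) ''
        (L.crP E h1 P e (s, true) ∪ L.crP E h1 P e (s, false)) := by
    rintro x ⟨hx, l, hl⟩
    have hxP : h1.toFun x ∈ G.PB (15 / 16) s := hpos x hx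
    obtain ⟨hln, n, hn, hna⟩ := PLev.mem_lv.1 hl
    have hx' : x ∈ segment ℝ (E.a e) (E.b e) := hx
    rw [segment_eq_image'] at hx'
    obtain ⟨t, ht, rfl⟩ := hx'
    have key : t ∈ L.crP E h1 P e (s, bt s l) := by
      refine ⟨ht, hP s _ hxP, n, hn, ?_⟩
      show h1.toFun (E.a e + t • (E.b e - E.a e)) (tg s (bt s l)) = _
      rw [tg_bt s hln]
      exact hna.symm
    refine ⟨t, ?_, rfl⟩
    rcases hb : bt s l with _ | _
    · rw [hb] at key; exact Or.inr key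
    · rw [hb] at key; exact Or.inl key
  calc (Y : Set V).encard
      ≤ {x | x ∈ E.seg e ∧ ∃ l, h2.toFun x l ∈ L.lv s l}.encard := encard_le_encard h3
    _ = ({x | x ∈ E.seg e ∧ ∃ l, h2.toFun x l ∈ L.lv s l}.ncard : ℕ∞) :=
        hf2.cast_ncard_eq.symm
    _ ≤ ({x | x ∈ E.seg e ∧ ∃ l, h1.toFun x l ∈ L.lv s l}.ncard : ℕ∞) := by exact_mod_cast hle
    _ = {x | x ∈ E.seg e ∧ ∃ l, h1.toFun x l ∈ L.lv s l}.encard := hf1.cast_ncard_eq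
    _ ≤ (L.crP E h1 P e (s, true) ∪ L.crP E h1 P e (s, false)).encard :=
        (encard_le_encard h4).trans (encard_image_le _ _)
    _ ≤ _ := encard_union_le _ _

/-- **the sharp form for one square** -/
theorem sum_omX_le {L : PLev G} (O : ROut3 G E D h1 h2 L.lv F) (hFe : ∀ e, ∃ i, F i = E.seg e)
    (hPE : ∀ s ∈ D.S₀, ∀ s' ∈ D.S₀, s' ≠ s → Disjoint (G.PB (15 / 16) s) (D.PE G s'))
    {P : K.S × Bool → Set V} (hP : ∀ s β, G.PB (15 / 16) s ⊆ P (s, β)) {ρ : ℝ} (hρ : 1 ≤ ρ)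
    {s : K.S} (hom : ∀ β, L.om s β ≤ ρ * L.om s (!β)) {e : E.ε}
    (he : EAct E (D.PkS G h1) s e) (Y : Finset V)
    (hY : ∀ x ∈ Y, CrsPt (E.a e) (E.b e) h2.toFun (L.lv s) x) :
    ENNReal.ofReal (∑ x ∈ Y, omX h2.toFun (L.lv s) (L.omP s) x) ≤
      ENNReal.ofReal ρ * (L.wtP E h1 P e (s, true) + L.wtP E h1 P e (s, false)) := by
  classical
  have hρ0 : 0 ≤ ρ := by linarith
  set θ : ℝ := max (L.om s true) (L.om s false) with hθ
  have hθ0 : 0 ≤ θ := (L.om_pos s true).le.trans (le_max_left _ _)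
  have hθb : ∀ β, L.om s β ≤ θ := by
    rintro (_ | _)
    · exact le_max_right _ _
    · exact le_max_left _ _
  have hθρ : ∀ β, θ ≤ ρ * L.om s β := by
    intro β
    have h1 : L.om s β ≤ ρ * L.om s β := by
      have := (L.om_pos s β).le
      nlinarith
    have h2 : L.om s (!β) ≤ ρ * L.om s β := by
      have := hom (!β)
      rwa [Bool.not_not] at this
    cases β
    · exact max_le h2 h1
    · exact max_le h1 h2
  have hsum : ∑ x ∈ Y, omX h2.toFun (L.lv s) (L.omP s) x ≤ Y.card * θ := by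
    rw [← nsmul_eq_mul]
    refine Finset.sum_le_card_nsmul _ _ _ fun x hx => ?_
    obtain ⟨hxs, j, hj⟩ := hY x hx
    obtain ⟨k, hk, hek⟩ := he
    have hoff := (O.edge s k hk e hek).off x hxs
    rw [L.lvs_lv s] at hoff
    rw [omX_eq hj fun j' hne hj' => hne (hoff j' j hj' hj)]
    obtain ⟨hjn, -⟩ := PLev.mem_lv.1 hj
    rw [← tg_bt s hjn, L.omP_eq]
    exact hθb _
  have hcard := O.encard_crs hFe hPE hP he Y hY
  rw [Set.encard_coe_eq_coe_finsetCard] at hcard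
  have hcnt : (Y.card : ℝ≥0∞) ≤ _root_.P073.Net.cnt (L.crP E h1 P e (s, true)) +
      _root_.P073.Net.cnt (L.crP E h1 P e (s, false)) := by
    unfold _root_.P073.Net.cnt
    exact_mod_cast hcard
  calc ENNReal.ofReal (∑ x ∈ Y, omX h2.toFun (L.lv s) (L.omP s) x)
      ≤ ENNReal.ofReal (Y.card * θ) := ENNReal.ofReal_le_ofReal hsum
    _ = ENNReal.ofReal θ * (Y.card : ℝ≥0∞) := by
        rw [mul_comm, ENNReal.ofReal_mul hθ0, ENNReal.ofReal_natCast]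
    _ ≤ ENNReal.ofReal θ * (_root_.P073.Net.cnt (L.crP E h1 P e (s, true)) +
          _root_.P073.Net.cnt (L.crP E h1 P e (s, false))) := mul_le_mul_right hcnt _
    _ = ENNReal.ofReal θ * _root_.P073.Net.cnt (L.crP E h1 P e (s, true)) +
          ENNReal.ofReal θ * _root_.P073.Net.cnt (L.crP E h1 P e (s, false)) := mul_add _ _ _
    _ ≤ ENNReal.ofReal (ρ * L.om s true) * _root_.P073.Net.cnt (L.crP E h1 P e (s, true)) +
          ENNReal.ofReal (ρ * L.om s false) *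
            _root_.P073.Net.cnt (L.crP E h1 P e (s, false)) :=
        add_le_add (mul_le_mul_left (ENNReal.ofReal_le_ofReal (hθρ true)) _)
          (mul_le_mul_left (ENNReal.ofReal_le_ofReal (hθρ false)) _)
    _ = _ := by
        rw [ENNReal.ofReal_mul hρ0, ENNReal.ofReal_mul hρ0, mul_assoc, mul_assoc, ← mul_add]
        rfl

/-- **[P-WE]** for `K3C`: hypothesis `hWe` of `PAct.hface` and `PAct.hedge` -/
theorem hWe {L : PLev G} (O : ROut3 G E D h1 h2 L.lv F) (hFe : ∀ e, ∃ i, F i = E.seg e)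
    (hPE : ∀ s ∈ D.S₀, ∀ s' ∈ D.S₀, s' ≠ s → Disjoint (G.PB (15 / 16) s) (D.PE G s'))
    {P : K.S × Bool → Set V} (hP : ∀ s β, G.PB (15 / 16) s ⊆ P (s, β)) {ρ : ℝ} (hρ : 1 ≤ ρ)
    (hom : ∀ s β, L.om s β ≤ ρ * L.om s (!β)) (hfin : ∀ e, ∑' i, L.wtP E h1 P e i ≠ ⊤)
    {c : K.S → Bool → ℝ} {c0 : ∀ s β, 0 < c s β} {c1 : ∀ s β, c s β ≤ L.c s β} (s : K.S)
    (e : E.ε) (he : EAct E (D.PkS G h1) s e) (Y : Finset V)
    (hY : ∀ x ∈ Y, CrsPt (E.a e) (E.b e) h2.toFun (L.lv s) x) :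
    ∑ x ∈ Y, omX h2.toFun (L.lv s) ((thinL L c c0 c1).omP s) x ≤ L.WeP E h1 P ρ e := by
  have hρ0 : 0 ≤ ρ := by linarith
  rw [thinL_omP]
  refine (ENNReal.ofReal_le_ofReal_iff (L.WeP_nonneg hρ0 e)).1
    ((O.sum_omX_le hFe hPE hP hρ (hom s) he Y hY).trans ?_)
  unfold PLev.WeP
  rw [ENNReal.ofReal_mul hρ0, ENNReal.ofReal_toReal (hfin e)]
  refine mul_le_mul_right ?_ _
  classical
  have h4 := ENNReal.sum_le_tsum (f := fun i => L.wtP E h1 P e i)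
    ({(s, true), (s, false)} : Finset (K.S × Bool))
  rwa [Finset.sum_pair (by simp)] at h4

end ROut3

/-! ### the insertion step -/

/-- **ROUND P for `K3C`, the insertion step with good edge maps**; `GF`: any good face maps -/
theorem exists_stage3F (hΩ : IsOpen Ω) {L : PLev G} (O : ROut3 G E D h1 h2 L.lv F)
    {c : K.S → Bool → ℝ} {c0 : ∀ s β, 0 < c s β} {c1 : ∀ s β, c s β ≤ L.c s β}
    {κ₀ κ₁ : V → V} (i₀ : IsQ (fun s : D.S₀ => (thinL L c c0 c1).bx false s.1) κ₀)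
    (i₁ : IsQ (fun s : D.S₀ => (thinL L c c0 c1).bx true s.1) κ₁)
    (hI : InsMap (κ₁ ∘ κ₀) Λ Λ) {Θ : ConHomeo Λ Λ} (hInv : InvIn G E D L h1)
    (hoff : ∀ k ∈ D.WF G h1, EqOn h2.toFun h1.toFun (M.F k))
    (hoffc : ∀ i ∈ D.Gc G h1, EqOn h2.toFun h1.toFun (M.Q i))
    (hΘ : ∀ A, Inv L D.S₀ A → ∀ y ∈ Λ, (Θ.toFun y ∈ A ↔ y ∈ A))
    (hN : ∀ x ∈ E.verts, (Pre (κ₁ ∘ κ₀) Λ h2 {x}).Subsingleton)
    (hpass : ∀ k, k ∉ D.WF G h1 → k ∉ D.Peel G h1 → PassFace M E h2 (κ₁ ∘ κ₀) k)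
    {La We mu : E.ε → ℝ} (hmu : ∀ e, mu e ∈ Ioc (0:ℝ) (1 / 4)) (hLa : ∀ e, laE E We e ≤ La e)
    (hWe : ∀ s e, EAct E (D.PkS G h1) s e → ∀ Y : Finset V,
      (∀ x ∈ Y, CrsPt (E.a e) (E.b e) h2.toFun (L.lv s) x) →
        ∑ x ∈ Y, omX h2.toFun (L.lv s) ((thinL L c c0 c1).omP s) x ≤ We e)
    (hshared : ∀ s k, D.PkS G h1 s k → ∀ l ∈ D.WF G h1, ∀ e, E.seg e ⊆ M.F k →
      E.seg e ⊆ M.F l → ∃ s1 s2 s3 s4 : V → ℝ, EdgeNum (E.a e) (E.b e) h2.toFun ((thinL L c c0 c1).kP s) (L.lv s)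
        ((thinL L c c0 c1).loP s) ((thinL L c c0 c1).hiP s) ((thinL L c c0 c1).omP s) (La e)
        (fun x => Θ.toFun (h1.toFun x)) s1 s2 s3 s4)
    (GF : M.κ → (V → V) → Prop)
    (hface : PAct M E h2 (κ₁ ∘ κ₀) Λ (D.PkS G h1) (thinL L c c0 c1).kP L.lv
        (thinL L c c0 c1).loP (thinL L c c0 c1).hiP (thinL L c c0 c1).omP →
      ∀ s k, D.PkS G h1 s k →
      ∀ Φe : ∀ e, E.seg e ⊆ M.F k → ConHomeo (E.seg e) (Pre (κ₁ ∘ κ₀) Λ h2 (E.seg e)),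
      (∀ e he, GEP E h2 (D.PkS G h1) (thinL L c c0 c1).kP L.lv (thinL L c c0 c1).loP
        (thinL L c c0 c1).hiP (thinL L c c0 c1).omP La mu e (Φe e he).toFun) →
      (∀ e he e' he', EqOn (Φe e he).toFun (Φe e' he').toFun (E.seg e ∩ E.seg e')) →
      (∀ e he, ∀ x ∈ E.seg e, x ∈ E.verts → (κ₁ ∘ κ₀) ((Φe e he).toFun x) = h2.toFun x) →
      ∃ Φ : ConHomeo (M.F k) (Pre (κ₁ ∘ κ₀) Λ h2 (M.F k)), GF k Φ.toFun ∧
        ∀ e he, EqOn Φ.toFun (Φe e he).toFun (E.seg e)) :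
    ∃ h3 : ConHomeo Ω Λ, Out3 G E D h1 h2 (κ₁ ∘ κ₀) Θ
      (GEP E h2 (D.PkS G h1) (thinL L c c0 c1).kP L.lv (thinL L c c0 c1).loP
        (thinL L c c0 c1).hiP (thinL L c c0 c1).omP La mu) GF h3 := by
  have P := O.pact3 (β := false) i₀ i₁
  refine exists_stage3 hΩ hInv hoff hoffc hI (fun A hA y _ => ?_) hΘ hN hpass _ GF ?_ ?_ ?_ ?_
  · show κ₁ (κ₀ y) ∈ A ↔ y ∈ A
    exact (mem_iff_κ i₁ hA _).trans (mem_iff_κ i₀ hA _)
  · exact fun e f g hfg H => gep_congr hfg H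
  · rintro k - l hl e - hel s ⟨k', hk', hek'⟩
    obtain ⟨s1, s2, s3, s4, h3⟩ := hshared s k' hk' l hl e hek' hel
    refine ⟨s1, s2, s3, s4, h3, fun hown => ?_⟩
    exact absurd hl (Dat.peel_not_WF (hown l hel))
  · rintro k ⟨s, hs⟩ e he -
    exact P.hedge hmu hLa hWe s k hs e he
  · rintro k ⟨s, hs⟩
    exact hface P s k hs

/-- the same with the face maps `GFP` (cone inequality and paths) -/
theorem exists_stage3_gfp
    (hΩ : IsOpen Ω) {L : PLev G} (O : ROut3 G E D h1 h2 L.lv F)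
    {c : K.S → Bool → ℝ} {c0 : ∀ s β, 0 < c s β} {c1 : ∀ s β, c s β ≤ L.c s β}
    {κ₀ κ₁ : V → V} (i₀ : IsQ (fun s : D.S₀ => (thinL L c c0 c1).bx false s.1) κ₀)
    (i₁ : IsQ (fun s : D.S₀ => (thinL L c c0 c1).bx true s.1) κ₁)
    (hI : InsMap (κ₁ ∘ κ₀) Λ Λ) {Θ : ConHomeo Λ Λ} (hInv : InvIn G E D L h1)
    (hoff : ∀ k ∈ D.WF G h1, EqOn h2.toFun h1.toFun (M.F k))
    (hoffc : ∀ i ∈ D.Gc G h1, EqOn h2.toFun h1.toFun (M.Q i))
    (hΘ : ∀ A, Inv L D.S₀ A → ∀ y ∈ Λ, (Θ.toFun y ∈ A ↔ y ∈ A))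
    (hN : ∀ x ∈ E.verts, (Pre (κ₁ ∘ κ₀) Λ h2 {x}).Subsingleton)
    (hpass : ∀ k, k ∉ D.WF G h1 → k ∉ D.Peel G h1 → PassFace M E h2 (κ₁ ∘ κ₀) k)
    {La We mu : E.ε → ℝ} (hmu : ∀ e, mu e ∈ Ioc (0:ℝ) (1 / 4)) (hLa0 : ∀ e, 0 ≤ La e)
    (hLa : ∀ e, laE E We e ≤ La e)
    (hWe : ∀ s e, EAct E (D.PkS G h1) s e → ∀ Y : Finset V,
      (∀ x ∈ Y, CrsPt (E.a e) (E.b e) h2.toFun (L.lv s) x) →
        ∑ x ∈ Y, omX h2.toFun (L.lv s) ((thinL L c c0 c1).omP s) x ≤ We e)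
    (hshared : ∀ s k, D.PkS G h1 s k → ∀ l ∈ D.WF G h1, ∀ e, E.seg e ⊆ M.F k →
      E.seg e ⊆ M.F l → ∃ s1 s2 s3 s4 : V → ℝ, EdgeNum (E.a e) (E.b e) h2.toFun
        ((thinL L c c0 c1).kP s) (L.lv s) ((thinL L c c0 c1).loP s) ((thinL L c c0 c1).hiP s)
        ((thinL L c c0 c1).omP s) (La e) (fun x => Θ.toFun (h1.toFun x)) s1 s2 s3 s4)
    (Cy : ∀ k, Cyc E k) {O' : M.κ → V} {r0 R : M.κ → ℝ}
    (hS : ∀ k, P073.H155.Star ((Cy k).n + 1) (vv (Cy k)) (O' k) (r0 k) (R k) (M.F k)) :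
    ∃ h3 : ConHomeo Ω Λ, Out3 G E D h1 h2 (κ₁ ∘ κ₀) Θ
      (GEP E h2 (D.PkS G h1) (thinL L c c0 c1).kP L.lv (thinL L c c0 c1).loP
        (thinL L c c0 c1).hiP (thinL L c c0 c1).omP La mu)
      (GFP E (D.PkS G h1) L.lv (thinL L c c0 c1).loP (thinL L c c0 c1).hiP
        (thinL L c c0 c1).omP La We O' r0 R) h3 :=
  exists_stage3F hΩ O i₀ i₁ hI hInv hoff hoffc hΘ hN hpass hmu hLa hWe hshared _
    fun P => P.hface Cy hS hLa0 hWe

/-- the same with the face maps `GFY`, sharp on the nearly monotone faces of `Y` -/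
theorem exists_stage3_Y
    (hΩ : IsOpen Ω) {L : PLev G} (O : ROut3 G E D h1 h2 L.lv F)
    {c : K.S → Bool → ℝ} {c0 : ∀ s β, 0 < c s β} {c1 : ∀ s β, c s β ≤ L.c s β}
    {κ₀ κ₁ : V → V} (i₀ : IsQ (fun s : D.S₀ => (thinL L c c0 c1).bx false s.1) κ₀)
    (i₁ : IsQ (fun s : D.S₀ => (thinL L c c0 c1).bx true s.1) κ₁)
    (hI : InsMap (κ₁ ∘ κ₀) Λ Λ) {Θ : ConHomeo Λ Λ} (hInv : InvIn G E D L h1)
    (hoff : ∀ k ∈ D.WF G h1, EqOn h2.toFun h1.toFun (M.F k))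
    (hoffc : ∀ i ∈ D.Gc G h1, EqOn h2.toFun h1.toFun (M.Q i))
    (hΘ : ∀ A, Inv L D.S₀ A → ∀ y ∈ Λ, (Θ.toFun y ∈ A ↔ y ∈ A))
    (hN : ∀ x ∈ E.verts, (Pre (κ₁ ∘ κ₀) Λ h2 {x}).Subsingleton)
    (hpass : ∀ k, k ∉ D.WF G h1 → k ∉ D.Peel G h1 → PassFace M E h2 (κ₁ ∘ κ₀) k)
    {La We : E.ε → ℝ} (hLa : ∀ e, laE E We e ≤ La e) (hWe0 : ∀ e, 0 ≤ We e)
    (hWe : ∀ s e, EAct E (D.PkS G h1) s e → ∀ Y : Finset V,
      (∀ x ∈ Y, CrsPt (E.a e) (E.b e) h2.toFun (L.lv s) x) →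
        ∑ x ∈ Y, omX h2.toFun (L.lv s) ((thinL L c c0 c1).omP s) x ≤ We e)
    (hshared : ∀ s k, D.PkS G h1 s k → ∀ l ∈ D.WF G h1, ∀ e, E.seg e ⊆ M.F k →
      E.seg e ⊆ M.F l → ∃ s1 s2 s3 s4 : V → ℝ, EdgeNum (E.a e) (E.b e) h2.toFun
        ((thinL L c c0 c1).kP s) (L.lv s) ((thinL L c c0 c1).loP s) ((thinL L c c0 c1).hiP s)
        ((thinL L c c0 c1).omP s) (La e) (fun x => Θ.toFun (h1.toFun x)) s1 s2 s3 s4)
    (Cy : ∀ k, Cyc E k) {O' : M.κ → V} {r0 R : M.κ → ℝ}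
    (hS : ∀ k, P073.H155.Star ((Cy k).n + 1) (vv (Cy k)) (O' k) (r0 k) (R k) (M.F k))
    (hIE : ∀ p q, IsEdge M (p, q) → ∃ e : E.ε, E.seg e = segment ℝ p q)
    {m Ks es βs ρs : ℝ} (hm0 : 0 < m) (hm1 : m < 1 / 4) (hKs : 0 < Ks) (hρs : ρs ≤ 1 / 2)
    (hSF : FW31.SpecSharpFace m Ks es βs ρs) (Y : Set M.κ) :
    ∃ h3 : ConHomeo Ω Λ, Out3 G E D h1 h2 (κ₁ ∘ κ₀) Θ
      (GEP E h2 (D.PkS G h1) (thinL L c c0 c1).kP L.lv (thinL L c c0 c1).loP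
        (thinL L c c0 c1).hiP (thinL L c c0 c1).omP La fun _ => m)
      (FW31.GFY E h2 (D.PkS G h1) L.lv (thinL L c c0 c1).loP (thinL L c c0 c1).hiP
        (thinL L c c0 c1).omP La We O' r0 R Y Ks es βs ρs) h3 :=
  exists_stage3F hΩ O i₀ i₁ hI hInv hoff hoffc hΘ hN hpass (mu := fun _ => m)
    (fun _ => ⟨hm0, hm1.le⟩) hLa hWe hshared _
    fun P => FW31.hfaceY P Cy hS hIE hKs hρs hSF (fun _ _ _ _ => rfl) hLa hWe0 hWe

end P073.H880.RP
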