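import Vale.Agent.P073.H142.Strip
import Vale.Agent.P073.H142.ZEdge
import Vale.Agent.P073.H155.THin4
import Vale.Agent.P073.H155.NumT
import Vale.Agent.P073.H196.S3T2
import Vale.Agent.P073.H237.CovP

/-!
# P073, block H142 ([FACE3-W]): the final map on the drawn faces with a given map

`wcst`: the cost of a drawn face which is not peeled: the coordinates of the map `h1` in the
directions of the boxes of round T which contain the face.  `latC_giv`: `LAtC` with this cost.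
-/

open Set Metric Topology Filter

set_option linter.unusedSectionVars false

namespace P073.H142

open P073 P073.Net P073.PA691 P073.TM P073.H236 P073.H429 P073.H880 P073.H880.RP P073.H936
  P073.H936.K3 P073.H345 P073.H579 P073.H950 P073.H919 P073.H228 P073.H196
open Vale.Agent.P073.St (V)
open Vale.Agent.P073.H73 (Mesh)
open Vale.Agent.P073.H471 Vale.Agent.P073.H267 Vale.Agent.P073.H267.Geo
open Vale.Agent.P073.H304 (Nb In Zmax)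
open Vale.Agent.P073.H926
open Vale.Agent.P073.H238.K3 (Zd Wc Act TOut3)
open _root_.P073.H155 (RelT Band3 TBand LocD winE notMem_wnd)
open _root_.P073.H190 (PT2 IsS2)
open Vale.Agent.P073.H233 (PSet)
open Vale.Agent.P073.H193 (LAtC FaceCl edges mesh_sub)
open Vale.Agent.P073.H267.K3 (S1 S2 S3 S4 S5 Sharp)
open _root_.P073.H237.Cov (sg3_disp)

variable {c₀ n δ : ℝ} {j : ℕ} {Ω Λ : Set V} {v w : V} {ρ : V → ℝ} {M : Mesh Ω} {h : ConHomeo Ω Λ}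
  {J₀ J : Set (ℕ × (Fin 3 → ℤ))} {P Z : Set M.ι} {K : BoxCx Λ w}

open Classical in
/-- **the cost of a drawn face which is not peeled** -/
noncomputable def wcst (D : KIn3 c₀ n j δ v w ρ M h J₀ J P Z) (C : Cells ρ w K) (h1 : V → V)
    (k : M.κ) (x y : V) : ℝ :=
  ∑ l : Fin 3, if (∃ b ∈ pB C J₀, b.ax = l ∧ InTm 64 (D.G C) M h (ω3T δ C) b k) then
    |h1 x l - h1 y l| else 0

section cst

variable {D : KIn3 c₀ n j δ v w ρ M h J₀ J P Z} {C : Cells ρ w K} {h1 : V → V} {k : M.κ} {x y : V}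

theorem wcst_nonneg : 0 ≤ wcst D C h1 k x y :=
  Finset.sum_nonneg fun l _ => by split_ifs <;> positivity

theorem le_wcst {b : TBx K} (hb : b ∈ pB C J₀) (hk : InTm 64 (D.G C) M h (ω3T δ C) b k) :
    |h1 x b.ax - h1 y b.ax| ≤ wcst D C h1 k x y := by
  classical
  unfold wcst
  have h0 : ∀ l ∈ (Finset.univ : Finset (Fin 3)), 0 ≤ (if (∃ b ∈ pB C J₀, b.ax = l ∧
      InTm 64 (D.G C) M h (ω3T δ C) b k) then |h1 x l - h1 y l| else 0) :=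
    fun l _ => by split_ifs <;> positivity
  refine le_trans (le_of_eq ?_) (Finset.single_le_sum h0 (Finset.mem_univ b.ax))
  rw [if_pos ⟨b, hb, rfl, hk⟩]

theorem wcst_le {q : ℝ} (hq0 : 0 ≤ q) (hq : ∀ b ∈ pB C J₀, InTm 64 (D.G C) M h (ω3T δ C) b k →
    |h1 x b.ax - h1 y b.ax| ≤ q) : wcst D C h1 k x y ≤ 3 * q := by
  classical
  unfold wcst
  refine (Finset.sum_le_card_nsmul _ _ q fun l _ => ?_).trans (le_of_eq ?_)
  · split_ifs with hl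
    · obtain ⟨b, hb, rfl, hk⟩ := hl
      exact hq b hb hk
    · exact hq0
  · rw [Finset.card_univ, Fintype.card_fin]
    simp

end cst

variable {D : KIn3 c₀ n j δ v w ρ M h J₀ J P Z} {C : Cells ρ w K} {C₀ μT : ℝ}
  {X : S1 D C C₀ μT} {Y₂ : S2 X} {Ys : Set M.κ} {sc : Sharp} {Y₃ : S3 Y₂ Ys sc}

/-- the family of the second staircases -/
noncomputable abbrev Fsg (Y₄ : S4 Y₃) : Bool → BFam 3 (D.dat C).S₀ Λ := fun β =>
  sfam (Y₃.F β) (fun s => Y₄.q s * Y₄.r s) Y₄.p0 Y₄.p1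

/-- **the numbers of ROUND P for a drawn face which is not peeled** -/
structure NumW (Y₄ : S4 Y₃) (k : M.κ) (a ρw εθ εq ε' e₁ A' Lam : ℝ) (om : (D.dat C).S₀ → ℝ) :
    Prop where
  hc : ∀ s ∈ (D.dat C).S₀, ∀ β q, (q = K.sm s ∨ q = K.sp s) → Y₂.L.c s β ≤ (D.G C).om q
  hD : ∀ s : (D.dat C).S₀, ∀ β q, (q = K.sm s.1 ∨ q = K.sp s.1) → (Y₃.F β).D s ≤ (D.G C).om q
  hσ : ∀ s : (D.dat C).S₀, ∀ β q, (q = K.sm s.1 ∨ q = K.sp s.1) → (Fsg Y₄ β).e s ≤ (D.G C).om q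
  a0 : 0 ≤ a
  om0 : ∀ s, 0 ≤ om s
  sl : ∀ (s : (D.dat C).S₀) β, slAK (Fsg Y₄ β) (Y₄.ς β) s * bw (Y₃.Lt.N s.1 β)
    (K.slo s.1 (tg s.1 β) + (D.G C).a s.1) (K.shi s.1 (tg s.1 β) - (D.G C).a s.1)
      ((Y₃.F β).e s) ≤ a * om s
  rw : ∀ (s : (D.dat C).S₀) β, om s ≤ ρw * bw (Y₃.Lt.N s.1 β)
    (K.slo s.1 (tg s.1 β) + (D.G C).a s.1) (K.shi s.1 (tg s.1 β) - (D.G C).a s.1) ((Y₃.F β).e s)
  rw0 : 0 ≤ ρw
  A1 : 1 ≤ A'
  εθ0 : 0 ≤ εθ
  εq0 : 0 ≤ εq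
  ε'0 : 0 ≤ ε'
  e₁0 : 0 ≤ e₁
  lam0 : 0 ≤ Lam
  lam : ∀ x ∈ M.F k, ∀ᶠ y in 𝓝[M.F k] x, ‖X.h1.toFun y - X.h1.toFun x‖ ≤ Lam * ‖y - x‖
  θ : ∀ s : (D.dat C).S₀, (∃ x ∈ M.F k, X.h1.toFun x ∈ PK (D.G C) s.1) → ∀ β,
    (6 * Y₂.muP s.1 + Y₂.L.c s.1 β) * (4 / (D.B C).τ s.1) ≤ εθ
  /-- in the windows -/
  θq : ∀ s : (D.dat C).S₀, (∃ x ∈ M.F k, X.h1.toFun x ∈ PK (D.G C) s.1) → ∀ β,
    (6 * (Y₃.F β).D s + Y₂.L.c s.1 β) * (4 / (D.B C).τ s.1) ≤ εq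
  slA : ∀ s : (D.dat C).S₀, (∃ x ∈ M.F k, Y₃.h4.toFun x ∈ PK (D.G C) s.1) → ∀ β,
    slAK (Fsg Y₄ β) (Y₄.ς β) s ≤ A'
  ε : ∀ s : (D.dat C).S₀, (∃ x ∈ M.F k, Y₃.h4.toFun x ∈ PK (D.G C) s.1) → ∀ β,
    (Fsg Y₄ β).e s * (4 / (D.B C).τ s.1) ≤ ε'
  tol : ∀ s : (D.dat C).S₀, (∃ x ∈ M.F k, Y₃.h4.toFun x ∈ PK (D.G C) s.1) → Y₄.ε s ≤ e₁

section helpers

variable (Y₄ : S4 Y₃)

theorem Fe0 (s : (D.dat C).S₀) (β : Bool) : 0 < (Y₃.F β).e s := (Y₃.F β).he s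

theorem Feo (s : (D.dat C).S₀) (β : Bool) : 2 * (Y₃.F β).e s < stp (Y₃.Lt.N s.1 β)
    (K.slo s.1 (tg s.1 β) + (D.G C).a s.1) (K.shi s.1 (tg s.1 β) - (D.G C).a s.1) := by
  have h1 := (Y₃.F β).heo s
  have hB := Y₃.ps.B β s
  rw [hB.N, hB.al, hB.be] at h1
  exact h1

theorem Fσe (s : (D.dat C).S₀) (β : Bool) : (Fsg Y₄ β).e s = stp (Y₃.Lt.N s.1 β)
    (K.slo s.1 (tg s.1 β) + (D.G C).a s.1) (K.shi s.1 (tg s.1 β) - (D.G C).a s.1) / 2 -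
      (Y₄.q s * Y₄.r s) * bw (Y₃.Lt.N s.1 β) (K.slo s.1 (tg s.1 β) + (D.G C).a s.1)
        (K.shi s.1 (tg s.1 β) - (D.G C).a s.1) ((Y₃.F β).e s) := by
  have hB := Y₃.ps.B β s
  show esg (Y₃.F β) (fun s => Y₄.q s * Y₄.r s) s = _
  unfold esg
  rw [hB.N, hB.al, hB.be]
  rfl

theorem qr_le (s : (D.dat C).S₀) : Y₄.q s * Y₄.r s ≤ Y₄.r s := by
  have h1 := Y₄.r0 s
  have h2 := Y₄.q1 s
  nlinarith

end helpers

/-! ### points in the boxes of the hook of the plates -/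

section box

variable {Y₄ : S4 Y₃} {k : M.κ} {a ρw εθ εq ε' e₁ A' Lam : ℝ} {om : (D.dat C).S₀ → ℝ}

/-- `HB` is in the plate -/
theorem HB_PK {G : Geo (D.B C)} {s : K.S} {y : V} (hs : y ∈ HB G (29 / 32) (3 / 4) s) :
    y ∈ PK G s :=
  PB_sub_PK (c := 29 / 32) (by norm_num) s (HB_PB le_rfl (by norm_num) s hs)

/-- the coordinate `tg s β` of `h4` near a point of the box -/
theorem h4_tg_le (N : NumW Y₄ k a ρw εθ εq ε' e₁ A' Lam om)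
    {i : M.ι} (hi : i ∈ Zmax M w h.toFun J₀ P (2 / 2 ^ j)) (hk : M.F k ⊆ M.Q i)
    (hWF : k ∈ (D.dat C).WF (D.G C) X.h1) {x : V} (hx : x ∈ M.F k) {s : (D.dat C).S₀}
    (hs : Y₃.h4.toFun x ∈ HB (D.G C) (29 / 32) (3 / 4) s.1) (β : Bool) :
    ∀ᶠ x' in 𝓝[M.F k] x, |Y₃.h4.toFun x' (tg s.1 β) - Y₃.h4.toFun x (tg s.1 β)| ≤
      10 * |X.h1.toFun x' (tg s.1 β) - X.h1.toFun x (tg s.1 β)| := by
  have hint := h1_int Y₃ N.hc N.hD hi hk hWF hx hs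
  have hkΩ : M.F k ⊆ Ω := mesh_sub M k
  have hcf : ContinuousWithinAt X.h1.toFun (M.F k) x := (X.h1.cont.mono hkΩ) x hx
  have key : ∀ y ∈ M.F k, X.h1.toFun y ∈ (D.G C).PB (7 / 8) s.1 →
      Y₃.h4.toFun y (tg s.1 β) = (Y₃.F β).σ s (th (Y₂.L.lvs s.1 β).L (Y₂.L.c s.1 β)
        (lamP Y₂.L Y₃.c s.1 β) (X.h1.toFun y (tg s.1 β))) := by
    intro y hy hyp
    rw [h4_giv Y₃ hWF hy, (pt2 Y₃).apply (theta2_PB Y₃.thp.isΘ hyp),
      theta2_full Y₃.thp.isΘ s hyp, θP_tg]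
  filter_upwards [hcf.eventually (isOpen_interior.mem_nhds hint), self_mem_nhdsWithin]
    with x' h1 hx'
  rw [key x hx (interior_subset hint), key x' hx' (interior_subset h1)]
  exact Y₃.thp.slope β s _ _

/-- **the tangential coordinates of `f5` near a point of the box** -/
theorem f5_box (hfat : ∀ b : pB C J₀, 2048 * ω3T δ C b.1 ≤ X.fat b)
    (N : NumW Y₄ k a ρw εθ εq ε' e₁ A' Lam om)
    {i : M.ι} (hi : i ∈ Zmax M w h.toFun J₀ P (2 / 2 ^ j)) (hk : M.F k ⊆ M.Q i)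
    (hP : ∀ i ∈ P, ¬ M.F k ⊆ M.Q i) (hnp : k ∉ (D.dat C).Peel (D.G C) X.h1)
    {x : V} (hx : x ∈ M.F k) {s : (D.dat C).S₀}
    (hs : Y₃.h4.toFun x ∈ HB (D.G C) (29 / 32) (3 / 4) s.1) :
    ∀ᶠ x' in 𝓝[M.F k] x, ∀ j, j ≠ K.nrm s.1 → Y₄.f5.toFun x j ∈ pwin (D.G C) s.1 j →
      Y₄.f5.toFun x' j ∈ pwin (D.G C) s.1 j →
      |Y₄.f5.toFun x' j - Y₄.f5.toFun x j| ≤
        a * ρw * (10 * wcst D C X.h1.toFun k x x') + e₁ * ‖x' - x‖ := by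
  have hWF : k ∈ (D.dat C).WF (D.G C) X.h1 := Or.inl ⟨⟨⟨i, hi, hk⟩, hP⟩, hnp⟩
  have hkΩ : M.F k ⊆ Ω := mesh_sub M k
  have hxΩ := hkΩ hx
  obtain ⟨-, β, hcl, halt⟩ := strip3 Y₃ hfat N.hc N.hD hi hk hP hnp hx hs
  have hpas : ∀ i' ∈ ZbP (D.G C) (D.dat C) Y₃.h4 s, Disjoint (M.F k) (interior (M.Q i')) :=
    fun i' _ => Vale.Agent.P073.H244.face_disjoint M k i'
  have r0 : 0 < Y₄.q s * Y₄.r s := mul_pos (Y₄.q0 s) (Y₄.r0 s)
  have h5m : Y₄.h5.toFun x ∈ PK (D.G C) s.1 := HB_PK ((Y₄.hko.mem s hxΩ).2 hs)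
  have hK := nhdsWithin_le_nhds (s := M.F k) (Y₄.lip5 s x hxΩ h5m)
  have hww : ∀ y y', 0 ≤ wcst D C X.h1.toFun k y y' := fun y y' => wcst_nonneg
  have haρ : 0 ≤ a * ρw := mul_nonneg N.a0 N.rw0
  have hε := N.εθ0
  have hL := N.lam0
  have hςb : ∀ (j : Fin 3) {x' : V}, ‖Y₄.h5.toFun x' - Y₄.h5.toFun x‖ ≤ Y₄.K₂ s * ‖x' - x‖ →
      Y₄.ς (bt s.1 j) s * |Y₄.h5.toFun x' j - Y₄.h5.toFun x j| ≤ e₁ * ‖x' - x‖ := by
    intro j x' h1
    have h2 := norm_le_pi_norm (Y₄.h5.toFun x' - Y₄.h5.toFun x) j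
    rw [Pi.sub_apply, Real.norm_eq_abs] at h2
    have h3 := (Y₄.ς0 (bt s.1 j) s).le
    have h4 := Y₄.ςK (bt s.1 j) s
    have h5 := N.tol s ⟨x, hx, HB_PK hs⟩
    calc Y₄.ς (bt s.1 j) s * |Y₄.h5.toFun x' j - Y₄.h5.toFun x j|
        ≤ Y₄.ς (bt s.1 j) s * (Y₄.K₂ s * ‖x' - x‖) :=
          mul_le_mul_of_nonneg_left (h2.trans h1) h3
      _ = Y₄.ς (bt s.1 j) s * Y₄.K₂ s * ‖x' - x‖ := by ring
      _ ≤ e₁ * ‖x' - x‖ := mul_le_mul_of_nonneg_right (h4.trans h5) (norm_nonneg _)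
  rcases halt with ⟨b, -, hbax, hb⟩ | hcl'
  · have h1 := hkGO_col Y₄.hko (by norm_num) (by norm_num) Y₄.sg r0 (qr_le Y₄ s) (Y₄.r1 s) hkΩ
      hpas (Fσe Y₄ s) (Fe0 s) (Feo s) (N.sl s) N.a0 (N.om0 s) (N.rw s) hx hs hcl
    filter_upwards [h1, hK, h4_tg_le N hi hk hWF hx hs β, self_mem_nhdsWithin]
      with x' h2 h3 h4 hx' j hj hw hw'
    rw [Y₄.map5 x hxΩ] at hw ⊢
    rw [Y₄.map5 x' (hkΩ hx')] at hw' ⊢
    refine (h2 j hj hw hw').trans (add_le_add ?_ (hςb j h3))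
    refine mul_le_mul_of_nonneg_left (h4.trans ?_) haρ
    refine mul_le_mul_of_nonneg_left ?_ (by norm_num)
    rw [abs_sub_comm, ← hbax]
    exact le_wcst b.2 hb
  · have hclβ : ∀ β', ClrB Y₃.Lt (fun β => (Y₃.F β).e s) s.1 β' (Y₃.h4.toFun x) := by
      intro β'
      by_cases hβ : β' = β
      · rw [hβ]; exact hcl'
      · have : β' = !β := by revert hβ; cases β <;> cases β' <;> simp
        rw [this]; exact hcl
    have h1 := hkGO_col0 Y₄.hko (by norm_num) (by norm_num) Y₄.sg r0 (qr_le Y₄ s) (Y₄.r1 s) hkΩ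
      hpas (Fσe Y₄ s) (Feo s) hx hs hclβ
    filter_upwards [h1, hK, self_mem_nhdsWithin] with x' h2 h3 hx' j hj hw hw'
    rw [Y₄.map5 x hxΩ] at hw ⊢
    rw [Y₄.map5 x' (hkΩ hx')] at hw' ⊢
    refine (h2 j hj hw hw').trans ((hςb j h3).trans ?_)
    have h4 : 0 ≤ a * ρw * (10 * wcst D C X.h1.toFun k x x') := by
      have := hww x x'
      positivity
    linarith

end box

/-! ### positions in the direction of a tube -/

section chain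

variable {Λ : Set V} {v : V} {K : BoxCx Λ v} {S : Rad K} {W : Wid K S} {B : Boxes W} {G : Geo B}
  {L : PLev G} {S₀ : Set K.S} {F : Bool → BFam 3 S₀ Λ} {μ : Bool → S₀ → ℝ}
  {T : Bool → ConHomeo Λ Λ} {s : S₀} {y : V}

/-- one two-stage staircase moves to an intermediate point -/
theorem pt2_uIcc_one (P : PT2 L S₀ F μ T) (β : Bool) (hy : y ∈ PK G s.1) :
    (T β).toFun y (tg s.1 β) ∈ uIcc (y (tg s.1 β)) ((F β).σ s (y (tg s.1 β))) := by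
  by_cases hK : ∃ s', y ∈ ((F β).B s').K
  · obtain ⟨s', hs'⟩ := hK
    have h3 : s = s' := Subtype.ext (PK_unique hy (P.mem_K hs'))
    subst h3
    have hj := (P.plate s β).dir
    have h4 := (P.isS β).same hs'
    rw [hj] at h4
    rw [h4]
    exact cl_mem_uIcc (P073.H190.hgt2_nonneg (P.μ0 β s) y)
  · push Not at hK
    rw [(P.isS β).off y hK]
    exact left_mem_uIcc

/-- the two-stage staircases move to an intermediate point -/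
theorem pt2_uIcc (P : PT2 L S₀ F μ T) (β : Bool) (hy : y ∈ PK G s.1) :
    PS.map T y (tg s.1 β) ∈ uIcc (y (tg s.1 β)) ((F β).σ s (y (tg s.1 β))) := by
  have h1 : (T false).toFun y ∈ PK G s.1 := P.step_mem hy
  unfold PS.map
  cases β
  · rw [P.step_ne (β := true) h1 (tg_ne_not s.1 false)]
    exact pt2_uIcc_one P false hy
  · have h2 : (T false).toFun y (tg s.1 true) = y (tg s.1 true) :=
      P.step_ne (β := false) hy (tg_ne_not s.1 true)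
    have h3 := pt2_uIcc_one P true h1
    rwa [h2] at h3

/-- both two-stage staircases stay in the plate -/
theorem pt2_PK (P : PT2 L S₀ F μ T) (hy : y ∈ PK G s.1) : PS.map T y ∈ PK G s.1 :=
  P.step_mem (P.step_mem hy)

end chain

section pos

variable {Y₄ : S4 Y₃}

/-- a point of a plate stays in the plate, and the edge of the tube belongs to the square -/
theorem edge_sq_of_PK {b : pG C J₀} {x : V} (hx : x ∈ Ω) (hg : Y₃.h4.toFun x =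
      PS.map Y₃.T2 ((Y₃.Θ true).toFun ((Y₃.Θ false).toFun (X.h1.toFun x))))
    (hoff : ∀ s : (D.dat C).S₀, Y₃.h4.toFun x ∉ HB (D.G C) (29 / 32) (3 / 4) s.1)
    (hE : Y₄.f5.toFun x ∈ (D.B C).E b.1) {s : (D.dat C).S₀}
    (hs : X.h1.toFun x ∈ PK (D.G C) s.1) :
    (Y₃.Θ true).toFun ((Y₃.Θ false).toFun (X.h1.toFun x)) ∈ PK (D.G C) s.1 ∧
      Y₃.h4.toFun x ∈ PK (D.G C) s.1 ∧ K.edge b.1 ⊆ K.sq s.1 := by
  have h1 := theta_mem_PK (Y₃.thp.isΘ true) s (theta_mem_PK (Y₃.thp.isΘ false) s hs)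
  have h2 : Y₃.h4.toFun x ∈ PK (D.G C) s.1 := by
    rw [hg]
    exact pt2_PK (pt2 Y₃) h1
  have hoff5 : Y₄.h5.toFun x = Y₃.h4.toFun x :=
    Y₄.hk.out.off hx fun s hs => hoff s (interior_subset hs)
  have h3 : Y₄.f5.toFun x ∈ PK (D.G C) s.1 := by
    rw [Y₄.map5 x hx, hoff5]
    obtain ⟨k1, -⟩ := _root_.P073.H237.Cov.sg3_one Y₄.sg false h2 (Fsg Y₄ false |>.he s).le le_rfl
    obtain ⟨k2, -⟩ := _root_.P073.H237.Cov.sg3_one Y₄.sg true k1 (Fsg Y₄ true |>.he s).le le_rfl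
    exact k2
  have h4 := (D.B C).E_subset b.1 hE
  exact ⟨h1, h2, edge_subset_sq (W := D.W C) (PK_sub_ss s.1 h3) h4.1 (Ze_nJ h4)⟩

/-- **the chain of positions**: if `f5 x` is in a thin band of the tube, then the map `h1` is off
the windows at `x` -/
theorem off_wnd {b : pG C J₀} {sl' : Finset (ℝ × ℝ)} {μ : ℝ}
    {Th : Thn (eal (D.W C) b.1) (ebe (D.W C) b.1) sl' μ} {Dd : ℝ}
    (hTB : TBand Y₃.Lt (Fsg Y₄) Y₄.ς b.1 (X.sl ⟨.inl b.1, inl_mem_pB.2 b.2⟩)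
      (winE Y₂.R Y₂.Q b.1) Dd Th)
    {x : V} (hx : x ∈ Ω) (hg : Y₃.h4.toFun x =
      PS.map Y₃.T2 ((Y₃.Θ true).toFun ((Y₃.Θ false).toFun (X.h1.toFun x))))
    (hoff : ∀ s : (D.dat C).S₀, Y₃.h4.toFun x ∉ HB (D.G C) (29 / 32) (3 / 4) s.1)
    (hE : Y₄.f5.toFun x ∈ (D.B C).E b.1) {i : Th.I}
    (hi : |Y₄.f5.toFun x (K.dir b.1) - Th.c i| ≤ Th.w i) {s : (D.dat C).S₀}
    (hs : X.h1.toFun x ∈ PK (D.G C) s.1) {β : Bool} (hβ : K.dir b.1 = tg s.1 β) {d₀ : ℝ}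
    (hd0 : 0 < d₀) (hdD : 4 * d₀ ≤ Dd) (hdc : ∀ β, Y₂.L.c s.1 β ≤ d₀)
    (hdm : Y₂.muP s.1 ≤ d₀) (hde : ∀ β, (Fsg Y₄ β).e s ≤ d₀) :
    ∃ r₀, Y₂.L.c s.1 β < r₀ ∧ ∀ t, |t - X.h1.toFun x (K.dir b.1)| ≤ r₀ →
      |(Y₃.F β).σ s t - t| ≤ Y₂.muP s.1 := by
  obtain ⟨h1, h2, hes⟩ := edge_sq_of_PK hx hg hoff hE hs
  have hoff5 : Y₄.h5.toFun x = Y₃.h4.toFun x :=
    Y₄.hk.out.off hx fun s hs => hoff s (interior_subset hs)
  have huq : ∀ {y : V} {s' : K.S}, y ∈ PK (D.G C) s.1 → y ∈ PK (D.G C) s' → s' = s.1 :=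
    fun hy hy' => PK_unique hy' hy
  have hμ0 : 0 ≤ Y₂.muP s.1 := (pt2 Y₃).μ0 β s
  -- the displacements
  have e1 : |(Y₃.Θ true).toFun ((Y₃.Θ false).toFun (X.h1.toFun x)) (K.dir b.1) -
      X.h1.toFun x (K.dir b.1)| ≤ 2 * d₀ := by
    have k1 := theta_disp (Y₃.thp.isΘ false) (y := X.h1.toFun x) hd0.le fun s' _ hs' => by
      rw [huq hs hs']; exact hdc false
    have k2 := theta_disp (Y₃.thp.isΘ true) (y := (Y₃.Θ false).toFun (X.h1.toFun x)) hd0.le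
      fun s' _ hs' => by
        rw [huq (theta_mem_PK (Y₃.thp.isΘ false) s hs) hs']; exact hdc true
    have k3 := abs_sub_le ((Y₃.Θ true).toFun ((Y₃.Θ false).toFun (X.h1.toFun x)) (K.dir b.1))
      ((Y₃.Θ false).toFun (X.h1.toFun x) (K.dir b.1)) (X.h1.toFun x (K.dir b.1))
    have k4 := (abs_sub_le_norm ((Y₃.Θ true).toFun ((Y₃.Θ false).toFun (X.h1.toFun x)))
      ((Y₃.Θ false).toFun (X.h1.toFun x)) (K.dir b.1)).trans k2
    have k5 := (abs_sub_le_norm ((Y₃.Θ false).toFun (X.h1.toFun x)) (X.h1.toFun x)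
      (K.dir b.1)).trans k1
    linarith
  have e2 : Y₃.h4.toFun x (K.dir b.1) ∈ uIcc
      ((Y₃.Θ true).toFun ((Y₃.Θ false).toFun (X.h1.toFun x)) (K.dir b.1))
      ((Y₃.F β).σ s ((Y₃.Θ true).toFun ((Y₃.Θ false).toFun (X.h1.toFun x)) (K.dir b.1))) := by
    rw [hg, hβ]
    exact pt2_uIcc (pt2 Y₃) β h1
  have e3 : |Y₄.f5.toFun x (K.dir b.1) - Y₃.h4.toFun x (K.dir b.1)| ≤ 2 * d₀ := by
    rw [Y₄.map5 x hx, hoff5]
    exact sg3_disp Y₄.sg (δ := d₀) hd0.le (fun s' hs' β' => by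
      have := huq h2 hs'
      have h5 : s' = s := Subtype.ext this
      rw [h5]; exact hde β') _
  set t₀ := X.h1.toFun x (K.dir b.1)
  set t₁ := (Y₃.Θ true).toFun ((Y₃.Θ false).toFun (X.h1.toFun x)) (K.dir b.1)
  set t₂ := Y₃.h4.toFun x (K.dir b.1)
  set t₃ := Y₄.f5.toFun x (K.dir b.1)
  have hX : ∀ t, (∀ p ∈ winE Y₂.R Y₂.Q b.1, t ∉ Icc p.1 p.2) →
      |(Y₃.F β).σ s t - t| ≤ Y₂.muP s.1 := fun t ht =>
    F3W_disp_out Y₂.Lw β s (notMem_wnd hes hβ.symm ht)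
  have hL := hTB.locD i ((Y₃.F β).σ s) (Y₂.muP s.1) ((Y₃.F β).σ_strictMono s) hμ0
    (by linarith) hX
  have e4 : |(Y₃.F β).σ s t₁ - t₁| ≤ Y₂.muP s.1 := by
    refine hL t₁ ⟨t₂, e2, ?_⟩
    show |t₂ - Th.c i| ≤ Th.w i + Dd
    have := abs_sub_le t₂ t₃ (Th.c i)
    rw [abs_sub_comm t₂ t₃] at this
    linarith
  have e5 : |t₂ - t₁| ≤ Y₂.muP s.1 := by
    refine le_trans ?_ e4
    have := abs_sub_left_of_mem_uIcc e2
    exact this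
  refine ⟨2 * d₀, by linarith [hdc β], fun t ht => hX t fun p hp hmem => ?_⟩
  have e6 : |t - Th.c i| ≤ Th.w i + 7 * d₀ := by
    have k1 := abs_sub_le t t₀ (Th.c i)
    have k2 := abs_sub_le t₀ t₁ (Th.c i)
    have k3 := abs_sub_le t₁ t₂ (Th.c i)
    have k4 := abs_sub_le t₂ t₃ (Th.c i)
    rw [abs_sub_comm t₀ t₁] at k2
    rw [abs_sub_comm t₁ t₂] at k3
    rw [abs_sub_comm t₂ t₃] at k4
    linarith
  have e7 := abs_le.1 e6
  rcases hTB.offX i p hp with h3 | h3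
  · linarith [hmem.2]
  · linarith [hmem.1]

/-- the sum over the bands is at most the distance -/
theorem bs_sum_le {ι : Type*} [Fintype ι] {al be : ℝ} {l h : ι → ℝ} (H : BS al be l h)
    (s t : ℝ) : ∑ i, |clam (l i) (h i) t - clam (l i) (h i) s| ≤ |t - s| := by
  have key : ∀ s t, s ≤ t → ∑ i, |clam (l i) (h i) t - clam (l i) (h i) s| ≤ t - s := by
    intro s t hst
    have e : ∑ i, |clam (l i) (h i) t - clam (l i) (h i) s| =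
        P073.H429.bt l h t - P073.H429.bt l h s := by
      unfold P073.H429.bt
      rw [← Finset.sum_sub_distrib]
      refine Finset.sum_congr rfl fun i _ => ?_
      rw [abs_of_nonneg (sub_nonneg.2 (clam_mono _ _ hst))]
    rw [e]
    exact (H.bt_sub_le hst).trans (clam_sub_le hst)
  rcases le_total s t with h12 | h12
  · rw [abs_of_nonneg (sub_nonneg.2 h12)]
    exact key _ _ h12
  · rw [abs_sub_comm t, abs_of_nonneg (sub_nonneg.2 h12)]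
    refine le_trans (le_of_eq ?_) (key _ _ h12)
    exact Finset.sum_congr rfl fun i _ => abs_sub_comm _ _

/-- off the bands nothing changes locally -/
theorem clam_ev {l h t : ℝ} (hlh : l < h) (ht : t < l ∨ h < t) :
    ∀ᶠ t' in 𝓝 t, clam l h t' = clam l h t := by
  rcases ht with ht | ht
  · filter_upwards [gt_mem_nhds ht] with t' ht'
    rw [clam_of_le ht'.le, clam_of_le ht.le]
  · filter_upwards [lt_mem_nhds ht] with t' ht'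
    rw [clam_of_ge hlh.le ht'.le, clam_of_ge hlh.le ht.le]

/-- **the map before the hook of the tubes, in the direction of the tube, on the bands** -/
theorem f5_tube {k : M.κ} {a ρw εθ εq ε' e₁ A' Lam : ℝ} {om : (D.dat C).S₀ → ℝ}
    (hfat : ∀ b : pB C J₀, 2048 * ω3T δ C b.1 ≤ X.fat b)
    (N : NumW Y₄ k a ρw εθ εq ε' e₁ A' Lam om)
    {i : M.ι} (hi : i ∈ Zmax M w h.toFun J₀ P (2 / 2 ^ j)) (hk : M.F k ⊆ M.Q i)
    (hP : ∀ i ∈ P, ¬ M.F k ⊆ M.Q i) (hnp : k ∉ (D.dat C).Peel (D.G C) X.h1)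
    {x : V} (hx : x ∈ M.F k) {b : pG C J₀} {sl' : Finset (ℝ × ℝ)} {μ : ℝ}
    {Th : Thn (eal (D.W C) b.1) (ebe (D.W C) b.1) sl' μ} {Dd d₀ : ℝ}
    (hTB : TBand Y₃.Lt (Fsg Y₄) Y₄.ς b.1 (X.sl ⟨.inl b.1, inl_mem_pB.2 b.2⟩)
      (winE Y₂.R Y₂.Q b.1) Dd Th)
    (hd0 : 0 < d₀) (hdD : 4 * d₀ ≤ Dd)
    (hdc : ∀ s : (D.dat C).S₀, K.edge b.1 ⊆ K.sq s.1 → ∀ β, Y₂.L.c s.1 β ≤ d₀)
    (hdm : ∀ s : (D.dat C).S₀, K.edge b.1 ⊆ K.sq s.1 → Y₂.muP s.1 ≤ d₀)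
    (hde : ∀ s : (D.dat C).S₀, K.edge b.1 ⊆ K.sq s.1 → ∀ β, (Fsg Y₄ β).e s ≤ d₀)
    (hE : Y₄.f5.toFun x ∈ (D.B C).E b.1) {Q a₁ e' : ℝ}
    (hQ : A' * A' * (εθ * (10 + εq)) +
      (A' * ε' + ε' * (A' + ε')) * (10 + εq * (10 + εq)) ≤ Q)
    (ha1 : a * ρw * 10 ≤ a₁) (ha2 : A' * A' * 10 ≤ a₁) (he1 : e₁ ≤ e') (he2 : Q * Lam ≤ e') :
    ∀ᶠ x' in 𝓝[M.F k] x, ∑ i, |clam (Th.c i - Th.w i) (Th.c i + Th.w i)
        (Y₄.f5.toFun x' (K.dir b.1)) -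
      clam (Th.c i - Th.w i) (Th.c i + Th.w i) (Y₄.f5.toFun x (K.dir b.1))| ≤
        a₁ * wcst D C X.h1.toFun k x x' + e' * ‖x' - x‖ := by
  classical
  have hWF : k ∈ (D.dat C).WF (D.G C) X.h1 := Or.inl ⟨⟨⟨i, hi, hk⟩, hP⟩, hnp⟩
  have hkΩ : M.F k ⊆ Ω := mesh_sub M k
  have hxΩ := hkΩ hx
  have hww : ∀ y y', 0 ≤ wcst D C X.h1.toFun k y y' := fun y y' => wcst_nonneg
  have hA1 := N.A1
  have hε := N.εθ0
  have hεq := N.εq0
  have hε'' := N.ε'0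
  have hL := N.lam0
  have hQ0 : 0 ≤ Q := le_trans (by positivity) hQ
  have hcf : ContinuousWithinAt Y₄.f5.toFun (M.F k) x := (Y₄.f5.cont.mono hkΩ) x hx
  have hcd : Tendsto (fun x' => Y₄.f5.toFun x' (K.dir b.1)) (𝓝[M.F k] x)
      (𝓝 (Y₄.f5.toFun x (K.dir b.1))) := ((continuous_apply _).tendsto _).comp hcf
  by_cases hband : ∃ i, |Y₄.f5.toFun x (K.dir b.1) - Th.c i| ≤ Th.w i
  swap
  · -- off the bands
    push Not at hband
    have h1 : ∀ᶠ t' in 𝓝 (Y₄.f5.toFun x (K.dir b.1)), ∀ i,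
        clam (Th.c i - Th.w i) (Th.c i + Th.w i) t' =
        clam (Th.c i - Th.w i) (Th.c i + Th.w i) (Y₄.f5.toFun x (K.dir b.1)) := by
      rw [eventually_all]
      intro i
      refine clam_ev (by linarith [Th.w_pos i]) ?_
      rcases lt_abs.1 (hband i) with h2 | h2
      · right; linarith
      · left; linarith
    filter_upwards [hcd.eventually h1] with x' h2
    refine le_trans (le_of_eq ?_) (show (0:ℝ) ≤ _ from ?_)
    · refine Finset.sum_eq_zero fun i _ => ?_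
      rw [h2 i, sub_self, abs_zero]
    · have h3 := hww x x'
      have h4 : 0 ≤ a₁ := le_trans (by positivity) ha2
      have h5 : 0 ≤ e' := N.e₁0.trans he1
      positivity
  obtain ⟨i₀, hi₀⟩ := hband
  suffices h : ∀ᶠ x' in 𝓝[M.F k] x, |Y₄.f5.toFun x' (K.dir b.1) - Y₄.f5.toFun x (K.dir b.1)| ≤
      a₁ * wcst D C X.h1.toFun k x x' + e' * ‖x' - x‖ by
    filter_upwards [h] with x' h1
    exact (bs_sum_le Th.bs _ _).trans h1
  by_cases hH : ∃ s : (D.dat C).S₀, Y₃.h4.toFun x ∈ HB (D.G C) (29 / 32) (3 / 4) s.1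
  · -- in the box of a plate
    obtain ⟨s, hs⟩ := hH
    have h5m : Y₄.h5.toFun x ∈ HB (D.G C) (29 / 32) (3 / 4) s.1 := (Y₄.hko.mem s hxΩ).2 hs
    have h5p : Y₄.h5.toFun x ∈ (D.G C).PB (7 / 8) s.1 :=
      HB_PB (c := 7 / 8) (c' := 29 / 32) (by norm_num) (by norm_num) s.1 h5m
    have hPB : Y₄.f5.toFun x ∈ (D.G C).PB (7 / 8) s.1 := by
      rw [Y₄.map5 x hxΩ]
      exact Y₄.sg.mem_PB le_rfl (by norm_num) h5p
    have hes : K.edge b.1 ⊆ K.sq s.1 := edge_sub_of_PB (by norm_num) hPB hE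
    obtain ⟨k1, k2⟩ := Vale.Agent.P073.H669.eLo_P (D.G C) hes
    have ha0 := (D.G C).a_pos s.1
    have hlo := Th.al_lt i₀
    have hhi := Th.lt_be i₀
    have hab := abs_le.1 hi₀
    change eal (D.W C) b.1 < _ at hlo
    change _ < ebe (D.W C) b.1 at hhi
    have hal : eal (D.W C) b.1 = Vale.Agent.P073.H669.eLo (D.W C) b.1 := rfl
    have hbe : ebe (D.W C) b.1 = Vale.Agent.P073.H669.eHi (D.W C) b.1 := rfl
    have hin : Y₄.f5.toFun x (K.dir b.1) ∈ Ioo (K.slo s.1 (K.dir b.1) + (D.G C).a s.1)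
        (K.shi s.1 (K.dir b.1) - (D.G C).a s.1) := by
      constructor
      · linarith
      · linarith
    filter_upwards [f5_box hfat N hi hk hP hnp hx hs, hcd (Ioo_mem_nhds hin.1 hin.2)]
      with x' h1 h2
    have h3 := h1 (K.dir b.1) (nrm_ne_dir hes).symm ⟨hin.1.le, hin.2.le⟩ ⟨h2.1.le, h2.2.le⟩
    refine h3.trans (add_le_add ?_ (mul_le_mul_of_nonneg_right he1 (norm_nonneg _)))
    have h4 := mul_le_mul_of_nonneg_right ha1 (hww x x')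
    linarith
  · -- off the boxes of the plates
    push Not at hH
    have hg : Y₃.h4.toFun x =
        PS.map Y₃.T2 ((Y₃.Θ true).toFun ((Y₃.Θ false).toFun (X.h1.toFun x))) := h4_giv Y₃ hWF hx
    obtain ⟨t, ht, z, hz, h1⟩ := pos_giv Y₃ N.hc N.hD hi hk (fun y hy => h4_giv Y₃ hWF hy)
    obtain ⟨h11, h12, h13⟩ := h1 x hx
    have hom := (D.G C).om_pos t
    have hκ := (D.G C).om_κ t
    have hκ0 := (D.G C).κ_pos t
    have hoff5 : Y₄.h5.toFun x = Y₃.h4.toFun x :=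
      Y₄.hk.out.off hxΩ fun s hs => hH s (interior_subset hs)
    have hd : ∀ l, |Y₄.f5.toFun x l - Y₃.h4.toFun x l| ≤ (D.G C).κ t / 64 := by
      intro l
      rw [Y₄.map5 x hxΩ, hoff5]
      have h2 := sg3_disp Y₄.sg (y := Y₃.h4.toFun x) (δ := (D.G C).om t) hom.le (fun s hs β => by
        obtain ⟨hts, -⟩ := D.nrm_z C hs hz (h13.trans (by linarith))
        exact N.hσ s β t hts) l
      linarith
    have hyz : ‖Y₃.h4.toFun x - z‖ ≤ (D.G C).κ t / 64 := h13.trans (by linarith)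
    obtain ⟨het, hzd, hzl⟩ := D.z_edge C ht hz hyz (fun s hs => hH ⟨s, hs⟩) (Y₄.f5.mapsTo hxΩ)
      hd hE
    have hIn : InTm 64 (D.G C) M h (ω3T δ C) (.inl b.1) k :=
      D.inTm_inl C het hzd hzl fun y hy => (h1 y hy).1
    have hbB : (Sum.inl b.1 : TBx K) ∈ pB C J₀ := inl_mem_pB.2 b.2
    have hrel := _root_.P073.H196.giv_rel2 (c := 29 / 32) (d := 3 / 4) Y₄.hko D.bΛ.1 Y₄.sg hkΩ
      (fun s i' _ => Vale.Agent.P073.H244.face_disjoint M k i') Y₃.thp2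
      (fun y hy => h4_giv Y₃ hWF hy) hx (j := K.dir b.1)
      hA1 hε hεq hε'' (le_refl (0 : ℝ)) (fun s hs β => N.θq s ⟨x, hx, hs⟩ β)
      (fun s hs β hβ => Or.inr ⟨N.θ s ⟨x, hx, hs⟩ β, by
        obtain ⟨-, -, hes⟩ := edge_sq_of_PK hxΩ hg hH hE hs
        exact off_wnd hTB hxΩ hg hH hE hi₀ hs hβ hd0 hdD (hdc s hes) (hdm s hes) (hde s hes)⟩)
      (fun s hs β => N.slA s ⟨x, hx, hs⟩ β) (fun s hs β => N.ε s ⟨x, hx, hs⟩ β)
      (fun s hs => absurd hs (hH s)) (fun s => mul_pos (Y₄.q0 s) (Y₄.r0 s)) (qr_le Y₄) Y₄.r1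
      (Fσe Y₄) Fe0 Feo (fun s hs => absurd hs (hH s)) hQ
    filter_upwards [hrel, N.lam x hx, self_mem_nhdsWithin] with x' h2 h3 hx'
    rw [Y₄.map5 x hxΩ, Y₄.map5 x' (hkΩ hx')]
    have h4 := mul_le_mul_of_nonneg_left h3 hQ0
    have h5 : |X.h1.toFun x' (K.dir b.1) - X.h1.toFun x (K.dir b.1)| ≤
        wcst D C X.h1.toFun k x x' := by
      rw [abs_sub_comm]
      exact le_wcst (b := .inl b.1) hbB hIn
    have h6 := mul_le_mul_of_nonneg_left h5 (show 0 ≤ A' * A' * 10 by positivity)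
    have h7 := mul_le_mul_of_nonneg_right ha2 (hww x x')
    have h8 := mul_le_mul_of_nonneg_right he2 (norm_nonneg (x' - x))
    linarith

end pos

end P073.H142
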