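import Vale.Agent.P073.H142.FaceI
import Vale.Agent.P073.H237.LatP
import Vale.Agent.P073.H253.EstS2
import Vale.Agent.P073.H155.NumX
import Vale.Agent.P073.H805.Marks2

/-!
# P073, block H142 ([FACE3-W]): the last map on a drawn face which is not peeled

`S5.latC_num`: `LAtC` with the cost `wcst`, from the numbers `NumW` of a face and the bands `TBand`
of the tubes.
-/

open Set Metric Topology Filter

set_option linter.unusedSectionVars false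

namespace Vale.Agent.P073.H267.K3

open _root_.P073 _root_.P073.Net _root_.P073.PA691 _root_.P073.TM _root_.P073.H236
open _root_.P073.H429 _root_.P073.H880 _root_.P073.H880.RP _root_.P073.H936 _root_.P073.H936.K3
open _root_.P073.H345 _root_.P073.H579 _root_.P073.H919 _root_.P073.H196 _root_.P073.H142
  _root_.P073.H228
open Vale.Agent.P073.St (V)
open Vale.Agent.P073.H73 (Mesh)
open Vale.Agent.P073.H471 Vale.Agent.P073.H267
open Vale.Agent.P073.H304 (Nb In Zmax)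
open Vale.Agent.P073.H926
open Vale.Agent.P073.H238.K3 (Zd Wc Act TOut3)
open _root_.P073.H155 (TBand winE)
open Vale.Agent.P073.H233 (PSet Xp)
open Vale.Agent.P073.H193 (LAtC edges mesh_sub)

variable {c₀ n δ : ℝ} {j : ℕ} {Ω Λ : Set V} {v w : V} {ρ : V → ℝ} {M : Mesh Ω} {h : ConHomeo Ω Λ}
  {J₀ J : Set (ℕ × (Fin 3 → ℤ))} {P Z : Set M.ι} {K : BoxCx Λ w}
  {D : KIn3 c₀ n j δ v w ρ M h J₀ J P Z} {C : Cells ρ w K} {C₀ μT : ℝ}
  {X : S1 D C C₀ μT} {Y₂ : S2 X} {Ys : Set M.κ} {sc : Sharp} {Y₃ : S3 Y₂ Ys sc}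
  {Y₄ : S4 Y₃}

/-- **the last map on a drawn face which is not peeled**, from numbers -/
theorem S5.latC_num (Y₅ : S5 Y₄)
    (hfat : ∀ b : pB C J₀, 2048 * ω3T δ C b.1 ≤ X.fat b)
    {k : M.κ} {a ρw εθ εq ε' e₁ A' Lam : ℝ} {om : (D.dat C).S₀ → ℝ}
    (N : NumW Y₄ k a ρw εθ εq ε' e₁ A' Lam om)
    {d₀ Dd : pG C J₀ → ℝ}
    (hTB : ∀ b : pG C J₀, TBand Y₃.Lt (Fsg Y₄) Y₄.ς b.1 (X.sl ⟨.inl b.1, inl_mem_pB.2 b.2⟩)
      (winE Y₂.R Y₂.Q b.1) (Dd b) (Y₅.Th b))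
    (hd0 : ∀ b, 0 < d₀ b) (hdD : ∀ b, 4 * d₀ b ≤ Dd b)
    (hdc : ∀ (b : pG C J₀) (s : (D.dat C).S₀), K.edge b.1 ⊆ K.sq s.1 → ∀ β,
      Y₂.L.c s.1 β ≤ d₀ b)
    (hdm : ∀ (b : pG C J₀) (s : (D.dat C).S₀), K.edge b.1 ⊆ K.sq s.1 → Y₂.muP s.1 ≤ d₀ b)
    (hde : ∀ (b : pG C J₀) (s : (D.dat C).S₀), K.edge b.1 ⊆ K.sq s.1 → ∀ β,
      (Fsg Y₄ β).e s ≤ d₀ b)
    {μ₂ κ ε₆ : ℝ} (hμ : ∀ b, 0 ≤ Y₅.μ b) (hμ2 : ∀ b, Y₅.μ b ≤ μ₂) (hκ0 : 0 ≤ κ)
    (hκ : ∀ b : pG C J₀, Y₅.μ b * (ebe (D.W C) b.1 - eal (D.W C) b.1) ≤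
      κ * ((D.G C).uT b.1 / 4)) (hε60 : 0 ≤ ε₆)
    {i : M.ι} (hi : i ∈ Zmax M w h.toFun J₀ P (2 / 2 ^ j)) (hk : M.F k ⊆ M.Q i)
    (hP : ∀ i ∈ P, ¬ M.F k ⊆ M.Q i) (hnp : k ∉ (D.dat C).Peel (D.G C) X.h1)
    {x : V} (hx : x ∈ M.F k)
    (hε6 : ∀ b : pG C J₀, Y₄.f5.toFun x ∈ (Y₅.Ft.X b).K → Y₅.ε b ≤ ε₆)
    {Q a₁ e' a' e₀ : ℝ}
    (hQ : A' * A' * (εθ * (10 + εq)) +
      (A' * ε' + ε' * (A' + ε')) * (10 + εq * (10 + εq)) ≤ Q)
    (ha1 : a * ρw * 10 ≤ a₁) (ha2 : A' * A' * 10 ≤ a₁) (he1 : e₁ ≤ e') (he2 : Q * Lam ≤ e')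
    (hs1 : 1 ≤ 1 + μ₂ + κ)
    (ha' : (1 + μ₂ + κ) * a₁ ≤ a') (he₀ : (1 + μ₂ + κ) * e' + ε₆ ≤ e₀) :
    LAtC (D.B C) (Xp C J₀) (fun y => a' * wcst D C X.h1.toFun k x y + e₀ * ‖y - x‖) (M.F k)
      Y₅.f.toFun x := by
  have hWF : k ∈ (D.dat C).WF (D.G C) X.h1 := Or.inl ⟨⟨⟨i, hi, hk⟩, hP⟩, hnp⟩
  have hkΩ : M.F k ⊆ Ω := mesh_sub M k
  have hxΩ := hkΩ hx
  have hT := Y₅.lay
  have hww : ∀ y y', 0 ≤ wcst D C X.h1.toFun k y y' := fun y y' => wcst_nonneg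
  have haρ : 0 ≤ a * ρw := mul_nonneg N.a0 N.rw0
  have hε := N.εθ0
  have hε'' := N.ε'0
  have hL := N.lam0
  have he10 := N.e₁0
  have hA1 := N.A1
  have ha10 : 0 ≤ a₁ := le_trans (by positivity) ha2
  have he'0 : 0 ≤ e' := he10.trans he1
  have hDk : Disjoint (M.F k) (⋃ b, ⋃ i ∈ ZbT Y₄ b, interior (M.Q i)) := by
    rw [Set.disjoint_left]
    intro y hy hy'
    obtain ⟨b', hy'⟩ := mem_iUnion.1 hy'
    obtain ⟨i', -, hy'⟩ := mem_iUnion₂.1 hy'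
    exact _root_.P073.H919.not_interior_of_face M i' hy hy'
  have hest : ∀ x', ∀ q : ℝ, q ≤ ε₆ * ‖x' - x‖ → (1 + μ₂ + κ) *
      (a₁ * wcst D C X.h1.toFun k x x' + e' * ‖x' - x‖) + q ≤
      a' * wcst D C X.h1.toFun k x x' + e₀ * ‖x' - x‖ := by
    intro x' q hq
    have h1 := mul_le_mul_of_nonneg_right ha' (hww x x')
    have h2 := mul_le_mul_of_nonneg_right he₀ (norm_nonneg (x' - x))
    have e : (1 + μ₂ + κ) * (a₁ * wcst D C X.h1.toFun k x x' + e' * ‖x' - x‖) =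
        (1 + μ₂ + κ) * a₁ * wcst D C X.h1.toFun k x x' +
          (1 + μ₂ + κ) * e' * ‖x' - x‖ := by ring
    rw [e]
    linarith
  have hc0 : ∀ x', 0 ≤ a₁ * wcst D C X.h1.toFun k x x' + e' * ‖x' - x‖ := by
    intro x'
    have := hww x x'
    have := norm_nonneg (x' - x)
    positivity
  have hest' : ∀ x', a₁ * wcst D C X.h1.toFun k x x' + e' * ‖x' - x‖ ≤
      a' * wcst D C X.h1.toFun k x x' + e₀ * ‖x' - x‖ := by
    intro x'
    have h1 := hest x' 0 (mul_nonneg hε60 (norm_nonneg _))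
    have h2 := mul_le_mul_of_nonneg_right hs1 (hc0 x')
    linarith
  by_cases hH : ∃ s : (D.dat C).S₀, Y₃.h4.toFun x ∈ HB (D.G C) (29 / 32) (3 / 4) s.1
  · -- in the box of a plate
    obtain ⟨s, hs⟩ := hH
    have h5m : Y₄.h5.toFun x ∈ HB (D.G C) (29 / 32) (3 / 4) s.1 := (Y₄.hko.mem s hxΩ).2 hs
    have h5p : Y₄.h5.toFun x ∈ (D.G C).PB (7 / 8) s.1 :=
      HB_PB (c := 7 / 8) (c' := 29 / 32) (by norm_num) (by norm_num) s.1 h5m
    have hτ := (D.B C).τ_pos s.1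
    have hPB : Y₄.f5.toFun x ∈ (D.G C).PB (7 / 8) s.1 := by
      rw [Y₄.map5 x hxΩ]
      exact Y₄.sg.mem_PB le_rfl (by norm_num) h5p
    have hn : |Y₄.f5.toFun x (K.nrm s.1) - K.slo s.1 (K.nrm s.1)| < (D.B C).τ s.1 := by
      rw [Y₄.map5 x hxΩ, Y₄.sg.nrm h5p]
      have := (mem_HB.1 h5m).2
      linarith
    have hlip : ∀ᶠ x' in 𝓝[M.F k] x, ∀ j, j ≠ K.nrm s.1 →
        Y₄.f5.toFun x j ∈ pwin (D.G C) s.1 j → Y₄.f5.toFun x' j ∈ pwin (D.G C) s.1 j →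
        |Y₄.f5.toFun x' j - Y₄.f5.toFun x j| ≤
          a₁ * wcst D C X.h1.toFun k x x' + e' * ‖x' - x‖ := by
      filter_upwards [f5_box hfat N hi hk hP hnp hx hs] with x' h1 j hj hw hw'
      refine (h1 j hj hw hw').trans (add_le_add ?_
        (mul_le_mul_of_nonneg_right he1 (norm_nonneg _)))
      have h4 := mul_le_mul_of_nonneg_right ha1 (hww x x')
      linarith
    by_cases hb : ∃ b, Y₄.f5.toFun x ∈ (Y₅.Ft.X b).K
    · obtain ⟨b, hb⟩ := hb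
      have hu : 0 < (D.G C).uT b.1 / 4 := by have := (D.G C).uT_pos b.1; positivity
      refine hT.latC_peeled (D.G C) (pclosed_Xp C J₀) s.2 hkΩ hDk hx hPB hn (κ := κ)
        (sl := 1 + μ₂) (ςm := Y₅.ς b) (ρ := (D.G C).uT b.1 / 4)
        (c₂ := fun x' => Y₅.K₂ b * ‖x' - x‖) hlip
        (Eventually.of_forall hc0)
        (Eventually.of_forall fun x' => mul_nonneg (Y₅.K₂0 b).le (norm_nonneg _))
        (fun b hb => tfit_of hb)
        (fun b' hb' => ?_) (Eventually.of_forall fun x' => ⟨hest' x', hest x' _ ?_⟩)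
      · have hbb : b' = b := by
          by_contra hne
          exact Set.disjoint_left.1 (disjoint_se fun e => hne (Subtype.ext e)) (hT.Ese b' hb')
            (hT.Ese b hb)
        subst hbb
        refine ⟨le_rfl, hu, fun i => le_rfl, ?_, ?_, ?_⟩
        · exact ((Y₅.Th b').slG_le (Y₅.ς0 b').le (Y₅.ς1 b') (hμ b')).trans
            (by linarith [hμ2 b'])
        · rw [div_le_iff₀ hu]
          exact ((Y₅.Th b').disp_le (hμ b')).trans (hκ b')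
        · refine Y₅.lipK hxΩ ?_ _
          rwa [← tX_K (hp := fun e k => (YS_p_lt (D.G C) e k).le)
            (hq := fun e k => (YS_q_lt (D.G C) e k).le) (h0 := Y₅.ς0 b') (h1 := Y₅.ς1 b')]
      · have h1 := mul_le_mul_of_nonneg_right ((Y₅.ςK b).trans (hε6 b hb))
          (norm_nonneg (x' - x))
        beta_reduce
        linarith
    · push Not at hb
      refine hT.latC_peeled (D.G C) (pclosed_Xp C J₀) s.2 hkΩ hDk hx hPB hn (κ := κ)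
        (sl := 1 + μ₂) (ςm := 0) (ρ := 1) (c₂ := fun _ => 0) hlip
        (Eventually.of_forall hc0) (Eventually.of_forall fun x' => le_rfl)
        (fun b hb => tfit_of hb)
        (fun b' hb' => absurd hb' (hb b')) (Eventually.of_forall fun x' => ⟨hest' x',
          hest x' _ ?_⟩)
      rw [zero_mul]
      exact mul_nonneg hε60 (norm_nonneg _)
  -- off the boxes of the plates
  push Not at hH
  have hg : ∀ y ∈ M.F k, Y₃.h4.toFun y =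
      PS.map Y₃.T2 ((Y₃.Θ true).toFun ((Y₃.Θ false).toFun (X.h1.toFun y))) :=
    fun y hy => h4_giv Y₃ hWF hy
  obtain ⟨t, ht, z, hz, h1⟩ := pos_giv Y₃ N.hc N.hD hi hk hg
  obtain ⟨h11, h12, h13⟩ := h1 x hx
  have hom := (D.G C).om_pos t
  have hκt := (D.G C).om_κ t
  have hκt0 := (D.G C).κ_pos t
  have hoff5 : Y₄.h5.toFun x = Y₃.h4.toFun x :=
    Y₄.hk.out.off hxΩ fun s hs => hH s (interior_subset hs)
  have hd : ∀ l, |Y₄.f5.toFun x l - Y₃.h4.toFun x l| ≤ (D.G C).κ t / 64 := by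
    intro l
    rw [Y₄.map5 x hxΩ, hoff5]
    have h2 := _root_.P073.H237.Cov.sg3_disp Y₄.sg (y := Y₃.h4.toFun x) (δ := (D.G C).om t)
      hom.le (fun s hs β => by
        obtain ⟨hts, -⟩ := D.nrm_z C hs hz (h13.trans (by linarith))
        exact N.hσ s β t hts) l
    linarith
  have hyz : ‖Y₃.h4.toFun x - z‖ ≤ (D.G C).κ t / 64 := h13.trans (by linarith)
  have hPM : PMv (D.G C) (pS C J₀) (29 / 32) (3 / 4) (D.G C).p ((D.G C).κ t / 64)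
      (Y₃.h4.toFun x) (Y₄.f5.toFun x) :=
    ⟨fun _ => hd, fun s hs hb => absurd hb (hH ⟨s, hs⟩), fun s hs hb => absurd hb (hH ⟨s, hs⟩)⟩
  refine hT.latCS hkΩ hx (fun b => tfam_al_lt b) (fun b => tfam_lt_be b) (fun hno => ?_)
    fun b hb => ?_
  · rcases cover3 (D.G C) hz with ⟨s, hs, h2, h3⟩ | ⟨e, he, hw, hl⟩ | ⟨i', hi', h2⟩
    · exfalso
      exact hH ⟨s, mem_pS ht hs⟩ (interior_subset (pos_P hs (by norm_num) (by norm_num) h2 h3
        (hyz.trans (by linarith))))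
    · exfalso
      have h3 : Y₄.f5.toFun x ∈ interior (YB (YT (D.G C) (pS C J₀)) e) := by
        refine pos_E (by norm_num) (by norm_num) (fun s _ => le_rfl) (by linarith) he hw ?_
          (hyz.trans (by linarith)) hPM
        rcases hl with hl | ⟨s, hs, hes, hzs, hl⟩
        · exact Or.inl hl
        · exact Or.inr ⟨s, mem_pS ht hs, hes, hzs, hl⟩
      exact hno ⟨e, ⟨t, ht, he⟩⟩ (hT.PK _ (interior_subset h3))
    · refine Or.inr (Or.inr (Or.inr ⟨i', ⟨t, ht, hi'⟩, ?_⟩))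
      have h3 : ∀ l, |Y₄.f5.toFun x l - K.w i' l| ≤ 7 / 8 * (D.W C).wv i' :=
        pos_V (by norm_num) (by norm_num) (fun s _ => le_rfl) (by linarith) hi' h2
          (hyz.trans (by linarith)) hPM
      have h0' := (D.W C).wv_pos i'
      rw [Zv, interior_closedBall _ h0'.ne', mem_ball, dist_pi_lt_iff h0']
      intro l
      rw [Real.dist_eq]
      linarith [h3 l]
  · -- in the support of a tube
    have hE : Y₄.f5.toFun x ∈ (D.B C).E b.1 := hT.KE b hb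
    obtain ⟨het, hzd, hzl⟩ := D.z_edge C ht hz hyz (fun s hs => hH ⟨s, hs⟩) (Y₄.f5.mapsTo hxΩ)
      hd hE
    refine ⟨b.2, ⟨t, ht, het (TM.wa_mem K b.1)⟩, ⟨t, ht, het (TM.wb_mem K b.1)⟩, fun hwin => ?_⟩
    have hκu := (D.G C).κ_uT t b.1 het
    have hTT := uT_le_T (D.G C) b.1
    have huT := (D.G C).uT_pos b.1
    have hIn : InS D C b.1 (Y₄.f5.toFun x) := by
      refine ⟨hwin, fun m hm => ?_⟩
      have h2 := hd m
      have h3 := (abs_sub_le_norm (Y₃.h4.toFun x) z m).trans hyz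
      have h4 := hzl m hm
      have h5 := abs_sub_le (Y₄.f5.toFun x m) (Y₃.h4.toFun x m) (K.w (K.a b.1) m)
      have h6 := abs_sub_le (Y₃.h4.toFun x m) (z m) (K.w (K.a b.1) m)
      linarith
    refine Y₅.estS (hμ b) hkΩ hDk hx hIn
      (f5_tube hfat N hi hk hP hnp hx (hTB b) (hd0 b) (hdD b) (hdc b) (hdm b) (hde b) hE hQ
        ha1 ha2 he1 he2) (Eventually.of_forall fun x' => ?_)
    have h2 := mul_le_mul_of_nonneg_right (hε6 b hb) (norm_nonneg (x' - x))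
    have h3 := hest x' (Y₅.ε b * ‖x' - x‖) h2
    have h4 : (1 + Y₅.μ b) * (a₁ * wcst D C X.h1.toFun k x x' + e' * ‖x' - x‖) ≤
        (1 + μ₂ + κ) * (a₁ * wcst D C X.h1.toFun k x x' + e' * ‖x' - x‖) :=
      mul_le_mul_of_nonneg_right (by linarith [hμ2 b]) (hc0 x')
    linarith

/-! ### the numbers in closed form -/

/-- **the numbers of the rounds for the faces with the given map**; `Lam k` are Lipschitz constants
of `h1`, `τ k` tolerances of the faces, `η b` the numbers of the thin bands -/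
structure GivNum (Y₄ : S4 Y₃) (Lam τ : M.κ → ℝ) (η : pG C J₀ → ℝ) : Prop where
  J : ∀ s ∈ pS C J₀, Y₂.J s ≤ 2048 * ω3S δ C s
  mu : ∀ s ∈ pS C J₀, Y₂.muP s ≤ 2048 * ω3S δ C s
  dP : ∀ s ∈ pS C J₀, ∀ q, (q = K.sm s ∨ q = K.sp s) → Y₂.dP s ≤ (D.G C).om q
  q : ∀ s, 1 - n / 2048 ≤ Y₄.q s
  r : ∀ s, 1 - n / 2048 ≤ Y₄.r s
  η0 : ∀ b, 0 < η b
  ηm : ∀ (b : pG C J₀) s, K.edge b.1 ⊆ K.sq s → Y₂.muP s ≤ η b ∧ Y₂.dP s ≤ η b
  lam0 : ∀ k, 0 ≤ Lam k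
  τ0 : ∀ k, 0 < τ k
  lip : ∀ k ∈ (D.dat C).DF, ∀ x ∈ M.F k, ∀ y ∈ M.F k,
    ‖X.h1.toFun y - X.h1.toFun x‖ ≤ Lam k * ‖y - x‖
  θ : ∀ s ∈ pS C J₀, ∀ k, (∃ x ∈ M.F k, X.h1.toFun x ∈ PK (D.G C) s) →
    (6 * Y₂.muP s + Y₂.dP s) * (4 / (D.B C).τ s) * (2000 * (Lam k + 1)) ≤ τ k
  ε : ∀ (s : (D.dat C).S₀) k, (∃ x ∈ M.F k, Y₃.h4.toFun x ∈ PK (D.G C) s.1) →
    16 * Y₄.ε s ≤ τ k

/-- a face with the given map: `h4` in a plate, then `h1` in the same plate -/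
theorem h4_PK (Y₃ : S3 Y₂ Ys sc) {k : M.κ} (hWF : k ∈ (D.dat C).WF (D.G C) X.h1) {x : V}
    (hx : x ∈ M.F k) {s : (D.dat C).S₀} (hs : Y₃.h4.toFun x ∈ PK (D.G C) s.1) :
    X.h1.toFun x ∈ PK (D.G C) s.1 := by
  rw [h4_giv Y₃ hWF hx] at hs
  by_cases hy : ∃ s' : (D.dat C).S₀,
      (Y₃.Θ true).toFun ((Y₃.Θ false).toFun (X.h1.toFun x)) ∈ PK (D.G C) s'.1
  · obtain ⟨s', hs'⟩ := hy
    have h1 := pt2_PK (pt2 Y₃) hs'
    have h2 : s'.1 = s.1 := PK_unique h1 hs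
    exact h2 ▸ theta_PK (Y₃.thp.isΘ false) (theta_PK (Y₃.thp.isΘ true) hs')
  · push Not at hy
    rw [(pt2 Y₃).map_off hy] at hs
    exact absurd hs (hy s)

/-- the numbers `NumW` -/
theorem GivNum.numW {Lam τ : M.κ → ℝ} {η : pG C J₀ → ℝ} (GN : GivNum Y₄ Lam τ η) {k : M.κ}
    (hkD : k ∈ (D.dat C).DF) (hnp : k ∉ (D.dat C).Peel (D.G C) X.h1) :
    NumW Y₄ k 1 3 (min 1 (τ k / (2000 * (Lam k + 1)))) 1 (min 1 (τ k / (2000 * (Lam k + 1))))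
      (τ k / 16) (3 / 2) (Lam k) (fun s => Y₂.L.om s.1 true) := by
  have hWF : k ∈ (D.dat C).WF (D.G C) X.h1 := Or.inl ⟨hkD, hnp⟩
  have PST := _root_.P073.H919.PSt.of_PS3 Y₃.ps
  have hn0 := D.pos
  have hn1 := D.lt
  have hτk := GN.τ0 k
  have hLk := GN.lam0 k
  have hden : 0 < 2000 * (Lam k + 1) := by positivity
  have hst : ∀ (s : (D.dat C).S₀) β, stp (Y₃.Lt.N s.1 β) (K.slo s.1 (tg s.1 β) + (D.G C).a s.1)
      (K.shi s.1 (tg s.1 β) - (D.G C).a s.1) = Y₂.L.om s.1 true :=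
    fun s β => Y₂.Lw.om_eq s.1 β true
  have hom0 : ∀ s : (D.dat C).S₀, 0 < Y₂.L.om s.1 true := fun s => Y₂.Lw.om_pos s.1 true
  have hge : ∀ s : (D.dat C).S₀, Y₂.dP s.1 ≤ Y₂.L.om s.1 true := fun s => Y₂.Lw.om_ge s.1 true
  have hle : ∀ s : (D.dat C).S₀, Y₂.L.om s.1 true ≤ 2 * Y₂.dP s.1 :=
    fun s => Y₂.Lw.om_le_two s.1 true
  have hd0 : ∀ s, 0 < Y₂.dP s := Y₂.Lw.δ0
  have hm0 : ∀ s, 0 < Y₂.muP s := Y₂.Lw.μ0
  have hqr : ∀ s, 8 / 9 ≤ Y₄.q s * Y₄.r s := by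
    intro s
    have h1 := GN.q s
    have h2 := GN.r s
    have h3 := Y₄.q1 s
    have h4 := Y₄.r1 s
    nlinarith
  have hqr0 : ∀ s, 0 < Y₄.q s * Y₄.r s := Y₄.p0
  have hbw : ∀ (s : (D.dat C).S₀) β, 3 / 8 * Y₂.L.om s.1 true ≤ bw (Y₃.Lt.N s.1 β)
      (K.slo s.1 (tg s.1 β) + (D.G C).a s.1) (K.shi s.1 (tg s.1 β) - (D.G C).a s.1)
      ((Y₃.F β).e s) := by
    intro s β
    have h1 : (Y₃.F β).e s ≤ Y₂.dP s.1 / 8 := Y₃.e8 β s
    unfold bw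
    rw [hst s β]
    linarith [hge s]
  have hslb : ∀ (s : (D.dat C).S₀) β, slAK (Fsg Y₄ β) (Y₄.ς β) s * bw (Y₃.Lt.N s.1 β)
      (K.slo s.1 (tg s.1 β) + (D.G C).a s.1) (K.shi s.1 (tg s.1 β) - (D.G C).a s.1)
      ((Y₃.F β).e s) ≤ 9 / 16 * Y₂.L.om s.1 true := by
    intro s β
    have h1 := slAK_sfam_plate PST Y₄.p0 Y₄.p1 (ς := Y₄.ς β) (fun b => (Y₄.ς0 β b).le) β s
    have h2 : stp (Y₃.Lt.N s.1 β) (K.slo s.1 (tg s.1 β) + (D.G C).a s.1)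
      (K.shi s.1 (tg s.1 β) - (D.G C).a s.1) = Y₂.L.om s.1 true := hst s β
    change slAK (Fsg Y₄ β) (Y₄.ς β) s * bw (Y₃.Lt.N s.1 β)
      (K.slo s.1 (tg s.1 β) + (D.G C).a s.1) (K.shi s.1 (tg s.1 β) - (D.G C).a s.1)
      ((Y₃.F β).e s) ≤ stp (Y₃.Lt.N s.1 β) (K.slo s.1 (tg s.1 β) + (D.G C).a s.1)
      (K.shi s.1 (tg s.1 β) - (D.G C).a s.1) / 2 / (Y₄.q s * Y₄.r s) at h1
    rw [h2] at h1
    refine h1.trans ?_
    rw [div_le_iff₀ (hqr0 s)]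
    nlinarith [hqr s, hom0 s]
  have hFe : ∀ (s : (D.dat C).S₀) β, (Fsg Y₄ β).e s ≤ Y₂.dP s.1 := by
    intro s β
    rw [Fσe Y₄ s β, hst s β]
    have h1 := mul_nonneg (hqr0 s).le ((mul_nonneg (by norm_num) (hom0 s).le).trans (hbw s β))
    linarith [hle s]
  have homq : ∀ s : (D.dat C).S₀, 4 * (D.G C).om (K.sm s.1) ≤ (D.B C).τ s.1 := by
    intro s
    have h1 := (D.G C).om_oS (K.sm s.1) s.1 (Or.inl rfl)
    have h2 := (D.G C).oS_τ s.1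
    have h3 := (D.B C).τ_pos s.1
    linarith
  have hmo : ∀ (s : (D.dat C).S₀) q, (q = K.sm s.1 ∨ q = K.sp s.1) →
      2048 * Y₂.muP s.1 ≤ (D.G C).om q ∧ 2048 * Y₂.J s.1 ≤ (D.G C).om q := by
    intro s q hq
    have h1 := D.ω3S_om C hq
    exact ⟨by linarith [GN.mu s.1 s.2], by linarith [GN.J s.1 s.2]⟩
  have hcd : ∀ s β, Y₂.L.c s β = Y₂.dP s / 8 := fun s β => rfl
  have hone : ∀ (s : (D.dat C).S₀) {t : ℝ}, t ≤ (D.G C).om (K.sm s.1) →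
      t * (4 / (D.B C).τ s.1) ≤ 1 := by
    intro s t ht
    have h1 := (D.B C).τ_pos s.1
    rw [mul_div_assoc', div_le_one h1]
    linarith [homq s]
  have htwo : ∀ (s : (D.dat C).S₀) {t : ℝ}, t ≤ 6 * Y₂.muP s.1 + Y₂.dP s.1 →
      (∃ x ∈ M.F k, X.h1.toFun x ∈ PK (D.G C) s.1) →
      t * (4 / (D.B C).τ s.1) ≤ τ k / (2000 * (Lam k + 1)) := by
    intro s t ht hs
    rw [le_div_iff₀ hden]
    refine le_trans ?_ (GN.θ s.1 s.2 k hs)
    have h1 := (D.B C).τ_pos s.1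
    exact mul_le_mul_of_nonneg_right (mul_le_mul_of_nonneg_right ht (by positivity)) hden.le
  exact
    { hc := fun s hs β q hq => by
        rw [hcd]
        linarith [GN.dP s hs q hq, hd0 s]
      hD := fun s β q hq => by
        obtain ⟨h1, h2⟩ := hmo s q hq
        have h3 : (Y₃.F β).D s = Y₂.muP s.1 + Y₂.J s.1 := rfl
        rw [h3]
        linarith [(D.G C).om_pos q]
      hσ := fun s β q hq => (hFe s β).trans (GN.dP s.1 s.2 q hq)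
      a0 := zero_le_one
      om0 := fun s => (hom0 s).le
      sl := fun s β => (hslb s β).trans (by linarith [hom0 s])
      rw := fun s β => by linarith [hbw s β, hom0 s]
      rw0 := by norm_num
      A1 := by norm_num
      εθ0 := le_min zero_le_one (by positivity)
      εq0 := zero_le_one
      ε'0 := le_min zero_le_one (by positivity)
      e₁0 := by positivity
      lam0 := hLk
      lam := fun x hx => by
        filter_upwards [self_mem_nhdsWithin] with y hy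
        exact GN.lip k hkD x hx y hy
      θ := fun s hs β => by
        obtain ⟨h1, -⟩ := hmo s _ (Or.inl rfl)
        have h2 := GN.dP s.1 s.2 _ (Or.inl rfl)
        refine le_min (hone s ?_) (htwo s ?_ hs)
        · rw [hcd]
          linarith [hd0 s.1, hm0 s.1, (D.G C).om_pos (K.sm s.1)]
        · rw [hcd]
          linarith [hd0 s.1]
      θq := fun s hs β => by
        obtain ⟨h1, h2⟩ := hmo s _ (Or.inl rfl)
        have h3 := GN.dP s.1 s.2 _ (Or.inl rfl)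
        have h4 : (Y₃.F β).D s = Y₂.muP s.1 + Y₂.J s.1 := rfl
        refine hone s ?_
        rw [hcd, h4]
        linarith [hd0 s.1, hm0 s.1, (D.G C).om_pos (K.sm s.1)]
      slA := fun s hs β => by
        by_contra hcon
        push Not at hcon
        have h1 := hslb s β
        have h2 := hbw s β
        have h3 := hom0 s
        nlinarith
      ε := fun s ⟨x, hx, hs⟩ β => by
        have h0 : ∃ x ∈ M.F k, X.h1.toFun x ∈ PK (D.G C) s.1 := ⟨x, hx, h4_PK Y₃ hWF hx hs⟩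
        refine le_min (hone s ((hFe s β).trans (GN.dP s.1 s.2 _ (Or.inl rfl))))
          (htwo s ((hFe s β).trans ?_) h0)
        linarith [hm0 s.1]
      tol := fun s hs => by
        have h1 := GN.ε s k hs
        linarith }

/-- **`hg`: the last map on the drawn faces which are not peeled** -/
theorem S5.latC_giv (Y₅ : S5 Y₄) {Lam τ : M.κ → ℝ} {η : pG C J₀ → ℝ} (GN : GivNum Y₄ Lam τ η)
    (hfat : ∀ b : pB C J₀, 2048 * ω3T δ C b.1 ≤ X.fat b)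
    (hTB : ∀ b : pG C J₀, TBand Y₃.Lt (Fsg Y₄) Y₄.ς b.1 (X.sl ⟨.inl b.1, inl_mem_pB.2 b.2⟩)
      (winE Y₂.R Y₂.Q b.1) (6 * η b) (Y₅.Th b))
    (hμ : ∀ b, 0 ≤ Y₅.μ b) (hμ2 : ∀ b, Y₅.μ b ≤ n / 256)
    (hκ : ∀ b : pG C J₀, Y₅.μ b * (ebe (D.W C) b.1 - eal (D.W C) b.1) ≤
      n / 256 * ((D.G C).uT b.1 / 4))
    (hε6 : ∀ (b : pG C J₀) k, (Y₄.f5.toFun '' M.F k ∩
      YB ((YS (D.G C)).add (rT (D.G C)) (rT_pos (D.G C))
      (fun e k => (YS_p_lt (D.G C) e k).le)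
      fun e k => (YS_q_lt (D.G C) e k).le) b.1).Nonempty → 16 * Y₅.ε b ≤ τ k) :
    ∀ k ∈ (D.dat C).DF, k ∉ (D.dat C).Peel (D.G C) X.h1 → ∀ x ∈ M.F k,
      LAtC (D.B C) (Xp C J₀) (fun y => 100 * wcst D C X.h1.toFun k x y + τ k * ‖y - x‖) (M.F k)
        Y₅.f.toFun x := by
  intro k hkD hnp x hx
  have hn0 := D.pos
  have hn1 := D.lt
  have hτk := GN.τ0 k
  have hLk := GN.lam0 k
  obtain ⟨⟨i, hi, hk⟩, hP⟩ := hkD
  have hden : 0 < 2000 * (Lam k + 1) := by positivity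
  set e := min 1 (τ k / (2000 * (Lam k + 1))) with he
  have he0 : 0 ≤ e := le_min zero_le_one (by positivity)
  have he1 : e ≤ 1 := min_le_left _ _
  have he2 : e * (2000 * (Lam k + 1)) ≤ τ k := by
    rw [← le_div_iff₀ hden]
    exact min_le_right _ _
  have hN := GN.numW ⟨⟨i, hi, hk⟩, hP⟩ hnp
  rw [← he] at hN
  have hcd : ∀ s β, Y₂.L.c s β = Y₂.dP s / 8 := fun s β => rfl
  have hd0 : ∀ s, 0 < Y₂.dP s := Y₂.Lw.δ0
  refine Y₅.latC_num hfat hN hTB GN.η0 (fun b => by linarith [GN.η0 b])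
    (fun b s hs β => ?_) (fun b s hs => (GN.ηm b s.1 hs).1) (fun b s hs β => ?_) hμ hμ2
    (κ := n / 256) (ε₆ := τ k / 16) (by positivity) hκ (by positivity) hi hk hP hnp hx
    (fun b hb => ?_) (Q := 120 * e) (a₁ := 30) (e' := τ k / 8) ?_ (by norm_num) (by norm_num)
    (by linarith) ?_ (by linarith) (by linarith) (by nlinarith)
  · rw [hcd]
    linarith [(GN.ηm b s.1 hs).2, hd0 s.1]
  · refine le_trans ?_ (GN.ηm b s.1 hs).2
    rw [Fσe Y₄ s β]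
    have h1 := Y₂.Lw.om_le_two s.1 β
    have h2 := mul_pos (Y₄.p0 s) (bw_pos' (_root_.P073.H919.PSt.of_PS3 Y₃.ps) β s)
    have h3 : stp (Y₃.Lt.N s.1 β) (K.slo s.1 (tg s.1 β) + (D.G C).a s.1)
      (K.shi s.1 (tg s.1 β) - (D.G C).a s.1) = Y₂.L.om s.1 β := rfl
    change 0 < Y₄.q s * Y₄.r s * bw (Y₃.Lt.N s.1 β)
      (K.slo s.1 (tg s.1 β) + (D.G C).a s.1) (K.shi s.1 (tg s.1 β) - (D.G C).a s.1)
      ((Y₃.F β).e s) at h2
    rw [h3]
    have h4 : Y₂.L.om s.1 β ≤ 2 * Y₂.dP s.1 := h1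
    linarith
  · have h8 := hε6 b k ⟨_, mem_image_of_mem _ hx, by
      rwa [← tX_K (hp := fun e k => (YS_p_lt (D.G C) e k).le)
        (hq := fun e k => (YS_q_lt (D.G C) e k).le) (h0 := Y₅.ς0 b) (h1 := Y₅.ς1 b)]⟩
    linarith
  · nlinarith
  · nlinarith

end Vale.Agent.P073.H267.K3
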