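import Vale.Agent.P073.H142.Face3W
import Vale.Agent.P073.H142.FaceT

/-!
# P073, block H142 ([FACE3], [REL]), part 5: passive sets near the side walls of the plates

`hkGO_dich`: the levels on a passive set near the boxes of the hook of the plates (gluing at the
walls).  `hkGO_rel`: if the set is in the collar (off the bands of the other side), the coordinate
`j` of `f5 = S_σ ∘ h5` is controlled by the coordinate `j` of `h4`.
-/

open Set Metric Topology Filter MeasureTheory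
open scoped ENNReal

set_option linter.unusedSectionVars false

namespace P073.H142

open P073 P073.H936 P073.H936.K3 P073.H880 P073.H880.RP P073.H345 P073.H236 P073.H579 P073.H950
  P073.H919 P073.H228
open Vale.Agent.P073.St (V)
open Vale.Agent.P073.AB (Idx squ)
open Vale.Agent.P073.H73 (Mesh)
open Vale.Agent.P073.H471 Vale.Agent.P073.H267
open P073.Net P073.PA691
open Vale.Agent.P073.H233 (PSet LAt)

variable {Ω Λ : Set V} {v : V} {K : BoxCx Λ v} {S : Rad K} {W : Wid K S} {B : Boxes W}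
  {G : Geo B} {L : PLev G} {S₀ : Set K.S} {F : Bool → BFam 3 S₀ Λ}
  {T : Bool → ConHomeo Λ Λ} {M : Mesh Ω} {κ₀ κ₁ : V → V} {c d : ℝ} {Zb : S₀ → Set M.ι}
  {h2 h3 h4 : ConHomeo Ω Λ} {u : V}

theorem HB_sub_PK (H : HkG M L (Subtype.val : S₀ → K.S) F T κ₀ κ₁ c d Zb h2 h3 h4 u) (s : S₀) :
    HB G c d s.1 ⊆ PK G s.1 := (HB_PB H.hc H.hd s.1).trans (PB_sub_PK (by norm_num) s.1)

section

variable {H : HkG M L (Subtype.val : S₀ → K.S) F T κ₀ κ₁ c d Zb h2 h3 h4 u} {hΩ : IsOpen Ω}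
  {r : S₀ → ℝ} {h5 : ConHomeo Ω Λ} (O : HkGO H hΩ r h5) {s : S₀}

include O

/-- **the levels on a passive set**, with the gluing at the walls -/
theorem hkGO_dich (r0 : 0 < r s) (r1 : r s < 1) {A : Set V} (hA : A ⊆ Ω)
    (hpas : ∀ i ∈ Zb s, Disjoint A (interior (M.Q i))) {x : V} (hx : x ∈ A)
    (hss : h4.toFun x ∈ W.ss s.1) : ∀ᶠ x' in 𝓝[A] x,
      (h4.toFun x ∈ HB G c d s.1 ∧ h4.toFun x' ∈ HB G c d s.1 ∧
        dsum (wlev (ι := PI L s.1) Sigma.fst (tg s.1) (r s) (pcen L s.1)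
          (pwid L (fun β => (F β).e s) s.1) h5.toFun) x x' ≤
        dsum (wlev (ι := PI L s.1) Sigma.fst (tg s.1) 1 (pcen L s.1)
          (pwid L (fun β => (F β).e s) s.1) h4.toFun) x x') ∨
      (h5.toFun x = h4.toFun x ∧ h5.toFun x' = h4.toFun x') := by
  have hc : ContinuousWithinAt h4.toFun A x := (h4.cont.mono hA) x hx
  have e1 : ∀ᶠ x' in 𝓝[A] x, h4.toFun x' ∈ W.ss s.1 :=
    hc.eventually ((RP.isOpen_ss s.1).mem_nhds hss)
  have hoff : ∀ y ∈ A, h4.toFun y ∈ W.ss s.1 → h4.toFun y ∉ interior (HB G c d s.1) →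
      h5.toFun y = h4.toFun y := by
    intro y hy h1 h2
    refine O.off (hA hy) fun s' h3 => ?_
    by_cases hs : s' = s
    · subst hs; exact h2 h3
    · exact Set.disjoint_left.1 (disjoint_ss (W := W) (s := s'.1) (s' := s.1)
        fun e => hs (Subtype.ext e)) (PK_sub_ss s'.1 (HB_sub_PK H s' (interior_subset h3))) h1
  have hmemU : ∀ y ∈ A, y ∈ (phook M L (Subtype.val : S₀ → K.S) F c d Zb s).U h4 ↔
      h4.toFun y ∈ HB G c d s.1 := fun y hy => H.mem_U s (hA hy)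
  have hcl : IsClosed (HB G c d s.1) := isClosed_Icc
  by_cases h1 : h4.toFun x ∈ HB G c d s.1
  · have h6 := (O.loc s r0 r1).rest ((hmemU x hx).2 h1)
    have h7 : ∀ᶠ x' in 𝓝[A] x, h4.toFun x' ∈ HB G c d s.1 →
        dsum (wlev (ι := PI L s.1) Sigma.fst (tg s.1) (r s) (pcen L s.1)
          (pwid L (fun β => (F β).e s) s.1) h5.toFun) x x' ≤
        dsum (wlev (ι := PI L s.1) Sigma.fst (tg s.1) 1 (pcen L s.1)
          (pwid L (fun β => (F β).e s) s.1) h4.toFun) x x' := by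
      have h8 := eventually_nhdsWithin_iff.1 h6
      filter_upwards [nhdsWithin_le_nhds h8, self_mem_nhdsWithin] with x' h9 h10 h11
      refine h9 ((hmemU x' h10).2 h11) fun q hq => ?_
      have e : ((H.hookIn s).boxK hΩ).K.C q = M.Q q.1 := H.hookIn_C s q
      rw [e] at hq
      exact Set.disjoint_left.1 (hpas q.1 q.2) h10 hq
    by_cases hint : h4.toFun x ∈ interior (HB G c d s.1)
    · filter_upwards [h7, hc.eventually (isOpen_interior.mem_nhds hint)] with x' h8 h9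
      exact Or.inl ⟨h1, interior_subset h9, h8 (interior_subset h9)⟩
    · filter_upwards [h7, e1, self_mem_nhdsWithin] with x' h8 h9 hx'
      by_cases h10 : h4.toFun x' ∈ HB G c d s.1
      · exact Or.inl ⟨h1, h10, h8 h10⟩
      · exact Or.inr ⟨hoff x hx hss hint, hoff x' hx' h9 fun h11 => h10 (interior_subset h11)⟩
  · filter_upwards [e1, hc.eventually (hcl.isOpen_compl.mem_nhds h1), self_mem_nhdsWithin]
      with x' h8 h9 hx'
    exact Or.inr ⟨hoff x hx hss fun h => h1 (interior_subset h),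
      hoff x' hx' h8 fun h => h9 (interior_subset h)⟩

end

/-- the sum of the levels of disjoint bands of the same width -/
theorem sum_clp_le {ι : Type*} [Fintype ι] {al be w : ℝ} {c : ι → ℝ} (hw : 0 < w)
    (hB : H429.BS al be (fun i => c i - w) (fun i => c i + w)) (s t : ℝ) :
    w * ∑ i, |H880.clp 1 ((t - c i) / w) - H880.clp 1 ((s - c i) / w)| ≤ |t - s| := by
  have key : ∀ s t, s ≤ t → w * ∑ i, |H880.clp 1 ((t - c i) / w) - H880.clp 1 ((s - c i) / w)| ≤
      t - s := by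
    intro s t hst
    have e : w * ∑ i, |H880.clp 1 ((t - c i) / w) - H880.clp 1 ((s - c i) / w)| =
        H429.bt (fun i => c i - w) (fun i => c i + w) t -
          H429.bt (fun i => c i - w) (fun i => c i + w) s := by
      unfold H429.bt
      rw [← Finset.sum_sub_distrib, Finset.mul_sum]
      refine Finset.sum_congr rfl fun i _ => ?_
      rw [← abs_of_nonneg (sub_nonneg.2 (clam_mono (c i - w) (c i + w) hst)), clam_eq_clp hw,
        clam_eq_clp hw]
      have e2 : w * H880.clp 1 ((t - c i) / w) + w - (w * H880.clp 1 ((s - c i) / w) + w) =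
          w * (H880.clp 1 ((t - c i) / w) - H880.clp 1 ((s - c i) / w)) := by ring
      rw [e2, abs_mul, abs_of_pos hw]
    rw [e]
    exact (hB.bt_sub_le hst).trans (H429.clam_sub_le hst)
  rcases le_total s t with h | h
  · rw [abs_of_nonneg (sub_nonneg.2 h)]
    exact key s t h
  · rw [abs_sub_comm, abs_of_nonneg (sub_nonneg.2 h)]
    refine le_trans (le_of_eq ?_) (key t s h)
    congr 1
    exact Finset.sum_congr rfl fun i _ => abs_sub_comm _ _

/-- the bands of one side of a plate -/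
theorem bs_plate (L : PLev G) {e : Bool → ℝ} (s : K.S) (he : ∀ β, 0 < e β)
    (heo : ∀ β, 2 * e β < stp (L.N s β) (K.slo s (tg s β) + G.a s) (K.shi s (tg s β) - G.a s))
    (X : Bool) : H429.BS (hlo G 1 1 s (tg s X)) (hhi G 1 1 s (tg s X))
      (fun k : Fin (L.N s X) => pcen L s ⟨X, k⟩ - bw (L.N s X) (K.slo s (tg s X) + G.a s)
        (K.shi s (tg s X) - G.a s) (e X))
      (fun k : Fin (L.N s X) => pcen L s ⟨X, k⟩ + bw (L.N s X) (K.slo s (tg s X) + G.a s)
        (K.shi s (tg s X) - G.a s) (e X)) := by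
  have HB := bands_plate L s he heo (c := 1) (d := 1) (by norm_num) one_pos
  refine ⟨⟨⟨0, (L.lvs s X).pos⟩⟩, fun k => ?_, fun k => (HB.ok ⟨X, k⟩).lo,
    fun k => (HB.ok ⟨X, k⟩).hi, fun i j hij => ?_⟩
  · have h1 := (HB.ok ⟨X, k⟩).pos
    change 0 < bw (L.N s X) (K.slo s (tg s X) + G.a s) (K.shi s (tg s X) - G.a s) (e X) at h1
    linarith
  · have h1 := HB.disj ⟨X, i⟩ ⟨X, j⟩ (fun h => hij (by
      have := (Sigma.mk.inj_iff.1 h).2
      exact eq_of_heq this)) rfl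
    change bw (L.N s X) (K.slo s (tg s X) + G.a s) (K.shi s (tg s X) - G.a s) (e X) +
      bw (L.N s X) (K.slo s (tg s X) + G.a s) (K.shi s (tg s X) - G.a s) (e X) <
      |pcen L s ⟨X, i⟩ - pcen L s ⟨X, j⟩| at h1
    rcases abs_cases (pcen L s ⟨X, i⟩ - pcen L s ⟨X, j⟩) with ⟨h2, -⟩ | ⟨h2, -⟩
    · right; linarith
    · left; linarith

/-- **the second staircases, one side** -/
theorem sg3_lip1 {ς : Bool → S₀ → ℝ} {F : Bool → BFam 3 S₀ Λ} {T : Bool → ConHomeo Λ Λ}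
    (P : Sg3 L S₀ F ς T) {s : S₀} {g : V → V} {x x' : V} (hx : g x ∈ G.PB (7 / 8) s.1)
    (hx' : g x' ∈ G.PB (7 / 8) s.1) {e : Bool → ℝ} {r : ℝ} (hr : 0 ≤ r) (β : Bool)
    (hw : 0 < bw (L.N s.1 β) (K.slo s.1 (tg s.1 β) + G.a s.1)
      (K.shi s.1 (tg s.1 β) - G.a s.1) (e β))
    (he : (F β).e s = stp (L.N s.1 β) (K.slo s.1 (tg s.1 β) + G.a s.1)
      (K.shi s.1 (tg s.1 β) - G.a s.1) / 2 - r * bw (L.N s.1 β)
        (K.slo s.1 (tg s.1 β) + G.a s.1) (K.shi s.1 (tg s.1 β) - G.a s.1) (e β))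
    (hwj : g x (tg s.1 β) ∈ pwin G s.1 (tg s.1 β))
    (hwj' : g x' (tg s.1 β) ∈ pwin G s.1 (tg s.1 β)) :
    |PS.map T (g x') (tg s.1 β) - PS.map T (g x) (tg s.1 β)| ≤
      slAK (F β) (ς β) s * (bw (L.N s.1 β) (K.slo s.1 (tg s.1 β) + G.a s.1)
        (K.shi s.1 (tg s.1 β) - G.a s.1) (e β) * ∑ k : Fin (L.N s.1 β),
        |wlev (ι := PI L s.1) Sigma.fst (tg s.1) r (pcen L s.1) (pwid L e s.1) g ⟨β, k⟩ x' -
          wlev (ι := PI L s.1) Sigma.fst (tg s.1) r (pcen L s.1) (pwid L e s.1) g ⟨β, k⟩ x|) +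
        ς β s * |g x' (tg s.1 β) - g x (tg s.1 β)| := by
  classical
  rw [P.apply hx, P.apply hx']
  have hbx := P.B β s
  have hN : ((F β).B s).N = L.N s.1 β := hbx.N
  have hal : ((F β).B s).al = K.slo s.1 (tg s.1 β) + G.a s.1 := hbx.al
  have hbe : ((F β).B s).be = K.shi s.1 (tg s.1 β) - G.a s.1 := hbx.be
  have e2 : pwin G s.1 (tg s.1 β) = Icc ((F β).B s).al ((F β).B s).be := by
    rw [hal, hbe]; rfl
  rw [e2] at hwj hwj'
  have h1 := ((P.isS β).ok s).abs_sub_le hwj' hwj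
  refine h1.trans (add_le_add ?_ le_rfl)
  set st := stp (L.N s.1 β) (K.slo s.1 (tg s.1 β) + G.a s.1) (K.shi s.1 (tg s.1 β) - G.a s.1)
    with hst
  set w := bw (L.N s.1 β) (K.slo s.1 (tg s.1 β) + G.a s.1) (K.shi s.1 (tg s.1 β) - G.a s.1) (e β)
    with hwdef
  have hsl : 0 ≤ slAK (F β) (ς β) s := by
    have := one_le_slA ((F β).he s) ((F β).heo s) ((P.isS β).s1 s)
    unfold slAK
    linarith
  refine mul_le_mul_of_nonneg_left (le_of_eq ?_) hsl
  rw [hN, ← Fin.sum_univ_eq_sum_range (fun k =>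
    |clam (bl (L.N s.1 β) ((F β).B s).al ((F β).B s).be ((F β).e s) k)
      (bh (L.N s.1 β) ((F β).B s).al ((F β).B s).be ((F β).e s) k) (g x' (tg s.1 β)) -
    clam (bl (L.N s.1 β) ((F β).B s).al ((F β).B s).be ((F β).e s) k)
      (bh (L.N s.1 β) ((F β).B s).al ((F β).B s).be ((F β).e s) k) (g x (tg s.1 β))|),
    Finset.mul_sum]
  refine Finset.sum_congr rfl fun k _ => ?_
  have e3 : bl (L.N s.1 β) ((F β).B s).al ((F β).B s).be ((F β).e s) k =
      pcen L s.1 ⟨β, k⟩ - r * w := by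
    rw [hal, hbe, he]
    show _ + _ * _ + (_ - _) = (_ + (_ + 1 / 2) * _) - _
    rw [← hst]
    ring
  have e4 : bh (L.N s.1 β) ((F β).B s).al ((F β).B s).be ((F β).e s) k =
      pcen L s.1 ⟨β, k⟩ + r * w := by
    rw [hal, hbe, he]
    show _ + (_ + 1) * _ - (_ - _) = (_ + (_ + 1 / 2) * _) + _
    rw [← hst]
    ring
  rw [e3, e4, clam_band hw hr, abs_mul, abs_of_pos hw]
  rfl

/-- a clipped level is locally constant off its band -/
theorem clp_const {c w t : ℝ} (hw : 0 < w) (h : w < |t - c|) :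
    ∀ᶠ t' in 𝓝 t, H880.clp 1 ((t' - c) / w) = H880.clp 1 ((t - c) / w) := by
  rcases abs_cases (t - c) with ⟨h1, -⟩ | ⟨h1, -⟩
  · rw [h1] at h
    filter_upwards [lt_mem_nhds (show c + w < t by linarith)] with t' ht'
    have e : ∀ t, c + w < t → H880.clp 1 ((t - c) / w) = 1 := by
      intro t ht
      have h2 : 1 ≤ (t - c) / w := by rw [le_div_iff₀ hw]; linarith
      unfold H880.clp
      rw [min_eq_right h2]
      norm_num
    rw [e t' ht', e t (by linarith)]
  · rw [h1] at h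
    filter_upwards [gt_mem_nhds (show t < c - w by linarith)] with t' ht'
    have e : ∀ t, t < c - w → H880.clp 1 ((t - c) / w) = -1 := by
      intro t ht
      have h2 : (t - c) / w ≤ -1 := by rw [div_le_iff₀ hw]; linarith
      unfold H880.clp
      rw [min_eq_left (by linarith), max_eq_left h2]
    rw [e t' ht', e t (by linarith)]

section

variable {H : HkG M L (Subtype.val : S₀ → K.S) F T κ₀ κ₁ c d Zb h2 h3 h4 u} {hΩ : IsOpen Ω}
  {r : S₀ → ℝ} {h5 : ConHomeo Ω Λ} (O : HkGO H hΩ r h5)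

include O

/-- near a point off the boxes nothing changes -/
theorem hkGO_eventually_off {A : Set V} (hA : A ⊆ Ω) {x : V} (hx : x ∈ A)
    (hoff : ∀ s : S₀, h4.toFun x ∉ HB G c d s.1) :
    ∀ᶠ x' in 𝓝[A] x, h5.toFun x' = h4.toFun x' := by
  have hc : ContinuousWithinAt h4.toFun A x := (h4.cont.mono hA) x hx
  obtain ⟨U, hU, hfin⟩ := H.fin (h4.toFun x) (h4.mapsTo (hA hx))
  have h1 : (⋂ b ∈ {b : S₀ | ((phook M L (Subtype.val : S₀ → K.S) F c d Zb b).P ∩ U).Nonempty},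
      (HB G c d b.1)ᶜ) ∩ U ∈ 𝓝 (h4.toFun x) := by
    refine inter_mem ?_ hU
    rw [biInter_mem hfin]
    have hcl : ∀ b : S₀, IsClosed (HB G c d b.1) := fun b => isClosed_Icc
    exact fun b _ => (hcl b).isOpen_compl.mem_nhds (hoff b)
  filter_upwards [hc.eventually h1, self_mem_nhdsWithin] with x' h2 hx'
  refine O.off (hA hx') fun b hb => ?_
  have h3 : b ∈ {b : S₀ | ((phook M L (Subtype.val : S₀ → K.S) F c d Zb b).P ∩ U).Nonempty} :=
    ⟨_, interior_subset hb, h2.2⟩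
  exact mem_iInter₂.1 h2.1 b h3 (interior_subset hb)

/-- **[REL]** on a passive set: off the boxes of the hook, or in the collar of a box, the
coordinate `j` of `f5` is controlled by the coordinate `j` of `h4` -/
theorem hkGO_rel (hΛ : IsOpen Λ) {Fσ : Bool → BFam 3 S₀ Λ} {ς : Bool → S₀ → ℝ}
    {Tσ : Bool → ConHomeo Λ Λ} (P : Sg3 L S₀ Fσ ς Tσ) {A : Set V} (hA : A ⊆ Ω)
    (hpas : ∀ s : S₀, ∀ i ∈ Zb s, Disjoint A (interior (M.Q i))) {x : V} (hx : x ∈ A)
    {j : Fin 3} {A' ε' ςm : ℝ} (hA' : 1 ≤ A') (hε0 : 0 ≤ ε') (hςm : 0 ≤ ςm)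
    (hsl : ∀ s : S₀, h4.toFun x ∈ PK G s.1 → ∀ β, slAK (Fσ β) (ς β) s ≤ A')
    (hε : ∀ s : S₀, h4.toFun x ∈ PK G s.1 → ∀ β, (Fσ β).e s * (4 / B.τ s.1) ≤ ε')
    (hς : ∀ s : S₀, h4.toFun x ∈ HB G c d s.1 → ∀ β, ς β s ≤ ςm)
    {r' : S₀ → ℝ} (r0' : ∀ s, 0 < r' s) (rr : ∀ s, r' s ≤ r s) (r1 : ∀ s, r s < 1)
    (he : ∀ s : S₀, ∀ β, (Fσ β).e s = stp (L.N s.1 β) (K.slo s.1 (tg s.1 β) + G.a s.1)
      (K.shi s.1 (tg s.1 β) - G.a s.1) / 2 - r' s * bw (L.N s.1 β)
        (K.slo s.1 (tg s.1 β) + G.a s.1) (K.shi s.1 (tg s.1 β) - G.a s.1) ((F β).e s))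
    (he0 : ∀ s : S₀, ∀ β, 0 < (F β).e s)
    (heo : ∀ s : S₀, ∀ β, 2 * (F β).e s < stp (L.N s.1 β) (K.slo s.1 (tg s.1 β) + G.a s.1)
      (K.shi s.1 (tg s.1 β) - G.a s.1))
    (hcol : ∀ s : S₀, h4.toFun x ∈ HB G c d s.1 → ∃ β, j = tg s.1 β ∧
      PS.map Tσ (h5.toFun x) j ∈ Ioo (K.slo s.1 j + G.a s.1) (K.shi s.1 j - G.a s.1) ∧
      ∀ k : Fin (L.N s.1 (!β)), pwid L (fun β => (F β).e s) s.1 ⟨!β, k⟩ <
        |h4.toFun x (tg s.1 (!β)) - pcen L s.1 ⟨!β, k⟩|) :
    ∀ᶠ x' in 𝓝[A] x, |PS.map Tσ (h5.toFun x') j - PS.map Tσ (h5.toFun x) j| ≤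
      A' * A' * |h4.toFun x' j - h4.toFun x j| + ςm * |h5.toFun x' j - h5.toFun x j| +
        (A' * ε' + ε' * (A' + ε')) * ‖h4.toFun x' - h4.toFun x‖ := by
  have hc4 : ContinuousWithinAt h4.toFun A x := (h4.cont.mono hA) x hx
  have hc5 : ContinuousWithinAt h5.toFun A x := (h5.cont.mono hA) x hx
  have hq0 : 0 ≤ A' * ε' + ε' * (A' + ε') := by positivity
  -- `f5 = S_σ ∘ h4`
  have hsame : ∀ᶠ x' in 𝓝[A] x, h5.toFun x = h4.toFun x → h5.toFun x' = h4.toFun x' →
      |PS.map Tσ (h5.toFun x') j - PS.map Tσ (h5.toFun x) j| ≤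
      A' * A' * |h4.toFun x' j - h4.toFun x j| + ςm * |h5.toFun x' j - h5.toFun x j| +
        (A' * ε' + ε' * (A' + ε')) * ‖h4.toFun x' - h4.toFun x‖ := by
    filter_upwards [hc4.eventually (sg3_locJ P hΛ hA' hε0 (h4.mapsTo (hA hx)) hsl hε)]
      with x' h1 e1 e2
    rw [e1, e2]
    have h2 := h1 j
    have h3 : 0 ≤ ςm * |h4.toFun x' j - h4.toFun x j| := mul_nonneg hςm (abs_nonneg _)
    linarith
  by_cases hb : ∃ s : S₀, h4.toFun x ∈ HB G c d s.1
  · obtain ⟨s, hs⟩ := hb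
    obtain ⟨β, hjβ, hwin, hclear⟩ := hcol s hs
    subst hjβ
    have hPK := HB_sub_PK H s hs
    have r0 : 0 < r s := (r0' s).trans_le (rr s)
    have hd := hkGO_dich O r0 (r1 s) hA (hpas s) hx (PK_sub_ss s.1 hPK)
    -- the levels of the other side are constant
    have hconst : ∀ᶠ x' in 𝓝[A] x, ∀ k : Fin (L.N s.1 (!β)),
        wlev (ι := PI L s.1) Sigma.fst (tg s.1) 1 (pcen L s.1)
          (pwid L (fun β => (F β).e s) s.1) h4.toFun ⟨!β, k⟩ x' =
        wlev (ι := PI L s.1) Sigma.fst (tg s.1) 1 (pcen L s.1)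
          (pwid L (fun β => (F β).e s) s.1) h4.toFun ⟨!β, k⟩ x := by
      rw [eventually_all]
      intro k
      have hw : 0 < pwid L (fun β => (F β).e s) s.1 ⟨!β, k⟩ := by
        have := heo s (!β)
        show 0 < stp _ _ _ / 2 - _
        linarith
      have h5 : Tendsto (fun x' => h4.toFun x' (tg s.1 (!β))) (𝓝[A] x)
          (𝓝 (h4.toFun x (tg s.1 (!β)))) := ((continuous_apply _).tendsto _).comp hc4
      filter_upwards [h5.eventually (clp_const hw (hclear k))] with x' h6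
      exact h6
    have hcS : ContinuousWithinAt (fun y => PS.map Tσ (h5.toFun y)) A x := by
      have h1 : ContinuousOn (fun y => (Tσ false).toFun (h5.toFun y)) Ω :=
        (Tσ false).cont.comp h5.cont fun y hy => h5.mapsTo hy
      have h2 : ContinuousOn (fun y => (Tσ true).toFun ((Tσ false).toFun (h5.toFun y))) Ω :=
        (Tσ true).cont.comp h1 fun y hy => (Tσ false).mapsTo (h5.mapsTo hy)
      exact (h2.mono hA) x hx
    have hwin' : ∀ᶠ x' in 𝓝[A] x, PS.map Tσ (h5.toFun x') (tg s.1 β) ∈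
        Ioo (K.slo s.1 (tg s.1 β) + G.a s.1) (K.shi s.1 (tg s.1 β) - G.a s.1) := by
      have h1 : Tendsto (fun y => PS.map Tσ (h5.toFun y) (tg s.1 β)) (𝓝[A] x)
        (𝓝 (PS.map Tσ (h5.toFun x) (tg s.1 β))) :=
        ((continuous_apply _).tendsto _).comp hcS
      exact h1.eventually (Ioo_mem_nhds hwin.1 hwin.2)
    filter_upwards [hsame, hd, hconst, hwin', self_mem_nhdsWithin] with x' h1 h2 h3 h4' hx'
    rcases h2 with ⟨ha, hb, hle⟩ | ⟨ha, hb⟩
    · have hp := HB_PB H.hc H.hd s.1 ((O.mem s (hA hx)).2 ha)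
      have hp' := HB_PB H.hc H.hd s.1 ((O.mem s (hA hx')).2 hb)
      have hw0 : ∀ β, 0 < bw (L.N s.1 β) (K.slo s.1 (tg s.1 β) + G.a s.1)
          (K.shi s.1 (tg s.1 β) - G.a s.1) ((F β).e s) := by
        intro β
        have := heo s β
        unfold bw
        linarith
      have hm := (P.mem_win hp (tg_ne s.1 β)).1 ⟨hwin.1.le, hwin.2.le⟩
      have hm' := (P.mem_win hp' (tg_ne s.1 β)).1 ⟨h4'.1.le, h4'.2.le⟩
      have h6 := sg3_lip1 P (g := h5.toFun) hp hp' (r0' s).le (e := fun β => (F β).e s) β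
        (hw0 β) (he s β) hm hm'
      set w := bw (L.N s.1 β) (K.slo s.1 (tg s.1 β) + G.a s.1)
          (K.shi s.1 (tg s.1 β) - G.a s.1) ((F β).e s) with hwdef
      -- the sum over one side
      have h7 : ∑ k : Fin (L.N s.1 β), |wlev (ι := PI L s.1) Sigma.fst (tg s.1) (r' s)
          (pcen L s.1) (pwid L (fun β => (F β).e s) s.1) h5.toFun ⟨β, k⟩ x' -
            wlev (ι := PI L s.1) Sigma.fst (tg s.1) (r' s)
          (pcen L s.1) (pwid L (fun β => (F β).e s) s.1) h5.toFun ⟨β, k⟩ x| ≤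
          dsum (wlev (ι := PI L s.1) Sigma.fst (tg s.1) (r' s) (pcen L s.1)
            (pwid L (fun β => (F β).e s) s.1) h5.toFun) x x' := by
        unfold dsum
        rw [Fintype.sum_sigma]
        exact Finset.single_le_sum (f := fun β' : Bool => ∑ k : Fin (L.N s.1 β'),
          |wlev (ι := PI L s.1) Sigma.fst (tg s.1) (r' s) (pcen L s.1)
            (pwid L (fun β => (F β).e s) s.1) h5.toFun ⟨β', k⟩ x' -
          wlev (ι := PI L s.1) Sigma.fst (tg s.1) (r' s) (pcen L s.1)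
            (pwid L (fun β => (F β).e s) s.1) h5.toFun ⟨β', k⟩ x|)
          (fun _ _ => Finset.sum_nonneg fun _ _ => abs_nonneg _) (Finset.mem_univ β)
      have h8 : w * dsum (wlev (ι := PI L s.1) Sigma.fst (tg s.1) 1 (pcen L s.1)
            (pwid L (fun β => (F β).e s) s.1) h4.toFun) x x' ≤
          |h4.toFun x' (tg s.1 β) - h4.toFun x (tg s.1 β)| := by
        have e1 : dsum (wlev (ι := PI L s.1) Sigma.fst (tg s.1) 1 (pcen L s.1)
            (pwid L (fun β => (F β).e s) s.1) h4.toFun) x x' =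
            ∑ k : Fin (L.N s.1 β), |H880.clp 1 ((h4.toFun x' (tg s.1 β) -
              pcen L s.1 ⟨β, k⟩) / w) - H880.clp 1 ((h4.toFun x (tg s.1 β) -
              pcen L s.1 ⟨β, k⟩) / w)| := by
          unfold dsum
          rw [Fintype.sum_sigma]
          have e2 : ∑ k : Fin (L.N s.1 (!β)), |wlev (ι := PI L s.1) Sigma.fst (tg s.1) 1
              (pcen L s.1) (pwid L (fun β => (F β).e s) s.1) h4.toFun ⟨!β, k⟩ x' -
              wlev (ι := PI L s.1) Sigma.fst (tg s.1) 1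
              (pcen L s.1) (pwid L (fun β => (F β).e s) s.1) h4.toFun ⟨!β, k⟩ x| = 0 :=
            Finset.sum_eq_zero fun k _ => by rw [h3 k, sub_self, abs_zero]
          cases β with
          | false =>
            rw [Fintype.sum_bool]
            refine (add_eq_right.2 e2).trans rfl
          | true =>
            rw [Fintype.sum_bool]
            refine (add_eq_left.2 e2).trans rfl
        rw [e1]
        exact sum_clp_le (hw0 β) (bs_plate L s.1 (e := fun β => (F β).e s) (he0 s) (heo s) β) _ _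
      have hle' := (dsum_wlev_le' (r0' s).le (rr s) r0 (side := (Sigma.fst : PI L s.1 → Bool))
        (ax := tg s.1) (c := pcen L s.1) (w := pwid L (fun β => (F β).e s) s.1) h5.toFun x
        x').trans hle
      have hsl' := hsl s hPK β
      have hsl0 : 0 ≤ slAK (Fσ β) (ς β) s := by
        have := one_le_slA ((Fσ β).he s) ((Fσ β).heo s) ((P.isS β).s1 s)
        unfold slAK
        linarith
      have hΔ := abs_nonneg (h4.toFun x' (tg s.1 β) - h4.toFun x (tg s.1 β))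
      have hΔ5 := abs_nonneg (h5.toFun x' (tg s.1 β) - h5.toFun x (tg s.1 β))
      have h9 : slAK (Fσ β) (ς β) s * (w * ∑ k : Fin (L.N s.1 β),
          |wlev (ι := PI L s.1) Sigma.fst (tg s.1) (r' s)
          (pcen L s.1) (pwid L (fun β => (F β).e s) s.1) h5.toFun ⟨β, k⟩ x' -
            wlev (ι := PI L s.1) Sigma.fst (tg s.1) (r' s)
          (pcen L s.1) (pwid L (fun β => (F β).e s) s.1) h5.toFun ⟨β, k⟩ x|) ≤
          A' * |h4.toFun x' (tg s.1 β) - h4.toFun x (tg s.1 β)| := by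
        refine mul_le_mul hsl' ?_ ?_ (by linarith)
        · exact (mul_le_mul_of_nonneg_left (h7.trans hle') (hw0 β).le).trans h8
        · exact mul_nonneg (hw0 β).le (Finset.sum_nonneg fun _ _ => abs_nonneg _)
      have h10 : ς β s * |h5.toFun x' (tg s.1 β) - h5.toFun x (tg s.1 β)| ≤
          ςm * |h5.toFun x' (tg s.1 β) - h5.toFun x (tg s.1 β)| :=
        mul_le_mul_of_nonneg_right (hς s hs β) hΔ5
      have h11 : 0 ≤ (A' * ε' + ε' * (A' + ε')) * ‖h4.toFun x' - h4.toFun x‖ := by positivity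
      have h12 : A' * |h4.toFun x' (tg s.1 β) - h4.toFun x (tg s.1 β)| ≤
          A' * A' * |h4.toFun x' (tg s.1 β) - h4.toFun x (tg s.1 β)| := by
        refine mul_le_mul_of_nonneg_right ?_ hΔ
        nlinarith
      linarith
    · exact h1 ha hb
  · push Not at hb
    have hoff := hkGO_eventually_off O hA hx hb
    have h0 : h5.toFun x = h4.toFun x := hoff.self_of_nhdsWithin hx
    filter_upwards [hsame, hoff] with x' h1 h2
    exact h1 h0 h2

end

end P073.H142
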