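import Vale.Agent.P073.H142.FaceTail
import Vale.Agent.P073.H73.K2S

/-!
# P073, block H142 (FACETAIL), part 2: the clauses `lip`, `energy`, `face` for adapted segments
-/

open Set Metric Topology Filter MeasureTheory
open scoped ENNReal

namespace P073.H142

open P073
open Vale.Agent.P073.St (V)
open Vale.Agent.P073.SQ (cube ev)
open Vale.Agent.P073.H73 (Mesh sqr faceL onSeg Adapted)
open Vale.Agent.P073.H193 (Edges Cyc)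
open Vale.Agent.P073.H155 (vv ce)
open Vale.Agent.P073.H304 (LipBd)
open P073.H155 (Star cn cm ab dp)
open P073.Net (len)

variable {Ω : Set V} {M : Mesh Ω} {E : Edges M} {k : M.κ}

/-- (ADAPT, sup form) -/
def AdC (E : Edges M) (k : M.κ) (h : V → V) (c : ℝ) : Prop :=
  ∀ (ε K : ℝ) (E' : Finset (V × V)) (ℓ : V × V → ℝ≥0∞), 0 ≤ ε → 0 ≤ K → Adapted M k E' →
    (∀ e ∈ E', len (onSeg h e) (Icc 0 1) ≤ ℓ e ∧
      ℓ e + ENNReal.ofReal ε ≤ ENNReal.ofReal (K * ‖e.2 - e.1‖)) →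
    ∀ e, E.seg e ⊆ M.F k → len (onSeg h (E.a e, E.b e)) (Icc 0 1) + ENNReal.ofReal ε ≤
      ENNReal.ofReal (c * K * ‖E.b e - E.a e‖)

/-- (ADAPT, energy form) -/
def AdD (E : Edges M) (k : M.κ) (h : V → V) (p c : ℝ) : Prop :=
  ∀ (t : ℝ) (E' : Finset (V × V)) (ℓ : V × V → ℝ≥0∞), 0 ≤ t → Adapted M k E' →
    (∀ e ∈ E', len (onSeg h e) (Icc 0 1) ≤ ℓ e) →
    ∑ e ∈ (E.fin_face k).toFinset, ENNReal.ofReal (‖E.b e - E.a e‖ ^ (1 - p)) *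
      (len (onSeg h (E.a e, E.b e)) (Icc 0 1) + ENNReal.ofReal (t * ‖E.b e - E.a e‖)) ^ p ≤
    ENNReal.ofReal c * ∑ e ∈ E', ENNReal.ofReal (‖e.2 - e.1‖ ^ (1 - p)) *
      (ℓ e + ENNReal.ofReal (t * ‖e.2 - e.1‖)) ^ p

theorem elen_pos (E : Edges M) (e : E.ε) : 0 < ‖E.b e - E.a e‖ :=
  norm_pos_iff.2 (sub_ne_zero.2 (E.ne e).symm)

theorem FStar.rho_pos (S : FStar E k) : 0 < S.rho := S.star.rho0

/-- the tiny numbers -/
theorem exists_tiny (E : Edges M) (k : M.κ) {ε : ℝ} (hε : 0 < ε) :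
    ∃ t > 0, t ≤ ε ∧ ∀ e, E.seg e ⊆ M.F k → ∀ (a : V) (l : Fin 3) (σ : ℝ), 0 < σ →
      M.F k = sqr a l σ → t ≤ ε / σ * ‖E.b e - E.a e‖ := by
  obtain ⟨S⟩ := exists_fstar E k
  have hr := S.rho_pos
  set T := (E.fin_face k).toFinset with hT
  have hne : T.Nonempty := by
    refine ⟨ce S.C 0, ?_⟩
    rw [hT, Finite.mem_toFinset]
    exact S.C.sub _
  obtain ⟨e₀, he₀, hmin⟩ := T.exists_min_image (fun e => ‖E.b e - E.a e‖) hne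
  have h0 := elen_pos E e₀
  refine ⟨min ε (ε / S.rho * ‖E.b e₀ - E.a e₀‖), lt_min hε (by positivity), min_le_left _ _,
    fun e he a l σ hσ hF => (min_le_right _ _).trans ?_⟩
  rw [(S.sq a l σ hσ hF).2.1]
  refine mul_le_mul_of_nonneg_left (hmin e ?_) (by positivity)
  rw [hT, Finite.mem_toFinset]; exact he

theorem nonempty_of_adapted {E' : Finset (V × V)} (hE' : Adapted M k E') : E'.Nonempty := by
  obtain ⟨C⟩ := Vale.Agent.P073.H193.exists_cyc (Vale.Agent.P073.H193.edges M) k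
  have h1 : (intrinsicFrontier ℝ (M.F k)).Nonempty := by
    rw [← Vale.Agent.P073.H155.cv_vv_image C]
    exact ⟨_, 0, ⟨le_rfl, by positivity⟩, rfl⟩
  obtain ⟨x, hx⟩ := h1
  obtain ⟨e, he, -⟩ := mem_iUnion₂.1 (hE'.cover hx)
  exact ⟨e, he⟩

/-- **(lip)** for adapted segments: field `lip` of `H73.Out`, `flip` of `H304.Out` -/
theorem FStar.Est.lip_adapted {S : FStar E k} {C₁ D₀ : ℝ} (hC₁ : 0 ≤ C₁) (hD₀ : 0 ≤ D₀)
    {b : E.ε → ℝ} {g h : V → V} (H : S.Est C₁ b g) {c t ε : ℝ} (hA : AdC E k h c) (hc : 0 ≤ c)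
    (hε : 0 < ε) (ht : t ≤ ε)
    (hb : ∀ e, E.seg e ⊆ M.F k → ENNReal.ofReal (b e) ≤ ENNReal.ofReal D₀ *
      (len (onSeg h (E.a e, E.b e)) (Icc 0 1) + ENNReal.ofReal t))
    {E' : Finset (V × V)} {ℓ : V × V → ℝ≥0∞} {K : ℝ} (hE' : Adapted M k E')
    (hℓ : ∀ e ∈ E', len (onSeg h e) (Icc 0 1) ≤ ℓ e ∧
      ℓ e + ENNReal.ofReal ε ≤ ENNReal.ofReal (K * ‖e.2 - e.1‖)) :
    ∀ x ∈ M.F k, ∀ y ∈ M.F k,
      ‖g x - g y‖ ≤ C₁ * (1 + 12 * M.c k ^ 2) * (D₀ * c) * K * ‖x - y‖ := by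
  obtain ⟨e₀, he₀⟩ := nonempty_of_adapted hE'
  have hK : 0 < K := by
    have h1 : 0 < ENNReal.ofReal (K * ‖e₀.2 - e₀.1‖) :=
      lt_of_lt_of_le (lt_of_lt_of_le (ENNReal.ofReal_pos.2 hε) le_add_self) (hℓ e₀ he₀).2
    have h2 := ENNReal.ofReal_pos.1 h1
    exact pos_of_mul_pos_left h2 (norm_nonneg _)
  have h3 : ∀ e, E.seg e ⊆ M.F k → b e ≤ D₀ * c * K * ‖E.b e - E.a e‖ := by
    intro e he
    have h4 := hA ε K E' ℓ hε.le hK.le hE' hℓ e he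
    have h5 : ENNReal.ofReal (b e) ≤ ENNReal.ofReal (D₀ * (c * K * ‖E.b e - E.a e‖)) := by
      rw [ENNReal.ofReal_mul hD₀]
      refine (hb e he).trans (mul_le_mul_right ?_ _)
      exact (add_le_add le_rfl (ENNReal.ofReal_le_ofReal ht)).trans h4
    have h6 : 0 ≤ D₀ * (c * K * ‖E.b e - E.a e‖) := by positivity
    calc b e ≤ D₀ * (c * K * ‖E.b e - E.a e‖) := (ENNReal.ofReal_le_ofReal_iff h6).1 h5
      _ = _ := by ring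
  have h7 := H.lip hC₁ (K := D₀ * c * K) (by positivity) h3
  intro x hx y hy
  refine (h7 x hx y hy).trans_eq ?_
  ring

/-- the weights -/
theorem ofReal_sum_le {D₀ p t : ℝ} (hp : 0 ≤ p) (hD₀ : 0 ≤ D₀) {b : E.ε → ℝ} {h : V → V}
    (hb0 : ∀ e, E.seg e ⊆ M.F k → 0 ≤ b e)
    (hb : ∀ e, E.seg e ⊆ M.F k → ENNReal.ofReal (b e) ≤ ENNReal.ofReal D₀ *
      (len (onSeg h (E.a e, E.b e)) (Icc 0 1) + ENNReal.ofReal (t * ‖E.b e - E.a e‖))) :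
    ENNReal.ofReal (∑ e ∈ (E.fin_face k).toFinset, ‖E.b e - E.a e‖ ^ (1 - p) * b e ^ p) ≤
      ENNReal.ofReal (D₀ ^ p) * ∑ e ∈ (E.fin_face k).toFinset,
        ENNReal.ofReal (‖E.b e - E.a e‖ ^ (1 - p)) *
        (len (onSeg h (E.a e, E.b e)) (Icc 0 1) + ENNReal.ofReal (t * ‖E.b e - E.a e‖)) ^ p := by
  have hmem : ∀ e ∈ (E.fin_face k).toFinset, E.seg e ⊆ M.F k := fun e he =>
    (E.fin_face k).mem_toFinset.1 he
  rw [ENNReal.ofReal_sum_of_nonneg fun e he => mul_nonneg (Real.rpow_nonneg (norm_nonneg _) _)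
    (Real.rpow_nonneg (hb0 e (hmem e he)) _), Finset.mul_sum]
  refine Finset.sum_le_sum fun e he => ?_
  rw [ENNReal.ofReal_mul (Real.rpow_nonneg (norm_nonneg _) _),
    ← ENNReal.ofReal_rpow_of_nonneg (hb0 e (hmem e he)) hp]
  calc ENNReal.ofReal (‖E.b e - E.a e‖ ^ (1 - p)) * ENNReal.ofReal (b e) ^ p
      ≤ ENNReal.ofReal (‖E.b e - E.a e‖ ^ (1 - p)) * (ENNReal.ofReal D₀ *
        (len (onSeg h (E.a e, E.b e)) (Icc 0 1) +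
          ENNReal.ofReal (t * ‖E.b e - E.a e‖))) ^ p :=
        mul_le_mul_right (ENNReal.rpow_le_rpow (hb e (hmem e he)) hp) _
    _ = _ := by
        rw [ENNReal.mul_rpow_of_nonneg _ _ hp, ENNReal.ofReal_rpow_of_nonneg hD₀ hp]
        ring

theorem hb_of_tiny {D₀ t s : ℝ} {b : E.ε → ℝ} {h : V → V}
    (hb : ∀ e, E.seg e ⊆ M.F k → ENNReal.ofReal (b e) ≤ ENNReal.ofReal D₀ *
      (len (onSeg h (E.a e, E.b e)) (Icc 0 1) + ENNReal.ofReal t))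
    (ht : ∀ e, E.seg e ⊆ M.F k → t ≤ s * ‖E.b e - E.a e‖) :
    ∀ e, E.seg e ⊆ M.F k → ENNReal.ofReal (b e) ≤ ENNReal.ofReal D₀ *
      (len (onSeg h (E.a e, E.b e)) (Icc 0 1) + ENNReal.ofReal (s * ‖E.b e - E.a e‖)) :=
  fun e he => (hb e he).trans (mul_le_mul_right (add_le_add le_rfl
    (ENNReal.ofReal_le_ofReal (ht e he))) _)

/-- the sum over the minimal edges is bounded by the sum over the adapted segments -/
theorem num_adapted {C₁ D₀ p c σ ε : ℝ} (hC₁ : 0 ≤ C₁) (hD₀ : 0 ≤ D₀) (hp : 0 ≤ p) (hσ : 0 < σ)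
    (hε : 0 < ε) {b : E.ε → ℝ} {h : V → V} (hA : AdD E k h p c) (hc : 0 ≤ c)
    (hb0 : ∀ e, E.seg e ⊆ M.F k → 0 ≤ b e)
    (hb : ∀ e, E.seg e ⊆ M.F k → ENNReal.ofReal (b e) ≤ ENNReal.ofReal D₀ *
      (len (onSeg h (E.a e, E.b e)) (Icc 0 1) + ENNReal.ofReal (ε / σ * ‖E.b e - E.a e‖)))
    {E' : Finset (V × V)} {ℓ : V × V → ℝ≥0∞} (hE' : Adapted M k E')
    (hℓ : ∀ e ∈ E', len (onSeg h e) (Icc 0 1) ≤ ℓ e) :
    ENNReal.ofReal (dp p * C₁ ^ p * σ ^ 2 *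
      ∑ e ∈ (E.fin_face k).toFinset, ‖E.b e - E.a e‖ ^ (1 - p) * b e ^ p) ≤
    ENNReal.ofReal (dp p * (C₁ * D₀) ^ p * c * σ ^ 2) *
      ∑ e ∈ E', ENNReal.ofReal (‖e.2 - e.1‖ ^ (1 - p)) *
        (ℓ e + ENNReal.ofReal (ε * ‖e.2 - e.1‖ / σ)) ^ p := by
  have h1 := ofReal_sum_le (k := k) hp hD₀ hb0 hb
  have h2 := hA (ε / σ) E' ℓ (by positivity) hE' hℓ
  have hdp := (P073.H155.dp_pos p).le
  rw [ENNReal.ofReal_mul (by positivity)]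
  calc ENNReal.ofReal (dp p * C₁ ^ p * σ ^ 2) * ENNReal.ofReal
        (∑ e ∈ (E.fin_face k).toFinset, ‖E.b e - E.a e‖ ^ (1 - p) * b e ^ p)
      ≤ ENNReal.ofReal (dp p * C₁ ^ p * σ ^ 2) * (ENNReal.ofReal (D₀ ^ p) * (ENNReal.ofReal c *
        ∑ e ∈ E', ENNReal.ofReal (‖e.2 - e.1‖ ^ (1 - p)) *
          (ℓ e + ENNReal.ofReal (ε / σ * ‖e.2 - e.1‖)) ^ p)) :=
        mul_le_mul_right (h1.trans (mul_le_mul_right h2 _)) _
    _ = _ := by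
        rw [← mul_assoc, ← mul_assoc, ← ENNReal.ofReal_mul (by positivity),
          ← ENNReal.ofReal_mul (by positivity), Real.mul_rpow hC₁ hD₀]
        congr 1
        · congr 1; ring
        · refine Finset.sum_congr rfl fun e _ => ?_
          rw [div_mul_eq_mul_div]

/-- **(energy)** for adapted segments: field `energy` of `H73.Out` -/
theorem FStar.Est.energy_adapted {S : FStar E k} {C₁ D₀ p c ε t : ℝ} (hC₁ : 0 ≤ C₁)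
    (hD₀ : 0 ≤ D₀) (hp : 1 ≤ p) {b : E.ε → ℝ} {g h : V → V} (H : S.Est C₁ b g)
    (hA : AdD E k h p c) (hc : 0 ≤ c) (hε : 0 < ε)
    (ht : ∀ e, E.seg e ⊆ M.F k → ∀ (a : V) (l : Fin 3) (σ : ℝ), 0 < σ →
      M.F k = sqr a l σ → t ≤ ε / σ * ‖E.b e - E.a e‖)
    (hb0 : ∀ e, E.seg e ⊆ M.F k → 0 ≤ b e)
    (hb : ∀ e, E.seg e ⊆ M.F k → ENNReal.ofReal (b e) ≤ ENNReal.ofReal D₀ *
      (len (onSeg h (E.a e, E.b e)) (Icc 0 1) + ENNReal.ofReal t))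
    {a : V} {l : Fin 3} {σ : ℝ} (hσ : 0 < σ) (hF : M.F k = sqr a l σ)
    {E' : Finset (V × V)} {ℓ : V × V → ℝ≥0∞} (hE' : Adapted M k E')
    (hℓ : ∀ e ∈ E', len (onSeg h e) (Icc 0 1) ≤ ℓ e) :
    faceL p g a l σ ≤ ENNReal.ofReal (2 * (dp p * (C₁ * D₀) ^ p * c) * σ ^ 2) *
      ∑ e ∈ E', ENNReal.ofReal (‖e.2 - e.1‖ ^ (1 - p)) *
        (ℓ e + ENNReal.ofReal (ε * ‖e.2 - e.1‖ / σ)) ^ p := by
  have hp0 : 0 ≤ p := by linarith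
  have hdp := (P073.H155.dp_pos p).le
  have h2 := num_adapted hC₁ hD₀ hp0 hσ hε hA hc hb0
    (hb_of_tiny hb fun e he => ht e he a l σ hσ hF) hE' hℓ
  refine (H.energy hC₁ hp hb0 hσ hF).trans ((mul_le_mul_right h2 _).trans_eq ?_)
  rw [← mul_assoc]
  congr 1
  rw [show (2 : ℝ≥0∞) = ENNReal.ofReal 2 by simp, ← ENNReal.ofReal_mul zero_le_two]
  congr 1; ring

/-- **(face)** for adapted segments: field `face` of `H304.Out` -/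
theorem FStar.Est.face_adapted {S : FStar E k} {C₁ D₀ p c ε t : ℝ} (hC₁ : 0 ≤ C₁)
    (hD₀ : 0 ≤ D₀) (hp : 1 ≤ p) {b : E.ε → ℝ} {g h : V → V} (H : S.Est C₁ b g)
    (hA : AdD E k h p c) (hc : 0 ≤ c) (hε : 0 < ε)
    (ht : ∀ e, E.seg e ⊆ M.F k → ∀ (a : V) (l : Fin 3) (σ : ℝ), 0 < σ →
      M.F k = sqr a l σ → t ≤ ε / σ * ‖E.b e - E.a e‖)
    (hb0 : ∀ e, E.seg e ⊆ M.F k → 0 ≤ b e)
    (hb : ∀ e, E.seg e ⊆ M.F k → ENNReal.ofReal (b e) ≤ ENNReal.ofReal D₀ *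
      (len (onSeg h (E.a e, E.b e)) (Icc 0 1) + ENNReal.ofReal t)) :
    ∃ G : V → ℝ, LipBd g (M.F k) G ∧
    ∀ (E' : Finset (V × V)) (ℓ : V × V → ℝ≥0∞) (a : V) (l : Fin 3) (σ : ℝ), 0 < σ →
      M.F k = sqr a l σ → Adapted M k E' → (∀ e ∈ E', len (onSeg h e) (Icc 0 1) ≤ ℓ e) →
      ∫⁻ x in cube a σ, ENNReal.ofReal (G (Function.update x l (a l)) ^ p) ≤
        ENNReal.ofReal (dp p * (C₁ * D₀) ^ p * c * σ ^ 2) *
        ∑ e ∈ E', ENNReal.ofReal (‖e.2 - e.1‖ ^ (1 - p)) *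
          (ℓ e + ENNReal.ofReal (ε * ‖e.2 - e.1‖ / σ)) ^ p := by
  have hp0 : 0 ≤ p := by linarith
  refine ⟨S.G C₁ b, H.lipBd, fun E' ℓ a l σ hσ hF hE' hℓ => ?_⟩
  exact (S.int_le hC₁ hp hb0 hσ hF).trans (num_adapted hC₁ hD₀ hp0 hσ hε hA hc hb0
    (hb_of_tiny hb fun e he => ht e he a l σ hσ hF) hE' hℓ)

end P073.H142
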