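import Vale.Agent.P073.H142.FaceTail2
import Vale.Agent.P073.H950.Adapt5

/-!
# P073, block H142 (FACETAIL), part 3: the clauses `lip`, `energy`, `face`, final forms
-/

open Set Metric Topology Filter MeasureTheory
open scoped ENNReal

namespace P073.H142

open P073
open Vale.Agent.P073.St (V)
open Vale.Agent.P073.SQ (cube ev)
open Vale.Agent.P073.H73 (Mesh sqr faceL onSeg Adapted)
open Vale.Agent.P073.H193 (Edges edges Cyc)
open Vale.Agent.P073.H155 (vv ce)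
open Vale.Agent.P073.H304 (LipBd)
open P073.H155 (Star cn cm ab dp)
open P073.Net (len)

variable {Ω : Set V} {M : Mesh Ω} {k : M.κ}

theorem mem_ofFace_of {e : (edges M).ε} (he : (edges M).seg e ⊆ M.F k) :
    ((edges M).a e, (edges M).b e) ∈ (edges M).ofFace k := by
  unfold Edges.ofFace
  exact Finset.mem_image.2 ⟨e, ((edges M).fin_face k).mem_toFinset.2 he, rfl⟩

theorem sum_ofFace' {X : Type*} [AddCommMonoid X] (f : V × V → X) :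
    ∑ e ∈ ((edges M).fin_face k).toFinset, f ((edges M).a e, (edges M).b e) =
      ∑ e ∈ (edges M).ofFace k, f e := by
  classical
  unfold Edges.ofFace
  rw [Finset.sum_image]
  intro e _ e' _ h
  exact Vale.Agent.P073.H155.pair_inj _ h

theorem adC (k : M.κ) (h : V → V) : AdC (edges M) k h 2 := by
  intro ε K E' ℓ hε hK hE' hℓ e he
  have h1 := P073.H950.face_sup hE' h hK (ε := ENNReal.ofReal ε) (ℓ := ℓ)
    (fun e he => (hℓ e he).1) (fun e he => (hℓ e he).2) _ (mem_ofFace_of he)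
  exact h1

theorem adD (k : M.κ) (h : V → V) {p : ℝ} (hp : 1 ≤ p) : AdD (edges M) k h p (2 ^ (p - 1)) := by
  intro t E' ℓ ht hE' hℓ
  have h1 := P073.H950.face_energy hE' h hp ht hℓ
  refine le_trans (le_of_eq ?_) h1
  exact sum_ofFace' (fun e => ENNReal.ofReal (‖e.2 - e.1‖ ^ (1 - p)) *
      (len (onSeg h e) (Icc 0 1) + ENNReal.ofReal (t * ‖e.2 - e.1‖)) ^ p)

/-- the numbers `b` for the tail: `t` is tiny with respect to `ε` -/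
structure Num (k : M.κ) (h : V → V) (D₀ ε : ℝ) (b : (edges M).ε → ℝ) : Prop where
  nonneg : ∀ e, (edges M).seg e ⊆ M.F k → 0 ≤ b e
  le : ∃ t, t ≤ ε ∧ (∀ e, (edges M).seg e ⊆ M.F k → ∀ (a : V) (l : Fin 3) (σ : ℝ), 0 < σ →
      M.F k = sqr a l σ → t ≤ ε / σ * ‖(edges M).b e - (edges M).a e‖) ∧
    ∀ e, (edges M).seg e ⊆ M.F k → ENNReal.ofReal (b e) ≤ ENNReal.ofReal D₀ *
      (len (onSeg h ((edges M).a e, (edges M).b e)) (Icc 0 1) + ENNReal.ofReal t)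

/-- **field `lip` of `H73.Out`, field `flip` of `H304.Out`** -/
theorem FStar.Est.lip' {S : FStar (edges M) k} {C₁ D₀ ε : ℝ} (hC₁ : 0 ≤ C₁) (hD₀ : 0 ≤ D₀)
    {b : (edges M).ε → ℝ} {g h : V → V} (H : S.Est C₁ b g) (hε : 0 < ε)
    (hb : Num k h D₀ ε b) {E' : Finset (V × V)} {ℓ : V × V → ℝ≥0∞} {K : ℝ}
    (hE' : Adapted M k E')
    (hℓ : ∀ e ∈ E', len (onSeg h e) (Icc 0 1) ≤ ℓ e ∧
      ℓ e + ENNReal.ofReal ε ≤ ENNReal.ofReal (K * ‖e.2 - e.1‖)) :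
    ∀ x ∈ M.F k, ∀ y ∈ M.F k,
      ‖g x - g y‖ ≤ C₁ * (1 + 12 * M.c k ^ 2) * (D₀ * 2) * K * ‖x - y‖ := by
  obtain ⟨t, ht, -, h2⟩ := hb.le
  exact H.lip_adapted hC₁ hD₀ (adC k h) zero_le_two hε ht h2 hE' hℓ

/-- **field `energy` of `H73.Out`** -/
theorem FStar.Est.energy' {S : FStar (edges M) k} {C₁ D₀ p ε : ℝ} (hC₁ : 0 ≤ C₁)
    (hD₀ : 0 ≤ D₀) (hp : 1 ≤ p) {b : (edges M).ε → ℝ} {g h : V → V} (H : S.Est C₁ b g)
    (hε : 0 < ε) (hb : Num k h D₀ ε b) {a : V} {l : Fin 3} {σ : ℝ} (hσ : 0 < σ)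
    (hF : M.F k = sqr a l σ) {E' : Finset (V × V)} {ℓ : V × V → ℝ≥0∞} (hE' : Adapted M k E')
    (hℓ : ∀ e ∈ E', len (onSeg h e) (Icc 0 1) ≤ ℓ e) :
    faceL p g a l σ ≤ ENNReal.ofReal (2 * (dp p * (C₁ * D₀) ^ p * 2 ^ (p - 1)) * σ ^ 2) *
      ∑ e ∈ E', ENNReal.ofReal (‖e.2 - e.1‖ ^ (1 - p)) *
        (ℓ e + ENNReal.ofReal (ε * ‖e.2 - e.1‖ / σ)) ^ p := by
  obtain ⟨t, -, h1, h2⟩ := hb.le
  exact H.energy_adapted hC₁ hD₀ hp (adD k h hp) (by positivity) hε h1 hb.nonneg h2 hσ hF hE' hℓ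

/-- **field `face` of `H304.Out`** -/
theorem FStar.Est.face' {S : FStar (edges M) k} {C₁ D₀ p ε : ℝ} (hC₁ : 0 ≤ C₁)
    (hD₀ : 0 ≤ D₀) (hp : 1 ≤ p) {b : (edges M).ε → ℝ} {g h : V → V} (H : S.Est C₁ b g)
    (hε : 0 < ε) (hb : Num k h D₀ ε b) :
    ∃ G : V → ℝ, LipBd g (M.F k) G ∧
    ∀ (E' : Finset (V × V)) (ℓ : V × V → ℝ≥0∞) (a : V) (l : Fin 3) (σ : ℝ), 0 < σ →
      M.F k = sqr a l σ → Adapted M k E' → (∀ e ∈ E', len (onSeg h e) (Icc 0 1) ≤ ℓ e) →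
      ∫⁻ x in cube a σ, ENNReal.ofReal (G (Function.update x l (a l)) ^ p) ≤
        ENNReal.ofReal (dp p * (C₁ * D₀) ^ p * 2 ^ (p - 1) * σ ^ 2) *
        ∑ e ∈ E', ENNReal.ofReal (‖e.2 - e.1‖ ^ (1 - p)) *
          (ℓ e + ENNReal.ofReal (ε * ‖e.2 - e.1‖ / σ)) ^ p := by
  obtain ⟨t, -, h1, h2⟩ := hb.le
  exact H.face_adapted hC₁ hD₀ hp (adD k h hp) (by positivity) hε h1 hb.nonneg h2

end P073.H142
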