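import Vale.Agent.P073.PR.Hemi
import Vale.Agent.P073.IoD
import Vale.Agent.P073.TR.DirMap

/-!
# P073, block H142: vertical sections of conical two-spheres are curves

`two_dirs`: if `X × [-1,1]` embeds in a conical two-sphere `B` as a neighbourhood of the image of
`(x, 0)`, and `X` is locally a cone at `x`, then `X` has exactly two directions at `x`.
-/

open Set Metric Topology Filter

namespace P073.H142

open P073 P073.TR

variable {E : Type*} [NormedAddCommGroup E] [NormedSpace ℝ E]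

/-! ### charts of the cubical sphere -/

/-- permuting the coordinates -/
noncomputable def permH (σ : Equiv.Perm (Fin 3)) :
    ConHomeo (univ : Set (Fin 3 → ℝ)) (univ : Set (Fin 3 → ℝ)) where
  toFun := fun v => fun i => v (σ i)
  invFun := fun v => fun i => v (σ.symm i)
  mapsTo := mapsTo_univ _ _
  mapsTo_inv := mapsTo_univ _ _
  left_inv := fun v _ => by funext i; simp
  right_inv := fun v _ => by funext i; simp
  cont := by fun_prop
  cont_inv := by fun_prop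
  conical := conicalOn_linear (LinearMap.funLeft ℝ ℝ σ) locCone_univ.conicalSet

theorem permH_norm (σ : Equiv.Perm (Fin 3)) (v : Fin 3 → ℝ) : ‖(permH σ).toFun v‖ = ‖v‖ := by
  apply le_antisymm
  · rw [pi_norm_le_iff_of_nonneg (norm_nonneg _)]
    exact fun i => norm_le_pi_norm v (σ i)
  · rw [pi_norm_le_iff_of_nonneg (norm_nonneg _)]
    intro i
    have := norm_le_pi_norm ((permH σ).toFun v) (σ.symm i)
    simpa [permH] using this

theorem permH_image (σ : Equiv.Perm (Fin 3)) :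
    (permH σ).toFun '' sphere (0 : Fin 3 → ℝ) 1 = sphere 0 1 := by
  ext v
  rw [mem_sphere_zero_iff_norm]
  constructor
  · rintro ⟨w, hw, rfl⟩
    rw [permH_norm]; exact mem_sphere_zero_iff_norm.1 hw
  · intro hv
    refine ⟨(permH σ).invFun v, ?_, (permH σ).right_inv (mem_univ v)⟩
    rw [mem_sphere_zero_iff_norm, ← permH_norm σ, (permH σ).right_inv (mem_univ v)]
    exact hv

theorem exists_chart_pos {v : Fin 3 → ℝ} (hv : v ∈ sphere (0 : Fin 3 → ℝ) 1) (h2 : v 2 ≠ 0) :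
    ∃ (H : Set (Fin 3 → ℝ)) (ψ : ConHomeo H (closedBall (0 : Fin 2 → ℝ) 1)), H ⊆ sphere 0 1 ∧
      (∀ᶠ y in 𝓝 v, y ∈ sphere (0 : Fin 3 → ℝ) 1 → y ∈ H) ∧ v ∈ H ∧
      ψ.toFun v ∈ ball (0 : Fin 2 → ℝ) 1 := by
  have key : ∀ (H Q : Set (Fin 3 → ℝ)), ConBall 2 H Q → v ∈ H → v ∉ Q →
      ∃ ψ : ConHomeo H (closedBall (0 : Fin 2 → ℝ) 1), ψ.toFun v ∈ ball (0 : Fin 2 → ℝ) 1 := by
    rintro H Q ⟨hQ, ψ, hψ⟩ hvH hvQ
    refine ⟨ψ, ?_⟩
    have h1 := ψ.mapsTo hvH
    rw [mem_closedBall_zero_iff] at h1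
    rw [mem_ball_zero_iff]
    refine lt_of_le_of_ne h1 fun h3 => hvQ ?_
    have h4 : ψ.toFun v ∈ ψ.toFun '' Q := by rw [hψ]; exact mem_sphere_zero_iff_norm.2 h3
    obtain ⟨w, hw, hwv⟩ := h4
    rwa [ψ.injOn (hQ hw) hvH hwv] at hw
  rcases lt_or_gt_of_ne h2 with h | h
  · have hvH : v ∈ lowerHemi := ⟨hv, h.le⟩
    obtain ⟨ψ, hψ⟩ := key _ _ conBall_lowerHemi hvH (fun h' => h2 h'.2)
    refine ⟨lowerHemi, ψ, inter_subset_left, ?_, hvH, hψ⟩
    filter_upwards [(isOpen_lt (continuous_apply 2) continuous_const).mem_nhds h] with y hy hyS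
    exact ⟨hyS, le_of_lt hy⟩
  · have hvH : v ∈ upperHemi := ⟨hv, h.le⟩
    obtain ⟨ψ, hψ⟩ := key _ _ conBall_upperHemi hvH (fun h' => h2 h'.2)
    refine ⟨upperHemi, ψ, inter_subset_left, ?_, hvH, hψ⟩
    filter_upwards [(isOpen_lt continuous_const (continuous_apply 2)).mem_nhds h] with y hy hyS
    exact ⟨hyS, le_of_lt hy⟩

theorem exists_chart_sphere {v : Fin 3 → ℝ} (hv : v ∈ sphere (0 : Fin 3 → ℝ) 1) :
    ∃ (H : Set (Fin 3 → ℝ)) (ψ : ConHomeo H (closedBall (0 : Fin 2 → ℝ) 1)), H ⊆ sphere 0 1 ∧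
      (∀ᶠ y in 𝓝 v, y ∈ sphere (0 : Fin 3 → ℝ) 1 → y ∈ H) ∧ v ∈ H ∧
      ψ.toFun v ∈ ball (0 : Fin 2 → ℝ) 1 := by
  obtain ⟨j, hj⟩ : ∃ j, v j ≠ 0 := by
    by_contra hcon
    push Not at hcon
    have : v = 0 := funext hcon
    rw [this, mem_sphere_zero_iff_norm, norm_zero] at hv
    exact zero_ne_one hv
  set σ : Equiv.Perm (Fin 3) := Equiv.swap j 2 with hσ
  set w := (permH σ).toFun v with hw
  have hwS : w ∈ sphere (0 : Fin 3 → ℝ) 1 := by
    rw [← permH_image σ]; exact mem_image_of_mem _ hv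
  have hw2 : w 2 ≠ 0 := by
    show v (σ 2) ≠ 0
    rw [hσ, Equiv.swap_apply_right]; exact hj
  obtain ⟨H, ψ, h1, h2, h3, h4⟩ := exists_chart_pos hwS hw2
  have hback : (permH σ).invFun w = v := (permH σ).left_inv (mem_univ v)
  refine ⟨(permH σ).invFun '' H,
    ((permH σ).symm.restr ψ.conicalSet_left (subset_univ _)).symm.trans ψ, ?_, ?_, ?_, ?_⟩
  · rintro _ ⟨y, hy, rfl⟩
    have := h1 hy
    rw [mem_sphere_zero_iff_norm] at this ⊢
    rw [← permH_norm σ, (permH σ).right_inv (mem_univ y)]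
    exact this
  · have hc : Continuous (permH σ).toFun := continuousOn_univ.1 (permH σ).cont
    have h5 := (hc.tendsto v).eventually h2
    filter_upwards [h5] with y hy hyS
    refine ⟨(permH σ).toFun y, hy ?_, (permH σ).left_inv (mem_univ y)⟩
    rw [← permH_image σ]; exact mem_image_of_mem _ hyS
  · exact ⟨w, h3, hback⟩
  · show ψ.toFun ((permH σ).toFun v) ∈ _
    exact h4

/-- every point of a conical two-sphere is an interior point of a disc -/
theorem exists_chart_conSphere {B : Set E} (hB : ConSphere 2 B) {x : E} (hx : x ∈ B) :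
    ∃ (H : Set E) (ψ : ConHomeo H (closedBall (0 : Fin 2 → ℝ) 1)), H ⊆ B ∧
      (∀ᶠ y in 𝓝 x, y ∈ B → y ∈ H) ∧ x ∈ H ∧ ψ.toFun x ∈ ball (0 : Fin 2 → ℝ) 1 := by
  obtain ⟨φ⟩ := hB
  obtain ⟨H, ψ, h1, h2, h3, h4⟩ := exists_chart_sphere (φ.mapsTo hx)
  have hHc : ConicalSet H := ψ.conicalSet_left
  refine ⟨φ.invFun '' H, (φ.symm.restr hHc h1).symm.trans ψ, ?_, ?_, ?_, ?_⟩
  · rintro _ ⟨y, hy, rfl⟩
    exact φ.mapsTo_inv (h1 hy)
  · have h5 : ∀ᶠ y in 𝓝[B] x, φ.toFun y ∈ sphere (0 : Fin 3 → ℝ) 1 → φ.toFun y ∈ H :=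
      (φ.cont x hx).eventually h2
    rw [eventually_nhdsWithin_iff] at h5
    filter_upwards [h5] with y hy hyB
    exact ⟨φ.toFun y, hy hyB (φ.mapsTo hyB), φ.left_inv hyB⟩
  · exact ⟨φ.toFun x, h3, φ.left_inv hx⟩
  · show ψ.toFun (φ.toFun x) ∈ _
    exact h4

/-! ### directions -/

theorem norm_sub_dir {x u : E} (hu : ‖u‖ = 1) {t : ℝ} (ht : 0 ≤ t) : ‖x + t • u - x‖ = t := by
  rw [add_sub_cancel_left, norm_smul, hu, mul_one, Real.norm_of_nonneg ht]

/-- **Two directions.** -/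
theorem two_dirs {X Y B : Set E} {x : E} (hX : LocConeAt X x) (hx : x ∈ X)
    (Γ : ConHomeo (X ×ˢ Icc (-1:ℝ) 1) Y) (hYB : Y ⊆ B) (hB : ConSphere 2 B)
    (hnb : ∀ᶠ y in 𝓝 (Γ.toFun (x, 0)), y ∈ B → y ∈ Y) : (dirs X x).encard = 2 := by
  have h0I : (0:ℝ) ∈ Icc (-1:ℝ) 1 := ⟨by norm_num, zero_le_one⟩
  have hx0 : (x, (0:ℝ)) ∈ X ×ˢ Icc (-1:ℝ) 1 := ⟨hx, h0I⟩
  set x' := Γ.toFun (x, 0) with hx'
  have hx'Y : x' ∈ Y := Γ.mapsTo hx0
  obtain ⟨H, ψ, h1, h2, h3, h4⟩ := exists_chart_conSphere hB (hYB hx'Y)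
  -- a radius for everything
  obtain ⟨O, hO, hOopen, hxO⟩ := _root_.eventually_nhds_iff.1 (hnb.and h2)
  have hc1 : Γ.toFun ⁻¹' O ∈ 𝓝[X ×ˢ Icc (-1:ℝ) 1] (x, (0:ℝ)) :=
    (Γ.cont _ hx0) (hOopen.mem_nhds hxO)
  obtain ⟨W, hW, hWO⟩ := mem_nhdsWithin_iff_exists_mem_nhds_inter.1 hc1
  obtain ⟨ρ, hρ, hρW⟩ := Metric.mem_nhds_iff.1 hW
  obtain ⟨r₀, hr₀, HX⟩ := hX
  set r := min (min r₀ (ρ / 2)) (1 / 2) with hr
  have hrpos : 0 < r := by positivity
  have hrr₀ : r ≤ r₀ := (min_le_left _ _).trans (min_le_left _ _)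
  have hrρ : r < ρ := lt_of_le_of_lt ((min_le_left _ _).trans (min_le_right _ _)) (by linarith)
  have hr1 : r < 1 := lt_of_le_of_lt (min_le_right _ _) (by norm_num)
  have hΓO : ∀ z ∈ X, ‖z - x‖ ≤ r → ∀ t : ℝ, |t| ≤ r → (z, t) ∈ X ×ˢ Icc (-1:ℝ) 1 ∧
      Γ.toFun (z, t) ∈ O ∧ Γ.toFun (z, t) ∈ H := by
    intro z hz hzx t ht
    have hm : (z, t) ∈ X ×ˢ Icc (-1:ℝ) 1 := ⟨hz, by
      rw [abs_le] at ht; constructor <;> linarith [ht.1, ht.2]⟩
    have hO' : Γ.toFun (z, t) ∈ O := by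
      apply hWO
      refine ⟨hρW ?_, hm⟩
      rw [mem_ball, dist_eq_norm, Prod.mk_sub_mk, Prod.norm_mk, sub_zero, Real.norm_eq_abs]
      exact lt_of_le_of_lt (max_le hzx ht) hrρ
    exact ⟨hm, hO', (hO _ hO').2 (hYB (Γ.mapsTo hm))⟩
  have hdX : ∀ u ∈ dirs X x, ∀ t : ℝ, 0 ≤ t → t ≤ r → x + t • u ∈ X := by
    intro u hu t ht htr
    rcases eq_or_lt_of_le ht with h0 | h0
    · rw [← h0, zero_smul, add_zero]; exact hx
    · have hev : ∀ᶠ t in 𝓝[>] (0:ℝ), x + t • u ∈ X := hu.2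
      have hev2 := hev.and (Ioc_mem_nhdsGT h0)
      obtain ⟨s, hs1, hs2⟩ := hev2.exists
      have h5 := (HX (t • u) (by
        rw [norm_smul, hu.1, mul_one, Real.norm_of_nonneg ht]; linarith) (s / t)
        ⟨div_pos hs2.1 h0, (div_le_one h0).2 hs2.2⟩).1 (by
          rw [smul_smul, div_mul_cancel₀ _ h0.ne']; exact hs1)
      exact h5
  have hdir : ∀ z ∈ X, ‖z - x‖ ≤ r → z ≠ x → ‖z - x‖⁻¹ • (z - x) ∈ dirs X x := by
    intro z hz hzr hzx
    have hn : 0 < ‖z - x‖ := norm_pos_iff.2 (sub_ne_zero.2 hzx)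
    refine ⟨by rw [norm_smul, norm_inv, norm_norm, inv_mul_cancel₀ hn.ne'], ?_⟩
    show ∀ᶠ t in 𝓝[>] (0:ℝ), x + t • (‖z - x‖⁻¹ • (z - x)) ∈ X
    filter_upwards [Ioc_mem_nhdsGT hn] with t ht
    have h5 := (HX (z - x) (hzr.trans hrr₀) (t / ‖z - x‖) ⟨div_pos ht.1 hn, (div_le_one hn).2 ht.2⟩).2
      (by rw [add_sub_cancel]; exact hz)
    rwa [smul_smul, ← div_eq_mul_inv]
  have hψinj : ∀ z ∈ X, ‖z - x‖ ≤ r → ∀ t : ℝ, |t| ≤ r → ∀ z' ∈ X, ‖z' - x‖ ≤ r → ∀ t' : ℝ,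
      |t'| ≤ r → ψ.toFun (Γ.toFun (z, t)) = ψ.toFun (Γ.toFun (z', t')) → z = z' ∧ t = t' := by
    intro z hz hzr t ht z' hz' hzr' t' ht' he
    obtain ⟨m1, -, m2⟩ := hΓO z hz hzr t ht
    obtain ⟨m1', -, m2'⟩ := hΓO z' hz' hzr' t' ht'
    have h5 := Γ.injOn m1 m1' (ψ.injOn m2 m2' he)
    rw [Prod.mk.injEq] at h5
    exact h5
  -- at most two directions
  have hle : ∀ u₁ ∈ dirs X x, ∀ u₂ ∈ dirs X x, u₁ ≠ u₂ → dirs X x ⊆ {u₁, u₂} := by
    intro u₁ hu₁ u₂ hu₂ h12 u₃ hu₃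
    by_contra h3'
    simp only [mem_insert_iff, mem_singleton_iff, not_or] at h3'
    let g : (Fin 2 → ℝ) → E := fun w => x + (max (w 0) 0) • u₁ + (max (-w 0) 0) • u₂
    have hg1 : ∀ w : Fin 2 → ℝ, 0 ≤ w 0 → g w = x + (w 0) • u₁ := by
      intro w hw
      show x + (max (w 0) 0) • u₁ + (max (-w 0) 0) • u₂ = _
      rw [max_eq_left hw, max_eq_right (by linarith), zero_smul, add_zero]
    have hg2 : ∀ w : Fin 2 → ℝ, w 0 ≤ 0 → g w = x + (-w 0) • u₂ := by
      intro w hw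
      show x + (max (w 0) 0) • u₁ + (max (-w 0) 0) • u₂ = _
      rw [max_eq_right hw, max_eq_left (by linarith), zero_smul, add_zero]
    set U : Set (Fin 2 → ℝ) := {w | |w 0| < r ∧ |w 1| < r} with hU
    have hUo : IsOpen U := by
      have o1 : IsOpen {w : Fin 2 → ℝ | |w 0| < r} := isOpen_lt (by fun_prop) continuous_const
      have o2 : IsOpen {w : Fin 2 → ℝ | |w 1| < r} := isOpen_lt (by fun_prop) continuous_const
      exact o1.inter o2
    have hgX : ∀ w ∈ U, g w ∈ X ∧ ‖g w - x‖ ≤ r := by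
      intro w hw
      have hw0 := abs_lt.1 hw.1
      rcases le_total 0 (w 0) with h | h
      · rw [hg1 w h]
        exact ⟨hdX u₁ hu₁ _ h hw0.2.le, by rw [norm_sub_dir hu₁.1 h]; exact hw0.2.le⟩
      · rw [hg2 w h]
        have h' : 0 ≤ -w 0 := by linarith
        exact ⟨hdX u₂ hu₂ _ h' (by linarith), by rw [norm_sub_dir hu₂.1 h']; linarith⟩
    have hgc : Continuous g := by
      show Continuous fun w : Fin 2 → ℝ => x + (max (w 0) 0) • u₁ + (max (-w 0) 0) • u₂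
      fun_prop
    let F : (Fin 2 → ℝ) → (Fin 2 → ℝ) := fun w => ψ.toFun (Γ.toFun (g w, w 1))
    have hFc : ContinuousOn F U := by
      refine ψ.cont.comp (Γ.cont.comp (by fun_prop) fun w hw => ?_) fun w hw => ?_
      · exact (hΓO _ (hgX w hw).1 (hgX w hw).2 _ hw.2.le).1
      · exact (hΓO _ (hgX w hw).1 (hgX w hw).2 _ hw.2.le).2.2
    have hginj : ∀ w w' : Fin 2 → ℝ, g w = g w' → w 0 = w' 0 := by
      intro w w' he
      have hne : u₁ ≠ 0 := fun h => by have := hu₁.1; rw [h, norm_zero] at this; exact zero_ne_one this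
      have hne2 : u₂ ≠ 0 := fun h => by
        have := hu₂.1; rw [h, norm_zero] at this; exact zero_ne_one this
      have hmix : ∀ a b : ℝ, 0 ≤ a → 0 ≤ b → a • u₁ = b • u₂ → a = 0 ∧ b = 0 := by
        intro a b ha hb hab
        have h5 := congrArg norm hab
        rw [norm_smul, norm_smul, hu₁.1, hu₂.1, mul_one, mul_one, Real.norm_of_nonneg ha,
          Real.norm_of_nonneg hb] at h5
        rw [← h5] at hab
        by_cases ha0 : a = 0
        · exact ⟨ha0, h5 ▸ ha0⟩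
        · exact absurd (smul_right_injective E ha0 hab) h12
      rcases le_total 0 (w 0) with h | h <;> rcases le_total 0 (w' 0) with h' | h'
      · rw [hg1 w h, hg1 w' h'] at he
        exact smul_left_injective ℝ hne (add_left_cancel he)
      · rw [hg1 w h, hg2 w' h'] at he
        have := hmix _ _ h (by linarith) (add_left_cancel he)
        linarith [this.1, this.2]
      · rw [hg2 w h, hg1 w' h'] at he
        have := hmix _ _ h' (by linarith) (add_left_cancel he).symm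
        linarith [this.1, this.2]
      · rw [hg2 w h, hg2 w' h'] at he
        have h8 : -w 0 = -w' 0 := smul_left_injective ℝ hne2 (add_left_cancel he)
        linarith
    have hFinj : InjOn F U := by
      intro w hw w' hw' he
      obtain ⟨h5, h6⟩ := hψinj _ (hgX w hw).1 (hgX w hw).2 _ hw.2.le _ (hgX w' hw').1
        (hgX w' hw').2 _ hw'.2.le he
      have h7 := hginj w w' h5
      funext i
      fin_cases i
      · exact h7
      · exact h6
    have hopen := Vale.Agent.P073.Sep.isOpen_image_of_injOn hUo hFc hFinj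
    have h0U : (0 : Fin 2 → ℝ) ∈ U := by
      constructor <;> simpa using hrpos
    have hF0 : F 0 = ψ.toFun x' := by
      show ψ.toFun (Γ.toFun (g 0, (0:Fin 2 → ℝ) 1)) = _
      rw [hg1 0 (le_refl _)]
      simp [hx']
    -- the third direction
    have ht3 : Tendsto (fun t : ℝ => ψ.toFun (Γ.toFun (x + t • u₃, 0))) (𝓝[>] 0)
        (𝓝 (ψ.toFun x')) := by
      have hcomp : ContinuousWithinAt (fun t : ℝ => ψ.toFun (Γ.toFun (x + t • u₃, 0)))
          (Icc 0 r) 0 := by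
        have h5 : ContinuousOn (fun t : ℝ => ψ.toFun (Γ.toFun (x + t • u₃, 0))) (Icc 0 r) := by
          refine ψ.cont.comp (Γ.cont.comp (by fun_prop) fun t ht => ?_) fun t ht => ?_
          · exact (hΓO _ (hdX u₃ hu₃ t ht.1 ht.2) (by rw [norm_sub_dir hu₃.1 ht.1]; exact ht.2) 0
              (by rw [abs_zero]; exact hrpos.le)).1
          · exact (hΓO _ (hdX u₃ hu₃ t ht.1 ht.2) (by rw [norm_sub_dir hu₃.1 ht.1]; exact ht.2) 0
              (by rw [abs_zero]; exact hrpos.le)).2.2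
        exact h5 0 ⟨le_rfl, hrpos.le⟩
      have h6 : Tendsto (fun t : ℝ => ψ.toFun (Γ.toFun (x + t • u₃, 0))) (𝓝[Icc 0 r] 0)
          (𝓝 (ψ.toFun (Γ.toFun (x + (0:ℝ) • u₃, 0)))) := hcomp
      rw [zero_smul, add_zero] at h6
      refine h6.mono_left (nhdsWithin_le_of_mem ?_)
      exact mem_of_superset (Ioc_mem_nhdsGT hrpos) Ioc_subset_Icc_self
    have hev := (ht3.eventually (hopen.mem_nhds (hF0 ▸ mem_image_of_mem F h0U))).and
      (Ioc_mem_nhdsGT hrpos)
    obtain ⟨t, ⟨w, hw, hwt⟩, ht⟩ := hev.exists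
    obtain ⟨h5, h6⟩ := hψinj _ (hgX w hw).1 (hgX w hw).2 _ hw.2.le _ (hdX u₃ hu₃ t ht.1.le ht.2)
      (by rw [norm_sub_dir hu₃.1 ht.1.le]; exact ht.2) 0 (by rw [abs_zero]; exact hrpos.le) hwt
    have hcon : ∀ a : ℝ, 0 ≤ a → ∀ u : E, ‖u‖ = 1 → x + a • u = x + t • u₃ → u₃ = u := by
      intro a ha u hu he
      have h7 := add_left_cancel he
      have h8 := congrArg norm h7
      rw [norm_smul, norm_smul, hu, hu₃.1, mul_one, mul_one, Real.norm_of_nonneg ha,
        Real.norm_of_nonneg ht.1.le] at h8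
      rw [h8] at h7
      exact (smul_right_injective E ht.1.ne' h7).symm
    rcases le_total 0 (w 0) with h | h
    · rw [hg1 w h] at h5
      exact h3'.1 (hcon _ h _ hu₁.1 h5)
    · rw [hg2 w h] at h5
      exact h3'.2 (hcon _ (by linarith) _ hu₂.1 h5)
  -- at least two directions
  have hge : ∃ u₁ ∈ dirs X x, ∃ u₂ ∈ dirs X x, u₁ ≠ u₂ := by
    by_contra hcon
    push Not at hcon
    -- the points of `X` near `x` are determined by their distance from `x`
    have hdet : ∀ z ∈ X, ‖z - x‖ ≤ r → ∀ z' ∈ X, ‖z' - x‖ ≤ r → ‖z - x‖ = ‖z' - x‖ → z = z' := by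
      intro z hz hzr z' hz' hzr' he
      by_cases hzx : z = x
      · subst hzx
        rw [sub_self, norm_zero] at he
        exact (sub_eq_zero.1 (norm_eq_zero.1 he.symm)).symm
      · by_cases hzx' : z' = x
        · subst hzx'
          rw [sub_self, norm_zero] at he
          exact sub_eq_zero.1 (norm_eq_zero.1 he)
        · have h5 := hcon _ (hdir z hz hzr hzx) _ (hdir z' hz' hzr' hzx')
          rw [he] at h5
          have hn : ‖z' - x‖ ≠ 0 := norm_ne_zero_iff.2 (sub_ne_zero.2 hzx')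
          have h6 := smul_right_injective E (inv_ne_zero hn) h5
          exact sub_left_inj.1 h6
    -- the inverse map near `ψ x'`
    let k : (Fin 2 → ℝ) → E × ℝ := fun p => Γ.invFun (ψ.invFun p)
    have hpre : ∀ᶠ p in 𝓝 (ψ.toFun x'), p ∈ ball (0 : Fin 2 → ℝ) 1 ∧ ψ.invFun p ∈ O := by
      have h5 : ContinuousAt ψ.invFun (ψ.toFun x') :=
        (ψ.cont_inv _ (ball_subset_closedBall h4)).continuousAt
          (mem_of_superset (isOpen_ball.mem_nhds h4) ball_subset_closedBall)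
      have h6 : ψ.invFun (ψ.toFun x') = x' := ψ.left_inv h3
      exact (isOpen_ball.eventually_mem h4).and
        (h5.eventually (hOopen.mem_nhds (by rw [h6]; exact hxO)))
    have hkY : ∀ p, p ∈ ball (0 : Fin 2 → ℝ) 1 → ψ.invFun p ∈ O → ψ.invFun p ∈ Y := fun p hp hpO =>
      (hO _ hpO).1 (h1 (ψ.mapsTo_inv (ball_subset_closedBall hp)))
    obtain ⟨T, hT1, hT2, hT3⟩ := _root_.eventually_nhds_iff.1 hpre
    have hkc : ContinuousOn k T := by
      refine Γ.cont_inv.comp (ψ.cont_inv.mono fun p hp => ball_subset_closedBall (hT1 p hp).1)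
        fun p hp => hkY p (hT1 p hp).1 (hT1 p hp).2
    have hk0 : k (ψ.toFun x') = (x, 0) := by
      show Γ.invFun (ψ.invFun (ψ.toFun x')) = (x, 0)
      rw [ψ.left_inv h3, hx', Γ.left_inv hx0]
    have hkc0 : ContinuousAt k (ψ.toFun x') := hkc.continuousAt (hT2.mem_nhds hT3)
    have hev : ∀ᶠ p in 𝓝 (ψ.toFun x'), ‖(k p).1 - x‖ < r := by
      have h5 : ContinuousAt (fun p => ‖(k p).1 - x‖) (ψ.toFun x') := by fun_prop
      refine h5.eventually_lt continuousAt_const ?_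
      rw [hk0, sub_self, norm_zero]; exact hrpos
    obtain ⟨T', hT1', hT2', hT3'⟩ := _root_.eventually_nhds_iff.1 (hev.and (hT2.eventually_mem hT3))
    let G : (Fin 2 → ℝ) → (Fin 2 → ℝ) := fun p => ![‖(k p).1 - x‖, (k p).2]
    have hGc : ContinuousOn G T' := by
      have h5 : ContinuousOn k T' := hkc.mono fun p hp => (hT1' p hp).2
      refine continuousOn_pi.2 fun i => ?_
      fin_cases i
      · show ContinuousOn (fun p => ‖(k p).1 - x‖) T'
        exact ((continuous_fst.comp_continuousOn h5).sub continuousOn_const).norm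
      · show ContinuousOn (fun p => (k p).2) T'
        exact continuous_snd.comp_continuousOn h5
    have hkmem : ∀ p ∈ T', k p ∈ X ×ˢ Icc (-1:ℝ) 1 := fun p hp => by
      have := hT1 p (hT1' p hp).2
      exact Γ.mapsTo_inv (hkY p this.1 this.2)
    have hGinj : InjOn G T' := by
      intro p hp q hq he
      have e0 : ‖(k p).1 - x‖ = ‖(k q).1 - x‖ := congrFun he 0
      have e1 : (k p).2 = (k q).2 := congrFun he 1
      have e2 : (k p).1 = (k q).1 := hdet _ (hkmem p hp).1 (hT1' p hp).1.le _ (hkmem q hq).1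
        (hT1' q hq).1.le e0
      have e3 : k p = k q := Prod.ext e2 e1
      have hp' := hT1 p (hT1' p hp).2
      have hq' := hT1 q (hT1' q hq).2
      have e4 : ψ.invFun p = ψ.invFun q :=
        Γ.symm.injOn (hkY p hp'.1 hp'.2) (hkY q hq'.1 hq'.2) e3
      exact ψ.symm.injOn (ball_subset_closedBall hp'.1) (ball_subset_closedBall hq'.1) e4
    have hopen := Vale.Agent.P073.Sep.isOpen_image_of_injOn hT2' hGc hGinj
    have hG0 : G (ψ.toFun x') = 0 := by
      funext i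
      fin_cases i
      · show ‖(k (ψ.toFun x')).1 - x‖ = 0
        rw [hk0, sub_self, norm_zero]
      · show (k (ψ.toFun x')).2 = 0
        rw [hk0]
    have hmem : (0 : Fin 2 → ℝ) ∈ G '' T' := ⟨_, hT3', hG0⟩
    obtain ⟨δ, hδ, hδG⟩ := Metric.isOpen_iff.1 hopen 0 hmem
    have hpt : (![-(δ / 2), 0] : Fin 2 → ℝ) ∈ ball (0 : Fin 2 → ℝ) δ := by
      rw [mem_ball_zero_iff]
      refine (pi_norm_lt_iff hδ).2 fun i => ?_
      fin_cases i
      · show ‖-(δ / 2)‖ < δ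
        rw [norm_neg, Real.norm_of_nonneg (by linarith)]; linarith
      · show ‖(0:ℝ)‖ < δ
        rw [norm_zero]; exact hδ
    obtain ⟨p, _, hp⟩ := hδG hpt
    have h7 : ‖(k p).1 - x‖ = -(δ / 2) := congrFun hp 0
    have h8 := norm_nonneg ((k p).1 - x)
    linarith
  obtain ⟨u₁, hu₁, u₂, hu₂, h12⟩ := hge
  have heq : dirs X x = {u₁, u₂} := Subset.antisymm (hle u₁ hu₁ u₂ hu₂ h12) (by
    rintro u (rfl | hu)
    · exact hu₁
    · rw [mem_singleton_iff] at hu; rw [hu]; exact hu₂)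
  rw [heq, encard_pair h12]

end P073.H142
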