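import Vale.Agent.P073.H142.Asm2
import Vale.Agent.P073.H142.Man2
import Vale.Agent.P073.SCH.LocConeImage

/-!
# P073, block H142 (PRE3a): the traces of the sheets on the boundaries of the cells
-/

open Set Metric Topology Filter

namespace P073.H142

open P073 P073.H936 P073.TR

/-- **One box with the sheets of a homeomorphism and finitely many closed cells**, the fibres being
vertical along the boundaries of the cells. -/
structure BoxIn (ι : Type*) (Q E : Type) [NormedAddCommGroup E] [NormedSpace ℝ E] where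
  side : ι → Bool
  Bd : Set E
  D : ι → Set E
  N : ι → Set E
  s : ι → E → ℝ
  Γ : ∀ i, ConHomeo (D i ×ˢ Icc (-1:ℝ) 1) (N i)
  zero : ∀ i, ∀ z ∈ D i, (Γ i).toFun (z, 0) = z
  lev : ∀ i, ∀ z ∈ D i, ∀ t ∈ Icc (-1:ℝ) 1, s i ((Γ i).toFun (z, t)) = t
  bd : ∀ i, ∀ z ∈ D i, ∀ t ∈ Icc (-1:ℝ) 1, ((Γ i).toFun (z, t) ∈ Bd ↔ z ∈ Bd)
  ball : ∀ i, ConBall 2 (D i) (D i ∩ Bd)
  disj : ∀ i j, i ≠ j → side i = side j → Disjoint (N i) (N j)
  pres : ∀ i j, side i ≠ side j → Pres (Γ i).toFun (D i) (N j) (s j)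
  /-- the cells -/
  C : Q → Set E
  C_fin : Finite Q
  C_reg : ∀ q, closure (interior (C q)) = C q
  C_disj : ∀ q q', q ≠ q' → Disjoint (interior (C q)) (interior (C q'))
  C_sph : ∀ q, ConSphere 2 (frontier (C q))
  C_cone : ∀ q, LocCone (C q)
  C_bd : ∀ q, Disjoint (C q) Bd
  vB : ∀ i q, ∀ z ∈ D i, ∀ t ∈ Icc (-1:ℝ) 1,
    ((Γ i).toFun (z, t) ∈ frontier (C q) ↔ z ∈ frontier (C q))
  nb : ∀ i, ∀ x ∈ D i, x ∉ Bd → N i ∈ 𝓝 x
  arc : ∀ i j, side i ≠ side j → ∃ p q, IsArc (D i ∩ D j) p q ∧ D i ∩ D j ∩ Bd = {p, q}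

namespace BoxIn

variable {ι : Type*} {Q E : Type} [NormedAddCommGroup E] [NormedSpace ℝ E] (P : BoxIn ι Q E)

theorem z0 : (0:ℝ) ∈ Icc (-1:ℝ) 1 := ⟨by norm_num, zero_le_one⟩

abbrev V (q : Q) : Set E := interior (P.C q)

abbrev B (q : Q) : Set E := frontier (P.C q)

theorem C_closed (q : Q) : IsClosed (P.C q) := by
  rw [← P.C_reg q]; exact isClosed_closure

theorem VB_eq (q : Q) : P.V q ∪ P.B q = P.C q := by
  rw [show P.B q = closure (P.C q) \ interior (P.C q) from rfl, (P.C_closed q).closure_eq]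
  exact union_sdiff_cancel interior_subset

theorem B_sub (q : Q) : P.B q ⊆ P.C q := (P.C_closed q).frontier_subset

theorem VB_same (q : Q) : Disjoint (P.V q) (P.B q) := disjoint_interior_frontier

theorem VB (q q' : Q) : Disjoint (P.V q) (P.B q') := by
  by_cases h : q = q'
  · subst h; exact P.VB_same q
  · rw [disjoint_left]
    intro x hx hx'
    have h1 : x ∈ closure (interior (P.C q')) := by rw [P.C_reg q']; exact P.B_sub q' hx'
    obtain ⟨y, hy, hy'⟩ := mem_closure_iff.1 h1 _ isOpen_interior hx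
    exact disjoint_left.1 (P.C_disj q q' h) hy hy'

theorem notMem_bd {q : Q} {x : E} (hx : x ∈ P.C q) : x ∉ P.Bd := disjoint_left.1 (P.C_bd q) hx

/-- the fibres are vertical in the cells -/
theorem vV (i : ι) (q : Q) : ∀ z ∈ P.D i, ∀ t ∈ Icc (-1:ℝ) 1,
    ((P.Γ i).toFun (z, t) ∈ P.V q ↔ z ∈ P.V q) := by
  intro z hz t ht
  by_cases hzB : z ∈ P.B q
  · have h1 := (P.vB i q z hz t ht).2 hzB
    exact ⟨fun h => absurd h1 (disjoint_left.1 (P.VB_same q) h),
      fun h => absurd hzB (disjoint_left.1 (P.VB_same q) h)⟩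
  · set K : Set E := (fun t : ℝ => (P.Γ i).toFun (z, t)) '' Icc (-1:ℝ) 1 with hK
    have hKc : IsPreconnected K := by
      refine isPreconnected_Icc.image _ ?_
      exact (P.Γ i).cont.comp (by fun_prop) fun t ht => ⟨hz, ht⟩
    have hKB : ∀ x ∈ K, x ∉ P.B q := by
      rintro _ ⟨r, hr, rfl⟩ h
      exact hzB ((P.vB i q z hz r hr).1 h)
    have hzK : z ∈ K := ⟨0, z0, P.zero i z hz⟩
    have htK : (P.Γ i).toFun (z, t) ∈ K := ⟨t, ht, rfl⟩
    have hsplit : ∀ x ∈ K, x ∈ interior (P.C q) ∨ x ∈ (P.C q)ᶜ := by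
      intro x hx
      by_cases h : x ∈ P.C q
      · rw [← P.VB_eq q] at h
        exact Or.inl (h.resolve_right (hKB x hx))
      · exact Or.inr h
    have hdis : Disjoint (interior (P.C q)) (P.C q)ᶜ :=
      disjoint_left.2 fun x h h' => h' (interior_subset h)
    have key : ∀ x ∈ K, ∀ y ∈ K, x ∈ interior (P.C q) → y ∈ interior (P.C q) := by
      intro x hx y hy hxi
      have := hKc.subset_left_of_subset_union isOpen_interior (P.C_closed q).isOpen_compl hdis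
        (fun w hw => hsplit w hw) ⟨x, hx, hxi⟩
      exact this hy
    exact ⟨key _ htK _ hzK, key _ hzK _ htK⟩

/-- the points of the sheets near a cell boundary -/
theorem nbB (i : ι) (q : Q) {x : E} (hx : x ∈ P.D i) (hxB : x ∈ P.B q) : P.N i ∈ 𝓝 x :=
  P.nb i x hx (P.notMem_bd (P.B_sub q hxB))

theorem inv_D (i : ι) {x : E} (hx : x ∈ P.D i) : (P.Γ i).invFun x = (x, 0) := by
  nth_rewrite 1 [← P.zero i x hx]
  exact (P.Γ i).left_inv (show (x, (0:ℝ)) ∈ P.D i ×ˢ Icc (-1:ℝ) 1 from ⟨hx, z0⟩)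

/-- the foot of a point of a thick sheet -/
noncomputable def foot (i : ι) (y : E) : E := ((P.Γ i).invFun y).1

theorem foot_mem (i : ι) {y : E} (hy : y ∈ P.N i) : P.foot i y ∈ P.D i :=
  ((P.Γ i).mapsTo_inv hy).1

theorem foot_eq (i : ι) {y : E} (hy : y ∈ P.N i) :
    ∃ t ∈ Icc (-1:ℝ) 1, (P.Γ i).toFun (P.foot i y, t) = y :=
  ⟨((P.Γ i).invFun y).2, ((P.Γ i).mapsTo_inv hy).2, (P.Γ i).right_inv hy⟩

theorem foot_V (i : ι) (q : Q) {y : E} (hy : y ∈ P.N i) : y ∈ P.V q ↔ P.foot i y ∈ P.V q := by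
  obtain ⟨t, ht, h⟩ := P.foot_eq i hy
  rw [← P.vV i q _ (P.foot_mem i hy) t ht, h]

theorem foot_B (i : ι) (q : Q) {y : E} (hy : y ∈ P.N i) : y ∈ P.B q ↔ P.foot i y ∈ P.B q := by
  obtain ⟨t, ht, h⟩ := P.foot_eq i hy
  rw [← P.vB i q _ (P.foot_mem i hy) t ht, h]

theorem foot_D (i : ι) {x : E} (hx : x ∈ P.D i) : P.foot i x = x := by
  unfold foot; rw [P.inv_D i hx]

theorem foot_tendsto (i : ι) {x : E} (hx : x ∈ P.D i) (hn : P.N i ∈ 𝓝 x) :
    Tendsto (P.foot i) (𝓝 x) (𝓝 x) := by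
  have h1 : ContinuousAt (P.foot i) x :=
    (continuous_fst.comp_continuousOn (P.Γ i).cont_inv).continuousAt hn
  have h2 : Tendsto (P.foot i) (𝓝 x) (𝓝 (P.foot i x)) := h1
  rwa [P.foot_D i hx] at h2

/-! ### the traces are circles -/

theorem locCone_D (i : ι) : LocCone (P.D i) := (P.ball i).locCone

theorem locCone_B (q : Q) : LocCone (P.B q) := (P.C_cone q).frontier

theorem D_closed (i : ι) : IsClosed (P.D i) := (P.ball i).isClosed

theorem exists_traces (i : ι) (q : Q) : ∃ (J : Type) (_ : Finite J) (γ : J → Set E),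
    (⋃ j, γ j) = P.D i ∩ P.B q ∧ (∀ j j', j ≠ j' → Disjoint (γ j) (γ j')) ∧
      ∀ j, ConSphere 1 (γ j) := by
  set X := P.D i ∩ P.B q with hX
  have hcone : LocCone X := (P.locCone_D i).inter (P.locCone_B q)
  have hcomp : IsCompact X := (P.ball i).isCompact.inter_right isClosed_frontier
  refine TR.exists_circles hcomp (fun x _ => hcone x) fun x hx => ?_
  have hsub : X ×ˢ Icc (-1:ℝ) 1 ⊆ P.D i ×ˢ Icc (-1:ℝ) 1 := prod_mono inter_subset_left
    (Subset.refl _)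
  have hcon : ConicalSet (X ×ˢ Icc (-1:ℝ) 1) :=
    ConicalSet.prod hcone.conicalSet (Convex.conicalSet (convex_Icc _ _))
  have h2 := two_dirs (hcone x) hx ((P.Γ i).restr hcon hsub) (B := P.B q) ?_ (P.C_sph q) ?_
  · rw [Set.ncard_def, h2]; rfl
  · rintro _ ⟨⟨z, t⟩, ⟨hz, ht⟩, rfl⟩
    exact (P.vB i q z hz.1 t ht).2 hz.2
  · have e0 : ((P.Γ i).restr hcon hsub).toFun (x, 0) = x := P.zero i x hx.1
    rw [e0]
    filter_upwards [P.nbB i q hx.1 hx.2] with y hy hyB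
    obtain ⟨t, ht, h⟩ := P.foot_eq i hy
    exact ⟨(P.foot i y, t), ⟨⟨P.foot_mem i hy, (P.foot_B i q hy).1 hyB⟩, ht⟩, h⟩

/-- the index type of the traces on one cell -/
def J (i : ι) (q : Q) : Type := (P.exists_traces i q).choose

theorem J_fin (i : ι) (q : Q) : Finite (P.J i q) := (P.exists_traces i q).choose_spec.choose

/-- the traces on one cell -/
def tr (i : ι) (q : Q) : P.J i q → Set E := (P.exists_traces i q).choose_spec.choose_spec.choose

theorem tr_union (i : ι) (q : Q) : (⋃ j, P.tr i q j) = P.D i ∩ P.B q :=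
  (P.exists_traces i q).choose_spec.choose_spec.choose_spec.1

theorem tr_disj (i : ι) (q : Q) : ∀ j j', j ≠ j' → Disjoint (P.tr i q j) (P.tr i q j') :=
  (P.exists_traces i q).choose_spec.choose_spec.choose_spec.2.1

theorem tr_circ (i : ι) (q : Q) : ∀ j, ConSphere 1 (P.tr i q j) :=
  (P.exists_traces i q).choose_spec.choose_spec.choose_spec.2.2

attribute [irreducible] J tr

theorem tr_sub (i : ι) (q : Q) (j : P.J i q) : P.tr i q j ⊆ P.D i ∩ P.B q :=
  P.tr_union i q ▸ subset_iUnion (P.tr i q) j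

theorem near_of (i : ι) (q : Q) {x : E} (hx : x ∈ P.D i) (hxB : x ∈ P.B q) :
    x ∈ closure (P.D i ∩ P.V q) := by
  have hn := P.nbB i q hx hxB
  have hcl : x ∈ closure (interior (P.C q)) := by rw [P.C_reg q]; exact P.B_sub q hxB
  rw [mem_closure_iff_nhds]
  intro U hU
  have h1 := (P.foot_tendsto i hx hn).eventually hU
  obtain ⟨y, hy1, hy2⟩ := mem_closure_iff_nhds.1 hcl _ (inter_mem hn h1)
  exact ⟨P.foot i y, hy1.2, P.foot_mem i hy1.1, (P.foot_V i q hy1.1).1 hy2⟩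

/-! ### the double curves -/

theorem curve (i j : ι) (hs : P.side i ≠ P.side j) : ∀ x ∈ P.D i ∩ P.D j,
    ((dirs (P.D i ∩ P.D j) x).encard = 1 ∧ x ∈ P.Bd) ∨
      ((dirs (P.D i ∩ P.D j) x).encard = 2 ∧ x ∉ P.Bd) := by
  intro x hx
  obtain ⟨p, q, hA, hb⟩ := P.arc i j hs
  by_cases hxB : x ∈ P.Bd
  · have h1 : x ∈ ({p, q} : Set E) := hb ▸ ⟨hx, hxB⟩
    rcases h1 with h1 | h1
    · rw [h1]
      refine Or.inl ⟨hA.encard_left, ?_⟩
      rwa [← h1]
    · rw [mem_singleton_iff] at h1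
      rw [h1]
      refine Or.inl ⟨hA.encard_right, ?_⟩
      rwa [← h1]
  · have h1 : x ∉ ({p, q} : Set E) := fun h => hxB (hb ▸ h : x ∈ P.D i ∩ P.D j ∩ P.Bd).2
    simp only [mem_insert_iff, mem_singleton_iff, not_or] at h1
    exact Or.inr ⟨hA.encard_mid hx h1.1 h1.2, hxB⟩

end BoxIn

end P073.H142
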