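import Vale.Agent.P073.H142.Front1

/-!
# P073, block H142 (PRE3a): the double curves cross the boundaries of the cells
-/

open Set Metric Topology Filter

namespace P073.H142

open P073 P073.H936 P073.TR

/-- a compact local cone without directions is finite -/
theorem finite_of_no_dirs {E : Type*} [NormedAddCommGroup E] [NormedSpace ℝ E] {X : Set E}
    (hX : IsCompact X) (hc : LocCone X) (h : ∀ x ∈ X, dirs X x = ∅) : X.Finite := by
  have hiso : ∀ x ∈ X, ∃ U ∈ 𝓝 x, ∀ y ∈ U, y ∈ X → y = x := by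
    intro x hx
    obtain ⟨r, hr, H⟩ := hc x
    refine ⟨closedBall x r, closedBall_mem_nhds x hr, fun y hy hyX => ?_⟩
    by_contra hne
    have hn : 0 < ‖y - x‖ := norm_pos_iff.2 (sub_ne_zero.2 hne)
    have hmem : ‖y - x‖⁻¹ • (y - x) ∈ dirs X x := by
      refine ⟨by rw [norm_smul, norm_inv, norm_norm, inv_mul_cancel₀ hn.ne'], ?_⟩
      show ∀ᶠ t in 𝓝[>] (0:ℝ), x + t • (‖y - x‖⁻¹ • (y - x)) ∈ X
      filter_upwards [Ioc_mem_nhdsGT hn] with t ht
      have h5 := (H (y - x) (by rwa [mem_closedBall, dist_eq_norm] at hy) (t / ‖y - x‖)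
        ⟨div_pos ht.1 hn, (div_le_one hn).2 ht.2⟩).2 (by rw [add_sub_cancel]; exact hyX)
      rwa [smul_smul, ← div_eq_mul_inv]
    rw [h x hx] at hmem
    exact hmem
  choose! U hU hU' using hiso
  obtain ⟨t, ht, hcov⟩ := hX.elim_nhds_subcover U hU
  refine t.finite_toSet.subset fun y hy => ?_
  obtain ⟨x, hx, hyx⟩ := mem_iUnion₂.1 (hcov hy)
  rw [hU' x (ht x hx) y hyx hy]
  exact hx

namespace BoxIn

variable {ι : Type*} {Q E : Type} [NormedAddCommGroup E] [NormedSpace ℝ E] (P : BoxIn ι Q E)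

theorem D_sub_N (i : ι) : P.D i ⊆ P.N i := fun z hz => by
  have h1 := (P.Γ i).mapsTo (show (z, (0:ℝ)) ∈ P.D i ×ˢ Icc (-1:ℝ) 1 from ⟨hz, z0⟩)
  rwa [P.zero i z hz] at h1

theorem mem_D_of_lev (i : ι) {x : E} (hx : x ∈ P.N i) (h : P.s i x = 0) : x ∈ P.D i := by
  obtain ⟨t, ht, he⟩ := P.foot_eq i hx
  have h1 := P.lev i _ (P.foot_mem i hx) t ht
  rw [he, h] at h1
  rw [← h1, P.zero i _ (P.foot_mem i hx)] at he
  rw [← he]
  exact P.foot_mem i hx

theorem lev_D (i : ι) {x : E} (hx : x ∈ P.D i) : P.s i x = 0 := by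
  have h1 := P.lev i x hx 0 z0
  rwa [P.zero i x hx] at h1

/-- the fibres of the sheet `j` at the points of the sheet `i` stay in the sheet `i` -/
theorem fib_in {i j : ι} (hs : P.side i ≠ P.side j) {x : E} (hi : x ∈ P.D i) (hj : x ∈ P.D j)
    {t : ℝ} (ht : t ∈ Icc (-1:ℝ) 1) : (P.Γ j).toFun (x, t) ∈ P.D i := by
  have h0 : (P.Γ j).toFun (x, 0) = x := P.zero j x hj
  obtain ⟨h1, h2⟩ := P.pres j i hs.symm x hj 0 z0 t ht (by rw [h0]; exact P.D_sub_N i hi)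
  refine P.mem_D_of_lev i h1 ?_
  rw [h2, h0, P.lev_D i hi]

/-- the double foot of a point in two thick sheets -/
theorem foot_foot {i j : ι} (hs : P.side i ≠ P.side j) {y : E} (hi : y ∈ P.N i) (hj : y ∈ P.N j) :
    P.foot i y ∈ P.N j ∧ P.foot j (P.foot i y) ∈ P.D i ∩ P.D j := by
  obtain ⟨t, ht, he⟩ := P.foot_eq i hi
  have hz := P.foot_mem i hi
  set z := P.foot i y with hzdef
  obtain ⟨h1, -⟩ := P.pres i j hs z hz t ht 0 z0 (by rw [he]; exact hj)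
  rw [P.zero i z hz] at h1
  refine ⟨h1, ?_, P.foot_mem j h1⟩
  obtain ⟨r, hr, he'⟩ := P.foot_eq j h1
  have hw := P.foot_mem j h1
  obtain ⟨h2, h3⟩ := P.pres j i hs.symm _ hw r hr 0 z0 (by rw [he']; exact P.D_sub_N i hz)
  rw [he', P.lev_D i hz, P.zero j _ hw] at h3
  rw [P.zero j _ hw] at h2
  exact P.mem_D_of_lev i h2 h3

theorem double_foot {i j : ι} (hs : P.side i ≠ P.side j) {x : E} (hx : x ∈ P.D i ∩ P.D j)
    (hb : x ∉ P.Bd) (q : Q) {U : Set E} (hU : U ∈ 𝓝 x) : ∀ᶠ y in 𝓝 x, ∃ w ∈ P.D i ∩ P.D j,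
      w ∈ U ∧ (y ∈ P.V q ↔ w ∈ P.V q) ∧ (y ∈ P.B q ↔ w ∈ P.B q) := by
  have hni := P.nb i x hx.1 hb
  have hnj := P.nb j x hx.2 hb
  have h1 := (P.foot_tendsto j hx.2 hnj).comp (P.foot_tendsto i hx.1 hni)
  filter_upwards [hni, hnj, h1.eventually hU] with y hyi hyj hyU
  obtain ⟨h2, h3⟩ := P.foot_foot hs hyi hyj
  exact ⟨P.foot j (P.foot i y), h3, hyU, (P.foot_V i q hyi).trans (P.foot_V j q h2),
    (P.foot_B i q hyi).trans (P.foot_B j q h2)⟩

theorem locCone_L (i j : ι) : LocCone (P.D i ∩ P.D j) := (P.locCone_D i).inter (P.locCone_D j)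

theorem tr_compact (i : ι) (q : Q) (c : P.J i q) : IsCompact (P.tr i q c) := by
  obtain ⟨φ⟩ := P.tr_circ i q c
  exact φ.symm.isCompact_right (isCompact_sphere _ _)

/-- the double curves have no direction in the boundaries of the cells -/
theorem no_dirs {i j : ι} (hs : P.side i ≠ P.side j) (q : Q) (x : E) :
    dirs (P.D i ∩ P.D j ∩ P.B q) x = ∅ := by
  by_contra hne
  obtain ⟨u, hu⟩ := nonempty_iff_ne_empty.2 hne
  have hcone : LocCone (P.D i ∩ P.D j ∩ P.B q) := (P.locCone_L i j).inter (P.locCone_B q)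
  obtain ⟨r, hr, HX⟩ := hcone x
  have hray : ∀ t : ℝ, 0 < t → t ≤ r → x + t • u ∈ P.D i ∩ P.D j ∩ P.B q := by
    intro t ht htr
    have hev : ∀ᶠ t in 𝓝[>] (0:ℝ), x + t • u ∈ P.D i ∩ P.D j ∩ P.B q := hu.2
    obtain ⟨s, hs1, hs2⟩ := (hev.and (Ioc_mem_nhdsGT ht)).exists
    have h5 := (HX (t • u) (by
      rw [norm_smul, hu.1, mul_one, Real.norm_of_nonneg ht.le]; exact htr) (s / t)
      ⟨div_pos hs2.1 ht, (div_le_one ht).2 hs2.2⟩).1 (by
        rw [smul_smul, div_mul_cancel₀ _ ht.ne']; exact hs1)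
    exact h5
  have hune : u ≠ 0 := fun h => by have := hu.1; rw [h, norm_zero] at this; exact zero_ne_one this
  -- the open rectangle
  set U : Set (Fin 2 → ℝ) := {w | (0 < w 0 ∧ w 0 < r) ∧ (-1 < w 1 ∧ w 1 < 1)} with hU
  have hUo : IsOpen U := by
    have o1 : IsOpen {w : Fin 2 → ℝ | 0 < w 0} := isOpen_lt continuous_const (by fun_prop)
    have o2 : IsOpen {w : Fin 2 → ℝ | w 0 < r} := isOpen_lt (by fun_prop) continuous_const
    have o3 : IsOpen {w : Fin 2 → ℝ | -1 < w 1} := isOpen_lt continuous_const (by fun_prop)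
    have o4 : IsOpen {w : Fin 2 → ℝ | w 1 < 1} := isOpen_lt (by fun_prop) continuous_const
    exact (o1.inter o2).inter (o3.inter o4)
  set F : (Fin 2 → ℝ) → E := fun w => (P.Γ j).toFun (x + (w 0) • u, w 1) with hF
  have hmem : ∀ w ∈ U, (x + (w 0) • u, w 1) ∈ P.D j ×ˢ Icc (-1:ℝ) 1 := fun w hw =>
    ⟨(hray _ hw.1.1 hw.1.2.le).1.2, hw.2.1.le, hw.2.2.le⟩
  have hFc : ContinuousOn F U := (P.Γ j).cont.comp (by fun_prop) fun w hw => hmem w hw
  have hFinj : InjOn F U := by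
    intro w hw w' hw' he
    have h5 := (P.Γ j).injOn (hmem w hw) (hmem w' hw') he
    rw [Prod.mk.injEq] at h5
    have h6 : w 0 = w' 0 := smul_left_injective ℝ hune (add_left_cancel h5.1)
    funext k
    fin_cases k
    · exact h6
    · exact h5.2
  have hFX : ∀ w ∈ U, F w ∈ P.D i ∩ P.B q := by
    intro w hw
    have h1 := hray _ hw.1.1 hw.1.2.le
    exact ⟨P.fib_in hs h1.1.1 h1.1.2 (hmem w hw).2, (P.vB j q _ h1.1.2 _ (hmem w hw).2).2 h1.2⟩
  -- the point in the middle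
  set p₀ : Fin 2 → ℝ := ![r / 2, 0] with hp₀
  have hp₀U : p₀ ∈ U := ⟨⟨half_pos hr, half_lt_self hr⟩, by show (-1:ℝ) < 0; norm_num,
    by show (0:ℝ) < 1; norm_num⟩
  have hF₀ : F p₀ ∈ ⋃ c, P.tr i q c := by rw [P.tr_union]; exact hFX p₀ hp₀U
  obtain ⟨c, hc⟩ := mem_iUnion.1 hF₀
  have hfin := P.J_fin i q
  set R : Set E := ⋃ c' : {c' : P.J i q // c' ≠ c}, P.tr i q c' with hR
  have hRcl : IsClosed R := isClosed_iUnion_of_finite fun c' => (P.tr_compact i q c').isClosed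
  have hR₀ : F p₀ ∉ R := by
    intro h
    obtain ⟨c', hc'⟩ := mem_iUnion.1 h
    exact disjoint_left.1 (P.tr_disj i q c' c c'.2) hc' hc
  have hFat : ContinuousAt F p₀ := hFc.continuousAt (hUo.mem_nhds hp₀U)
  obtain ⟨W, hW1, hW2, hW3⟩ := _root_.eventually_nhds_iff.1
    ((hUo.eventually_mem hp₀U).and (hFat.eventually (hRcl.isOpen_compl.mem_nhds hR₀)))
  have hFc' : ∀ w ∈ W, F w ∈ P.tr i q c := by
    intro w hw
    have h1 : F w ∈ ⋃ c, P.tr i q c := by rw [P.tr_union]; exact hFX w (hW1 w hw).1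
    obtain ⟨c', hc'⟩ := mem_iUnion.1 h1
    by_cases h : c' = c
    · rwa [h] at hc'
    · exact absurd (mem_iUnion.2 ⟨⟨c', h⟩, hc'⟩) (hW1 w hw).2
  obtain ⟨φ⟩ := P.tr_circ i q c
  have hopen := Vale.Agent.P073.Sep.isOpen_image_of_injOn (U := W) (f := fun w => φ.toFun (F w))
    hW2 (φ.cont.comp (hFc.mono fun w hw => (hW1 w hw).1) fun w hw => hFc' w hw)
    (fun w hw w' hw' he => hFinj (hW1 w hw).1 (hW1 w' hw').1
      (φ.injOn (hFc' w hw) (hFc' w' hw') he))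
  have hsub : (fun w => φ.toFun (F w)) '' W ⊆ sphere (0 : Fin 2 → ℝ) 1 := by
    rintro _ ⟨w, hw, rfl⟩
    exact φ.mapsTo (hFc' w hw)
  have h7 := interior_mono hsub
  rw [hopen.interior_eq, interior_sphere (0 : Fin 2 → ℝ) one_ne_zero] at h7
  exact h7 ⟨p₀, hW3, rfl⟩

/-- **The double curves meet the boundaries of the cells in finitely many points.** -/
theorem LB (i j : ι) (hs : P.side i ≠ P.side j) (q : Q) : (P.D i ∩ P.D j ∩ P.B q).Finite :=
  finite_of_no_dirs ((((P.ball i).isCompact.inter_right (P.D_closed j))).inter_right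
    isClosed_frontier) ((P.locCone_L i j).inter (P.locCone_B q)) fun x _ => P.no_dirs hs q x

/-- a direction of the double curve enters the open cell or leaves the closed cell -/
theorem dir_cases {i j : ι} (hs : P.side i ≠ P.side j) (q : Q) {x : E}
    {u : E} (hu : u ∈ dirs (P.D i ∩ P.D j) x) :
    (∀ᶠ t in 𝓝[>] (0:ℝ), x + t • u ∈ P.V q) ∨ ∀ᶠ t in 𝓝[>] (0:ℝ), x + t • u ∉ P.C q := by
  have hev : ∀ᶠ t in 𝓝[>] (0:ℝ), x + t • u ∈ P.D i ∩ P.D j := hu.2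
  have key : ∀ A : Set E, LocConeAt A x → (∀ᶠ t in 𝓝[>] (0:ℝ), x + t • u ∈ A) ∨
      ∀ᶠ t in 𝓝[>] (0:ℝ), x + t • u ∉ A := by
    rintro A ⟨r, hr, H⟩
    by_cases h : x + r • u ∈ A
    · left
      filter_upwards [Ioc_mem_nhdsGT hr] with t ht
      have h5 := (H (r • u) (by rw [norm_smul, hu.1, mul_one, Real.norm_of_nonneg hr.le]) (t / r)
        ⟨div_pos ht.1 hr, (div_le_one hr).2 ht.2⟩).2 h
      rwa [smul_smul, div_mul_cancel₀ _ hr.ne'] at h5
    · right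
      filter_upwards [Ioc_mem_nhdsGT hr] with t ht
      have h5 := (H (r • u) (by rw [norm_smul, hu.1, mul_one, Real.norm_of_nonneg hr.le]) (t / r)
        ⟨div_pos ht.1 hr, (div_le_one hr).2 ht.2⟩).not.2 h
      rwa [smul_smul, div_mul_cancel₀ _ hr.ne'] at h5
  have hB : ∀ᶠ t in 𝓝[>] (0:ℝ), x + t • u ∉ P.B q := by
    rcases key (P.D i ∩ P.D j ∩ P.B q) ((P.locCone_L i j).inter (P.locCone_B q) x) with h | h
    · exfalso
      obtain ⟨t, ht, ht'⟩ : ∃ t > (0:ℝ), ∀ s ∈ Ioo 0 t, x + s • u ∈ P.D i ∩ P.D j ∩ P.B q := by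
        obtain ⟨t, ht, H⟩ := mem_nhdsGT_iff_exists_Ioo_subset.1 h
        exact ⟨t, ht, fun s hs => H hs⟩
      have hinf : (Ioo (0:ℝ) t).Infinite := Ioo_infinite ht
      have hinj : InjOn (fun s : ℝ => x + s • u) (Ioo 0 t) := by
        intro a _ b _ hab
        have hune : u ≠ 0 := fun h => by
          have := hu.1; rw [h, norm_zero] at this; exact zero_ne_one this
        exact smul_left_injective ℝ hune (add_left_cancel hab)
      have h1 := hinf.image hinj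
      exact h1 ((P.LB i j hs q).subset (by rintro _ ⟨s, hs, rfl⟩; exact ht' s hs))
    · filter_upwards [h, hev] with t ht ht' hB
      exact ht ⟨ht', hB⟩
  rcases key (P.C q) (P.C_cone q x) with h | h
  · left
    filter_upwards [h, hB] with t ht htB
    rw [← P.VB_eq q] at ht
    exact ht.resolve_right htB
  · exact Or.inr h

/-- **The double curves cross the boundaries of the cells.** -/
theorem dirs_in (i j : ι) (hs : P.side i ≠ P.side j) (q : Q) : ∀ x ∈ P.D i ∩ P.D j, x ∈ P.B q →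
    (dirs (P.D i ∩ P.D j ∩ (P.V q ∪ P.B q)) x).encard = 1 := by
  intro x hx hxB
  rw [P.VB_eq q]
  have hb : x ∉ P.Bd := P.notMem_bd (P.B_sub q hxB)
  have h2 : (dirs (P.D i ∩ P.D j) x).encard = 2 := by
    rcases P.curve i j hs x hx with h | h
    · exact absurd h.2 hb
    · exact h.1
  obtain ⟨u, v, huv, hd⟩ := encard_eq_two.1 h2
  have hu : u ∈ dirs (P.D i ∩ P.D j) x := by rw [hd]; exact Or.inl rfl
  have hv : v ∈ dirs (P.D i ∩ P.D j) x := by rw [hd]; exact Or.inr rfl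
  have hmemC : ∀ w, w ∈ dirs (P.D i ∩ P.D j ∩ P.C q) x ↔
      w ∈ dirs (P.D i ∩ P.D j) x ∧ ∀ᶠ t in 𝓝[>] (0:ℝ), x + t • w ∈ P.C q := by
    intro w
    constructor
    · rintro ⟨h3, h4⟩
      have h4' : ∀ᶠ t in 𝓝[>] (0:ℝ), x + t • w ∈ P.D i ∩ P.D j ∩ P.C q := h4
      exact ⟨⟨h3, h4'.mono fun t ht => ht.1⟩, h4'.mono fun t ht => ht.2⟩
    · rintro ⟨⟨h3, h4⟩, h5⟩
      have h4' : ∀ᶠ t in 𝓝[>] (0:ℝ), x + t • w ∈ P.D i ∩ P.D j := h4
      exact ⟨h3, (h4'.and h5).mono fun t ht => ht⟩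
  -- the points of the double curve near `x`
  obtain ⟨r, hr, HL⟩ := P.locCone_L i j x
  have hnear : ∀ w ∈ P.D i ∩ P.D j, ‖w - x‖ ≤ r → w = x ∨
      (w = x + ‖w - x‖ • u ∧ 0 < ‖w - x‖) ∨ (w = x + ‖w - x‖ • v ∧ 0 < ‖w - x‖) := by
    intro w hw hwr
    by_cases hwx : w = x
    · exact Or.inl hwx
    · right
      have hn : 0 < ‖w - x‖ := norm_pos_iff.2 (sub_ne_zero.2 hwx)
      have h3 : ‖w - x‖⁻¹ • (w - x) ∈ dirs (P.D i ∩ P.D j) x := by
        refine ⟨by rw [norm_smul, norm_inv, norm_norm, inv_mul_cancel₀ hn.ne'], ?_⟩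
        show ∀ᶠ t in 𝓝[>] (0:ℝ), x + t • (‖w - x‖⁻¹ • (w - x)) ∈ P.D i ∩ P.D j
        filter_upwards [Ioc_mem_nhdsGT hn] with t ht
        have h5 := (HL (w - x) hwr (t / ‖w - x‖) ⟨div_pos ht.1 hn, (div_le_one hn).2 ht.2⟩).2
          (by rw [add_sub_cancel]; exact hw)
        rwa [smul_smul, ← div_eq_mul_inv]
      have h4 : ∀ a : E, ‖w - x‖⁻¹ • (w - x) = a → w = x + ‖w - x‖ • a := by
        rintro _ rfl
        rw [smul_smul, mul_inv_cancel₀ hn.ne', one_smul, add_sub_cancel]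
      rw [hd] at h3
      rcases h3 with h3 | h3
      · exact Or.inl ⟨h4 _ h3, hn⟩
      · exact Or.inr ⟨h4 _ h3, hn⟩
  -- both directions enter, or both leave: impossible
  have hboth : ¬ ((∀ᶠ t in 𝓝[>] (0:ℝ), x + t • u ∈ P.V q) ∧
      ∀ᶠ t in 𝓝[>] (0:ℝ), x + t • v ∈ P.V q) := by
    rintro ⟨h3, h4⟩
    obtain ⟨a, ha, Ha⟩ := mem_nhdsGT_iff_exists_Ioo_subset.1 (h3.and h4)
    have hm : 0 < min r a := lt_min hr ha
    have h5 : P.C q ∈ 𝓝 x := by
      filter_upwards [P.double_foot hs hx hb q (Metric.ball_mem_nhds x hm)] with y hy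
      obtain ⟨w, hw, hwU, hV, hB⟩ := hy
      rw [Metric.mem_ball, dist_eq_norm] at hwU
      rw [← P.VB_eq q]
      rcases hnear w hw (hwU.le.trans (min_le_left _ _)) with h6 | ⟨h6, h7⟩ | ⟨h6, h7⟩
      · exact Or.inr (hB.2 (h6 ▸ hxB))
      · exact Or.inl (hV.2 (h6 ▸ (Ha ⟨h7, hwU.trans_le (min_le_right _ _)⟩).1))
      · exact Or.inl (hV.2 (h6 ▸ (Ha ⟨h7, hwU.trans_le (min_le_right _ _)⟩).2))
    exact disjoint_left.1 (P.VB_same q) (mem_interior_iff_mem_nhds.2 h5) hxB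
  have hnone : ¬ ((∀ᶠ t in 𝓝[>] (0:ℝ), x + t • u ∉ P.C q) ∧
      ∀ᶠ t in 𝓝[>] (0:ℝ), x + t • v ∉ P.C q) := by
    rintro ⟨h3, h4⟩
    obtain ⟨a, ha, Ha⟩ := mem_nhdsGT_iff_exists_Ioo_subset.1 (h3.and h4)
    have hm : 0 < min r a := lt_min hr ha
    have h5 : ∀ᶠ y in 𝓝 x, y ∉ P.V q := by
      filter_upwards [P.double_foot hs hx hb q (Metric.ball_mem_nhds x hm)] with y hy hyV
      obtain ⟨w, hw, hwU, hV, hB⟩ := hy
      rw [Metric.mem_ball, dist_eq_norm] at hwU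
      have hwV := hV.1 hyV
      rcases hnear w hw (hwU.le.trans (min_le_left _ _)) with h6 | ⟨h6, h7⟩ | ⟨h6, h7⟩
      · exact disjoint_left.1 (P.VB_same q) hwV (h6 ▸ hxB)
      · have h8 := (Ha ⟨h7, hwU.trans_le (min_le_right _ _)⟩).1
        exact h8 (h6 ▸ interior_subset hwV)
      · have h8 := (Ha ⟨h7, hwU.trans_le (min_le_right _ _)⟩).2
        exact h8 (h6 ▸ interior_subset hwV)
    have hcl : x ∈ closure (interior (P.C q)) := by rw [P.C_reg q]; exact P.B_sub q hxB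
    obtain ⟨y, hy1, hy2⟩ := mem_closure_iff_nhds.1 hcl _ h5
    exact hy1 hy2
  have hsame : ∀ w, ¬ ((∀ᶠ t in 𝓝[>] (0:ℝ), x + t • w ∈ P.C q) ∧
      ∀ᶠ t in 𝓝[>] (0:ℝ), x + t • w ∉ P.C q) := fun w h => by
    obtain ⟨t, ht1, ht2⟩ := (h.1.and h.2).exists
    exact ht2 ht1
  have hVC : ∀ w, (∀ᶠ t in 𝓝[>] (0:ℝ), x + t • w ∈ P.V q) →
      ∀ᶠ t in 𝓝[>] (0:ℝ), x + t • w ∈ P.C q := fun w h =>
    h.mono fun t ht => interior_subset ht
  rcases P.dir_cases hs q hu with h3 | h3 <;> rcases P.dir_cases hs q hv with h4 | h4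
  · exact (hboth ⟨h3, h4⟩).elim
  · have : dirs (P.D i ∩ P.D j ∩ P.C q) x = {u} := by
      ext w
      rw [hmemC, hd]
      constructor
      · rintro ⟨rfl | rfl, h6⟩
        · rfl
        · exact (hsame _ ⟨h6, h4⟩).elim
      · rintro rfl
        exact ⟨Or.inl rfl, hVC _ h3⟩
    rw [this, encard_singleton]
  · have : dirs (P.D i ∩ P.D j ∩ P.C q) x = {v} := by
      ext w
      rw [hmemC, hd]
      constructor
      · rintro ⟨rfl | rfl, h6⟩
        · exact (hsame _ ⟨h6, h3⟩).elim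
        · rfl
      · rintro rfl
        exact ⟨Or.inr rfl, hVC _ h4⟩
    rw [this, encard_singleton]
  · exact (hnone ⟨h3, h4⟩).elim

end BoxIn

end P073.H142
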