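import Vale.Agent.P073.H142.Front2

/-!
# P073, block H142 (PRE3a): sheets + vertical cells + caps = `Pre`
-/

open Set Metric Topology Filter

namespace P073.H142

open P073 P073.H936 P073.TR

namespace BoxIn

variable {ι : Type*} {Q E : Type} [NormedAddCommGroup E] [NormedSpace ℝ E] (P : BoxIn ι Q E)

/-- **Caps** for all traces of the sheets on the boundaries of the cells. -/
structure CapsIn where
  Δ₀ : ∀ i q, P.J i q → Set E
  Δ : ∀ i q, P.J i q → Set E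
  sΔ : ∀ i q, P.J i q → E → ℝ
  G : ∀ i q c, ConHomeo (Δ₀ i q c ×ˢ Icc (-1:ℝ) 1) (Δ i q c)
  ball : ∀ i q c, ConBall 2 (Δ₀ i q c) (P.tr i q c)
  G0 : ∀ i q c, ∀ z ∈ Δ₀ i q c, (G i q c).toFun (z, 0) = z
  Gs : ∀ i q c, ∀ z ∈ Δ₀ i q c, ∀ t ∈ Icc (-1:ℝ) 1, sΔ i q c ((G i q c).toFun (z, t)) = t
  GΓ : ∀ i q c, ∀ z ∈ P.tr i q c, ∀ t ∈ Icc (-1:ℝ) 1,
    (G i q c).toFun (z, t) = (P.Γ i).toFun (z, t)
  sub : ∀ i q c, Δ i q c ⊆ P.V q ∪ (P.Γ i).toFun '' (P.tr i q c ×ˢ Icc (-1:ℝ) 1)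
  disj : ∀ i j, P.side i = P.side j → ∀ q, ∀ c d,
    (⟨i, c⟩ : Σ i, P.J i q) ≠ ⟨j, d⟩ → Disjoint (Δ i q c) (Δ j q d)
  pres : ∀ i j, P.side i ≠ P.side j → ∀ q c d, Pres (G i q c).toFun (Δ₀ i q c) (Δ j q d) (sΔ j q d)
  dirs : ∀ i j, P.side i ≠ P.side j → ∀ q c d, ∀ x ∈ P.tr i q c ∩ P.tr j q d,
    (TR.dirs (Δ₀ i q c ∩ Δ₀ j q d) x).encard = 1
  dirs' : ∀ i j, P.side i ≠ P.side j → ∀ q c d, ∀ x ∈ Δ₀ i q c ∩ Δ₀ j q d,
    x ∈ P.V q → (TR.dirs (Δ₀ i q c ∩ Δ₀ j q d) x).encard = 2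

variable {P}

/-- **The production of `Pre`.** -/
def CapsIn.pre (K : P.CapsIn) : Pre ι Q E where
  side := P.side
  Bd := P.Bd
  D := P.D
  N := P.N
  s := P.s
  Γ := P.Γ
  zero := P.zero
  lev := P.lev
  bd := P.bd
  ball := P.ball
  disj := P.disj
  pres := P.pres
  V := P.V
  B := P.B
  V_open := fun _ => isOpen_interior
  V_disj := P.C_disj
  VB := P.VB
  V_cl := fun q => by rw [P.VB_eq q, P.C_reg q]
  VB_bd := fun q => by rw [P.VB_eq q]; exact P.C_bd q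
  VB_con := fun q => by rw [P.VB_eq q]; exact (P.C_cone q).conicalSet
  vV := P.vV
  vB := P.vB
  κ := fun i => Σ q, P.J i q
  κ_fin := fun i => by
    have := P.C_fin
    have := P.J_fin i
    infer_instance
  cell := fun _ c => c.1
  γ := fun i c => P.tr i c.1 c.2
  γD := fun i c x hx => (P.tr_sub i c.1 c.2 hx).1
  trace := fun i q x hx => by
    constructor
    · intro h
      have h1 : x ∈ ⋃ j, P.tr i q j := by rw [P.tr_union]; exact ⟨hx, h⟩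
      obtain ⟨c, hc⟩ := mem_iUnion.1 h1
      exact ⟨(⟨q, c⟩ : Σ q, P.J i q), rfl, hc⟩
    · rintro ⟨⟨q', c⟩, h, hc⟩
      have h' : q' = q := h
      subst h'
      exact (P.tr_sub i q' c hc).2
  circ := fun i c => P.tr_circ i c.1 c.2
  γ_disj := by
    rintro i ⟨q, c⟩ ⟨q', d⟩ hcd h
    have h' : q = q' := h
    subst h'
    exact P.tr_disj i q c d fun h => hcd (by rw [h])
  near := by
    rintro i ⟨q, c⟩
    obtain ⟨φ⟩ := P.tr_circ i q c
    have hz : (![1, 0] : Fin 2 → ℝ) ∈ sphere (0 : Fin 2 → ℝ) 1 := by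
      rw [mem_sphere_zero_iff_norm]
      apply le_antisymm
      · rw [pi_norm_le_iff_of_nonneg zero_le_one]
        intro k
        fin_cases k <;> simp
      · have := norm_le_pi_norm (![1, 0] : Fin 2 → ℝ) 0
        simpa using this
    have h1 := φ.mapsTo_inv hz
    exact ⟨_, h1, P.near_of i q (P.tr_sub i q c h1).1 (P.tr_sub i q c h1).2⟩
  Δ₀ := fun i c => K.Δ₀ i c.1 c.2
  Δ := fun i c => K.Δ i c.1 c.2
  sΔ := fun i c => K.sΔ i c.1 c.2
  G := fun i c => K.G i c.1 c.2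
  cap_ball := fun i c => K.ball i c.1 c.2
  G0 := fun i c => K.G0 i c.1 c.2
  Gs := fun i c => K.Gs i c.1 c.2
  GΓ := fun i c => K.GΓ i c.1 c.2
  cap_sub := fun i c => K.sub i c.1 c.2
  cap_disj := by
    rintro i j hs ⟨q, c⟩ ⟨q', d⟩ hcd h
    have h' : q = q' := h
    subst h'
    refine K.disj i j hs q c d fun he => hcd ?_
    obtain ⟨h1, h2⟩ := Sigma.mk.inj_iff.1 he
    subst h1
    rw [eq_of_heq h2]
  cap_pres := by
    rintro i j hs ⟨q, c⟩ ⟨q', d⟩ h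
    have h' : q = q' := h
    subst h'
    exact K.pres i j hs q c d
  curve := P.curve
  LB := P.LB
  dirs_in := P.dirs_in
  dirs_cap := by
    rintro i j hs ⟨q, c⟩ ⟨q', d⟩ h
    have h' : q = q' := h
    subst h'
    exact K.dirs i j hs q c d
  dirs_cap' := by
    rintro i j hs ⟨q, c⟩ ⟨q', d⟩ h
    have h' : q = q' := h
    subst h'
    exact K.dirs' i j hs q c d

theorem arc_ncard {i j : ι} (hs : P.side i ≠ P.side j) : (P.D i ∩ P.D j ∩ P.Bd).ncard = 2 := by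
  obtain ⟨p, q, hA, hb⟩ := P.arc i j hs
  rw [hb, ncard_pair]
  rintro rfl
  have h1 := H339.isArc_iff_conBall.1 hA
  exact TR.arc_ne h1 rfl

end BoxIn

end P073.H142
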