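import Vale.Agent.P073.H142.Caps
import Vale.Agent.P073.H880.Met2

/-!
# P073, block H142 (LEVSUM): the `ℓ¹` Lipschitz constants of the circles on the faces of a cell
-/

open Set Metric Topology Filter

namespace P073.H142

open P073 P073.H936 P073.TR P073.H267 P073.H880

namespace BoxIn

variable {ι : Type*} {Q E : Type} [NormedAddCommGroup E] [NormedSpace ℝ E] {P : BoxIn ι Q E}
  {q : Q} (X : P.CellCirc q)

theorem CellCirc.A_closed (c : Σ i, P.J i q) : IsClosed (X.D.A c) :=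
  (isCompact_ring (X.D.a c)).isClosed

theorem CellCirc.A_sub (c : Σ i, P.J i q) : X.D.A c ⊆ P.B q := fun _ hx =>
  X.D.sub c (Or.inr hx)

theorem CellCirc.A_N (c : Σ i, P.J i q) : X.D.A c ⊆ P.N c.1 := by
  rw [X.A c]
  rintro _ ⟨p, hp, rfl⟩
  exact (P.Γ c.1).mapsTo (P.tr_prod_sub c.1 q c.2 hp)

theorem CellCirc.abs_s_A {c : Σ i, P.J i q} {x : E} (hx : x ∈ X.D.A c) : |X.D.s c x| ≤ 1 := by
  obtain ⟨⟨v, t⟩, ⟨hv, ht⟩, rfl⟩ : x ∈ (X.D.a c).toFun '' (Sn 2 ×ˢ Icc (-1:ℝ) 1) := by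
    rw [(X.D.a c).image_eq]; exact hx
  rw [X.D.s_a c v hv t ht]
  exact abs_le.2 ht

theorem CellCirc.abs_s_off {c : Σ i, P.J i q} {x : E} (hx : x ∈ P.B q) (hxA : x ∉ X.D.A c) :
    |X.D.s c x| = 1 := by
  by_cases h : x ∈ X.D.I c
  · rw [X.D.s_I c x h]; norm_num
  · rw [X.D.s_out c x hx (fun h' => h'.elim h hxA)]; norm_num

theorem CellCirc.abs_s_le {c : Σ i, P.J i q} {x : E} (hx : x ∈ P.B q) : |X.D.s c x| ≤ 1 := by
  by_cases h : x ∈ X.D.A c
  · exact X.abs_s_A h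
  · exact (X.abs_s_off hx h).le

theorem CellCirc.abs_sub_s {c : Σ i, P.J i q} {x y : E} (hx : x ∈ X.D.A c) (hy : y ∈ X.D.A c) :
    |X.D.s c y - X.D.s c x| = |P.s c.1 y - P.s c.1 x| := by
  rw [X.s c x hx, X.s c y hy, ← mul_sub, abs_mul]
  rcases X.he c with h | h <;> rw [h] <;> norm_num

/-- **local form** -/
theorem CellCirc.eventually_sum_le [Fintype ι] [Fintype (Σ i, P.J i q)] {ω : ι → ℝ}
    (hω : ∀ i, 0 ≤ ω i) (τ : Bool) {θ : E} (hθ : θ ∈ P.B q) : ∀ᶠ θ' in 𝓝[P.B q] θ,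
    ∑ c with X.D.typ c = τ, ω c.1 * |X.D.s c θ' - X.D.s c θ| ≤
      ∑ i with P.side i = τ, ω i * chg (P.N i) (P.s i) θ θ' := by
  have e1 : ∀ᶠ θ' in 𝓝[P.B q] θ, ∀ c, (θ ∈ X.D.A c ∧ θ' ∈ X.D.A c) ∨
      X.D.s c θ' = X.D.s c θ := by
    rw [eventually_all]
    exact fun c => eventually_clip one_pos (X.A_closed c) (X.D.s_cont c)
      (fun x hx => X.abs_s_le hx) (fun x hx hxA => X.abs_s_off hx hxA) hθ
  filter_upwards [e1] with θ' h
  have hnn : ∀ i, 0 ≤ ω i * chg (P.N i) (P.s i) θ θ' := fun i =>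
    mul_nonneg (hω i) (chg_nonneg _ _ _ _)
  by_cases hex : ∃ c, X.D.typ c = τ ∧ θ ∈ X.D.A c ∧ θ' ∈ X.D.A c
  · obtain ⟨c, hc, h1, h2⟩ := hex
    have hone : ∑ c with X.D.typ c = τ, ω c.1 * |X.D.s c θ' - X.D.s c θ| =
        ω c.1 * |X.D.s c θ' - X.D.s c θ| := by
      refine Finset.sum_eq_single_of_mem c (Finset.mem_filter.2 ⟨Finset.mem_univ c, hc⟩) ?_
      intro d hd hdc
      rcases h d with h3 | h3
      · exact absurd h1 (disjoint_left.1 (X.D.A_disj d c hdc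
          ((Finset.mem_filter.1 hd).2.trans hc.symm)) h3.1)
      · rw [h3, sub_self, abs_zero, mul_zero]
    rw [hone, X.abs_sub_s h1 h2]
    have h4 : ω c.1 * |P.s c.1 θ' - P.s c.1 θ| = ω c.1 * chg (P.N c.1) (P.s c.1) θ θ' := by
      rw [chg_eq (X.A_N c h1) (X.A_N c h2)]
    rw [h4]
    exact Finset.single_le_sum (f := fun i => ω i * chg (P.N i) (P.s i) θ θ') (fun i _ => hnn i)
      (Finset.mem_filter.2 ⟨Finset.mem_univ _, (X.typ c).symm.trans hc⟩)
  · push Not at hex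
    have hzero : ∑ c with X.D.typ c = τ, ω c.1 * |X.D.s c θ' - X.D.s c θ| = 0 := by
      refine Finset.sum_eq_zero fun c hc => ?_
      rcases h c with h3 | h3
      · exact absurd h3.2 (hex c (Finset.mem_filter.1 hc).2 h3.1)
      · rw [h3, sub_self, abs_zero, mul_zero]
    rw [hzero]
    exact Finset.sum_nonneg fun i _ => hnn i

/-- **The hypothesis of the energy estimates of the caps**, on a convex piece of the boundary. -/
theorem CellCirc.sum_le [Fintype ι] [Fintype (Σ i, P.J i q)] {ω : ι → ℝ}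
    (hω : ∀ i, 0 ≤ ω i) (τ : Bool) {F : Set E} (hF : Convex ℝ F) (hFB : F ⊆ P.B q) {K : ℝ}
    (hloc : ∀ θ ∈ F, ∀ᶠ θ' in 𝓝[F] θ,
      ∑ i with P.side i = τ, ω i * chg (P.N i) (P.s i) θ θ' ≤ K * dist θ θ')
    {θ θ' : E} (hθ : θ ∈ F) (hθ' : θ' ∈ F) :
    ∑ c with X.D.typ c = τ, ω c.1 * |X.D.s c θ - X.D.s c θ'| ≤ K * dist θ θ' := by
  classical
  set w : (Σ i, P.J i q) → E → ℝ := fun c x =>
    if X.D.typ c = τ then ω c.1 * X.D.s c x else 0 with hw
  have hd : ∀ x y, dsum w x y = ∑ c with X.D.typ c = τ, ω c.1 * |X.D.s c y - X.D.s c x| := by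
    intro x y
    rw [dsum, Finset.sum_filter]
    refine Finset.sum_congr rfl fun c _ => ?_
    by_cases h : X.D.typ c = τ
    · rw [hw]
      simp only [if_pos h]
      rw [← mul_sub, abs_mul, abs_of_nonneg (hω c.1)]
    · rw [hw]
      simp only [if_neg h, sub_self, abs_zero]
  have hcont : ∀ c, ContinuousOn (w c) F := by
    intro c
    by_cases h : X.D.typ c = τ
    · rw [hw]
      simp only [if_pos h]
      exact continuousOn_const.mul ((X.D.s_cont c).mono hFB)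
    · rw [hw]
      simp only [if_neg h]
      exact continuousOn_const
  have hmain := dsum_le_of_local hF hcont (K := K) (fun x hx => by
    filter_upwards [hloc x hx, (X.eventually_sum_le hω τ (hFB hx)).filter_mono
      (nhdsWithin_mono x hFB)] with y h1 h2
    rw [hd, dist_comm]
    exact h2.trans h1) hθ' hθ
  rw [hd] at hmain
  exact hmain

end BoxIn

end P073.H142
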