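import Vale.Agent.P073.H936.K3Tube
import Vale.Agent.P073.H142.LevSum
import Vale.Agent.P073.H880.Box3

/-!
# P073, block H142 (K3CELL): one drawn cell in a box

`Loc D u`: the functions `u` change locally at most as the levels of the drawn sheets.  In a closed
drawn cell this is bounded by the explicit level functions of the caps, whose boundary values are
controlled by the old homeomorphism.
-/

open Set Metric Topology Filter
open scoped ENNReal

namespace P073.H142

open P073 P073.H936 P073.TR P073.H267 P073.H880 P073.H936.K3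

section cost

variable {κ κ' E : Type*} [TopologicalSpace E] [Fintype κ] [Fintype κ']

/-- a local bound of the changes by a symmetric cost gives a bound along curves -/
theorem dsum_le_cvar {u : κ → E → ℝ} {Z : Set E} {cst : E → E → ℝ} (hsym : ∀ x y, cst x y = cst y x)
    (hloc : ∀ x ∈ Z, ∀ᶠ y in 𝓝[Z] x, dsum u x y ≤ cst x y) {γ : ℝ → E} {a b : ℝ} (hab : a ≤ b)
    (hγ : ContinuousOn γ (Icc a b)) (hZ : MapsTo γ (Icc a b) Z) :
    ENNReal.ofReal (dsum u (γ a) (γ b)) ≤
      cvar (fun s t => ENNReal.ofReal (cst (γ s) (γ t))) a b := by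
  refine cost_le_of_local (c := fun s t => ENNReal.ofReal (dsum u (γ s) (γ t)))
    (μ := fun s t => cvar (fun s t => ENNReal.ofReal (cst (γ s) (γ t))) s t) (a := a) (b := b)
    ?_ ?_ ?_ ?_ ⟨le_refl _, hab⟩ ⟨hab, le_refl _⟩ hab
  · intro s _ m _ t _ hsm hmt
    exact cvar_add_le hsm hmt
  · intro t
    simp [dsum_self]
  · intro s _ m _ t _ _ _
    rw [← ENNReal.ofReal_add (dsum_nonneg _ _ _) (dsum_nonneg _ _ _)]
    exact ENNReal.ofReal_le_ofReal (dsum_triangle _ _ _ _)
  · intro t ht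
    have h2 : Tendsto γ (𝓝[Icc a b] t) (𝓝[Z] (γ t)) := by
      refine tendsto_nhdsWithin_iff.2 ⟨hγ t ht, ?_⟩
      filter_upwards [self_mem_nhdsWithin] with s hs using hZ hs
    filter_upwards [h2.eventually (hloc _ (hZ ht))] with s h4
    refine ⟨fun hts => ?_, fun hst => ?_⟩
    · exact (ENNReal.ofReal_le_ofReal h4).trans (le_cvar hts)
    · refine le_trans (ENNReal.ofReal_le_ofReal ?_) (le_cvar hst)
      rw [dsum_comm, hsym]; exact h4

/-- the same for the whole variation -/
theorem cvar_dsum_le {u : κ → E → ℝ} {Z : Set E} {cst : E → E → ℝ}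
    (hsym : ∀ x y, cst x y = cst y x)
    (hloc : ∀ x ∈ Z, ∀ᶠ y in 𝓝[Z] x, dsum u x y ≤ cst x y) {γ : ℝ → E} {a b : ℝ}
    (hγ : ContinuousOn γ (Icc a b)) (hZ : MapsTo γ (Icc a b) Z) :
    cvar (fun s t => ENNReal.ofReal (dsum u (γ s) (γ t))) a b ≤
      cvar (fun s t => ENNReal.ofReal (cst (γ s) (γ t))) a b := by
  rcases le_or_gt a b with hab | hab
  swap
  · refine cvar_le_iff.2 fun n v hv h => ?_
    exact absurd ((h 0).1.trans (h 0).2) (not_le.2 hab)
  refine P073.H880.cvar_le_of_le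
    (μ := fun s t => cvar (fun s t => ENNReal.ofReal (cst (γ s) (γ t))) s t) hab ?_ ?_
  · intro s hs t ht hst
    have hsub : Icc s t ⊆ Icc a b := Icc_subset_Icc hs.1 ht.2
    exact dsum_le_cvar hsym hloc hst (hγ.mono hsub) fun r hr => hZ (hsub hr)
  · intro s _ m _ t _ hsm hmt
    exact cvar_add_le hsm hmt

end cost

variable {ι : Type*} {E : Type} [NormedAddCommGroup E] [NormedSpace ℝ E] [Fintype ι]
  {side : ι → Bool} {ax : Bool → Fin 3} {lo hi : Fin 3 → ℝ} {c w : ι → ℝ} {U : Set E} {Q : Type}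

section

variable (D : BoxK side ax lo hi c w U Q)

/-- the functions `u` change locally at most as the levels of the drawn sheets -/
def Loc {κ : Type*} [Fintype κ] (u : κ → E → ℝ) : Prop :=
  ∀ x ∈ U, ∀ᶠ y in 𝓝[U] x, dsum u x y ≤ tot D.vf.N D.vf.s x y

/-- the clipped levels of the old homeomorphism -/
noncomputable def old (i : ι) (x : E) : ℝ := wlev side ax 1 c w D.h.toFun i x

end

variable {D : BoxK side ax lo hi c w U Q}

theorem Loc.of_switched {r : ℝ} {g : ConHomeo U (Icc lo hi)} (T : D.Switched r g) (h0 : 0 < r)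
    (h1 : r < 1) : Loc D (wlev side ax r c w g.toFun) := fun _ hx => T.eventually_dsum_le h0 h1 hx

theorem Loc.of_tube {g : ConHomeo U (Icc lo hi)} (T : D.Tube g) :
    Loc D (wlev side ax 1 c w g.toFun) := fun _ hx => T.eventually_dsum_le hx

theorem tot_le_old (D : BoxK side ax lo hi c w U Q) (x y : E) :
    tot D.pre.N D.pre.s x y ≤ dsum (old D) x y :=
  tot_le_wlev (fun m => (D.H.ok m).pos)
    (fun m _ hx => (D.pre_N m (D.pre_N_sub m hx)).1 hx) (fun m _ _ => D.pre_s m _) x y

variable {κ : Type*} [Fintype κ] {u : κ → E → ℝ} (hu : Loc D u)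

include hu

/-- outside the open cells the change is at most the change of the old levels -/
theorem Loc.rest {x : E} (hx : x ∈ U) : ∀ᶠ y in 𝓝[U] x, (∀ q, y ∉ interior (D.K.C q)) →
    dsum u x y ≤ dsum (old D) x y := by
  filter_upwards [hu x hx, nhdsWithin_le_nhds (P073.H880.tot_le_old D.pre x)] with y h3 h4 h5
  exact (h3.trans (h4 h5)).trans (tot_le_old D x y)

/-- the variation along a curve outside the open cells -/
theorem Loc.rest_cvar {γ : ℝ → E} {a b : ℝ} (hγ : ContinuousOn γ (Icc a b))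
    (hU : MapsTo γ (Icc a b) U) (hV : ∀ t ∈ Icc a b, ∀ q, γ t ∉ interior (D.K.C q)) :
    cvar (fun s t => ENNReal.ofReal (dsum u (γ s) (γ t))) a b ≤
      cvar (fun s t => ENNReal.ofReal (dsum (old D) (γ s) (γ t))) a b := by
  refine cvar_dsum_le (Z := {x | x ∈ U ∧ ∀ q, x ∉ interior (D.K.C q)}) (dsum_comm _) ?_ hγ
    fun t ht => ⟨hU ht, hV t ht⟩
  intro x hx
  filter_upwards [(hu.rest hx.1).filter_mono (nhdsWithin_mono x fun y hy => hy.1),
    self_mem_nhdsWithin] with y h1 h2
  exact h1 h2.2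

/-- **in a closed cell** the change is at most the change of the levels of the caps -/
theorem Loc.cell (q : Q) [Fintype (Σ i, D.bi.J i q)] {x : E} (hx : x ∈ D.K.C q) :
    ∀ᶠ y in 𝓝[D.K.C q] x,
      dsum u x y ≤ dsum (fun d => (D.K.chart q).lev (D.bi.nestCirc q).D d) x y := by
  have e : D.pre.V q ∪ D.pre.B q = D.K.C q := D.bi.VB_eq q
  filter_upwards [(hu x (D.K.sub q hx)).filter_mono (nhdsWithin_mono x (D.K.sub q)),
    nhdsWithin_le_nhds (tot_le_ctot_closed D.pre x), self_mem_nhdsWithin] with y h1 h2 h3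
  refine (h1.trans (h2 q (by rw [e]; exact hx) (by rw [e]; exact h3))).trans ?_
  exact ctot_le_lev D.bi.nestCirc D.K.chart q x y

omit hu in
/-- **the circles on the boundary of a cell**, local form -/
theorem eventually_sum_s_le (D : BoxK side ax lo hi c w U Q) (q : Q)
    [Fintype (Σ i, D.bi.J i q)] {θ : E} (hθ : θ ∈ frontier (D.K.C q)) :
    ∀ᶠ θ' in 𝓝[frontier (D.K.C q)] θ,
      dsum (fun d => (D.bi.nestCirc q).D.s d) θ θ' ≤ dsum (old D) θ θ' := by
  classical
  have h1 := (D.bi.nestCirc q).eventually_sum_le (ω := fun _ => 1) (fun _ => zero_le_one) true hθ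
  have h2 := (D.bi.nestCirc q).eventually_sum_le (ω := fun _ => 1) (fun _ => zero_le_one) false hθ
  filter_upwards [h1, h2] with θ' h1 h2
  refine le_trans ?_ (tot_le_old D θ θ')
  have e1 : dsum (fun d => (D.bi.nestCirc q).D.s d) θ θ' =
      ∑ b : Bool, ∑ d with (D.bi.nestCirc q).D.typ d = b,
        |(D.bi.nestCirc q).D.s d θ' - (D.bi.nestCirc q).D.s d θ| := by
    rw [dsum, ← Finset.sum_fiberwise (g := (D.bi.nestCirc q).D.typ)]
  have e2 : tot D.pre.N D.pre.s θ θ' =
      ∑ b : Bool, ∑ i with D.bi.side i = b, chg (D.bi.N i) (D.bi.s i) θ θ' := by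
    rw [Finset.sum_fiberwise]
    rfl
  rw [e1, e2, Fintype.sum_bool, Fintype.sum_bool]
  simp only [one_mul] at h1 h2
  exact add_le_add h1 h2

omit hu in
/-- **the circles on the boundary of a cell**, along curves in the boundary -/
theorem sum_s_le_cvar (D : BoxK side ax lo hi c w U Q) (q : Q) [Fintype (Σ i, D.bi.J i q)]
    {γ : ℝ → E} {a b : ℝ} (hab : a ≤ b) (hγ : ContinuousOn γ (Icc a b))
    (hB : MapsTo γ (Icc a b) (frontier (D.K.C q))) :
    ENNReal.ofReal (dsum (fun d => (D.bi.nestCirc q).D.s d) (γ a) (γ b)) ≤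
      cvar (fun s t => ENNReal.ofReal (dsum (old D) (γ s) (γ t))) a b :=
  dsum_le_cvar (dsum_comm _) (fun _ hθ => eventually_sum_s_le D q hθ) hab hγ hB

end P073.H142
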