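import Vale.Agent.P073.H142.K3Cell
import Vale.Agent.P073.H950.CubePoint

/-!
# P073, block H142 (K3CELL): dyadic cells in a box
-/

open Set Metric Topology Filter
open scoped ENNReal

namespace P073.H142

open P073 P073.H936 P073.TR P073.H267 P073.H880 P073.H936.K3 P073.H950
open Vale.Agent.P073.St (V)
open Vale.Agent.P073.AB (Idx)
open P073.Net (dyc dyo)

theorem interior_dyc' (v : V) (m : ℕ) (z : Fin 3 → ℤ) : interior (dyc v m z) = dyo v m z := by
  rw [← Chart.dyc_eq, ← Chart.dyo_eq, interior_closedBall _ (Chart.half_pos' m).ne']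

theorem closure_dyo' (v : V) (m : ℕ) (z : Fin 3 → ℤ) : closure (dyo v m z) = dyc v m z := by
  rw [← Chart.dyc_eq, ← Chart.dyo_eq, closure_ball _ (Chart.half_pos' m).ne']

theorem frontier_dyc' (v : V) (m : ℕ) (z : Fin 3 → ℤ) :
    frontier (dyc v m z) = dyc v m z \ dyo v m z := by
  rw [frontier, interior_dyc', ← closure_dyo', closure_closure]

theorem locCone_dyc (v : V) (m : ℕ) (z : Fin 3 → ℤ) : LocCone (dyc v m z) := by
  have h : dyc v m z = Icc (fun k => v k + z k / 2 ^ m) (fun k => v k + (z k + 1) / 2 ^ m) := by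
    ext x
    exact ⟨fun h => ⟨fun k => (h k).1, fun k => (h k).2⟩, fun h k => ⟨h.1 k, h.2 k⟩⟩
  rw [h]
  exact locCone_Icc_pi _ _

/-- **dyadic cells** -/
noncomputable def dyCells {Q : Type} {U Bd : Set V} (v : V) (idx : Q → Idx) (hfin : Finite Q)
    (hdis : ∀ q q', q ≠ q' → Disjoint (dyo v (idx q).1 (idx q).2) (dyo v (idx q').1 (idx q').2))
    (hsub : ∀ q, dyc v (idx q).1 (idx q).2 ⊆ U)
    (hbd : ∀ q, Disjoint (dyc v (idx q).1 (idx q).2) Bd) : Cells Q U Bd where
  C := fun q => dyc v (idx q).1 (idx q).2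
  fin := hfin
  reg := fun q => by rw [interior_dyc', closure_dyo']
  disj := fun q q' h => by rw [interior_dyc', interior_dyc']; exact hdis q q' h
  cone := fun q => locCone_dyc v _ _
  sub := hsub
  bd := hbd
  chart := fun q => (Chart.dya v (idx q)).cast rfl (frontier_dyc' v _ _).symm

end P073.H142
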