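import Vale.Agent.P073.H142.PS3
import Vale.Agent.P073.H233.Tail3B

/-!
# P073, block H142 ([FACE3]), part 1: alive coordinates in the processed plates

`PClosed X`: the edges and the vertices of the processed squares are processed.
`lat_peeled`: the estimate `LAt` at a point of a processed plate from the estimate of the
coordinates in the windows.
-/

open Set Metric Topology Filter MeasureTheory
open scoped ENNReal

namespace P073.H142

open P073 P073.Net P073.PA691 Vale.Agent.P073.H471 Vale.Agent.P073.H267 P073.H236 P073.H345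
  P073.H579
open Vale.Agent.P073.St (V)
open Vale.Agent.P073.H73 (Mesh)
open Vale.Agent.P073.H193 (Edges)
open Vale.Agent.P073.H233 (PSet LAt)

variable {Ω Λ : Set V} {v : V} {K : BoxCx Λ v} {S : Rad K} {W : Wid K S} {B : Boxes W}
  {X : PSet K}

/-- the edges and the vertices of the processed squares are processed -/
structure PClosed (X : PSet K) : Prop where
  e : ∀ s ∈ X.s, ∀ i, K.edge i ⊆ K.sq s → i ∈ X.e
  a : ∀ s ∈ X.s, ∀ i, K.edge i ⊆ K.sq s → K.a i ∈ X.w
  b : ∀ s ∈ X.s, ∀ i, K.edge i ⊆ K.sq s → K.b i ∈ X.w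

/-- **`LAt` at a point of a processed plate** -/
theorem lat_peeled (G : Geo B) (hX : PClosed X) {s : K.S} (hs : s ∈ X.s) {c Lc : ℝ}
    (hc : 0 ≤ c) {A : Set V} {f : V → V} {x : V} (hcx : ContinuousWithinAt f A x)
    (hPB : f x ∈ G.PB c s) (hn : |f x (K.nrm s) - K.slo s (K.nrm s)| < B.τ s)
    (hlip : ∀ᶠ x' in 𝓝[A] x, ∀ j, j ≠ K.nrm s → f x j ∈ pwin G s j →
      f x' j ∈ pwin G s j → |f x' j - f x j| ≤ Lc * ‖x' - x‖) : LAt B X Lc A f x := by
  have ha := G.a_pos s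
  have hau := G.a_u s
  have key : ∀ j, j ≠ K.nrm s → K.slo s j + 2 * G.a s ≤ f x j → f x j ≤ K.shi s j - 2 * G.a s →
      ∀ᶠ x' in 𝓝[A] x, |f x' j - f x j| ≤ Lc * ‖x' - x‖ := by
    intro j hj h1 h2
    have h3 : Tendsto (fun x' => f x' j) (𝓝[A] x) (𝓝 (f x j)) :=
      ((continuous_apply j).tendsto _).comp hcx
    have h4 : Ioo (K.slo s j + G.a s) (K.shi s j - G.a s) ∈ 𝓝 (f x j) :=
      Ioo_mem_nhds (by linarith) (by linarith)
    filter_upwards [h3 h4, hlip] with x' h5 h6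
    exact h6 j hj ⟨by linarith, by linarith⟩ ⟨h5.1.le, h5.2.le⟩
  rcases G.cover_pt hc hPB hn with ⟨h1, -, h2⟩ | ⟨i, h1, -, h2, h3, h4⟩ | ⟨i, hi, h1⟩
  · refine Or.inr (Or.inl ⟨s, hs, h1, ?_⟩)
    rw [eventually_all]
    intro j
    by_cases hj : j = K.nrm s
    · exact Eventually.of_forall fun x' h => absurd hj h
    · obtain ⟨h3, h4⟩ := h2 j hj
      filter_upwards [key j hj (by linarith) (by linarith)] with x' hx' _
      exact hx'
  · refine Or.inr (Or.inr (Or.inl ⟨i, hX.e s hs i h1, ?_,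
      key _ (nrm_ne_dir h1).symm (by linarith) (by linarith)⟩))
    have hT := B.T_pos i
    exact mem_interior_iff_mem_nhds.2 (mem_of_superset (closedBall_mem_nhds _ (by positivity)) h2)
  · rcases h1 with h1 | h1
    · exact Or.inr (Or.inr (Or.inr ⟨_, hX.a s hs i hi, h1.1⟩))
    · exact Or.inr (Or.inr (Or.inr ⟨_, hX.b s hs i hi, h1.1⟩))

/-- `ConeAtB` in processed boxes -/
theorem lat_of_coneAtB {L : ℝ} {A : Set V} {f : V → V} {x : V} (h : ConeAtB B L A f x)
    (h1 : ∀ s, f x ∈ interior (B.P s) → s ∈ X.s) (h2 : ∀ i, f x ∈ interior (B.E i) → i ∈ X.e)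
    (h3 : ∀ i, f x ∈ interior (Zv W i) → i ∈ X.w) : LAt B X L A f x := by
  rcases h with ⟨s, h4, h5⟩ | ⟨i, h4, h5⟩ | ⟨i, h4⟩
  · exact Or.inr (Or.inl ⟨s, h1 s h4, interior_mono (B.P_subset s) h4, h5⟩)
  · exact Or.inr (Or.inr (Or.inl ⟨i, h2 i h4, h4, h5⟩))
  · exact Or.inr (Or.inr (Or.inr ⟨i, h3 i h4, h4⟩))

end P073.H142
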