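import Vale.Agent.P073.H142.Hull
import Vale.Agent.P073.H304.SpecB

/-!
# P073, block H142 (LIPFIN): the local Lipschitz bound of the final map on a drawn cell
-/

open Set Metric Topology Filter MeasureTheory
open scoped ENNReal

namespace P073.H142

open P073 P073.H880
open Vale.Agent.P073.St (V)
open Vale.Agent.P073.H304 (LipBd)

theorem lintegral_add_const_rpow_le {C : Set V} {K : V → ℝ} (hKm : UpperSemicontinuous K)
    (hK : ∀ x, 0 ≤ K x) {c : ℝ} (hc : 0 ≤ c) {p : ℝ} (hp : 1 ≤ p) :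
    ∫⁻ x in C, ENNReal.ofReal ((K x + c) ^ p) ≤ ENNReal.ofReal (2 ^ (p - 1)) *
      ((∫⁻ x in C, ENNReal.ofReal (K x ^ p)) + ENNReal.ofReal (c ^ p) * volume C) := by
  have hp0 : 0 < p := by linarith
  have h4 : ∀ z, ENNReal.ofReal ((K z + c) ^ p)
      ≤ ENNReal.ofReal (2 ^ (p - 1)) * (ENNReal.ofReal (K z ^ p) + ENNReal.ofReal (c ^ p)) := by
    intro z
    have h5 := ENNReal.rpow_add_le_mul_rpow_add_rpow (ENNReal.ofReal (K z)) (ENNReal.ofReal c) hp
    rw [← ENNReal.ofReal_add (hK z) hc, ENNReal.ofReal_rpow_of_nonneg (add_nonneg (hK z) hc) hp0.le,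
      ENNReal.ofReal_rpow_of_nonneg (hK z) hp0.le, ENNReal.ofReal_rpow_of_nonneg hc hp0.le] at h5
    refine h5.trans (le_of_eq ?_)
    congr 1
    have h6 : (2 : ℝ≥0∞) = ENNReal.ofReal 2 := by simp
    rw [h6, ENNReal.ofReal_rpow_of_nonneg (by norm_num) (by linarith)]
  refine (lintegral_mono h4).trans ?_
  rw [lintegral_const_mul _ (((hKm.measurable).pow_const p).ennreal_ofReal.add_const _)]
  gcongr
  rw [lintegral_add_right _ measurable_const, setLIntegral_const]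

/-- **[LIPFIN]** `g` is the homeomorphism after the switch, `T` the final map of the target. There is
a constant `L` of `g` on the cell such that: if the change of `T ∘ g` is locally at most
`a * (change of the levels) + ε * (change of g)`, then `K + ε * L` is a local Lipschitz bound. -/
theorem exists_lipBd {Ω : Set V} (hΩ : IsOpen Ω) {g : V → V} (hg : ConicalOn g Ω)
    (hgc : ContinuousOn g Ω) {C : Set V} (hC : IsCompact C) (hcv : Convex ℝ C) (hCΩ : C ⊆ Ω) :
    ∃ L : ℝ, 0 ≤ L ∧ ∀ (κ : Type) (_ : Fintype κ) (u : κ → V → ℝ) (T : V → V) (a ε p : ℝ)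
      (K : V → ℝ), 0 ≤ ε → 1 ≤ p → UpperSemicontinuous K → (∀ x, 0 ≤ K x) →
      (∀ x ∈ C, ∀ᶠ y in 𝓝[C] x, a * dsum u x y ≤ K x * dist y x) →
      (∀ x ∈ C, ∀ᶠ y in 𝓝[C] x, ‖T (g y) - T (g x)‖ ≤ a * dsum u x y + ε * ‖g y - g x‖) →
      LipBd (fun x => T (g x)) C (fun x => K x + ε * L) ∧
      ∫⁻ x in C, ENNReal.ofReal ((K x + ε * L) ^ p) ≤ ENNReal.ofReal (2 ^ (p - 1)) *
        ((∫⁻ x in C, ENNReal.ofReal (K x ^ p)) + ENNReal.ofReal ((ε * L) ^ p) * volume C) := by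
  obtain ⟨L, hL, hLip⟩ := exists_lip_of_compact hΩ hg hgc hC hcv hCΩ
  refine ⟨L, hL, fun κ _ u T a ε p K hε hp hK hK0 h1 h2 => ⟨⟨?_, ?_, ?_, ?_⟩, ?_⟩⟩
  · exact (hK.add upperSemicontinuous_const).upperSemicontinuousOn C
  · exact fun x _ => add_nonneg (hK0 x) (mul_nonneg hε hL)
  · exact UpperSemicontinuousOn.bddAbove_of_isCompact hC
      ((hK.add upperSemicontinuous_const).upperSemicontinuousOn C)
  · intro x hx
    filter_upwards [h1 x hx, h2 x hx, self_mem_nhdsWithin] with y h3 h4 hy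
    have h5 := mul_le_mul_of_nonneg_left (hLip y hy x hx) hε
    rw [dist_eq_norm] at h3
    calc ‖T (g y) - T (g x)‖ ≤ K x * ‖y - x‖ + ε * (L * ‖y - x‖) := by linarith
      _ = (K x + ε * L) * ‖y - x‖ := by ring
  · exact lintegral_add_const_rpow_le hK hK0 (mul_nonneg hε hL) hp

end P073.H142
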