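import Vale.Agent.P073.H155.BdD
import Vale.Agent.P073.H880.Met4

/-!
# P073, block H142: paths in a peeled face with controlled variation of the model functions
-/

open Set Metric Topology Filter
open scoped ENNReal

namespace P073.H142

open P073 P073.H31 P073.H155 P073.H880

theorem dmd_comm (ws : ℝ) (A : ℕ → ArcD) (k : ℕ) (x y : ℝ × ℝ) :
    dmd ws A k x y = dmd ws A k y x := by
  unfold dmd
  exact Finset.sum_congr rfl fun i _ => by rw [abs_sub_comm]

theorem tri_dmd {ws : ℝ} {A : ℕ → ArcD} {k : ℕ} (hA : ∀ i < k, 0 < (A i).om) (γ : ℝ → ℝ × ℝ)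
    (a b : ℝ) : Tri (fun s t => ENNReal.ofReal (dmd ws A k (γ s) (γ t))) a b := by
  intro s _ m _ t _ _ _
  have h0 : ∀ x y, 0 ≤ dmd ws A k x y := fun x y =>
    Finset.sum_nonneg fun i hi => mul_nonneg (hA i (Finset.mem_range.1 hi)).le (abs_nonneg _)
  rw [← ENNReal.ofReal_add (h0 _ _) (h0 _ _)]
  refine ENNReal.ofReal_le_ofReal ?_
  unfold dmd
  rw [← Finset.sum_add_distrib]
  refine Finset.sum_le_sum fun i hi => ?_
  rw [← mul_add]
  exact mul_le_mul_of_nonneg_left (abs_sub_le _ _ _) (hA i (Finset.mem_range.1 hi)).le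

/-- a Lipschitz cost has small variation -/
theorem cvar_le_mul {c : ℝ → ℝ → ℝ≥0∞} {a b K : ℝ} (hab : a ≤ b) (hK : 0 ≤ K)
    (h : ∀ s ∈ Icc a b, ∀ t ∈ Icc a b, s ≤ t → c s t ≤ ENNReal.ofReal (K * (t - s))) :
    cvar c a b ≤ ENNReal.ofReal (K * (b - a)) := by
  refine cvar_le_of_le (μ := fun s t => ENNReal.ofReal (K * (t - s))) hab h ?_
  intro s _ m _ t _ hsm hmt
  rw [← ENNReal.ofReal_add (mul_nonneg hK (by linarith)) (mul_nonneg hK (by linarith))]
  exact ENNReal.ofReal_le_ofReal (by linarith)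

/-- the path: down, along the bottom side, up -/
noncomputable def pth (x y : ℝ × ℝ) (t : ℝ) : ℝ × ℝ :=
  (x.1 + cl1 (t - 1) * (y.1 - x.1), x.2 * cl1 (1 - t) + y.2 * cl1 (t - 2))

theorem continuous_pth (x y : ℝ × ℝ) : Continuous (pth x y) := by
  unfold pth cl1; fun_prop

theorem pth_zero (x y : ℝ × ℝ) : pth x y 0 = x := by
  unfold pth
  rw [cl1_eq_zero (by norm_num), cl1_eq_one (by norm_num), cl1_eq_zero (by norm_num)]
  simp

theorem pth_three (x y : ℝ × ℝ) : pth x y 3 = y := by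
  unfold pth
  rw [cl1_eq_one (by norm_num), cl1_eq_zero (by norm_num), cl1_eq_one (by norm_num)]
  simp

theorem pth_mem {x y : ℝ × ℝ} (hx : x ∈ Rct) (hy : y ∈ Rct) (t : ℝ) : pth x y t ∈ Rct := by
  obtain ⟨⟨a1, a2⟩, b1, b2⟩ := hx
  obtain ⟨⟨c1, c2⟩, d1, d2⟩ := hy
  have h0 := cl1_nonneg (t - 1)
  have h1 := cl1_le_one (t - 1)
  refine ⟨⟨?_, ?_⟩, ?_, ?_⟩
  · show 0 ≤ x.1 + cl1 (t - 1) * (y.1 - x.1)
    nlinarith
  · show x.1 + cl1 (t - 1) * (y.1 - x.1) ≤ 1
    nlinarith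
  · exact add_nonneg (mul_nonneg b1 (cl1_nonneg _)) (mul_nonneg d1 (cl1_nonneg _))
  · show x.2 * cl1 (1 - t) + y.2 * cl1 (t - 2) ≤ 1
    rcases le_total t 2 with h | h
    · rw [cl1_eq_zero (show t - 2 ≤ 0 by linarith), mul_zero, add_zero]
      exact mul_le_one₀ b2 (cl1_nonneg _) (cl1_le_one _)
    · rw [cl1_eq_zero (show 1 - t ≤ 0 by linarith), mul_zero, zero_add]
      exact mul_le_one₀ d2 (cl1_nonneg _) (cl1_le_one _)

theorem cvar_pth {ws : ℝ} {A : ℕ → ArcD} {k : ℕ} (h0 : 0 < ws) (hA : ∀ i < k, 0 < (A i).om)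
    {x y : ℝ × ℝ} (hx : x ∈ Rct) (hy : y ∈ Rct) :
    cvar (fun s t => ENNReal.ofReal (dmd ws A k (pth x y s) (pth x y t))) 0 3 ≤
      ENNReal.ofReal (4 * Wt ws A k) := by
  have hW := Wt_pos h0 hA
  set c : ℝ → ℝ → ℝ≥0∞ := fun s t => ENNReal.ofReal (dmd ws A k (pth x y s) (pth x y t)) with hc
  have htri : ∀ a b, Tri c a b := fun a b => tri_dmd hA _ a b
  have hv : ∀ a t t' : ℝ, dmd ws A k (a, t) (a, t') ≤ 2 * Wt ws A k * |t - t'| :=
    fun a t t' => vert h0 hA a t t'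
  have e1 : cvar c 0 1 ≤ ENNReal.ofReal (2 * Wt ws A k * (1 - 0)) := by
    refine cvar_le_mul zero_le_one (by positivity) fun s hs t ht hst => ?_
    refine ENNReal.ofReal_le_ofReal ?_
    have e : ∀ t ∈ Icc (0:ℝ) 1, pth x y t = (x.1, x.2 * (1 - t)) := by
      intro t ht
      unfold pth
      rw [cl1_eq_zero (by linarith [ht.2]), cl1_eq_self (by linarith [ht.2]) (by linarith [ht.1]),
        cl1_eq_zero (by linarith [ht.2])]
      simp
    rw [e s hs, e t ht]
    refine (hv _ _ _).trans (mul_le_mul_of_nonneg_left ?_ (by positivity))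
    rw [← mul_sub, abs_mul, abs_of_nonneg hx.2.1]
    have : |1 - s - (1 - t)| = t - s := by rw [abs_of_nonneg (by linarith)]; ring
    rw [this]
    exact mul_le_of_le_one_left (by linarith) hx.2.2
  have e2 : cvar c 1 2 ≤ ENNReal.ofReal (0 * (2 - 1)) := by
    refine cvar_le_mul one_le_two le_rfl fun s hs t ht hst => ?_
    refine ENNReal.ofReal_le_ofReal ?_
    have e : ∀ t ∈ Icc (1:ℝ) 2, (pth x y t).2 = 0 := by
      intro t ht
      show x.2 * cl1 (1 - t) + y.2 * cl1 (t - 2) = 0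
      rw [cl1_eq_zero (show 1 - t ≤ 0 by linarith [ht.1]),
        cl1_eq_zero (show t - 2 ≤ 0 by linarith [ht.2])]
      simp
    unfold dmd
    rw [e s hs, e t ht]
    refine le_of_eq ?_
    rw [zero_mul]
    refine Finset.sum_eq_zero fun i _ => ?_
    rw [md_bot h0 hA, md_bot h0 hA, sub_self, abs_zero, mul_zero]
  have e3 : cvar c 2 3 ≤ ENNReal.ofReal (2 * Wt ws A k * (3 - 2)) := by
    refine cvar_le_mul (by norm_num) (by positivity) fun s hs t ht hst => ?_
    refine ENNReal.ofReal_le_ofReal ?_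
    have e : ∀ t ∈ Icc (2:ℝ) 3, pth x y t = (y.1, y.2 * (t - 2)) := by
      intro t ht
      unfold pth
      rw [cl1_eq_one (by linarith [ht.1]), cl1_eq_zero (by linarith [ht.1]),
        cl1_eq_self (by linarith [ht.1]) (by linarith [ht.2])]
      simp
    rw [e s hs, e t ht]
    refine (hv _ _ _).trans (mul_le_mul_of_nonneg_left ?_ (by positivity))
    rw [← mul_sub, abs_mul, abs_of_nonneg hy.2.1]
    have : |s - 2 - (t - 2)| = t - s := by rw [abs_of_nonpos (by linarith)]; ring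
    rw [this]
    exact mul_le_of_le_one_left (by linarith) hy.2.2
  calc cvar c 0 3 ≤ cvar c 0 1 + cvar c 1 3 := cvar_le_add (htri _ _) (by norm_num) (by norm_num)
    _ ≤ cvar c 0 1 + (cvar c 1 2 + cvar c 2 3) :=
        add_le_add le_rfl (cvar_le_add (htri _ _) (by norm_num) (by norm_num))
    _ ≤ ENNReal.ofReal (2 * Wt ws A k * (1 - 0)) + (ENNReal.ofReal (0 * (2 - 1)) +
        ENNReal.ofReal (2 * Wt ws A k * (3 - 2))) := add_le_add e1 (add_le_add e2 e3)
    _ = ENNReal.ofReal (4 * Wt ws A k) := by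
        rw [← ENNReal.ofReal_add (by norm_num) (by positivity), ← ENNReal.ofReal_add
          (by positivity) (by positivity)]
        congr 1; ring

end P073.H142
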