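import Vale.Agent.P073.SCH.Nest
import Vale.Agent.P073.SCH.DiscIn
import Vale.Agent.P073.TR.Level2

/-!
# P073, block H142 (P2c): discs around the sublevel set of a conical function, planar form
-/

open Set Metric Topology Filter

namespace P073.H142

open P073 P073.SCH P073.TR

theorem exists_one_of_cover {X : Type*} [TopologicalSpace X] {J : Type*} {C : Set X}
    (hC : IsPreconnected C) (hne : C.Nonempty) {W : J → Set X} (hW : ∀ j, IsOpen (W j))
    (hd : ∀ j k, j ≠ k → Disjoint (W j) (W k)) (hcov : C ⊆ ⋃ j, W j) : ∃ j, C ⊆ W j := by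
  obtain ⟨x, hx⟩ := hne
  obtain ⟨j, hj⟩ := mem_iUnion.1 (hcov hx)
  refine ⟨j, hC.subset_left_of_subset_union (hW j)
    (isOpen_iUnion fun k : {k // k ≠ j} => hW k) ?_ ?_ ⟨x, hx, hj⟩⟩
  · rw [disjoint_left]
    intro y hy hy'
    obtain ⟨⟨k, hk⟩, hyk⟩ := mem_iUnion.1 hy'
    exact disjoint_left.1 (hd k j hk) hyk hy
  · intro y hy
    obtain ⟨k, hk⟩ := mem_iUnion.1 (hcov hy)
    by_cases h : k = j
    · exact Or.inl (h ▸ hk)
    · exact Or.inr (mem_iUnion.2 ⟨⟨k, h⟩, hk⟩)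

/-- **The discs around a sublevel set, in the plane.** -/
theorem exists_necks_plane {S : Set (ℝ × ℝ)} (hS : AmbDisc S) {u : ℝ × ℝ → ℝ}
    (hu : ConicalOn u S) (huc : ContinuousOn u S) (hub : ∀ x ∈ frontier S, 0 < u x)
    {J : Type*} {W : J → Set (ℝ × ℝ)} (hW : ∀ j, IsOpen (W j))
    (hWd : ∀ j k, j ≠ k → Disjoint (W j) (W k))
    (hcov : ∀ x ∈ S, u x ≤ 0 → (∀ᶠ y in 𝓝[S] x, u y ≤ 0) ∨ ∃ j, x ∈ W j) {a₀ : ℝ} (ha₀ : 0 < a₀) :
    ∃ a ∈ Ioo 0 a₀, ∃ (I : Type) (_ : Finite I) (D : I → Set (ℝ × ℝ)),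
      (∀ i, AmbDisc (D i)) ∧ (∀ i k, i ≠ k → Disjoint (D i) (D k)) ∧
      (∀ i, D i ⊆ interior S) ∧ (∀ x ∈ S, u x ≤ 0 → ∃ i, x ∈ interior (D i)) ∧
      (∀ i, ∃ j, frontier (D i) ⊆ W j) ∧ (∀ i, ∀ x ∈ frontier (D i), u x = a) ∧
      (∀ i, ∃ x ∈ interior (D i), u x ≤ 0) ∧ IsPreconnected (S \ ⋃ i, D i) := by
  classical
  have hScl := hS.isClosed
  have hSc := hS.isCompact
  have hint : ∀ x ∈ S, x ∉ frontier S → x ∈ interior S := by
    intro x hx hxf
    rw [← (AmbDisc.union_eq hS)] at hx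
    exact hx.resolve_right hxf
  have hfrS : frontier S ⊆ S := (AmbDisc.frontier_subset hS)
  have hV : ∀ x ∈ S, u x ≤ 0 → x ∈ interior S := fun x hx hux =>
    hint x hx fun h => absurd (hub x h) (not_lt.2 hux)
  -- first bound: the frontier of `S`
  have hfc : IsCompact (frontier S) := hSc.of_isClosed_subset isClosed_frontier hfrS
  obtain ⟨s₀, hs₀⟩ := (AmbDisc.frontier_nonempty hS)
  obtain ⟨s₁, hs₁, hmin₁⟩ := hfc.exists_isMinOn ⟨s₀, hs₀⟩ (huc.mono hfrS)
  have hm₁ : 0 < u s₁ := hub s₁ hs₁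
  have hm₁' : ∀ x ∈ frontier S, u s₁ ≤ u x := fun x hx => hmin₁ hx
  -- second bound: off the interior of `V` and the sets `W j`
  set V₀ : Set (ℝ × ℝ) := interior {x | x ∈ S ∧ u x ≤ 0} with hV₀
  set K : Set (ℝ × ℝ) := S \ (V₀ ∪ ⋃ j, W j) with hK
  have hKc : IsCompact K := hSc.of_isClosed_subset
    (hScl.sdiff (isOpen_interior.union (isOpen_iUnion hW))) sdiff_subset
  have hKpos : ∀ x ∈ K, 0 < u x := by
    rintro x ⟨hx, hxn⟩
    by_contra hcon
    rw [not_lt] at hcon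
    apply hxn
    rcases hcov x hx hcon with h | ⟨j, hj⟩
    · left
      have h1 := hV x hx hcon
      have h2 : ∀ᶠ y in 𝓝 x, y ∈ S → u y ≤ 0 := eventually_nhdsWithin_iff.1 h
      refine mem_interior_iff_mem_nhds.2 ?_
      filter_upwards [h2, isOpen_interior.mem_nhds h1] with y hy hyS
      exact ⟨interior_subset hyS, hy (interior_subset hyS)⟩
    · right; exact mem_iUnion.2 ⟨j, hj⟩
  obtain ⟨m₂, hm₂, hm₂'⟩ : ∃ m₂ > 0, ∀ x ∈ K, m₂ ≤ u x := by
    rcases K.eq_empty_or_nonempty with h | h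
    · exact ⟨1, one_pos, fun x hx => absurd hx (by rw [h]; exact notMem_empty x)⟩
    · obtain ⟨x, hx, hmin⟩ := hKc.exists_isMinOn h (huc.mono sdiff_subset)
      exact ⟨u x, hKpos x hx, fun y hy => hmin hy⟩
  -- the generic level
  have huI : ConicalOn u (interior S) := hu.mono (IsOpen.conicalSet isOpen_interior) interior_subset
  obtain ⟨C, hC, hgen⟩ := exists_generic_circles (E := ℝ × ℝ) (by simp) isOpen_interior huI
    (huc.mono interior_subset)
  have hlt : (0:ℝ) < min a₀ (min (u s₁) m₂) := lt_min ha₀ (lt_min hm₁ hm₂)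
  obtain ⟨a, ha, haC⟩ : ∃ a ∈ Ioo 0 (min a₀ (min (u s₁) m₂)), a ∉ C := by
    by_contra hcon
    push Not at hcon
    exact (Cardinal.Real.Ioo_countable_iff.not.2 (not_le.2 hlt)) (hC.mono hcon)
  have ha1 : a < a₀ := ha.2.trans_le (min_le_left _ _)
  have ha2 : a < u s₁ := ha.2.trans_le ((min_le_right _ _).trans (min_le_left _ _))
  have ha3 : a < m₂ := ha.2.trans_le ((min_le_right _ _).trans (min_le_right _ _))
  have hlev : {x | x ∈ interior S ∧ u x = a} = S ∩ u ⁻¹' {a} := by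
    ext x
    constructor
    · rintro ⟨h1, h2⟩; exact ⟨interior_subset h1, h2⟩
    · rintro ⟨h1, h2⟩
      have h2' : u x = a := h2
      refine ⟨hint x h1 fun h => ?_, h2⟩
      have := hm₁' x h
      linarith
  have hcomp : IsCompact {x | x ∈ interior S ∧ u x = a} := by
    rw [hlev]
    exact hSc.of_isClosed_subset (huc.preimage_isClosed_of_isClosed hScl isClosed_singleton)
      inter_subset_left
  obtain ⟨I₀, hI₀, Cs, hCU, hCd, hCc⟩ := hgen a haC hcomp
  have hlevel : ∀ i, ∀ x ∈ Cs i, x ∈ interior S ∧ u x = a := fun i x hx => by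
    have : x ∈ ⋃ j, Cs j := mem_iUnion.2 ⟨i, hx⟩
    rwa [hCU] at this
  have hex : ∀ i, ∃ D, AmbDisc D ∧ frontier D = Cs i := fun i =>
    schoenflies (H339.conSphere_iff.1 (hCc i))
  choose D hD hDf using hex
  have hDS : ∀ i, D i ⊆ interior S := fun i =>
    (AmbDisc.subset_interior_of_frontier (hD i)) hS (by rw [hDf]; exact fun x hx => (hlevel i x hx).1)
  have hdis : ∀ i k, i ≠ k → Disjoint (frontier (D i)) (frontier (D k)) := fun i k h => by
    rw [hDf, hDf]; exact hCd i k h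
  have hDinj : ∀ i k, D i = D k → i = k := by
    intro i k hik
    by_contra hne
    have := hdis i k hne
    rw [hik] at this
    obtain ⟨x, hx⟩ := (AmbDisc.frontier_nonempty (hD k))
    exact disjoint_left.1 this hx hx
  -- the maximal discs
  set M : Set I₀ := {i | ∀ k, D i ⊆ D k → i = k} with hM
  have hMmax : ∀ i, ∃ j ∈ M, D i ⊆ D j := by
    intro i
    have hfin : {k | D i ⊆ D k}.Finite := toFinite _
    obtain ⟨j, hj, hmax⟩ := hfin.exists_maximalFor D {k | D i ⊆ D k} ⟨i, Subset.refl (D i)⟩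
    refine ⟨j, fun k hjk => ?_, hj⟩
    exact hDinj _ _ (hjk.antisymm (hmax (hj.trans hjk) hjk))
  have hMdis : ∀ j ∈ M, ∀ k ∈ M, j ≠ k → Disjoint (D j) (D k) := by
    intro j hj k hk hjk
    rcases (AmbDisc.nested (hD j)) (hD k) (hdis j k hjk) with h | h | h
    · exact absurd (hj k (h.trans interior_subset)) hjk
    · exact absurd (hk j (h.trans interior_subset)).symm hjk
    · exact h
  have hcover : ∀ x ∈ S, u x ≤ 0 → ∃ i ∈ M, x ∈ interior (D i) := by
    intro x hx hux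
    have hxI := hV x hx hux
    by_contra hcon
    push Not at hcon
    have hxD : ∀ i ∈ M, x ∉ D i := by
      intro i hi hxi
      rw [← (AmbDisc.union_eq (hD i))] at hxi
      rcases hxi with h | h
      · exact hcon i hi h
      · rw [hDf] at h
        have := (hlevel i x h).2
        linarith [ha.1]
    obtain ⟨-, hpre⟩ := isPreconnected_sdiff_biUnion (D := D) isOpen_interior
      hS.isConnected_interior.isPreconnected (toFinite M) (fun j _ => hD j)
      (fun j _ => hDS j) hMdis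
    have hxT : x ∈ interior S \ ⋃ j ∈ M, D j := ⟨hxI, fun h => by
      obtain ⟨j, hj, hxj⟩ := mem_iUnion₂.1 h
      exact hxD j hj hxj⟩
    -- a point near the boundary of `S`
    have hcl : IsClosed (⋃ j, D j) := isClosed_iUnion_of_finite fun j => (hD j).isClosed
    have hs₀n : s₀ ∉ ⋃ j, D j := by
      intro h
      obtain ⟨j, hj⟩ := mem_iUnion.1 h
      exact hs₀.2 (hDS j hj)
    have h1 : ∀ᶠ y in 𝓝[S] s₀, a < u y :=
      (huc s₀ (hfrS hs₀)).eventually (lt_mem_nhds (ha2.trans_le (hm₁' s₀ hs₀)))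
    rw [eventually_nhdsWithin_iff] at h1
    have h2 : s₀ ∈ closure (interior S) := by rw [hS.closure_interior]; exact hfrS hs₀
    obtain ⟨y, hy1, hy2⟩ := mem_closure_iff_nhds.1 h2 _
      (inter_mem h1 (hcl.isOpen_compl.mem_nhds hs₀n))
    have hyT : y ∈ interior S \ ⋃ j ∈ M, D j := ⟨hy2, fun h => by
      obtain ⟨j, hj, hxj⟩ := mem_iUnion₂.1 h
      exact hy1.2 (mem_iUnion.2 ⟨j, hxj⟩)⟩
    have hya : a < u y := hy1.1 (interior_subset hy2)
    obtain ⟨z, hz, hza⟩ := hpre.intermediate_value hxT hyT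
      (huc.mono (sdiff_subset.trans interior_subset)) ⟨(hux.trans_lt ha.1).le, hya.le⟩
    have hzC : z ∈ ⋃ j, Cs j := by rw [hCU]; exact ⟨hz.1, hza⟩
    obtain ⟨i, hi⟩ := mem_iUnion.1 hzC
    obtain ⟨j, hj, hij⟩ := hMmax i
    exact hz.2 (mem_iUnion₂.2 ⟨j, hj, hij ((AmbDisc.frontier_subset (hD i)) (by rw [hDf]; exact hi))⟩)
  -- the discs which meet `V`
  refine ⟨a, ⟨ha.1, ha1⟩, {i : I₀ // i ∈ M ∧ ∃ x ∈ interior (D i), u x ≤ 0}, inferInstance,
    fun i => D i, fun i => hD i, ?_, fun i => hDS i, ?_, ?_, ?_, fun i => i.2.2, ?_⟩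
  · rintro ⟨i, hi, hi'⟩ ⟨k, hk, hk'⟩ hik
    refine hMdis i hi k hk fun h => ?_
    subst h
    exact hik rfl
  · intro x hx hux
    obtain ⟨i, hi, hxi⟩ := hcover x hx hux
    exact ⟨⟨i, hi, x, hxi, hux⟩, hxi⟩
  · rintro ⟨i, hi⟩
    refine exists_one_of_cover (AmbDisc.isPreconnected_frontier (hD i)) (AmbDisc.frontier_nonempty (hD i)) hW hWd ?_
    intro x hx
    rw [hDf] at hx
    obtain ⟨h1, h2⟩ := hlevel i x hx
    by_contra hcon
    have hxK : x ∈ K := by
      refine ⟨interior_subset h1, fun h => ?_⟩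
      rcases h with h | h
      · have h3 := (interior_subset h).2
        linarith [ha.1]
      · exact hcon h
    have := hm₂' x hxK
    linarith
  · rintro ⟨i, hi⟩ x hx
    rw [hDf] at hx
    exact (hlevel i x hx).2
  · set N : Set I₀ := {i | i ∈ M ∧ ∃ x ∈ interior (D i), u x ≤ 0} with hN
    obtain ⟨-, hpre⟩ := isPreconnected_sdiff_biUnion (D := D) isOpen_interior
      hS.isConnected_interior.isPreconnected (toFinite N) (fun j _ => hD j)
      (fun j _ => hDS j) (fun j hj k hk => hMdis j hj.1 k hk.1)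
    have he : (⋃ i : {i : I₀ // i ∈ M ∧ ∃ x ∈ interior (D i), u x ≤ 0}, D i) = ⋃ j ∈ N, D j := by
      ext x
      simp only [mem_iUnion]
      constructor
      · rintro ⟨⟨i, hi⟩, hx⟩; exact ⟨i, hi, hx⟩
      · rintro ⟨i, hi, hx⟩; exact ⟨⟨i, hi⟩, hx⟩
    rw [he]
    refine hpre.subset_closure (sdiff_subset_sdiff_left interior_subset) ?_
    rintro x ⟨hx, hxn⟩
    have hcl : IsClosed (⋃ j ∈ N, D j) := (toFinite N).isClosed_biUnion fun j _ => (hD j).isClosed
    have h2 : x ∈ closure (interior S) := by rw [hS.closure_interior]; exact hx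
    rw [mem_closure_iff_nhds] at h2 ⊢
    intro U hU
    obtain ⟨y, hy1, hy2⟩ := h2 _ (inter_mem hU (hcl.isOpen_compl.mem_nhds hxn))
    exact ⟨y, hy1.1, hy2, hy1.2⟩

end P073.H142
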