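import Vale.Agent.P073.H142.Neck1

/-!
# P073, block H142 (P2c): discs around the sublevel set of a conical function on a disc
-/

open Set Metric Topology Filter

namespace P073.H142

open P073 P073.SCH P073.TR

variable {E : Type*} [NormedAddCommGroup E] [NormedSpace ℝ E]

/-- a conical homeomorphism of a disc onto the planar square -/
theorem exists_plane_chart {s b : Set E} (hs : ConBall 2 s b) :
    ∃ χ : ConHomeo s (closedBall (0 : ℝ × ℝ) 1),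
      ∀ x ∈ s, (χ.toFun x ∈ sphere (0 : ℝ × ℝ) 1 ↔ x ∈ b) := by
  obtain ⟨hbs, φ, hφ⟩ := hs
  have hcl : ConicalSet (closedBall (0 : ℝ × ℝ) 1) := Convex.conicalSet (convex_closedBall _ _)
  let α : ConHomeo (closedBall (0 : ℝ × ℝ) 1) (closedBall (0 : Fin 2 → ℝ) 1) :=
    (H339.pairHomeo.restr hcl (subset_univ _)).cast rfl (H339.pairHomeo_image_closedBall 1)
  refine ⟨φ.trans α.symm, fun x hx => ?_⟩
  have h1 : (φ.trans α.symm).toFun x ∈ sphere (0 : ℝ × ℝ) 1 ↔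
      φ.toFun x ∈ sphere (0 : Fin 2 → ℝ) 1 := by
    rw [mem_sphere_zero_iff_norm, mem_sphere_zero_iff_norm]
    show ‖H339.pairHomeo.invFun (φ.toFun x)‖ = 1 ↔ _
    rw [H339.pairHomeo_inv_norm]
  rw [h1, ← hφ]
  constructor
  · rintro ⟨y, hy, hyx⟩
    rwa [← φ.injOn (hbs hy) hx hyx]
  · exact fun h => ⟨x, h, rfl⟩

theorem ambDisc_square : AmbDisc (closedBall (0 : ℝ × ℝ) 1) :=
  ⟨ConHomeo.refl (locCone_univ.conicalSet), by
    show (fun x => x) '' closedBall (0 : ℝ × ℝ) 1 = _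
    rw [image_id']⟩

/-- **The discs around a sublevel set (P2c).** `s` is a disc with boundary `b`, `u` a conical
function on `s`, positive on `b`; the boundary of `{u ≤ 0}` is covered by disjoint open sets. -/
theorem exists_necks {s b : Set E} (hs : ConBall 2 s b) {u : E → ℝ}
    (hu : ConicalOn u s) (huc : ContinuousOn u s) (hub : ∀ x ∈ b, 0 < u x)
    {J : Type*} {W : J → Set E} (hW : ∀ j, IsOpen (W j))
    (hWd : ∀ j k, j ≠ k → Disjoint (W j) (W k))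
    (hcov : ∀ x ∈ s, u x ≤ 0 → (∀ᶠ y in 𝓝[s] x, u y ≤ 0) ∨ ∃ j, x ∈ W j) {a₀ : ℝ} (ha₀ : 0 < a₀) :
    ∃ a ∈ Ioo 0 a₀, ∃ (I : Type) (_ : Finite I) (D c : I → Set E),
      (∀ i, ConBall 2 (D i) (c i)) ∧ (∀ i k, i ≠ k → Disjoint (D i) (D k)) ∧
      (∀ i, D i ⊆ s \ b) ∧ (∀ i, ∃ U, IsOpen U ∧ D i \ c i = s ∩ U) ∧
      (∀ x ∈ s, u x ≤ 0 → ∃ i, x ∈ D i \ c i) ∧
      (∀ i, ∃ j, c i ⊆ W j) ∧ (∀ i, ∀ x ∈ c i, u x = a) ∧
      (∀ i, ∃ x ∈ D i \ c i, u x ≤ 0) ∧ IsPreconnected (s \ ⋃ i, D i) := by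
  obtain ⟨Q, hQ, χ, hχ⟩ : ∃ Q : Set (ℝ × ℝ), Q = closedBall 0 1 ∧ ∃ χ : ConHomeo s Q,
      ∀ x ∈ s, (χ.toFun x ∈ sphere (0 : ℝ × ℝ) 1 ↔ x ∈ b) := ⟨_, rfl, exists_plane_chart hs⟩
  have hfr : frontier Q = sphere 0 1 := by rw [hQ]; exact frontier_closedBall _ one_ne_zero
  have hAQ : AmbDisc Q := by rw [hQ]; exact ambDisc_square
  have hmemb : ∀ z ∈ Q, z ∈ frontier Q → χ.invFun z ∈ b := by
    intro z hz hzf
    rw [← hχ _ (χ.mapsTo_inv hz), χ.right_inv hz, ← hfr]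
    exact hzf
  have hQc : IsClosed Q := hAQ.isClosed
  -- open sets of the plane
  have hWex : ∀ j, ∃ W' : Set (ℝ × ℝ), IsOpen W' ∧ ∀ z ∈ Q, (z ∈ W' ↔ χ.invFun z ∈ W j) := by
    intro j
    obtain ⟨W', h1, h2⟩ := _root_.continuousOn_iff'.1 χ.cont_inv (W j) (hW j)
    refine ⟨W', h1, fun z hz => ?_⟩
    have h3 : z ∈ χ.invFun ⁻¹' W j ∩ Q ↔ z ∈ W' ∩ Q := by rw [h2]
    simp only [mem_inter_iff, hz, and_true, mem_preimage] at h3
    exact h3.symm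
  choose W₀ hW₀ hW₀' using hWex
  -- make them disjoint: remove the outside of the closed square, up to its boundary
  let W' : J → Set (ℝ × ℝ) := fun j => W₀ j ∩ interior Q
  have hW'o : ∀ j, IsOpen (W' j) := fun j => (hW₀ j).inter isOpen_interior
  have hW'd : ∀ j k, j ≠ k → Disjoint (W' j) (W' k) := by
    intro j k hjk
    rw [disjoint_left]
    rintro z ⟨h1, h2⟩ ⟨h3, -⟩
    have hz := interior_subset h2
    exact disjoint_left.1 (hWd j k hjk) ((hW₀' j z hz).1 h1) ((hW₀' k z hz).1 h3)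
  have hinvc : ConicalOn χ.invFun Q := χ.conical_inv
  have hu' : ConicalOn (fun z => u (χ.invFun z)) Q := hu.comp hinvc χ.mapsTo_inv χ.cont_inv
  have huc' : ContinuousOn (fun z => u (χ.invFun z)) Q := huc.comp χ.cont_inv χ.mapsTo_inv
  have hub' : ∀ z ∈ frontier Q, 0 < u (χ.invFun z) := fun z hz =>
    hub _ (hmemb z (hQc.frontier_subset hz) hz)
  obtain ⟨a, ha, I, hI, D, h1, h2, h3, h4, h5, h6, h7, h8⟩ :=
    exists_necks_plane hAQ hu' huc' hub' hW'o hW'd (by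
      intro z hz huz
      have hzi : z ∈ interior Q := by
        by_contra h
        exact absurd (hub' z ⟨subset_closure hz, h⟩) (not_lt.2 huz)
      rcases hcov _ (χ.mapsTo_inv hz) huz with h | ⟨j, hj⟩
      · left
        have ht : Tendsto χ.invFun (𝓝[Q] z) (𝓝[s] (χ.invFun z)) :=
          (χ.cont_inv z hz).tendsto_nhdsWithin χ.mapsTo_inv
        exact ht.eventually h
      · exact Or.inr ⟨j, (hW₀' j z hz).2 hj, hzi⟩) ha₀
  have hDQ : ∀ i, D i ⊆ Q := fun i => (h3 i).trans interior_subset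
  have hfD : ∀ i, frontier (D i) ⊆ D i := fun i => (h1 i).isClosed.frontier_subset
  have himg : ∀ (i : I) (z : ℝ × ℝ), z ∈ Q → (χ.invFun z ∈ χ.invFun '' D i ↔ z ∈ D i) := by
    intro i z hz
    constructor
    · rintro ⟨w, hw, he⟩
      rwa [← χ.symm.injOn (hDQ i hw) hz he]
    · exact fun h => ⟨z, h, rfl⟩
  have himgf : ∀ (i : I) (z : ℝ × ℝ), z ∈ Q →
      (χ.invFun z ∈ χ.invFun '' frontier (D i) ↔ z ∈ frontier (D i)) := by
    intro i z hz
    constructor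
    · rintro ⟨w, hw, he⟩
      rwa [← χ.symm.injOn (hDQ i (hfD i hw)) hz he]
    · exact fun h => ⟨z, h, rfl⟩
  refine ⟨a, ha, I, hI, fun i => χ.invFun '' D i, fun i => χ.invFun '' frontier (D i),
    ?_, ?_, ?_, ?_, ?_, ?_, ?_, ?_, ?_⟩
  · exact fun i => (conBall_of_ambDisc (h1 i)).image χ.symm (hDQ i)
  · intro i k hik
    rw [disjoint_left]
    rintro _ ⟨z, hz, rfl⟩ hk
    exact disjoint_left.1 (h2 i k hik) hz ((himg k z (hDQ i hz)).1 hk)
  · rintro i _ ⟨z, hz, rfl⟩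
    refine ⟨χ.mapsTo_inv (hDQ i hz), fun hb => ?_⟩
    have h9 := (hχ _ (χ.mapsTo_inv (hDQ i hz))).2 hb
    rw [χ.right_inv (hDQ i hz), ← hfr] at h9
    exact h9.2 (h3 i hz)
  · intro i
    obtain ⟨U, hU, hU'⟩ := _root_.continuousOn_iff'.1 χ.cont (interior (D i)) isOpen_interior
    refine ⟨U, hU, ?_⟩
    rw [inter_comm s U, ← hU']
    ext x
    constructor
    · rintro ⟨⟨z, hz, rfl⟩, hx2⟩
      refine ⟨?_, χ.mapsTo_inv (hDQ i hz)⟩
      show χ.toFun (χ.invFun z) ∈ interior (D i)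
      rw [χ.right_inv (hDQ i hz)]
      by_contra hcon
      exact hx2 ⟨z, ⟨subset_closure hz, hcon⟩, rfl⟩
    · rintro ⟨hx1, hx2⟩
      have hx1' : χ.toFun x ∈ interior (D i) := hx1
      refine ⟨⟨χ.toFun x, interior_subset hx1', χ.left_inv hx2⟩, ?_⟩
      rintro ⟨z, hz, he⟩
      have he' : z = χ.toFun x := by rw [← he, χ.right_inv (hDQ i (hfD i hz))]
      rw [he'] at hz
      exact hz.2 hx1'
  · intro x hx hux
    obtain ⟨i, hi⟩ := h4 (χ.toFun x) (χ.mapsTo hx) (by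
      show u (χ.invFun (χ.toFun x)) ≤ 0
      rwa [χ.left_inv hx])
    refine ⟨i, ⟨χ.toFun x, interior_subset hi, χ.left_inv hx⟩, ?_⟩
    rintro ⟨z, hz, he⟩
    have he' : z = χ.toFun x := by rw [← he, χ.right_inv (hDQ i (hfD i hz))]
    rw [he'] at hz
    exact hz.2 hi
  · intro i
    obtain ⟨j, hj⟩ := h5 i
    refine ⟨j, ?_⟩
    rintro _ ⟨z, hz, rfl⟩
    exact (hW₀' j z (hDQ i (hfD i hz))).1 (hj hz).1
  · rintro i _ ⟨z, hz, rfl⟩
    exact h6 i z hz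
  · intro i
    obtain ⟨z, hz, huz⟩ := h7 i
    refine ⟨χ.invFun z, ⟨⟨z, interior_subset hz, rfl⟩, ?_⟩, huz⟩
    rintro ⟨w, hw, he⟩
    have := χ.symm.injOn (hDQ i (hfD i hw)) (hDQ i (interior_subset hz)) he
    rw [this] at hw
    exact hw.2 hz
  · have he : s \ ⋃ i, χ.invFun '' D i = χ.invFun '' (Q \ ⋃ i, D i) := by
      ext x
      constructor
      · rintro ⟨hx, hxn⟩
        refine ⟨χ.toFun x, ⟨χ.mapsTo hx, fun h => hxn ?_⟩, χ.left_inv hx⟩
        obtain ⟨i, hi⟩ := mem_iUnion.1 h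
        exact mem_iUnion.2 ⟨i, χ.toFun x, hi, χ.left_inv hx⟩
      · rintro ⟨z, ⟨hz, hzn⟩, rfl⟩
        refine ⟨χ.mapsTo_inv hz, fun h => hzn ?_⟩
        obtain ⟨i, hi⟩ := mem_iUnion.1 h
        exact mem_iUnion.2 ⟨i, (himg i z hz).1 hi⟩
    rw [he]
    exact h8.image _ (χ.cont_inv.mono sdiff_subset)

end P073.H142
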