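import Vale.Agent.P073.H142.CellRank
import Vale.Agent.P073.H233.NRank

/-!
# P073, block H142: the circles of the cells with the nesting ranks
-/

open Set Metric Topology Filter

namespace P073.H142

open P073 P073.H936 P073.TR P073.H267

namespace BoxIn

variable {ι : Type*} {Q E : Type} [NormedAddCommGroup E] [NormedSpace ℝ E] (P : BoxIn ι Q E)

/-- the circles of a cell form a finite type -/
@[reducible] noncomputable def fintypeJ [Finite ι] (q : Q) : Fintype (Σ i, P.J i q) :=
  @Fintype.ofFinite _ (P.J_fin' q)

/-- the base point of a cell -/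
noncomputable def base [Finite ι] (q : Q) : E := (P.exists_cellDiscs q).choose

theorem base_mem [Finite ι] (q : Q) : P.base q ∈ P.B q := (P.exists_cellDiscs q).choose_spec.1

/-- the discs of a cell -/
noncomputable def discs [Finite ι] (q : Q) : (P.rings q).Discs (P.base q) :=
  (P.exists_cellDiscs q).choose_spec.2.2.some

/-- **The circles of a cell with the nesting ranks**. -/
noncomputable def nestCirc [Finite ι] (q : Q) : P.CellCirc q :=
  letI := P.fintypeJ q
  P.cellCirc q (P.discs q) (P.discs q).nm (P.discs q).nr (P.discs q).nr_lt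
    (fun _ _ => (P.discs q).nr_ne) (fun _ _ _ _ => (P.discs q).nr_mono)

theorem nestCirc_m [Finite ι] (q : Q) :
    (P.nestCirc q).m = @H267.Rings.Discs.nm _ _ _ _ _ _ _ (P.discs q) (P.fintypeJ q) := rfl

theorem nestCirc_D [Finite ι] (q : Q) : (P.nestCirc q).D =
    @H267.Rings.Discs.ncircles _ _ _ _ _ _ _ (P.discs q) (P.fintypeJ q) (P.C_sph q) := rfl

end BoxIn

end P073.H142
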