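import Vale.Agent.P073.H142.FaceTail3
import Vale.Agent.P073.H267.RoundDefs
import Vale.Agent.P073.H669.PLevD

/-!
# P073, block H142: the choice of the tiny numbers of the edges

`exists_numE`: numbers `εE e > 0` such that `b e ≤ D₀ (len (h, e) + εE e)` implies `Num`, on all faces.
-/

open Set Metric Topology Filter MeasureTheory
open scoped ENNReal

namespace P073.H142

open P073 P073.Net P073.PA691 Vale.Agent.P073.H471
open Vale.Agent.P073.St (V)
open Vale.Agent.P073.H73 (Mesh sqr faceL onSeg Adapted)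
open Vale.Agent.P073.H193 (Edges edges Cyc)

variable {Ω : Set V} {M : Mesh Ω}

theorem sqr_le {a a' : V} {l l' : Fin 3} {σ σ' : ℝ} (hσ : 0 < σ)
    (h : sqr a l σ = sqr a' l' σ') : σ ≤ σ' := by
  obtain ⟨i, hi, -⟩ : ∃ i : Fin 3, i ≠ l ∧ i ≠ l' := by
    have : ∀ l l' : Fin 3, ∃ i : Fin 3, i ≠ l ∧ i ≠ l' := by decide
    exact this l l'
  have key : ∀ τ : ℝ, |τ| ≤ σ → |a i + τ - a' i| ≤ σ' := by
    intro τ hτ
    have h1 : Function.update a i (a i + τ) ∈ sqr a l σ := by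
      refine ⟨Function.update_of_ne hi.symm _ _, fun j => ?_⟩
      by_cases hj : j = i
      · subst hj
        rw [Function.update_self, add_sub_cancel_left]; exact hτ
      · rw [Function.update_of_ne hj, sub_self, abs_zero]; exact hσ.le
    rw [h] at h1
    have := h1.2 i
    rwa [Function.update_self] at this
  have h1 := abs_le.1 (key σ (by rw [abs_of_pos hσ]))
  have h2 := abs_le.1 (key (-σ) (by rw [abs_neg, abs_of_pos hσ]))
  linarith [h1.2, h2.1]

/-- the side of a square is determined by the square -/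
theorem sqr_inj {a a' : V} {l l' : Fin 3} {σ σ' : ℝ} (hσ : 0 < σ) (hσ' : 0 < σ')
    (h : sqr a l σ = sqr a' l' σ') : σ = σ' := le_antisymm (sqr_le hσ h) (sqr_le hσ' h.symm)

theorem exists_tk (k : M.κ) {ε : ℝ} (hε : 0 < ε) : ∃ t > 0, t ≤ ε ∧
    ∀ e, (edges M).seg e ⊆ M.F k → ∀ (a : V) (l : Fin 3) (σ : ℝ), 0 < σ →
      M.F k = sqr a l σ → t ≤ ε / σ * ‖(edges M).b e - (edges M).a e‖ := by
  by_cases hs : ∃ (a : V) (l : Fin 3) (σ : ℝ), 0 < σ ∧ M.F k = sqr a l σ
  · obtain ⟨a, l, σ, hσ, hk⟩ := hs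
    obtain ⟨t, ht, hle⟩ := Boxes.exists_pos_le ((edges M).fin_face k)
      (fun e => ε / σ * ‖(edges M).b e - (edges M).a e‖)
      (fun e => mul_pos (div_pos hε hσ) (elen_pos (edges M) e))
    refine ⟨min t ε, lt_min ht hε, min_le_right _ _, fun e he a' l' σ' hσ' hk' => ?_⟩
    have : σ = σ' := sqr_inj hσ hσ' (hk.symm.trans hk')
    subst this
    exact (min_le_left _ _).trans (hle e he)
  · exact ⟨ε, hε, le_rfl, fun e _ a l σ hσ hk => absurd ⟨a, l, σ, hσ, hk⟩ hs⟩

/-- **the tiny numbers of the edges** -/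
theorem exists_numE (M : Mesh Ω) {ε : M.κ → ℝ} (hε : ∀ k, 0 < ε k) :
    ∃ εE : (edges M).ε → ℝ, (∀ e, 0 < εE e) ∧ ∀ (h : V → V) (D₀ : ℝ) (b : (edges M).ε → ℝ),
      (∀ e, 0 ≤ b e) → (∀ e, ENNReal.ofReal (b e) ≤ ENNReal.ofReal D₀ *
        (len (onSeg h ((edges M).a e, (edges M).b e)) (Icc 0 1) + ENNReal.ofReal (εE e))) →
      ∀ k, Num k h D₀ (ε k) b := by
  choose t ht0 htε ht using fun k => exists_tk k (hε k)
  have hfin : ∀ e : (edges M).ε, {k | (edges M).seg e ⊆ M.F k}.Finite := by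
    intro e
    refine (M.ffin ((edges M).seg e) ((edges M).seg_sub_Ω e) ((edges M).isCompact_seg e)).subset ?_
    intro k hk
    exact ⟨(edges M).a e, hk (left_mem_segment ℝ _ _), left_mem_segment ℝ _ _⟩
  obtain ⟨m, hm0, hm⟩ := Vale.Agent.P073.H669.exists_le_of_finite
    (R := fun (e : (edges M).ε) k => (edges M).seg e ⊆ M.F k) hfin (f := t) ht0
  refine ⟨m, hm0, fun h D₀ b hb hle k => ⟨fun e _ => hb e, t k, htε k, ht k, fun e he => ?_⟩⟩
  refine (hle e).trans ?_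
  gcongr
  exact hm e k he

end P073.H142
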