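import Vale.Agent.P073.H142.EstKill
import Vale.Agent.P073.H267.GeoPt
import Vale.Agent.P073.H267.Geo2
import Vale.Agent.P073.H236.Stage3b
import Vale.Agent.P073.H236.BoxData

/-!
# P073, block H142 (P-CONE), part 1: (CONE) for the faces in the plates

`coneF_peeled`: a face with image in a plate, the coordinates satisfy the cone estimate in the window
of the levels.  `PlateS`: the two staircases of ROUND P in one plate.
-/

open Set Metric Topology Filter MeasureTheory
open scoped ENNReal

namespace P073.H142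

open P073 P073.Net P073.PA691 Vale.Agent.P073.H471 Vale.Agent.P073.H267 P073.H236
open Vale.Agent.P073.St (V)
open Vale.Agent.P073.H73 (Mesh sqr faceL onSeg Adapted)
open Vale.Agent.P073.H193 (Edges edges Cyc)

variable {Ω Λ : Set V} {M : Mesh Ω} {E : Edges M} {k : M.κ} {v : V} {K : BoxCx Λ v} {S : Rad K}
  {W : Wid K S} {B : Boxes W}

/-- the window of the levels of ROUND P in direction `j` -/
def pwin (G : Geo B) (s : K.S) (j : Fin 3) : Set ℝ := Icc (K.slo s j + G.a s) (K.shi s j - G.a s)

/-- **(CONE)** for a face with image in a plate -/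
theorem coneF_peeled (G : Geo B) {T : FStar E k} {s : K.S} {c C₁ : ℝ} (hc : 0 ≤ c)
    {b : E.ε → ℝ} {f : V → V} (hfc : ContinuousOn f (M.F k))
    (hPB : ∀ x ∈ M.F k, f x ∈ G.PB c s)
    (hn : ∀ x ∈ M.F k, |f x (K.nrm s) - K.slo s (K.nrm s)| < B.τ s)
    (hlip : ∀ e, E.seg e ⊆ M.F k → ∀ x ∈ coneSetAt T.O (E.seg e),
      ∀ x' ∈ coneSetAt T.O (E.seg e), ∀ j, j ≠ K.nrm s → f x j ∈ pwin G s j →
      f x' j ∈ pwin G s j → |f x' j - f x j| ≤ T.con C₁ b e * ‖x' - x‖) :
    ConeF W T C₁ b f := by
  intro e he x hx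
  have hsub := T.cone_sub he
  have hxF := hsub hx
  have hcx : ContinuousWithinAt f (coneSetAt T.O (E.seg e)) x := (hfc.mono hsub) x hx
  have ha := G.a_pos s
  have hau := G.a_u s
  -- the estimate for a coordinate which is inside of the window
  have key : ∀ j, j ≠ K.nrm s → K.slo s j + 2 * G.a s ≤ f x j → f x j ≤ K.shi s j - 2 * G.a s →
      ∀ᶠ x' in 𝓝[coneSetAt T.O (E.seg e)] x, |f x' j - f x j| ≤ T.con C₁ b e * ‖x' - x‖ := by
    intro j hj h1 h2
    have h3 : Tendsto (fun x' => f x' j) (𝓝[coneSetAt T.O (E.seg e)] x) (𝓝 (f x j)) :=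
      ((continuous_apply j).tendsto _).comp hcx
    have h4 : Ioo (K.slo s j + G.a s) (K.shi s j - G.a s) ∈ 𝓝 (f x j) :=
      Ioo_mem_nhds (by linarith) (by linarith)
    filter_upwards [h3 h4, self_mem_nhdsWithin] with x' h5 h6
    exact hlip e he x hx x' h6 j hj ⟨by linarith, by linarith⟩ ⟨h5.1.le, h5.2.le⟩
  rcases G.cover_pt hc (hPB x hxF) (hn x hxF) with ⟨h1, -, h2⟩ | ⟨i, h1, h2, -, h3, h4⟩ | ⟨i, -, h1⟩
  · refine Or.inl ⟨s, h1, ?_⟩
    rw [eventually_all]
    intro j
    by_cases hj : j = K.nrm s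
    · exact Eventually.of_forall fun x' h => absurd hj h
    · obtain ⟨h3, h4⟩ := h2 j hj
      filter_upwards [key j hj (by linarith) (by linarith)] with x' hx' _
      exact hx'
  · exact Or.inr (Or.inl ⟨i, h2, key _ (nrm_ne_dir h1).symm (by linarith) (by linarith)⟩)
  · rcases h1 with h1 | h1
    · exact Or.inr (Or.inr ⟨_, h1.1⟩)
    · exact Or.inr (Or.inr ⟨_, h1.1⟩)

/-! ### The staircases in one plate -/

/-- the boxes of a family `F` (direction `j`) for the plate `s` -/
structure PlateBox (G : Geo B) (F : BFam 3 K.S Λ) (s : K.S) (j : Fin 3) : Prop where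
  dir : (F.B s).j = j
  ne : j ≠ K.nrm s
  al : (F.B s).al = K.slo s j + G.a s
  be : (F.B s).be = K.shi s j - G.a s
  full : ∀ y ∈ G.PB (7 / 8) s, (F.B s).Full y
  disj : ∀ s', s' ≠ s → Disjoint (F.B s').K (G.PB (7 / 8) s)

section plate

variable {G : Geo B} {F : BFam 3 K.S Λ} {s : K.S} {j : Fin 3} {T : ConHomeo Λ Λ} {y : V}

/-- **the staircase in the plate** -/
theorem PlateBox.map_eq (P : PlateBox G F s j) (hT : F.IsS T) (hy : y ∈ G.PB (7 / 8) s) :
    T.toFun y = Function.update y j (F.σ s (y j)) := by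
  have hj := P.dir
  by_cases hw : (F.B s).al ≤ y j ∧ y j ≤ (F.B s).be
  · have h1 : F.FullK s y := ⟨by rw [hj]; exact hw, P.full y hy⟩
    rw [hT.full h1, hj]
  · have hw' : y j ≤ (F.B s).al ∨ (F.B s).be ≤ y j := by
      by_contra hcon
      push Not at hcon
      exact hw ⟨hcon.1.le, hcon.2.le⟩
    have h1 : ∀ b, y ∉ (F.B b).K := by
      intro b hb
      by_cases hbs : b = s
      · subst hbs
        refine hw ?_
        have := hb.1
        rw [hj] at this
        exact this
      · exact Set.disjoint_left.1 (P.disj b hbs) hb hy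
    rw [hT.off y h1, F.σ_out hw', Function.update_eq_self]

theorem PlateBox.σ_mem (P : PlateBox G F s j) {t : ℝ} :
    F.σ s t ∈ pwin G s j ↔ t ∈ pwin G s j := by
  have e : pwin G s j = Icc (F.B s).al (F.B s).be := by rw [P.al, P.be]; rfl
  rw [e]
  constructor
  · intro h
    have := F.σi_win h
    rwa [F.σi_σ] at this
  · exact fun h => F.σ_win h

/-- outside of the window the staircase is the identity -/
theorem PlateBox.σ_eq (P : PlateBox G F s j) {t : ℝ} (ht : t ∉ pwin G s j) : F.σ s t = t := by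
  refine F.σ_out ?_
  have e : pwin G s j = Icc (F.B s).al (F.B s).be := by rw [P.al, P.be]; rfl
  rw [e] at ht
  by_contra hcon
  push Not at hcon
  exact ht ⟨hcon.1.le, hcon.2.le⟩

theorem PlateBox.mem_PB (P : PlateBox G F s j) {c : ℝ} (hc : c ≤ 1) :
    Function.update y j (F.σ s (y j)) ∈ G.PB c s ↔ y ∈ G.PB c s := by
  have hp := G.p_pos s
  have hpa := G.p_a s
  have key : (K.slo s j + c * G.p s ≤ F.σ s (y j) ∧ F.σ s (y j) ≤ K.shi s j - c * G.p s) ↔
      (K.slo s j + c * G.p s ≤ y j ∧ y j ≤ K.shi s j - c * G.p s) := by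
    by_cases hw : y j ∈ pwin G s j
    · have hw' := P.σ_mem.2 hw
      constructor
      · intro _
        constructor <;> nlinarith [hw.1, hw.2]
      · intro _
        constructor <;> nlinarith [hw'.1, hw'.2]
    · rw [P.σ_eq hw]
  rw [Geo.mem_PB, Geo.mem_PB, Function.update_of_ne P.ne.symm]
  refine and_congr_left fun _ => ?_
  constructor
  · intro h i hi
    by_cases hij : i = j
    · subst hij
      have := h i hi
      rw [Function.update_self] at this
      exact key.1 this
    · have := h i hi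
      rwa [Function.update_of_ne hij] at this
  · intro h i hi
    by_cases hij : i = j
    · subst hij
      rw [Function.update_self]
      exact key.2 (h i hi)
    · rw [Function.update_of_ne hij]
      exact h i hi

end plate

/-- the two staircases of ROUND P at the plate `s` -/
structure PlateS (G : Geo B) (F : Bool → BFam 3 K.S Λ) (T : Bool → ConHomeo Λ Λ) (s : K.S)
    (tg : Bool → Fin 3) : Prop where
  box : ∀ β, PlateBox G (F β) s (tg β)
  isS : ∀ β, (F β).IsS (T β)
  inj : tg false ≠ tg true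

section plateS

variable {G : Geo B} {F : Bool → BFam 3 K.S Λ} {T : Bool → ConHomeo Λ Λ} {s : K.S}
  {tg : Bool → Fin 3} {y : V}

theorem PlateS.eq_tg (P : PlateS G F T s tg) {j : Fin 3} (hj : j ≠ K.nrm s) : ∃ β, j = tg β := by
  have h1 := (P.box false).ne
  have h2 := (P.box true).ne
  have h3 := P.inj
  by_cases h : j = tg false
  · exact ⟨false, h⟩
  · refine ⟨true, ?_⟩
    simp only [ne_eq, Fin.ext_iff] at *
    omega

/-- the composition of the two staircases in the plate -/
theorem PlateS.map_eq (P : PlateS G F T s tg) (hy : y ∈ G.PB (7 / 8) s) :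
    (T true).toFun ((T false).toFun y) = Function.update (Function.update y (tg false)
      ((F false).σ s (y (tg false)))) (tg true) ((F true).σ s (y (tg true))) := by
  have h1 := (P.box false).map_eq (P.isS false) hy
  have h2 : (T false).toFun y ∈ G.PB (7 / 8) s := by
    rw [h1]
    exact ((P.box false).mem_PB (by norm_num)).2 hy
  rw [(P.box true).map_eq (P.isS true) h2, h1, Function.update_of_ne P.inj.symm]

theorem PlateS.apply (P : PlateS G F T s tg) (hy : y ∈ G.PB (7 / 8) s) (β : Bool) :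
    (T true).toFun ((T false).toFun y) (tg β) = (F β).σ s (y (tg β)) := by
  rw [P.map_eq hy]
  cases β
  · rw [Function.update_of_ne P.inj, Function.update_self]
  · rw [Function.update_self]

theorem PlateS.apply_nrm (P : PlateS G F T s tg) (hy : y ∈ G.PB (7 / 8) s) :
    (T true).toFun ((T false).toFun y) (K.nrm s) = y (K.nrm s) := by
  rw [P.map_eq hy, Function.update_of_ne (P.box true).ne.symm,
    Function.update_of_ne (P.box false).ne.symm]

theorem PlateS.mem_PB (P : PlateS G F T s tg) (hy : y ∈ G.PB (7 / 8) s) :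
    (T true).toFun ((T false).toFun y) ∈ G.PB (7 / 8) s := by
  have h1 := (P.box false).map_eq (P.isS false) hy
  have h2 : (T false).toFun y ∈ G.PB (7 / 8) s := by
    rw [h1]
    exact ((P.box false).mem_PB (by norm_num)).2 hy
  rw [(P.box true).map_eq (P.isS true) h2]
  exact ((P.box true).mem_PB (by norm_num)).2 h2

/-- **the estimate of the coordinates in the windows** -/
theorem PlateS.lip (P : PlateS G F T s tg) {y y' : V} (hy : y ∈ G.PB (7 / 8) s)
    (hy' : y' ∈ G.PB (7 / 8) s) (β : Bool) (hw : y (tg β) ∈ pwin G s (tg β))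
    (hw' : y' (tg β) ∈ pwin G s (tg β)) {K₁ K₂ r : ℝ}
    (h1 : (F β).om s * ∑ k ∈ Finset.range ((F β).B s).N,
      |fl ((F β).B s).c (((F β).B s).a k) (y (tg β)) -
        fl ((F β).B s).c (((F β).B s).a k) (y' (tg β))| / (2 * ((F β).B s).c) ≤ K₁ * r)
    (h2 : |y (tg β) - y' (tg β)| ≤ K₂ * r) :
    |(T true).toFun ((T false).toFun y) (tg β) - (T true).toFun ((T false).toFun y') (tg β)| ≤
      (K₁ + (F β).e s / ((F β).B s).c * K₂) * r := by
  rw [P.apply hy, P.apply hy']
  have e : pwin G s (tg β) = Icc ((F β).B s).al ((F β).B s).be := by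
    rw [(P.box β).al, (P.box β).be]; rfl
  rw [e] at hw hw'
  have hc := ((F β).B s).lvs.c0
  have he := (F β).he s
  refine (abs_sm_sub_le_win ((F β).B s).lvs he ((F β).heo s) hw hw').trans ?_
  have h0 : 0 ≤ ∑ k ∈ Finset.range ((F β).B s).N,
      |fl ((F β).B s).c (((F β).B s).a k) (y (tg β)) -
        fl ((F β).B s).c (((F β).B s).a k) (y' (tg β))| := Finset.sum_nonneg fun _ _ => abs_nonneg _
  have h3 : (stp ((F β).B s).N ((F β).B s).al ((F β).B s).be - 2 * (F β).e s) /
      (2 * ((F β).B s).c) * ∑ k ∈ Finset.range ((F β).B s).N,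
        |fl ((F β).B s).c (((F β).B s).a k) (y (tg β)) -
          fl ((F β).B s).c (((F β).B s).a k) (y' (tg β))| ≤ K₁ * r := by
    refine le_trans ?_ h1
    rw [← Finset.sum_div, ← mul_div_assoc, div_mul_eq_mul_div]
    unfold BFam.om
    gcongr
    linarith
  have h4 : (F β).e s / ((F β).B s).c * |y (tg β) - y' (tg β)| ≤
      (F β).e s / ((F β).B s).c * (K₂ * r) := by gcongr
  linarith

end plateS

end P073.H142
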