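import Vale.Agent.P073.H142.PCone
import Vale.Agent.P073.H142.EdgeBand
import Vale.Agent.P073.H345.PBox
import Vale.Agent.P073.H267.Num

/-!
# P073, block H142 (P-CONE), part 2: the staircases of ROUND P on the boxes of H345

`PS`: the two families; `PS.peeled`: (CONE) for a face in a plate, from the band estimate;
`PS.tube`: the coordinate along an edge for the points which are in no plate.
-/

open Set Metric Topology Filter MeasureTheory
open scoped ENNReal

namespace P073.H142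

open P073 P073.Net P073.PA691 Vale.Agent.P073.H471 Vale.Agent.P073.H267 P073.H236 P073.H345
  P073.H579
open Vale.Agent.P073.St (V)
open Vale.Agent.P073.H73 (Mesh)
open Vale.Agent.P073.H193 (Edges)

variable {Ω Λ : Set V} {M : Mesh Ω} {E : Edges M} {k : M.κ} {v : V} {K : BoxCx Λ v} {S : Rad K}
  {W : Wid K S} {B : Boxes W} {G : Geo B}

/-- the staircases of ROUND P -/
structure PS (L : PLev G) (F : Bool → BFam 3 K.S Λ) (T : Bool → ConHomeo Λ Λ) : Prop where
  B : ∀ β, (F β).B = L.bx β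
  isS : ∀ β, (F β).IsS (T β)

/-- the composition -/
def PS.map (T : Bool → ConHomeo Λ Λ) (y : V) : V := (T true).toFun ((T false).toFun y)

section

variable {L : PLev G} {F : Bool → BFam 3 K.S Λ} {T : Bool → ConHomeo Λ Λ} {s : K.S} {β : Bool}
  {y y' : V}

theorem PS.plate (P : PS L F T) (s : K.S) : PlateS G F T s (tg s) where
  box := fun β => by
    have e : (F β).B s = L.bx β s := by rw [P.B β]
    refine ⟨by rw [e]; rfl, tg_ne s β, by rw [e]; rfl, by rw [e]; rfl, fun y hy => ?_,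
      fun s' hs' => ?_⟩
    · rw [e]; exact PLev.PB_full hy
    · have e' : (F β).B s' = L.bx β s' := by rw [P.B β]
      rw [e', Set.disjoint_left]
      intro y hy hy'
      exact hs' (PK_unique (PLev.mem_bxK.1 hy).1 (PB_sub_PK (by norm_num) s hy'))
  isS := P.isS
  inj := tg_ne_not s false

/-- one coordinate of the band distance -/
theorem PLev.term_le (L : PLev G) (s : K.S) (β : Bool) (y y' : V) :
    stp (L.N s β) (K.slo s (tg s β) + G.a s) (K.shi s (tg s β) - G.a s) *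
      ∑ n ∈ Finset.range (L.N s β), |fl (L.c s β) (L.a s β n) (y (tg s β)) -
        fl (L.c s β) (L.a s β n) (y' (tg s β))| / (2 * L.c s β) ≤
      bandD (L.lv s) (L.loP s) (L.hiP s) (L.omP s) y y' := by
  have h1 : ∀ j : Fin 3, 0 ≤ ∑ a ∈ L.lv s j, L.omP s j a / (L.hiP s j a - L.loP s j a) *
      |rho (L.loP s j) (L.hiP s j) a (y j) - rho (L.loP s j) (L.hiP s j) a (y' j)| := by
    intro j
    refine Finset.sum_nonneg fun a ha => ?_
    have h2 := L.omP_pos s j a
    have h3 := (L.ins1P s j).lt a ha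
    have h4 : 0 < L.hiP s j a - L.loP s j a := by linarith
    positivity
  refine le_trans (le_of_eq ?_) (Finset.single_le_sum (fun j _ => h1 j) (Finset.mem_univ (tg s β)))
  rw [PLev.lv_tg, (L.lvs s β).sum_L, Finset.mul_sum]
  refine Finset.sum_congr rfl fun n _ => ?_
  rw [PLev.hiP_sub_loP, PLev.omP_tg]
  have e : ∀ t, rho (L.loP s (tg s β)) (L.hiP s (tg s β)) (L.a s β n) t =
      fl (L.c s β) (L.a s β n) t := by
    intro t
    unfold PLev.loP PLev.hiP
    rw [bt_tg]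
    rfl
  rw [e, e]
  ring

/-- **the estimate in the plate** -/
theorem PS.lip (P : PS L F T) {y y' : V} (hy : y ∈ G.PB (7 / 8) s) (hy' : y' ∈ G.PB (7 / 8) s)
    {K₁ K₂ r : ℝ} (h1 : bandD (L.lv s) (L.loP s) (L.hiP s) (L.omP s) y y' ≤ K₁ * r)
    (h2 : ∀ j, |y j - y' j| ≤ K₂ * r) {ε : ℝ} (hε : ∀ β, (F β).e s / L.c s β * K₂ ≤ ε)
    (hr : 0 ≤ r) {j : Fin 3} (hj : j ≠ K.nrm s) (hw : PS.map T y j ∈ pwin G s j)
    (hw' : PS.map T y' j ∈ pwin G s j) :
    |PS.map T y j - PS.map T y' j| ≤ (K₁ + ε) * r := by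
  obtain ⟨β, rfl⟩ : ∃ β, j = tg s β := ⟨bt s j, (tg_bt s hj).symm⟩
  have P' := P.plate s
  have e : (F β).B s = L.bx β s := by rw [P.B β]
  unfold PS.map at hw hw' ⊢
  rw [P'.apply hy β] at hw
  rw [P'.apply hy' β] at hw'
  have h3 := P'.lip hy hy' β ((P'.box β).σ_mem.1 hw) ((P'.box β).σ_mem.1 hw') (K₁ := K₁)
    (K₂ := K₂) (r := r) (by
      refine le_trans (le_of_eq ?_) ((PLev.term_le L s β y y').trans h1)
      unfold BFam.om
      rw [e]
      rfl) (h2 _)
  rw [e] at h3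
  refine h3.trans (mul_le_mul_of_nonneg_right ?_ hr)
  have := hε β
  have e2 : (L.bx β s).c = L.c s β := rfl
  rw [e2]
  linarith

/-- the normal coordinate, the plate -/
theorem PS.mem_PB (P : PS L F T) (hy : y ∈ G.PB (7 / 8) s) : PS.map T y ∈ G.PB (7 / 8) s :=
  (P.plate s).mem_PB hy

theorem PS.nrm (P : PS L F T) (hy : y ∈ G.PB (7 / 8) s) : PS.map T y (K.nrm s) = y (K.nrm s) :=
  (P.plate s).apply_nrm hy

/-- **(CONE)**, with the boxes `B`: the point `f x` is in the interior of a box (or in the interior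
of the zone of a vertex), and the alive coordinates satisfy the cone estimate near `x` -/
def ConeAtB (B : Boxes W) (L : ℝ) (A : Set V) (f : V → V) (x : V) : Prop :=
  (∃ s, f x ∈ interior (B.P s) ∧
    ∀ᶠ x' in 𝓝[A] x, ∀ j, j ≠ K.nrm s → |f x' j - f x j| ≤ L * ‖x' - x‖) ∨
  (∃ i, f x ∈ interior (B.E i) ∧
    ∀ᶠ x' in 𝓝[A] x, |f x' (K.dir i) - f x (K.dir i)| ≤ L * ‖x' - x‖) ∨
  ∃ i, f x ∈ interior (Zv W i)

theorem ConeAtB.coneAt {B : Boxes W} {L : ℝ} {A : Set V} {f : V → V} {x : V}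
    (h : ConeAtB B L A f x) : ConeAt W L A f x := by
  rcases h with ⟨s, h1, h2⟩ | ⟨i, h1, h2⟩ | h1
  · exact Or.inl ⟨s, interior_mono (B.P_subset s) h1, h2⟩
  · exact Or.inr (Or.inl ⟨i, interior_mono (B.E_subset i) h1, h2⟩)
  · exact Or.inr (Or.inr h1)

/-- (CONE) at a point of a plate -/
theorem coneAt_peeled (G : Geo B) {s : K.S} {c Lc : ℝ} (hc : 0 ≤ c) {A : Set V} {f : V → V}
    {x : V} (hx : x ∈ A) (hcx : ContinuousWithinAt f A x) (hPB : f x ∈ G.PB c s)
    (hn : |f x (K.nrm s) - K.slo s (K.nrm s)| < B.τ s)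
    (hlip : ∀ x' ∈ A, ∀ j, j ≠ K.nrm s → f x j ∈ pwin G s j →
      f x' j ∈ pwin G s j → |f x' j - f x j| ≤ Lc * ‖x' - x‖) : ConeAtB B Lc A f x := by
  have ha := G.a_pos s
  have hau := G.a_u s
  have key : ∀ j, j ≠ K.nrm s → K.slo s j + 2 * G.a s ≤ f x j → f x j ≤ K.shi s j - 2 * G.a s →
      ∀ᶠ x' in 𝓝[A] x, |f x' j - f x j| ≤ Lc * ‖x' - x‖ := by
    intro j hj h1 h2
    have h3 : Tendsto (fun x' => f x' j) (𝓝[A] x) (𝓝 (f x j)) :=
      ((continuous_apply j).tendsto _).comp hcx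
    have h4 : Ioo (K.slo s j + G.a s) (K.shi s j - G.a s) ∈ 𝓝 (f x j) :=
      Ioo_mem_nhds (by linarith) (by linarith)
    filter_upwards [h3 h4, self_mem_nhdsWithin] with x' h5 h6
    exact hlip x' h6 j hj ⟨by linarith, by linarith⟩ ⟨h5.1.le, h5.2.le⟩
  rcases G.cover_pt hc hPB hn with ⟨-, h1, h2⟩ | ⟨i, h1, -, h2, h3, h4⟩ | ⟨i, -, h1⟩
  · refine Or.inl ⟨s, h1, ?_⟩
    rw [eventually_all]
    intro j
    by_cases hj : j = K.nrm s
    · exact Eventually.of_forall fun x' h => absurd hj h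
    · obtain ⟨h3, h4⟩ := h2 j hj
      filter_upwards [key j hj (by linarith) (by linarith)] with x' hx' _
      exact hx'
  · refine Or.inr (Or.inl ⟨i, ?_, key _ (nrm_ne_dir h1).symm (by linarith) (by linarith)⟩)
    have hT := B.T_pos i
    exact mem_interior_iff_mem_nhds.2 (mem_of_superset (closedBall_mem_nhds _ (by positivity)) h2)
  · rcases h1 with h1 | h1
    · exact Or.inr (Or.inr ⟨_, h1.1⟩)
    · exact Or.inr (Or.inr ⟨_, h1.1⟩)

/-- **(CONE) in the plates**, on any set `A` -/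
theorem PS.coneAt (P : PS L F T) {A : Set V} {g : V → V} (hg : ContinuousOn (PS.map T ∘ g) A)
    (hA : ∀ x ∈ A, g x ∈ G.PB (7 / 8) s ∧ |g x (K.nrm s) - K.slo s (K.nrm s)| < B.τ s)
    {K₁ K₂ ε : ℝ} (h1 : ∀ x ∈ A, ∀ y ∈ A,
      bandD (L.lv s) (L.loP s) (L.hiP s) (L.omP s) (g x) (g y) ≤ K₁ * ‖x - y‖)
    (h2 : ∀ x ∈ A, ∀ y ∈ A, ‖g x - g y‖ ≤ K₂ * ‖x - y‖)
    (hε : ∀ β, (F β).e s / L.c s β * K₂ ≤ ε) {Lc : ℝ} (hL : K₁ + ε ≤ Lc) {x : V} (hx : x ∈ A) :
    ConeAtB B Lc A (fun x => PS.map T (g x)) x := by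
  refine coneAt_peeled G (c := 7 / 8) (by norm_num) hx (hg x hx) (P.mem_PB (hA x hx).1) ?_ ?_
  · rw [P.nrm (hA x hx).1]
    exact (hA x hx).2
  · intro x' hx' j hj hw hw'
    refine (P.lip (hA x' hx').1 (hA x hx).1 (h1 x' hx' x hx) (fun i => ?_) hε (norm_nonneg _) hj
      hw' hw).trans (mul_le_mul_of_nonneg_right hL (norm_nonneg _))
    refine le_trans ?_ (h2 x' hx' x hx)
    have := norm_le_pi_norm (g x' - g x) i
    rwa [Pi.sub_apply, Real.norm_eq_abs] at this

/-! ### Points near an edge -/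

/-- near the edge `i`: only the coordinate along the edge is moved -/
def NearE (G : Geo B) (i : K.G) (y : V) : Prop :=
  ∀ s, y ∈ PK G s → K.edge i ⊆ K.sq s ∧ ∀ j, j ≠ K.nrm s → j ≠ K.dir i → y j ∉ pwin G s j

theorem nearE_of_TB {i : K.G} (hy : y ∈ G.TB false (.inl i)) : NearE G i y := by
  intro s hs
  have hZe := Geo.TB_subset_Ze i hy
  have hes := edge_subset_sq (PK_sub_ss s hs) hZe.1 (Ze_nJ hZe)
  refine ⟨hes, fun j hj hjd hw => ?_⟩
  rw [Geo.mem_inl] at hy
  simp only [Bool.false_eq_true, if_false] at hy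
  have h1 := G.be_a s _ (hes (TM.wa_mem K i))
  have h2 := G.lam_a i
  have h3 := G.lam_pos i
  have h6 := abs_le.1 (hy.2 j hjd)
  obtain ⟨h4, h5⟩ := hw
  rcases edge_side hes hj hjd with h8 | h8
  · linarith
  · linarith

theorem PS.near_tg (P : PS L F T) {i : K.G} (hy : NearE G i y) (hK : y ∈ ((F β).B s).K) :
    y ∈ PK G s ∧ tg s β = K.dir i := by
  have e : (F β).B s = L.bx β s := by rw [P.B β]
  rw [e] at hK
  obtain ⟨h1, h2⟩ := PLev.mem_bxK.1 hK
  refine ⟨h1, ?_⟩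
  by_contra hne
  exact (hy s h1).2 _ (tg_ne s β) hne h2

theorem PS.mem_K (P : PS L F T) (hK : y ∈ ((F β).B s).K) : y ∈ PK G s := by
  have e : (F β).B s = L.bx β s := by rw [P.B β]
  rw [e] at hK
  exact (PLev.mem_bxK.1 hK).1

/-- only the coordinate along the edge is moved -/
theorem PS.near_step (P : PS L F T) {i : K.G} (hy : NearE G i y) (β : Bool) :
    (∀ j, j ≠ K.dir i → (T β).toFun y j = y j) ∧ NearE G i ((T β).toFun y) ∧
      ∀ s, (T β).toFun y ∈ PK G s → y ∈ PK G s := by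
  by_cases hK : ∃ s, y ∈ ((F β).B s).K
  · obtain ⟨s, hs⟩ := hK
    obtain ⟨h1, h2⟩ := P.near_tg hy hs
    have h3 : ∀ j, j ≠ K.dir i → (T β).toFun y j = y j := by
      intro j hj
      refine (P.isS β).ne hs ?_
      rw [((P.plate s).box β).dir, h2]
      exact hj
    have h4 := P.mem_K ((P.isS β).mem hs)
    refine ⟨h3, fun s' hs' => ?_, fun s' hs' => ?_⟩
    · have h5 : s' = s := PK_unique hs' h4
      subst h5
      refine ⟨(hy s' h1).1, fun j hj hjd => ?_⟩
      rw [h3 j hjd]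
      exact (hy s' h1).2 j hj hjd
    · have h5 : s' = s := PK_unique hs' h4
      subst h5
      exact h1
  · push Not at hK
    rw [(P.isS β).off y hK]
    exact ⟨fun _ _ => rfl, hy, fun _ h => h⟩

/-- **Lipschitz bound of the coordinate along the edge**, one family -/
theorem PS.lip_near (P : PS L F T) {A : ℝ} (hA : 1 ≤ A)
    (hs : ∀ β s t t', |(F β).σ s t - (F β).σ s t'| ≤ A * |t - t'|) {i : K.G} {z z' : V}
    (hz : NearE G i z) (hz' : NearE G i z') {d q : ℝ} (hd : ∀ j, j ≠ K.dir i → |z j - z' j| ≤ d)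
    (hd0 : 0 ≤ d) (hq0 : 0 ≤ q)
    (hq : ∀ s, (z ∈ PK G s ∨ z' ∈ PK G s) → (F β).D s * (d / (B.τ s / 2)) ≤ q) :
    |(T β).toFun z (K.dir i) - (T β).toFun z' (K.dir i)| ≤
      3 * A * |z (K.dir i) - z' (K.dir i)| + 2 * q := by
  have hnn := abs_nonneg (z (K.dir i) - z' (K.dir i))
  have key : ∀ s, (z ∈ PK G s ∨ z' ∈ PK G s) → tg s β = K.dir i →
      |((F β).Sb s).toFun z (K.dir i) - ((F β).Sb s).toFun z' (K.dir i)| ≤
        A * |z (K.dir i) - z' (K.dir i)| + q := by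
    intro s hsz hsi
    have e : (F β).B s = L.bx β s := by rw [P.B β]
    have ej : ((F β).B s).j = K.dir i := by rw [((P.plate s).box β).dir, hsi]
    have hτ := B.τ_pos s
    have hp := G.τ_p s
    have h1 := ((F β).B s).abs_S_sub_le ((F β).tgt s) ((F β).D0 s) hA (hs β s)
      (ρ := B.τ s / 2) (d := d) (by positivity) (fun l => by
        rw [e]
        show _ ≤ (if l = K.nrm s then B.τ s / 2 else G.p s / 8)
        split_ifs
        · exact le_rfl
        · linarith) (y := z) (y' := z') (fun l hl => hd l (by rwa [ej] at hl)) hd0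
    rw [ej] at h1
    exact h1.trans (add_le_add_right (hq s hsz) _)
  have hid : ∀ s, ∀ y, y ∉ ((F β).B s).K → ((F β).Sb s).toFun y = y := fun s y hy =>
    ((F β).supp s).id y hy
  by_cases hK : ∃ s, z ∈ ((F β).B s).K
  · obtain ⟨s, hzs⟩ := hK
    obtain ⟨h1, h2⟩ := P.near_tg hz hzs
    have h3 := key s (Or.inl h1) h2
    rw [← (P.isS β).on s z hzs] at h3
    by_cases hK' : ∃ s, z' ∈ ((F β).B s).K
    · obtain ⟨s', hzs'⟩ := hK'
      obtain ⟨h1', h2'⟩ := P.near_tg hz' hzs'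
      by_cases hss : s = s'
      · subst hss
        rw [← (P.isS β).on s z' hzs'] at h3
        nlinarith
      · have h4 := key s' (Or.inr h1') h2'
        rw [← (P.isS β).on s' z' hzs'] at h4
        rw [hid s z' fun h => hss (PK_unique (P.mem_K h) h1')] at h3
        rw [hid s' z fun h => hss (PK_unique h1 (P.mem_K h))] at h4
        have h5 : |(T β).toFun z (K.dir i) - (T β).toFun z' (K.dir i)| ≤
            |(T β).toFun z (K.dir i) - z' (K.dir i)| + |z' (K.dir i) - z (K.dir i)| +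
              |z (K.dir i) - (T β).toFun z' (K.dir i)| := by
          have h6 := abs_sub_le ((T β).toFun z (K.dir i)) (z' (K.dir i)) ((T β).toFun z' (K.dir i))
          have h7 := abs_sub_le (z' (K.dir i)) (z (K.dir i)) ((T β).toFun z' (K.dir i))
          linarith
        rw [abs_sub_comm (z' (K.dir i)) (z (K.dir i))] at h5
        nlinarith
    · push Not at hK'
      rw [hid s z' (hK' s)] at h3
      rw [(P.isS β).off z' hK']
      nlinarith
  · push Not at hK
    rw [(P.isS β).off z hK]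
    by_cases hK' : ∃ s, z' ∈ ((F β).B s).K
    · obtain ⟨s', hzs'⟩ := hK'
      obtain ⟨h1', h2'⟩ := P.near_tg hz' hzs'
      have h4 := key s' (Or.inr h1') h2'
      rw [← (P.isS β).on s' z' hzs', hid s' z (hK s')] at h4
      nlinarith
    · push Not at hK'
      rw [(P.isS β).off z' hK']
      nlinarith

/-- **Lipschitz bound of the coordinate along the edge** -/
theorem PS.lip_tube (P : PS L F T) {A : ℝ} (hA : 1 ≤ A)
    (hs : ∀ β s t t', |(F β).σ s t - (F β).σ s t'| ≤ A * |t - t'|) {i : K.G} {z z' : V}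
    (hz : NearE G i z) (hz' : NearE G i z') {d q : ℝ} (hd : ∀ j, j ≠ K.dir i → |z j - z' j| ≤ d)
    (hd0 : 0 ≤ d) (hq0 : 0 ≤ q)
    (hq : ∀ β s, (z ∈ PK G s ∨ z' ∈ PK G s) → (F β).D s * (d / (B.τ s / 2)) ≤ q) :
    |PS.map T z (K.dir i) - PS.map T z' (K.dir i)| ≤
      9 * A ^ 2 * |z (K.dir i) - z' (K.dir i)| + (6 * A + 2) * q := by
  obtain ⟨h1, h2, h3⟩ := P.near_step hz false
  obtain ⟨h1', h2', h3'⟩ := P.near_step hz' false
  have h4 := P.lip_near hA hs hz hz' hd hd0 hq0 (hq false)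
  have h5 := P.lip_near (β := true) hA hs h2 h2' (d := d) (q := q) (fun j hj => by
    rw [h1 j hj, h1' j hj]; exact hd j hj) hd0 hq0 (fun s hs' => hq true s (by
      rcases hs' with h | h
      · exact Or.inl (h3 s h)
      · exact Or.inr (h3' s h)))
  unfold PS.map
  have h6 : 3 * A * |(T false).toFun z (K.dir i) - (T false).toFun z' (K.dir i)| ≤
      3 * A * (3 * A * |z (K.dir i) - z' (K.dir i)| + 2 * q) :=
    mul_le_mul_of_nonneg_left h4 (by linarith)
  refine h5.trans ?_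
  nlinarith

end

end P073.H142
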