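import Vale.Agent.P073.H142.PCone2

/-!
# P073, block H142 (P-CONE), part 3: (CONE) for the faces which are in no plate

`coneAt_W`: on a set `A` in a face `k` such that no point of `h1 (F k)` is in a plate.
-/

open Set Metric Topology Filter MeasureTheory
open scoped ENNReal

namespace P073.H142

open P073 P073.Net P073.PA691 Vale.Agent.P073.H471 Vale.Agent.P073.H267 P073.H236 P073.H345
  P073.H579
open Vale.Agent.P073.St (V)
open Vale.Agent.P073.H73 (Mesh)
open Vale.Agent.P073.H193 (Edges)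

variable {η₀ : ℝ} {Ω Λ : Set V} {w : V} {ρ : V → ℝ} {M : Mesh Ω} {h h1 : ConHomeo Ω Λ}
  {Pr : Set M.ι} {K : BoxCx Λ w} {E : Edges M} {k : M.κ}

variable (D : KIn η₀ w ρ M h Pr) (C : Cells ρ w K) {L : PLev (D.G C)}
  {F : Bool → BFam 3 K.S Λ} {T : Bool → ConHomeo Λ Λ}

/-- displacement of the staircases, in terms of the tile -/
theorem PS.disp (P : PS L F T) (hD : ∀ β s, (F β).D s ≤ ωS η₀ C s) {β : Bool} {y : V} {p : K.T}
    (hy : y ∈ K.cube p) : ‖(T β).toFun y - y‖ ≤ (D.G C).om p / 1024 := by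
  have h0 := δN_pos D.pos
  have hT := C.sT_pos p
  have hom : (D.G C).om p = 4096 * (δN η₀ * C.sT p) := by
    show oN η₀ * C.sT p = _
    rw [← δN_eq (η₀ := η₀)]; ring
  by_cases hK : ∃ s, y ∈ ((F β).B s).K
  · obtain ⟨s, hs⟩ := hK
    refine ((P.isS β).norm_sub_le hs).trans ((hD β s).trans ?_)
    have h1 := tile_of_ss (PK_sub_ss s (P.mem_K hs)) hy
    have h2 := (C.sS_sT D.hρ h1).1
    have h3 : 4 * δN η₀ * C.sS s ≤ 4 * δN η₀ * C.sT p :=
      mul_le_mul_of_nonneg_left h2 (by positivity)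
    show 4 * δN η₀ * C.sS s ≤ _
    rw [hom]
    linarith
  · push Not at hK
    rw [(P.isS β).off y hK, sub_self, norm_zero, hom]
    positivity

/-- the staircases near a point with large margins in a zone -/
theorem PS.near (P : PS L F T) (hD : ∀ β s, (F β).D s ≤ ωS η₀ C s) {X : Set V} {r : ℝ}
    (hX : ∀ y ∈ X, ∀ p, y ∈ K.cube p → (D.G C).om p ≤ 4096 * r) (hr : 0 < r) {y z : V}
    (hXΛ : X ⊆ Λ) (hball : closedBall y (9000 * r) ⊆ X) (hz : ‖z - y‖ ≤ 4096 * r) :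
    z ∈ X ∧ ‖PS.map T z - y‖ ≤ 4104 * r ∧ PS.map T z ∈ interior X := by
  have h1 : z ∈ X := hball (by rw [mem_closedBall, dist_eq_norm]; linarith)
  have key : ∀ β, ∀ u, u ∈ X → ‖(T β).toFun u - u‖ ≤ 4 * r := by
    intro β u hu
    obtain ⟨p, hp⟩ := K.cover u (hXΛ hu)
    have h2 := P.disp D C hD (β := β) hp
    have h3 := hX u hu p hp
    linarith
  have h2 := key false z h1
  have h3 : ‖(T false).toFun z - y‖ ≤ 4100 * r := by
    have := norm_sub_le_norm_sub_add_norm_sub ((T false).toFun z) z y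
    linarith
  have h4 : (T false).toFun z ∈ X := hball (by rw [mem_closedBall, dist_eq_norm]; linarith)
  have h5 := key true _ h4
  have h6 : ‖PS.map T z - y‖ ≤ 4104 * r := by
    unfold PS.map
    have := norm_sub_le_norm_sub_add_norm_sub ((T true).toFun ((T false).toFun z))
      ((T false).toFun z) y
    linarith
  refine ⟨h1, h6, mem_interior_iff_mem_nhds.2 (mem_of_superset (ball_mem_nhds _ hr) ?_)⟩
  intro u hu
  refine hball ?_
  rw [mem_ball, dist_eq_norm] at hu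
  rw [mem_closedBall, dist_eq_norm]
  have := norm_sub_le_norm_sub_add_norm_sub u (PS.map T z) y
  linarith

/-- a face with a point deep in a plate, before ROUND P: it is in a plate after ROUND T -/
theorem mem_PB_of_deep {x : V} {s : K.S} (hxΛ : h.toFun x ∈ Λ)
    (hn : ∀ q, h.toFun x ∈ K.cube q → ‖h1.toFun x - h.toFun x‖ ≤ (D.G C).om q)
    (hb : closedBall (h.toFun x) (9000 * ωS η₀ C s) ⊆ (D.G C).PB 2 s) :
    h1.toFun x ∈ (D.G C).PB 1 s := by
  obtain ⟨q, hq⟩ := K.cover _ hxΛ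
  have h0 := D.ωS_pos C s
  have h1' := hb (mem_closedBall_self (by linarith))
  have h2 := (D.ωS_om C (by norm_num : (1:ℝ) / 2 ≤ 2) h1' hq).2
  have h3 := hn q hq
  have h4 : h1.toFun x ∈ (D.G C).PB 2 s := hb (by rw [mem_closedBall, dist_eq_norm]; linarith)
  rw [Geo.mem_PB] at h4 ⊢
  have hp := Geo.p_pos (G := D.G C) s
  refine ⟨fun j hj => ?_, h4.2⟩
  have := h4.1 j hj
  constructor <;> linarith

/-- **(CONE) for the faces which are in no plate** -/
theorem coneAt_W (P : PS L F T) (hD : ∀ β s, (F β).D s ≤ ωS η₀ C s) {A : ℝ} (hA : 1 ≤ A)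
    (hs : ∀ β s t t', |(F β).σ s t - (F β).σ s t'| ≤ A * |t - t'|)
    (hn : ∀ x ∈ M.F k, ∀ q, h.toFun x ∈ K.cube q → ‖h1.toFun x - h.toFun x‖ ≤ (D.G C).om q)
    {Lam K₁ ε Lc : ℝ} (hL0 : 0 ≤ Lam) (hε0 : 0 ≤ ε)
    (hlip : ∀ b, InT (D.G C) M h (ωT η₀ C) b k → ∀ j, j ≠ b.ax → ∀ x ∈ M.F k, ∀ y ∈ M.F k,
      |h1.toFun x j - h1.toFun y j| ≤ Lam * ‖x - y‖)
    (hW : ∀ x ∈ M.F k, ∀ s, h1.toFun x ∉ (D.G C).PB 1 s) {X : Set V} (hXk : X ⊆ M.F k)
    (hcone : ∀ b, InT (D.G C) M h (ωT η₀ C) b k → ∀ x ∈ X, ∀ y ∈ X,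
      |h1.toFun x b.ax - h1.toFun y b.ax| ≤ K₁ * ‖x - y‖)
    (hq : ∀ β s, (∃ x ∈ M.F k, h1.toFun x ∈ PK (D.G C) s) →
      (F β).D s * (Lam / ((D.B C).τ s / 2)) ≤ ε)
    (hLc : 9 * A ^ 2 * K₁ + (6 * A + 2) * ε ≤ Lc) {x : V} (hx : x ∈ X) :
    ConeAtB (D.B C) Lc X
      (fun x => PS.map T (h1.toFun x)) x := by
  have hxk := hXk hx
  have hxΛ : h.toFun x ∈ Λ := h.mapsTo (Vale.Agent.P073.H238.mesh_sub M k hxk)
  obtain ⟨q, hq0⟩ := K.cover _ hxΛ
  rcases D.cover_face C k with ⟨s, h2, -⟩ | ⟨i, h2, h3⟩ | ⟨i, h2⟩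
  · exact absurd (mem_PB_of_deep D C hxΛ (hn x hxk) (h2 x hxk).2) (hW x hxk s)
  · rcases h3 with h3 | ⟨s, -, h3, -⟩
    · -- the tube around the edge `i`
      have hω := D.ωT_pos C (.inl i)
      have hInT : InT (D.G C) M h (ωT η₀ C) (.inl i) k := fun y hy =>
        (closedBall_subset_closedBall (by linarith)).trans (h3 y hy)
      set Y : Set V := (D.G C).TB true (.inl i) ∩ (D.B C).E i with hY
      have hYom : ∀ y ∈ Y, ∀ p, y ∈ K.cube p → (D.G C).om p ≤ 4096 * ωT η₀ C (.inl i) :=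
        fun y hy p hp => (D.ωT_om C (Geo.TB_true_subset _ hy.1) hp).2
      have hYΛ : Y ⊆ Λ := fun y hy => Geo.TB_sub _ (Geo.TB_true_subset _ hy.1)
      have hmem : ∀ y ∈ M.F k, h1.toFun y ∈ Y ∧ PS.map T (h1.toFun y) ∈ interior Y := by
        intro y hy
        have hyΛ : h.toFun y ∈ Λ := h.mapsTo (Vale.Agent.P073.H238.mesh_sub M k hy)
        obtain ⟨p, hp⟩ := K.cover _ hyΛ
        have hb : closedBall (h.toFun y) (9000 * ωT η₀ C (.inl i)) ⊆ Y :=
          subset_inter (h3 y hy) (h2 y hy)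
        have h4 := hYom _ (hb (mem_closedBall_self (by linarith))) p hp
        obtain ⟨h5, -, h6⟩ := P.near D C hD hYom hω hYΛ hb ((hn y hy p hp).trans h4)
        exact ⟨h5, h6⟩
      refine Or.inr (Or.inl ⟨i, interior_mono inter_subset_right (hmem x hxk).2, ?_⟩)
      filter_upwards [self_mem_nhdsWithin] with y hy
      have hyk := hXk hy
      have hr := norm_nonneg (y - x)
      have h4 := P.lip_tube hA hs (nearE_of_TB (Geo.TB_true_subset _ (hmem y hyk).1.1))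
        (nearE_of_TB (Geo.TB_true_subset _ (hmem x hxk).1.1)) (d := Lam * ‖y - x‖)
        (q := ε * ‖y - x‖) (fun j hj => hlip (.inl i) hInT j hj y hyk x hxk)
        (by positivity) (by positivity) (fun β s hs' => by
          have h5 := hq β s (by
            rcases hs' with h | h
            · exact ⟨y, hyk, h⟩
            · exact ⟨x, hxk, h⟩)
          calc (F β).D s * (Lam * ‖y - x‖ / ((D.B C).τ s / 2))
              = (F β).D s * (Lam / ((D.B C).τ s / 2)) * ‖y - x‖ := by ring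
            _ ≤ ε * ‖y - x‖ := mul_le_mul_of_nonneg_right h5 hr)
      have h5 := hcone (.inl i) hInT y hy x hx
      refine h4.trans ?_
      have h6 : 9 * A ^ 2 * |h1.toFun y (K.dir i) - h1.toFun x (K.dir i)| ≤
          9 * A ^ 2 * (K₁ * ‖y - x‖) := mul_le_mul_of_nonneg_left h5 (by positivity)
      have h7 : (9 * A ^ 2 * K₁ + (6 * A + 2) * ε) * ‖y - x‖ ≤ Lc * ‖y - x‖ :=
        mul_le_mul_of_nonneg_right hLc hr
      nlinarith
    · exact absurd (mem_PB_of_deep D C hxΛ (hn x hxk) (h3 x hxk)) (hW x hxk s)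
  · -- near a vertex
    have hω := D.ωW_pos C i
    have h0 := δN_pos D.pos
    have hYom : ∀ y ∈ Zv (D.W C) i, ∀ p, y ∈ K.cube p → (D.G C).om p ≤ 4096 * ωW η₀ C i := by
      intro y hy p hp
      have h3 := tile_of_sv (Zv_subset hy) hp
      have h4 := (C.sW_sT D.hρ h3).2
      have hom : (D.G C).om p = 4096 * (δN η₀ * C.sT p) := by
        show oN η₀ * C.sT p = _
        rw [← δN_eq (η₀ := η₀)]; ring
      rw [hom]
      show _ ≤ 4096 * (4 * δN η₀ * C.sW i)
      nlinarith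
    have hb := h2 x hxk
    have h4 := hYom _ (hb (mem_closedBall_self (by linarith))) q hq0
    obtain ⟨-, -, h6⟩ := P.near D C hD hYom hω (fun y hy => Rad.U_sub _ i (sv_subset i (Zv_subset hy))) hb
      ((hn x hxk q hq0).trans h4)
    exact Or.inr (Or.inr ⟨i, h6⟩)

end P073.H142
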