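import Vale.Agent.P073.H142.PSlope
import Vale.Agent.P073.H345.PStage2
import Vale.Agent.P073.H579.ActS

/-!
# P073, block H142 (P-CONE), part 4: the peeled faces

`peeled_mem`: position of the peeled faces after the insertion; `cone_peeled`, `edge_peeled`:
(CONE) on the cones and on the edges of a peeled face.
-/

open Set Metric Topology Filter MeasureTheory
open scoped ENNReal

namespace P073.H142

open P073 P073.Net P073.PA691 Vale.Agent.P073.H471 Vale.Agent.P073.H267 P073.H236 P073.H345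
  P073.H579
open Vale.Agent.P073.St (V)
open Vale.Agent.P073.H73 (Mesh)
open Vale.Agent.P073.H193 (Edges)
open Vale.Agent.P073.H805 (ROut RIn)

variable {Ω Λ : Set V} {M : Mesh Ω} {E : Edges M} {k : M.κ} {v : V} {K : BoxCx Λ v} {S : Rad K}
  {W : Wid K S} {B : Boxes W} {G : Geo B} {h1 h2 h3 : ConHomeo Ω Λ} {Pr : Set M.ι}

/-- **(CONE)** for a face, with the boxes `B` -/
def ConeFB (B : Boxes W) (T : FStar E k) (C₁ : ℝ) (b : E.ε → ℝ) (f : V → V) : Prop :=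
  ∀ e, E.seg e ⊆ M.F k → ∀ x ∈ coneSetAt T.O (E.seg e),
    ConeAtB B (T.con C₁ b e) (coneSetAt T.O (E.seg e)) f x

theorem ConeFB.coneF {T : FStar E k} {C₁ : ℝ} {b : E.ε → ℝ} {f : V → V}
    (h : ConeFB B T C₁ b f) : ConeF W T C₁ b f := fun e he x hx => (h e he x hx).coneAt

/-- monotonicity of the constant -/
theorem ConeAtB.mono {L L' : ℝ} (hL : L ≤ L') {A : Set V} {f : V → V} {x : V}
    (h : ConeAtB B L A f x) : ConeAtB B L' A f x := by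
  rcases h with ⟨s, h1, h2⟩ | ⟨i, h1, h2⟩ | h1
  · refine Or.inl ⟨s, h1, ?_⟩
    filter_upwards [h2] with y hy j hj
    exact (hy j hj).trans (mul_le_mul_of_nonneg_right hL (norm_nonneg _))
  · refine Or.inr (Or.inl ⟨i, h1, ?_⟩)
    filter_upwards [h2] with y hy
    exact hy.trans (mul_le_mul_of_nonneg_right hL (norm_nonneg _))
  · exact Or.inr (Or.inr h1)

variable {L : PLev G} {κ₀ κ₁ : V → V} {F : Bool → BFam 3 K.S Λ} {T : Bool → ConHomeo Λ Λ}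
  {s : K.S} {GE : E.ε → (V → V) → Prop} {GF : M.κ → (V → V) → Prop}

/-- the zone of a peeled face -/
theorem peeled_zone (R : RIn G M h1 Pr univ L.lv E) (O : ROut G M h1 h2 Pr univ L.lv E)
    (i₀ : IsQ (L.bx false) κ₀) (i₁ : IsQ (L.bx true) κ₁) (hk : AkP G M h1 univ s k) :
    Zone (κ₁ ∘ κ₀) Λ h2 (L.kP s) (M.F k) :=
  (pact_P L R O i₀ i₁).zone s k hk

/-- **position of the peeled faces after the insertion** -/
theorem peeled_mem (R : RIn G M h1 Pr univ L.lv E) (O : ROut G M h1 h2 Pr univ L.lv E)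
    (i₀ : IsQ (L.bx false) κ₀) (i₁ : IsQ (L.bx true) κ₁)
    (H : Out3P G M E h1 h2 (κ₁ ∘ κ₀) GE GF h3) (hk : AkP G M h1 univ s k) {x : V}
    (hx : x ∈ M.F k) : h3.toFun x ∈ G.PB (7 / 8) s ∧
      |h3.toFun x (K.nrm s) - K.slo s (K.nrm s)| < B.τ s := by
  have h4 : h3.toFun x ∈ Pre (κ₁ ∘ κ₀) Λ h2 (M.F k) := by
    rw [← H.img_face]; exact mem_image_of_mem _ hx
  have h5 := (peeled_zone R O i₀ i₁ hk).z2 _ h4.1 h4.2
  obtain ⟨y, hy, hyx⟩ := h4.2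
  obtain ⟨h6, h7⟩ := hk.near' R O hy
  rw [hyx, h5] at h6 h7
  have h8 : prodK (L.kP s) (h3.toFun x) (K.nrm s) = h3.toFun x (K.nrm s) := by
    show L.kP s (K.nrm s) _ = _
    rw [PLev.kP_nrm]; rfl
  rw [h8] at h7
  exact ⟨(PLev.prodK_mem_PB (by norm_num)).1
    (Vale.Agent.P073.H805.PB_mono (by norm_num) s h6), h7⟩

/-- continuity of the last map -/
theorem map_contOn (h3 : ConHomeo Ω Λ) (T : Bool → ConHomeo Λ Λ) {A : Set V} (hA : A ⊆ Ω) :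
    ContinuousOn (PS.map T ∘ h3.toFun) A := by
  have h4 : ContinuousOn ((h3.trans (T false)).trans (T true)).toFun Ω :=
    ((h3.trans (T false)).trans (T true)).cont
  exact h4.mono hA

variable {La We mu : E.ε → ℝ} {O₁ : M.κ → V} {r0 R₁ : M.κ → ℝ}

/-- **(CONE) on a peeled face**, any good face maps -/
theorem cone_peeled' (R : RIn G M h1 Pr univ L.lv E) (O : ROut G M h1 h2 Pr univ L.lv E)
    (i₀ : IsQ (L.bx false) κ₀) (i₁ : IsQ (L.bx true) κ₁)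
    (H : Out3P G M E h1 h2 (κ₁ ∘ κ₀) GE GF h3)
    (P : PS L F T) (hk : AkP G M h1 univ s k) {Lam ε : ℝ}
    (hLam : ∀ x ∈ M.F k, ∀ y ∈ M.F k, ‖h3.toFun x - h3.toFun y‖ ≤ Lam * ‖x - y‖)
    (hε : ∀ β, (F β).e s / L.c s β * Lam ≤ ε) {X : Set V} (hX : X ⊆ M.F k) {K₁ Lc : ℝ}
    (hGF : ∀ Φ : V → V, GF k Φ → ∀ x ∈ X, ∀ y ∈ X,
      bandD (L.lv s) (L.loP s) (L.hiP s) (L.omP s) (Φ x) (Φ y) ≤ K₁ * ‖x - y‖)
    (hLc : K₁ + ε ≤ Lc) :
    ∀ x ∈ X, ConeAtB B Lc X (fun x => PS.map T (h3.toFun x)) x := by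
  obtain ⟨Φ, h4, h5⟩ := H.face k ⟨s, hk⟩
  have h6 := hGF Φ.toFun h4
  intro x hx
  have hsub := Vale.Agent.P073.H238.mesh_sub M k
  refine P.coneAt (s := s) (map_contOn h3 T (hX.trans hsub))
    (fun y hy => peeled_mem R O i₀ i₁ H hk (hX hy)) (K₂ := Lam) (fun y hy z hz => ?_)
    (fun y hy z hz => hLam y (hX hy) z (hX hz)) hε hLc hx
  rw [h5 (hX hy), h5 (hX hz)]
  exact h6 y hy z hz

/-- **(CONE) on a peeled face** -/
theorem cone_peeled (R : RIn G M h1 Pr univ L.lv E) (O : ROut G M h1 h2 Pr univ L.lv E)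
    (i₀ : IsQ (L.bx false) κ₀) (i₁ : IsQ (L.bx true) κ₁)
    (H : Out3P G M E h1 h2 (κ₁ ∘ κ₀) GE
      (GFP E (AkP G M h1 univ) L.lv L.loP L.hiP L.omP La We O₁ r0 R₁) h3)
    (P : PS L F T) (hk : AkP G M h1 univ s k) {Lam ε : ℝ}
    (hLam : ∀ x ∈ M.F k, ∀ y ∈ M.F k, ‖h3.toFun x - h3.toFun y‖ ≤ Lam * ‖x - y‖)
    (hε : ∀ β, (F β).e s / L.c s β * Lam ≤ ε) {e : E.ε} (he : E.seg e ⊆ M.F k)
    (hcone : coneSetAt (O₁ k) (E.seg e) ⊆ M.F k) {Lc : ℝ}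
    (hLc : 156 * (1 + R₁ k / r0 k) * (La e + (∑ e ∈ (E.fin_face k).toFinset, We e) / r0 k) + ε
      ≤ Lc) :
    ∀ x ∈ coneSetAt (O₁ k) (E.seg e),
      ConeAtB B Lc (coneSetAt (O₁ k) (E.seg e)) (fun x => PS.map T (h3.toFun x)) x := by
  obtain ⟨Φ, h4, h5⟩ := H.face k ⟨s, hk⟩
  have h6 := (h4 s hk).1 e he
  intro x hx
  have hsub := Vale.Agent.P073.H238.mesh_sub M k
  refine P.coneAt (s := s) (map_contOn h3 T (hcone.trans hsub))
    (fun y hy => peeled_mem R O i₀ i₁ H hk (hcone hy)) (K₂ := Lam) (fun y hy z hz => ?_)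
    (fun y hy z hz => hLam y (hcone hy) z (hcone hz)) hε hLc hx
  rw [h5 (hcone hy), h5 (hcone hz)]
  exact h6 y hy z hz

/-- **(CONE) on the edges of a peeled face** -/
theorem edge_peeled (R : RIn G M h1 Pr univ L.lv E) (O : ROut G M h1 h2 Pr univ L.lv E)
    (i₀ : IsQ (L.bx false) κ₀) (i₁ : IsQ (L.bx true) κ₁)
    (H : Out3P G M E h1 h2 (κ₁ ∘ κ₀)
      (GEP E h2 (AkP G M h1 univ) L.kP L.lv L.loP L.hiP L.omP La mu) GF h3)
    (P : PS L F T) (hk : AkP G M h1 univ s k) {Lam ε : ℝ}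
    (hLam : ∀ x ∈ M.F k, ∀ y ∈ M.F k, ‖h3.toFun x - h3.toFun y‖ ≤ Lam * ‖x - y‖)
    (hε : ∀ β, (F β).e s / L.c s β * Lam ≤ ε) {e : E.ε} (he : E.seg e ⊆ M.F k)
    (hLa : 0 ≤ La e) {Lc : ℝ} (hLc : La e + ε ≤ Lc) :
    ∀ x ∈ E.seg e, ConeAtB B Lc (E.seg e) (fun x => PS.map T (h3.toFun x)) x := by
  obtain ⟨f, h4, h5⟩ := H.edge k ⟨s, hk⟩ e he
  have hEA : EAct E (AkP G M h1 univ) s e := ⟨k, hk, he⟩
  obtain ⟨s1, s2, s3, s4, h6, -⟩ := h4 s hEA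
  have hsub := Vale.Agent.P073.H238.mesh_sub M k
  have hPA := pact_P L R O i₀ i₁
  obtain ⟨x₀, hx₀, hx₀s⟩ := hk.2
  obtain ⟨-, hfin, -⟩ := O.edge k (mem_univ k) s x₀ hx₀ hx₀s e he
  have hband := band_le_seg (E.ne e) h6 (L.ins1P s) (fun x hx j j' hj hj' =>
    hPA.one s k hk e he x hx j j' hj hj') (fun j c _ => (L.omP_pos s j c).le) hLa
    (hfin.subset (by
      rintro x ⟨hx, l, hl⟩
      exact ⟨hx, l, by rw [L.lvs_lv]; exact hl⟩))
    ((h3.cont.mono (he.trans hsub)).congr fun x hx => (h5 hx).symm) (fun x hx => by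
      have h7 : h3.toFun x ∈ Pre (κ₁ ∘ κ₀) Λ h2 (E.seg e) := by
        rw [← H.img_edge]; exact mem_image_of_mem _ hx
      have h8 := (peeled_zone R O i₀ i₁ hk).z2 _ h7.1 (image_mono he h7.2)
      have h9 : (κ₁ ∘ κ₀) (h3.toFun x) ∈ h2.toFun '' E.seg e := h7.2
      rw [h8] at h9
      rw [← h5 hx]
      exact h9)
  intro x hx
  refine P.coneAt (s := s) (map_contOn h3 T (he.trans hsub))
    (fun y hy => peeled_mem R O i₀ i₁ H hk (he hy)) (K₂ := Lam) (fun y hy z hz => ?_)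
    (fun y hy z hz => hLam y (he hy) z (he hz)) hε hLc hx
  rw [h5 hy, h5 hz]
  exact hband y hy z hz

end P073.H142
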