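import Vale.Agent.P073.H142.PCone4
import Vale.Agent.P073.H345.RoundP
import Vale.Agent.P073.H267.RoundDefs

/-!
# P073, block H142 (P-CONE), part 5: **the cone estimates after ROUND P**

`cone_round`: (CONE) on the cones and on the edges of all faces for `f = S_P ∘ h3`.
`exists_mu`, `exists_thr`: the choice of the displacement and of the thresholds.
-/

open Set Metric Topology Filter MeasureTheory
open scoped ENNReal

namespace P073.H142

open P073 P073.Net P073.PA691 Vale.Agent.P073.H471 Vale.Agent.P073.H267 P073.H236 P073.H345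
  P073.H579
open Vale.Agent.P073.St (V)
open Vale.Agent.P073.H73 (Mesh)
open Vale.Agent.P073.H193 (Edges)
open Vale.Agent.P073.H805 (ROut RIn)
open Vale.Agent.P073.H669 (PLv)

variable {η₀ : ℝ} {Ω Λ : Set V} {w : V} {ρ : V → ℝ} {M : Mesh Ω} {h h1 h2 h3 : ConHomeo Ω Λ}
  {Pr : Set M.ι} {K : BoxCx Λ w} {E : Edges M}

/-- the tiny number of a face: small compared with `b` -/
def TinyF (T : ∀ k, FStar E k) (b : E.ε → ℝ) (ε₁ : M.κ → ℝ) : Prop :=
  ∀ k e, E.seg e ⊆ M.F k → ε₁ k ≤ (T k).con 1 b e ∧ ε₁ k ≤ b e / ‖E.b e - E.a e‖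

theorem exists_tinyF (T : ∀ k, FStar E k) {b : E.ε → ℝ} (hb : ∀ e, 0 < b e) :
    ∃ ε₁ : M.κ → ℝ, (∀ k, 0 < ε₁ k) ∧ TinyF T b ε₁ := by
  have key : ∀ k, ∃ ε > 0, ∀ e, E.seg e ⊆ M.F k → ε ≤ (T k).con 1 b e ∧
      ε ≤ b e / ‖E.b e - E.a e‖ := by
    intro k
    obtain ⟨t1, ht1, h5⟩ := (T k).exists_eps one_pos (b := b) (fun e _ => hb e)
    obtain ⟨t2, ht2, h6⟩ := Boxes.exists_pos_le (E.fin_face k)
      (fun e => b e / ‖E.b e - E.a e‖) (fun e => div_pos (hb e) (elen_pos E e))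
    exact ⟨min t1 t2, lt_min ht1 ht2, fun e he => ⟨(min_le_left _ _).trans (h5 e he),
      (min_le_right _ _).trans (h6 e he)⟩⟩
  choose ε h1 h2 using key
  exact ⟨ε, h1, h2⟩

/-- a compact neighbourhood of the support of the plate, which contains the points moved into it -/
theorem exists_nbhd (D : KIn η₀ w ρ M h Pr) (C : Cells ρ w K) (s : K.S) :
    ∃ Z : Set V, IsCompact Z ∧ Z ⊆ Λ ∧ ∀ y q z, y ∈ K.cube q → z ∈ PK (D.G C) s →
      ‖z - y‖ ≤ (D.G C).om q → y ∈ Z := by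
  have hρc : Continuous ρ := by
    have : LipschitzWith 1 ρ := LipschitzWith.of_le_add fun x y => by
      rw [dist_eq_norm]; exact D.hρ.lip x y
    exact this.continuous
  set Z : Set V := (fun p : V × V => p.1 + (ρ p.1 / 2) • p.2) ''
    (PK (D.G C) s ×ˢ closedBall (0:V) 1) with hZ
  refine ⟨Z, ((Vale.Agent.P073.H669.PK_compact (D.G C) s).prod
    (isCompact_closedBall 0 1)).image (by fun_prop), ?_, ?_⟩
  · rintro _ ⟨⟨z, u⟩, ⟨hz, hu⟩, rfl⟩
    have hzΛ := Vale.Agent.P073.H669.PK_sub (D.G C) s hz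
    have hp := D.hρ.pos z hzΛ
    by_contra hcon
    have h1 := D.hρ.off _ hcon
    have h2 := D.hρ.lip z (z + (ρ z / 2) • u)
    rw [sub_add_cancel_left, norm_neg, norm_smul, Real.norm_eq_abs,
      abs_of_pos (by positivity)] at h2
    rw [mem_closedBall, dist_zero_right] at hu
    have h3 : ρ z / 2 * ‖u‖ ≤ ρ z / 2 * 1 := mul_le_mul_of_nonneg_left hu (by positivity)
    change ρ (z + (ρ z / 2) • u) ≤ 0 at h1
    linarith
  · intro y q z hy hz hzy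
    have hzΛ := Vale.Agent.P073.H669.PK_sub (D.G C) s hz
    have hp := D.hρ.pos z hzΛ
    have hy' := hy
    rw [C.cube_eq] at hy'
    have h1 := (C.tile q).1 y hy'
    have hom : (D.G C).om q = oN η₀ * C.sT q := rfl
    have h0 := oN_pos D.pos
    have h2 := oN_eq (η₀ := η₀)
    have h3 := κN_le_one D.pos D.lt
    have hT := C.sT_pos q
    have e : C.sT q = 1 / 2 ^ (C.fT q).1 := rfl
    have h4 : C.sT q ≤ ρ y := by rw [e]; linarith
    have h5 : ‖z - y‖ ≤ ρ y / 5 := by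
      rw [hom] at hzy
      nlinarith
    have h6 := D.hρ.lip y z
    rw [norm_sub_rev] at h6
    have h7 : ‖y - z‖ ≤ ρ z / 2 := by rw [norm_sub_rev]; linarith
    refine ⟨(z, (2 / ρ z) • (y - z)), ⟨hz, ?_⟩, ?_⟩
    · rw [mem_closedBall, dist_zero_right, norm_smul, Real.norm_eq_abs,
        abs_of_pos (by positivity)]
      calc 2 / ρ z * ‖y - z‖ ≤ 2 / ρ z * (ρ z / 2) := mul_le_mul_of_nonneg_left h7 (by positivity)
        _ = 1 := by field_simp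
    · show z + (ρ z / 2) • (2 / ρ z) • (y - z) = y
      rw [smul_smul, show ρ z / 2 * (2 / ρ z) = 1 by field_simp, one_smul]
      abel

/-- **choice of the displacement `μ` of ROUND P** (before the widths of the slivers) -/
theorem exists_mu (D : KIn η₀ w ρ M h Pr) (C : Cells ρ w K) {Lam1 ε₁ : M.κ → ℝ}
    (hL : ∀ k, 0 ≤ Lam1 k) (hε : ∀ k, 0 < ε₁ k) {m₀ : K.S → ℝ} (hm₀ : ∀ s, 0 < m₀ s) :
    ∃ μ : K.S → ℝ, (∀ s, 0 < μ s) ∧ (∀ s, μ s ≤ m₀ s) ∧ (∀ s, μ s ≤ ωS η₀ C s) ∧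
      ∀ h1 : ConHomeo Ω Λ, (∀ k, ∀ x ∈ M.F k, ∀ q, h.toFun x ∈ K.cube q →
        ‖h1.toFun x - h.toFun x‖ ≤ (D.G C).om q) →
        ∀ k s, (∃ x ∈ M.F k, h1.toFun x ∈ PK (D.G C) s) →
        ∀ μ' ≤ μ s, μ' * (Lam1 k / ((D.B C).τ s / 2)) ≤ ε₁ k := by
  choose Z hZc hZΛ hZ using fun s => exists_nbhd D C s
  have hfin : ∀ s, {k | (h.toFun '' M.F k ∩ Z s).Nonempty}.Finite := fun s =>
    Vale.Agent.P073.H669.face_fin h (hZc s) (hZΛ s)
  obtain ⟨m, hm0, hm⟩ := Vale.Agent.P073.H669.exists_le_of_finite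
    (R := fun s k => (h.toFun '' M.F k ∩ Z s).Nonempty) hfin (f := fun k => ε₁ k / (Lam1 k + 1))
    (fun k => div_pos (hε k) (by linarith [hL k]))
  refine ⟨fun s => min (min (m₀ s) (ωS η₀ C s)) (m s * ((D.B C).τ s / 2)), fun s => ?_,
    fun s => (min_le_left _ _).trans (min_le_left _ _),
    fun s => (min_le_left _ _).trans (min_le_right _ _), ?_⟩
  · have h1 := (D.B C).τ_pos s
    have h2 := hm0 s
    exact lt_min (lt_min (hm₀ s) (D.ωS_pos C s)) (by positivity)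
  · rintro h1 hn k s ⟨x, hx, hxs⟩ μ' hμ'
    have hτ := (D.B C).τ_pos s
    have hxΛ : h.toFun x ∈ Λ := h.mapsTo (Vale.Agent.P073.H238.mesh_sub M k hx)
    obtain ⟨q, hq⟩ := K.cover _ hxΛ
    have h2 := hm s k ⟨_, mem_image_of_mem _ hx, hZ s _ q _ hq hxs (hn k x hx q hq)⟩
    have h3 := hL k
    rw [le_div_iff₀ (by linarith)] at h2
    have h4 : μ' ≤ m s * ((D.B C).τ s / 2) := hμ'.trans (min_le_right _ _)
    have h5 : 0 ≤ Lam1 k / ((D.B C).τ s / 2) := by positivity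
    calc μ' * (Lam1 k / ((D.B C).τ s / 2))
        ≤ m s * ((D.B C).τ s / 2) * (Lam1 k / ((D.B C).τ s / 2)) :=
          mul_le_mul_of_nonneg_right h4 h5
      _ = m s * Lam1 k := by field_simp
      _ ≤ m s * (Lam1 k + 1) := mul_le_mul_of_nonneg_left (by linarith) (hm0 s).le
      _ ≤ _ := h2


/-- **choice of the thresholds of the staircases of ROUND P** -/
theorem exists_thr {v : V} {K : BoxCx Λ v} {S : Rad K} {W : Wid K S} {B : Boxes W} (G : Geo B)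
    (h1 : ConHomeo Ω Λ) {Lam3 ε₁ : M.κ → ℝ} (hL : ∀ k, 0 ≤ Lam3 k) (hε : ∀ k, 0 < ε₁ k)
    {δ e₁ : K.S → ℝ} (hδ : ∀ s, 0 < δ s) (he₁ : ∀ s, 0 < e₁ s) :
    ∃ e : K.S → ℝ, (∀ s, 0 < e s) ∧ (∀ s, e s ≤ δ s / 8) ∧ (∀ s, e s ≤ e₁ s) ∧
      ∀ k s, AkP G M h1 univ s k → ∀ e' ≤ e s, e' / (δ s / 8) * Lam3 k ≤ ε₁ k := by
  have hfin : ∀ s, {k | (h1.toFun '' M.F k ∩ PK G s).Nonempty}.Finite := fun s =>
    Vale.Agent.P073.H669.face_fin h1 (Vale.Agent.P073.H669.PK_compact G s)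
      (Vale.Agent.P073.H669.PK_sub G s)
  obtain ⟨m, hm0, hm⟩ := Vale.Agent.P073.H669.exists_le_of_finite
    (R := fun s k => (h1.toFun '' M.F k ∩ PK G s).Nonempty) hfin
    (f := fun k => ε₁ k / (Lam3 k + 1)) (fun k => div_pos (hε k) (by linarith [hL k]))
  refine ⟨fun s => min (min (δ s / 8) (e₁ s)) (m s * (δ s / 8)), fun s => ?_,
    fun s => (min_le_left _ _).trans (min_le_left _ _),
    fun s => (min_le_left _ _).trans (min_le_right _ _), ?_⟩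
  · have h2 := hδ s
    have h3 := hm0 s
    exact lt_min (lt_min (by positivity) (he₁ s)) (by positivity)
  · rintro k s ⟨-, x, hx, hxs⟩ e' he'
    have h2 := hm s k ⟨_, mem_image_of_mem _ hx, PB_sub_PK (by norm_num) s hxs⟩
    have h3 := hL k
    have hδs := hδ s
    rw [le_div_iff₀ (by linarith)] at h2
    have h4 : e' ≤ m s * (δ s / 8) := he'.trans (min_le_right _ _)
    rw [div_mul_eq_mul_div, div_le_iff₀ (by positivity)]
    calc e' * Lam3 k ≤ m s * (δ s / 8) * Lam3 k := mul_le_mul_of_nonneg_right h4 h3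
      _ = m s * Lam3 k * (δ s / 8) := by ring
      _ ≤ m s * (Lam3 k + 1) * (δ s / 8) := by
        refine mul_le_mul_of_nonneg_right ?_ (by positivity)
        exact mul_le_mul_of_nonneg_left (by linarith) (hm0 s).le
      _ ≤ ε₁ k * (δ s / 8) := mul_le_mul_of_nonneg_right h2 (by positivity)

theorem ConeAtB.congr {S : Rad K} {W : Wid K S} {B : Boxes W} {L : ℝ} {A : Set V} {f g : V → V}
    {x : V} (hfg : EqOn f g A) (hx : x ∈ A) (h : ConeAtB B L A f x) : ConeAtB B L A g x := by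
  rcases h with ⟨s, h1, h2⟩ | ⟨i, h1, h2⟩ | ⟨i, h1⟩
  · refine Or.inl ⟨s, hfg hx ▸ h1, ?_⟩
    filter_upwards [h2, self_mem_nhdsWithin] with y hy hyA
    rw [← hfg hx, ← hfg hyA]
    exact hy
  · refine Or.inr (Or.inl ⟨i, hfg hx ▸ h1, ?_⟩)
    filter_upwards [h2, self_mem_nhdsWithin] with y hy hyA
    rw [← hfg hx, ← hfg hyA]
    exact hy
  · exact Or.inr (Or.inr ⟨i, hfg hx ▸ h1⟩)

/-- **the cone estimates after ROUND P**, on all faces and edges, for `f = S_P ∘ h3`. `q k` is the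
factor of the band estimate on the face `k`. -/
theorem cone_round_q (D : KIn η₀ w ρ M h Pr) (C : Cells ρ w K) (T : ∀ k, FStar E k)
    {C₀ C₂ : ℝ} {ε b LaT : E.ε → ℝ} {LfT : M.κ → E.ε → ℝ} {Lam1 : M.κ → ℝ}
    {sl sl' : TBx K → Finset (ℝ × ℝ)} (hC₀ : 0 ≤ C₀) (hC₂ : 0 ≤ C₂)
    (N : _root_.P073.H267.TNum M E h.toFun T C₀ ε b LaT LfT) (hLam1 : ∀ k, 0 ≤ Lam1 k)
    (HT : T3Out (D.G C) M E h h1 (ωT η₀ C) (fun k => (T k).O) LaT LfT Lam1 sl)
    {η : ℝ} {τ : Type*} {A : τ → Set V} {Cs : Set ℝ} {εE : E.ε → ℝ} {μ δ : K.S → ℝ}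
    (L : PLv (D.G C) E h1 Pr sl' η A Cs εE μ δ) {κ₀ κ₁ : V → V} {La We mu : E.ε → ℝ}
    {GF : M.κ → (V → V) → Prop}
    (RP : RPOut (D.G C) M E Pr L.lev h1 κ₀ κ₁ h2
      (GEP E h2 (AkP (D.G C) M h1 univ) L.lev.kP L.lev.lv L.lev.loP L.lev.hiP L.lev.omP La mu)
      GF h3) {q : M.κ → ℝ} (hq : ∀ k, 1 ≤ q k)
    (hGF : ∀ k (Φ : V → V), GF k Φ → ∀ s, AkP (D.G C) M h1 univ s k → ∀ e, E.seg e ⊆ M.F k →
      ∀ x ∈ coneSetAt (T k).O (E.seg e), ∀ y ∈ coneSetAt (T k).O (E.seg e),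
      bandD (L.lev.lv s) (L.lev.loP s) (L.lev.hiP s) (L.lev.omP s) (Φ x) (Φ y) ≤
        q k * (156 * (1 + (T k).R / (T k).rho) *
          (La e + (∑ e ∈ (E.fin_face k).toFinset, We e) / (T k).rho)) * ‖x - y‖)
    (hLa0 : ∀ e, 0 ≤ La e) (hLa : ∀ e, La e * ‖E.b e - E.a e‖ ≤ C₂ * b e)
    (hWe : ∀ e, We e ≤ C₂ * b e)
    {e : K.S → ℝ} {he : ∀ s, 0 < e s} {he8 : ∀ s, e s ≤ δ s / 8} {Sm : Bool → ConHomeo Λ Λ}
    (hS : ∀ β, (L.bfam e he he8 β).IsS (Sm β)) {ε₁ Lam3 : M.κ → ℝ} (hε₁ : ∀ k, 0 ≤ ε₁ k)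
    (hTiny : TinyF T b ε₁) (hμω : ∀ s, μ s ≤ ωS η₀ C s)
    (hμ : ∀ k s, (∃ x ∈ M.F k, h1.toFun x ∈ PK (D.G C) s) →
      μ s * (Lam1 k / ((D.B C).τ s / 2)) ≤ ε₁ k)
    (hLam3 : ∀ k, ∀ x ∈ M.F k, ∀ y ∈ M.F k, ‖h3.toFun x - h3.toFun y‖ ≤ Lam3 k * ‖x - y‖)
    (he3 : ∀ k s, AkP (D.G C) M h1 univ s k → e s / (δ s / 8) * Lam3 k ≤ ε₁ k) (k : M.κ) :
    ConeFB (D.B C) (T k) (q k * (156 * C₂ + 576 * C₀ + 51) * (1 + (T k).R / (T k).rho)) b
      (fun x => PS.map Sm (h3.toFun x)) ∧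
    ∀ e, E.seg e ⊆ M.F k → ∀ x ∈ E.seg e, ConeAtB (D.B C)
      (q k * (156 * C₂ + 576 * C₀ + 51) * (b e / ‖E.b e - E.a e‖)) (E.seg e)
      (fun x => PS.map Sm (h3.toFun x)) x := by
  have P := ps_bfam L hS
  have hrho := (T k).rho_pos
  have hR0 := (T k).R0
  have hqk := hq k
  set r : ℝ := 1 + (T k).R / (T k).rho with hr
  have hr1 : 1 ≤ r := by
    rw [hr]; linarith [div_nonneg hR0 hrho.le]
  set C₁ : ℝ := 156 * C₂ + 576 * C₀ + 51 with hC₁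
  have hX : ∀ e, (T k).con 1 b e =
      b e / ‖E.b e - E.a e‖ + (∑ e ∈ (E.fin_face k).toFinset, b e) / (T k).rho := by
    intro e; unfold FStar.con; rw [one_mul]
  have hcon : ∀ c e, (T k).con c b e = c * (T k).con 1 b e := by
    intro c e; rw [← (T k).con_mul, mul_one]
  have hX0 : ∀ e, E.seg e ⊆ M.F k → 0 ≤ (T k).con 1 b e := fun e he =>
    (T k).con_nonneg zero_le_one (fun e _ => (N.b_pos e).le) he
  have hY0 : ∀ e, 0 ≤ b e / ‖E.b e - E.a e‖ := fun e => div_nonneg (N.b_pos e).le (norm_nonneg _)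
  have hLaY : ∀ e, La e ≤ C₂ * (b e / ‖E.b e - E.a e‖) := by
    intro e
    rw [← mul_div_assoc, le_div_iff₀ (elen_pos E e)]
    exact hLa e
  -- enlarging the constants
  have hbig : ∀ Z : ℝ, 0 ≤ Z → C₁ * Z ≤ q k * C₁ * Z := by
    intro Z hZ
    have h1 : 0 ≤ C₁ * Z := by positivity
    nlinarith
  by_cases hk : k ∈ Peel (D.G C) M h1
  · obtain ⟨s, hs⟩ := hk
    have hsm : ∀ β, (L.bfam e he he8 β).e s / L.lev.c s β * Lam3 k ≤ ε₁ k := fun _ => he3 k s hs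
    refine ⟨fun i hi => ?_, fun i hi => ?_⟩
    · refine cone_peeled' RP.rin RP.rout RP.isQ₀ RP.isQ₁ RP.out P hs (hLam3 k) hsm
        ((T k).cone_sub hi) (fun Φ hΦ => hGF k Φ hΦ s hs i hi) ?_
      rw [hcon]
      have h4 := (hTiny k i hi).1
      have h5 := hX0 i hi
      have h6 : La i + (∑ e ∈ (E.fin_face k).toFinset, We e) / (T k).rho ≤
          C₂ * (T k).con 1 b i := by
        rw [hX, mul_add]
        refine add_le_add (hLaY i) ?_
        rw [← mul_div_assoc, Finset.mul_sum]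
        exact div_le_div_of_nonneg_right (Finset.sum_le_sum fun e _ => hWe e) hrho.le
      have h7 : q k * (156 * r * (La i + (∑ e ∈ (E.fin_face k).toFinset, We e) / (T k).rho)) ≤
          q k * (156 * r * (C₂ * (T k).con 1 b i)) :=
        mul_le_mul_of_nonneg_left (mul_le_mul_of_nonneg_left h6 (by positivity)) (by linarith)
      have h8 : (T k).con 1 b i ≤ r * (T k).con 1 b i := by nlinarith
      have h8' : r * (T k).con 1 b i ≤ q k * (r * (T k).con 1 b i) := by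
        have : 0 ≤ r * (T k).con 1 b i := by positivity
        nlinarith
      have h9 : 0 ≤ C₀ * (q k * (r * (T k).con 1 b i)) := by positivity
      have e1 : q k * C₁ * r * (T k).con 1 b i =
          q k * (156 * r * (C₂ * (T k).con 1 b i)) + 576 * (C₀ * (q k * (r * (T k).con 1 b i))) +
            51 * (q k * (r * (T k).con 1 b i)) := by rw [hC₁]; ring
      rw [e1]
      linarith
    · refine edge_peeled RP.rin RP.rout RP.isQ₀ RP.isQ₁ RP.out P hs (hLam3 k) hsm hi (hLa0 i) ?_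
      refine le_trans ?_ (hbig _ (hY0 i))
      have h4 := (hTiny k i hi).2
      have h5 := hLaY i
      have h6 := hY0 i
      have h7 : 0 ≤ C₀ * (b i / ‖E.b i - E.a i‖) := by positivity
      have h8 : 0 ≤ C₂ * (b i / ‖E.b i - E.a i‖) := by positivity
      rw [hC₁]
      nlinarith
  · have hoff := RP.out.off k hk
    have hW : ∀ x ∈ M.F k, ∀ s, h1.toFun x ∉ (D.G C).PB 1 s := fun x hx s => not_peel hk hx s
    have hD : ∀ β s, (L.bfam e he he8 β).D s ≤ ωS η₀ C s := fun _ s => hμω s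
    have key : ∀ (X : Set V), X ⊆ M.F k → ∀ K₁ Lc : ℝ,
        (∀ b, InT (D.G C) M h (ωT η₀ C) b k → ∀ x ∈ X, ∀ y ∈ X,
          |h1.toFun x b.ax - h1.toFun y b.ax| ≤ K₁ * ‖x - y‖) →
        576 * K₁ + 50 * ε₁ k ≤ Lc → ∀ x ∈ X,
        ConeAtB (D.B C) Lc X (fun x => PS.map Sm (h3.toFun x)) x := by
      intro X hXk K₁ Lc h4 h5 x hx
      refine ConeAtB.congr (f := fun x => PS.map Sm (h1.toFun x)) (fun y hy => ?_) hx ?_
      · show PS.map Sm (h1.toFun y) = PS.map Sm (h3.toFun y)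
        rw [hoff (hXk hy)]
      · exact coneAt_W D C P hD (A := 8) (by norm_num)
          (fun β s t t' => bfam_slope L e he he8 β s t t')
          (HT.near k) (hLam1 k) (hε₁ k) (HT.lip k) hW hXk h4 (fun _ s hs => hμ k s hs)
          (by linarith) hx
    refine ⟨fun i hi => ?_, fun i hi => ?_⟩
    · refine key _ ((T k).cone_sub hi) (LfT k i) _ (fun b hb => HT.cone k b hb i hi) ?_
      rw [hcon]
      have h4 := (hTiny k i hi).1
      have h5 := hX0 i hi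
      have h6 := N.Lf_le k i hi
      rw [hcon] at h6
      have h8 : (T k).con 1 b i ≤ r * (T k).con 1 b i := by nlinarith
      have h9 : 0 ≤ C₂ * (r * (T k).con 1 b i) := by positivity
      have h10 : 0 ≤ r * (T k).con 1 b i := by positivity
      have e1 : q k * C₁ * r * (T k).con 1 b i = q k * C₁ * (r * (T k).con 1 b i) := by ring
      rw [e1]
      refine le_trans ?_ (hbig _ h10)
      have e2 : C₁ * (r * (T k).con 1 b i) = 156 * (C₂ * (r * (T k).con 1 b i)) +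
          576 * (C₀ * r * (T k).con 1 b i) + 51 * (r * (T k).con 1 b i) := by rw [hC₁]; ring
      rw [e2]
      linarith
    · refine key _ hi (LaT i) _ (fun b hb => HT.elip k b hb i hi) ?_
      refine le_trans ?_ (hbig _ (hY0 i))
      have h4 := (hTiny k i hi).2
      have h5 : LaT i ≤ C₀ * (b i / ‖E.b i - E.a i‖) := by
        rw [← mul_div_assoc, le_div_iff₀ (elen_pos E i)]
        exact N.La_le i
      have h6 := hY0 i
      have h7 : 0 ≤ C₀ * (b i / ‖E.b i - E.a i‖) := by positivity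
      have h8 : 0 ≤ C₂ * (b i / ‖E.b i - E.a i‖) := by positivity
      rw [hC₁]
      nlinarith

/-- **the cone estimates after ROUND P**, for the face maps `GFP` -/
theorem cone_round (D : KIn η₀ w ρ M h Pr) (C : Cells ρ w K) (T : ∀ k, FStar E k)
    {C₀ C₂ : ℝ} {ε b LaT : E.ε → ℝ} {LfT : M.κ → E.ε → ℝ} {Lam1 : M.κ → ℝ}
    {sl sl' : TBx K → Finset (ℝ × ℝ)} (hC₀ : 0 ≤ C₀) (hC₂ : 0 ≤ C₂)
    (N : _root_.P073.H267.TNum M E h.toFun T C₀ ε b LaT LfT) (hLam1 : ∀ k, 0 ≤ Lam1 k)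
    (HT : T3Out (D.G C) M E h h1 (ωT η₀ C) (fun k => (T k).O) LaT LfT Lam1 sl)
    {η : ℝ} {τ : Type*} {A : τ → Set V} {Cs : Set ℝ} {εE : E.ε → ℝ} {μ δ : K.S → ℝ}
    (L : PLv (D.G C) E h1 Pr sl' η A Cs εE μ δ) {κ₀ κ₁ : V → V} {La We mu : E.ε → ℝ}
    (RP : RPOut (D.G C) M E Pr L.lev h1 κ₀ κ₁ h2
      (GEP E h2 (AkP (D.G C) M h1 univ) L.lev.kP L.lev.lv L.lev.loP L.lev.hiP L.lev.omP La mu)
      (GFP E (AkP (D.G C) M h1 univ) L.lev.lv L.lev.loP L.lev.hiP L.lev.omP La We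
        (fun k => (T k).O) (fun k => (T k).rho) (fun k => (T k).R)) h3)
    (hLa0 : ∀ e, 0 ≤ La e) (hLa : ∀ e, La e * ‖E.b e - E.a e‖ ≤ C₂ * b e)
    (hWe : ∀ e, We e ≤ C₂ * b e)
    {e : K.S → ℝ} {he : ∀ s, 0 < e s} {he8 : ∀ s, e s ≤ δ s / 8} {Sm : Bool → ConHomeo Λ Λ}
    (hS : ∀ β, (L.bfam e he he8 β).IsS (Sm β)) {ε₁ Lam3 : M.κ → ℝ} (hε₁ : ∀ k, 0 ≤ ε₁ k)
    (hTiny : TinyF T b ε₁) (hμω : ∀ s, μ s ≤ ωS η₀ C s)
    (hμ : ∀ k s, (∃ x ∈ M.F k, h1.toFun x ∈ PK (D.G C) s) →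
      μ s * (Lam1 k / ((D.B C).τ s / 2)) ≤ ε₁ k)
    (hLam3 : ∀ k, ∀ x ∈ M.F k, ∀ y ∈ M.F k, ‖h3.toFun x - h3.toFun y‖ ≤ Lam3 k * ‖x - y‖)
    (he3 : ∀ k s, AkP (D.G C) M h1 univ s k → e s / (δ s / 8) * Lam3 k ≤ ε₁ k) (k : M.κ) :
    ConeFB (D.B C) (T k) ((156 * C₂ + 576 * C₀ + 51) * (1 + (T k).R / (T k).rho)) b
      (fun x => PS.map Sm (h3.toFun x)) ∧
    ∀ e, E.seg e ⊆ M.F k → ∀ x ∈ E.seg e, ConeAtB (D.B C)
      ((156 * C₂ + 576 * C₀ + 51) * (b e / ‖E.b e - E.a e‖)) (E.seg e)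
      (fun x => PS.map Sm (h3.toFun x)) x := by
  have h4 := cone_round_q D C T hC₀ hC₂ N hLam1 HT L RP (q := fun _ => 1) (fun _ => le_rfl)
    (fun k Φ hΦ s hs e he x hx y hy => by
      rw [one_mul]
      exact (hΦ s hs).1 e he x hx y hy) hLa0 hLa hWe hS hε₁ hTiny hμω hμ hLam3 he3 k
  simpa only [one_mul] using h4

end P073.H142
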