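import Vale.Agent.P073.H142.PCone5
import Vale.Agent.P073.H142.NumE
import Vale.Agent.P073.H155.TailSoft
import Vale.Agent.P073.H236.OutC

/-!
# P073, block H142 (P-CONE), part 6: the fields `good`, `all` of `LastB`

`faceOK_round`: `FaceOKB` for `f = S_P ∘ h3` on every face.
-/

open Set Metric Topology Filter MeasureTheory
open scoped ENNReal

namespace P073.H142

open P073 P073.Net P073.PA691 Vale.Agent.P073.H471 Vale.Agent.P073.H267 P073.H236 P073.H345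
  P073.H579
open Vale.Agent.P073.St (V)
open Vale.Agent.P073.H73 (Mesh)
open Vale.Agent.P073.H193 (Edges edges)
open Vale.Agent.P073.H805 (ROut RIn)
open Vale.Agent.P073.H669 (PLv)

variable {η₀ : ℝ} {Ω Λ : Set V} {w : V} {ρ : V → ℝ} {M : Mesh Ω} {h h1 h2 h3 : ConHomeo Ω Λ}
  {Pr : Set M.ι} {K : BoxCx Λ w}

/-- the last map before the collapse -/
noncomputable def lastMap (h3 : ConHomeo Ω Λ) (Sm : Bool → ConHomeo Λ Λ) : ConHomeo Ω Λ :=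
  (h3.trans (Sm false)).trans (Sm true)

theorem lastMap_apply (h3 : ConHomeo Ω Λ) (Sm : Bool → ConHomeo Λ Λ) (x : V) :
    (lastMap h3 Sm).toFun x = PS.map Sm (h3.toFun x) := rfl

/-- monotonicity in the constant -/
theorem faceOKB_mono {S : Rad K} {W : Wid K S} {B : Boxes W} {f g : V → V} {C₁ C₁' D₀ ε : ℝ}
    {k : M.κ} (hC : C₁ ≤ C₁') (H : P073.H155.FaceOKB B g f C₁ D₀ ε k) :
    P073.H155.FaceOKB B g f C₁' D₀ ε k := by
  obtain ⟨T, b, h1, h2, h3, h4⟩ := H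
  have hrho := T.rho_pos
  have hR0 := T.R0
  refine ⟨T, b, h1, h2, fun e he x hx => (h3 e he x hx).mono ?_, fun e he x hx =>
    (h4 e he x hx).mono ?_⟩
  · have h5 := T.con_nonneg zero_le_one (fun e he => (h2 e he).le) he
    rw [← mul_one (C₁ * _), ← mul_one (C₁' * _), T.con_mul, T.con_mul]
    refine mul_le_mul_of_nonneg_right (mul_le_mul_of_nonneg_right hC ?_) h5
    have := div_nonneg hR0 hrho.le
    linarith
  · exact mul_le_mul_of_nonneg_right hC (div_nonneg (h2 e he).le (norm_nonneg _))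

/-- **`FaceOKB` for the last map before the collapse, on every face** -/
theorem faceOK_round (D : KIn η₀ w ρ M h Pr) (C : Cells ρ w K) (T : ∀ k, FStar (edges M) k)
    {C₀ C₂ D₀ : ℝ} {ε b LaT : (edges M).ε → ℝ} {εk : M.κ → ℝ} {LfT : M.κ → (edges M).ε → ℝ}
    {Lam1 : M.κ → ℝ} {sl sl' : TBx K → Finset (ℝ × ℝ)} (hC₀ : 0 ≤ C₀) (hC₂ : 0 ≤ C₂)
    (N : _root_.P073.H267.TNum M (edges M) h.toFun T C₀ ε b LaT LfT) (hLam1 : ∀ k, 0 ≤ Lam1 k)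
    (hnum : ∀ k, Num k h.toFun D₀ (εk k) b)
    (HT : T3Out (D.G C) M (edges M) h h1 (ωT η₀ C) (fun k => (T k).O) LaT LfT Lam1 sl)
    {η : ℝ} {τ : Type*} {A : τ → Set V} {Cs : Set ℝ} {εE : (edges M).ε → ℝ} {μ δ : K.S → ℝ}
    (L : PLv (D.G C) (edges M) h1 Pr sl' η A Cs εE μ δ) {κ₀ κ₁ : V → V}
    {La We mu : (edges M).ε → ℝ} {GF : M.κ → (V → V) → Prop}
    (RP : RPOut (D.G C) M (edges M) Pr L.lev h1 κ₀ κ₁ h2
      (GEP (edges M) h2 (AkP (D.G C) M h1 univ) L.lev.kP L.lev.lv L.lev.loP L.lev.hiP L.lev.omP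
        La mu) GF h3) {q : M.κ → ℝ} (hq : ∀ k, 1 ≤ q k)
    (hGF : ∀ k (Φ : V → V), GF k Φ → ∀ s, AkP (D.G C) M h1 univ s k →
      ∀ e, (edges M).seg e ⊆ M.F k →
      ∀ x ∈ coneSetAt (T k).O ((edges M).seg e), ∀ y ∈ coneSetAt (T k).O ((edges M).seg e),
      bandD (L.lev.lv s) (L.lev.loP s) (L.lev.hiP s) (L.lev.omP s) (Φ x) (Φ y) ≤
        q k * (156 * (1 + (T k).R / (T k).rho) *
          (La e + (∑ e ∈ ((edges M).fin_face k).toFinset, We e) / (T k).rho)) * ‖x - y‖)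
    (hLa0 : ∀ e, 0 ≤ La e) (hLa : ∀ e, La e * ‖(edges M).b e - (edges M).a e‖ ≤ C₂ * b e)
    (hWe : ∀ e, We e ≤ C₂ * b e)
    {e : K.S → ℝ} {he : ∀ s, 0 < e s} {he8 : ∀ s, e s ≤ δ s / 8} {Sm : Bool → ConHomeo Λ Λ}
    (hS : ∀ β, (L.bfam e he he8 β).IsS (Sm β)) {ε₁ Lam3 : M.κ → ℝ} (hε₁ : ∀ k, 0 ≤ ε₁ k)
    (hTiny : TinyF T b ε₁) (hμω : ∀ s, μ s ≤ ωS η₀ C s)
    (hμ : ∀ k s, (∃ x ∈ M.F k, h1.toFun x ∈ PK (D.G C) s) →
      μ s * (Lam1 k / ((D.B C).τ s / 2)) ≤ ε₁ k)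
    (hLam3 : ∀ k, ∀ x ∈ M.F k, ∀ y ∈ M.F k, ‖h3.toFun x - h3.toFun y‖ ≤ Lam3 k * ‖x - y‖)
    (he3 : ∀ k s, AkP (D.G C) M h1 univ s k → e s / (δ s / 8) * Lam3 k ≤ ε₁ k) (k : M.κ) :
    P073.H155.FaceOKB (D.B C) h.toFun (lastMap h3 Sm).toFun
      (q k * (156 * C₂ + 576 * C₀ + 51)) D₀ (εk k) k := by
  obtain ⟨h4, h5⟩ := cone_round_q D C T hC₀ hC₂ N hLam1 HT L RP hq hGF hLa0 hLa hWe hS hε₁
    hTiny hμω hμ hLam3 he3 k
  exact ⟨T k, b, hnum k, fun i _ => N.b_pos i, h4, h5⟩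

/-- the Lipschitz constants of a conical map on the faces -/
theorem exists_lam (hΩ : IsOpen Ω) (g : ConHomeo Ω Λ) : ∃ Lam : M.κ → ℝ, (∀ k, 0 ≤ Lam k) ∧
    ∀ k, ∀ x ∈ M.F k, ∀ y ∈ M.F k, ‖g.toFun x - g.toFun y‖ ≤ Lam k * ‖x - y‖ := by
  choose Lam h0 h1 using fun k => exists_lip_compact hΩ g.conical g.cont
    (face_compact M k) (Vale.Agent.P073.H238.mesh_sub M k)
  exact ⟨Lam, fun k => (h0 k).le, h1⟩

end P073.H142
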