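import Vale.Agent.P073.H142.PCone3
import Vale.Agent.P073.H669.PLevC

/-!
# P073, block H142 (P-CONE): the slope of the staircases of ROUND P
-/

open Set Metric Topology Filter

namespace P073.H142

open P073 P073.Net P073.PA691 Vale.Agent.P073.H471 Vale.Agent.P073.H267 P073.H236 P073.H345
  P073.H579
open Vale.Agent.P073.St (V)
open Vale.Agent.P073.H73 (Mesh)
open Vale.Agent.P073.H193 (Edges)
open Vale.Agent.P073.H669 (PLv)

variable {Ω Λ : Set V} {v : V} {K : BoxCx Λ v} {S : Rad K} {W : Wid K S} {B : Boxes W}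
  {G : Geo B} {M : Mesh Ω} {E : Edges M} {h : ConHomeo Ω Λ} {Pr : Set M.ι}
  {sl : TBx K → Finset (ℝ × ℝ)} {η : ℝ} {τ : Type*} {A : τ → Set V} {C : Set ℝ}
  {εE : E.ε → ℝ} {μ δ : K.S → ℝ}

/-- **the slope of the staircases** -/
theorem bfam_slope (L : PLv G E h Pr sl η A C εE μ δ) (e : K.S → ℝ) (he : ∀ s, 0 < e s)
    (he8 : ∀ s, e s ≤ δ s / 8) (β : Bool) (s : K.S) (t t' : ℝ) :
    |(L.bfam e he he8 β).σ s t - (L.bfam e he he8 β).σ s t'| ≤ 8 * |t - t'| := by
  have h0 := L.δ0 s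
  have h1 := L.om_le_two s β
  have h2 := (L.lev.lvs s β).first
  have h3 := (L.lev.lvs s β).last
  have hN := L.Ns s β
  have h4 := he s
  have h5 := he8 s
  change K.slo s (tg s β) + G.a s < L.a s β 0 - 2 * (δ s / 8) at h2
  change L.a s β (L.N s - 1) + 2 * (δ s / 8) < K.shi s (tg s β) - G.a s at h3
  unfold Vale.Agent.P073.H669.wl at hN
  refine abs_sm_sub_le (L.lev.lvs s β) ((L.bfam e he he8 β).tgt s) (by norm_num) ?_ ?_ ?_ t t'
  · show K.slo s (tg s β) + G.a s + e s - (K.slo s (tg s β) + G.a s) ≤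
      8 * (L.a s β 0 - δ s / 8 - (K.slo s (tg s β) + G.a s))
    linarith
  · show L.om s β ≤ 8 * (2 * (δ s / 8))
    linarith
  · show K.shi s (tg s β) - G.a s - (K.slo s (tg s β) + G.a s + L.N s * L.om s β - e s) ≤
      8 * (K.shi s (tg s β) - G.a s - (L.a s β (L.N s - 1) + δ s / 8))
    linarith

/-- the staircases of 669's levels -/
theorem ps_bfam (L : PLv G E h Pr sl η A C εE μ δ) {e : K.S → ℝ} {he : ∀ s, 0 < e s}
    {he8 : ∀ s, e s ≤ δ s / 8} {T : Bool → ConHomeo Λ Λ}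
    (hT : ∀ β, (L.bfam e he he8 β).IsS (T β)) : PS L.lev (L.bfam e he he8) T where
  B := fun _ => rfl
  isS := hT

end P073.H142
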