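import Vale.Agent.P073.H142.WPos
import Vale.Agent.P073.H805.NearP

/-!
# P073, block H142 ([STRIP]): the bands near the given drawn faces

`NoB`: the bands of a side avoid a value.  `clrB_of_noB`: they are clear before the hook.
-/

open Set Metric Topology Filter

set_option linter.unusedSectionVars false

namespace P073.H142

open P073 P073.Net P073.PA691 P073.TM P073.H236 P073.H429 P073.H880 P073.H880.RP P073.H936
  P073.H936.K3 P073.H345 P073.H579 P073.H950 P073.H919 P073.H196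
open Vale.Agent.P073.St (V)
open Vale.Agent.P073.H73 (Mesh)
open Vale.Agent.P073.H471 Vale.Agent.P073.H267 Vale.Agent.P073.H267.Geo
open Vale.Agent.P073.H304 (Nb In Zmax)
open Vale.Agent.P073.H926
open Vale.Agent.P073.H238.K3 (Zd Wc Act TOut3)
open _root_.P073.H155 (RelT Band3)

section nob

variable {Λ : Set V} {v : V} {K : BoxCx Λ v} {S : Rad K} {W : Wid K S} {B : Boxes W}
  {G : Geo B}

/-- the thick bands of the side `β` avoid `t` -/
def NoB (L : PLev G) (s : K.S) (β : Bool) (t : ℝ) : Prop :=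
  ∀ n < L.N s β, 2 * L.c s β ≤ |t - L.a s β n|

variable {L : PLev G} {c : K.S → Bool → ℝ} {h0 : ∀ s β, 0 < c s β} {h1 : ∀ s β, c s β ≤ L.c s β}
  {hΛ : IsOpen Λ} {S₀ : Set K.S} {F : Bool → BFam 3 S₀ Λ} {T Θ : Bool → ConHomeo Λ Λ} {s : S₀}
  {β : Bool} {y : V}

theorem theta2_PB (hΘ : ∀ β, (thP L c h0 h1 hΛ S₀ β).IsH (Θ β)) (hy : y ∈ G.PB (7 / 8) s.1) :
    (Θ true).toFun ((Θ false).toFun y) ∈ G.PB (7 / 8) s.1 := by
  have e1 := theta_full (hΘ false) s hy
  have hy1 : (Θ false).toFun y ∈ G.PB (7 / 8) s.1 := by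
    rw [e1]; exact (theta_PB_iff h0 h1 (by norm_num) s.1 y).2 hy
  have e2 := theta_full (hΘ true) s hy1
  rw [e2]
  exact (theta_PB_iff h0 h1 (by norm_num) s.1 _).2 hy1

/-- **bands which avoid the coordinate before `Θ` are clear after the staircases** -/
theorem clrB_of_noB (P : PS3 (thinL L c h0 h1) S₀ F T)
    (hΘ : ∀ β, (thP L c h0 h1 hΛ S₀ β).IsH (Θ β)) (hy : y ∈ G.PB (7 / 8) s.1)
    (h : NoB L s.1 β (y (tg s.1 β))) :
    ClrB (thinL L c h0 h1) (fun β => (F β).e s) s.1 β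
      (PS.map T ((Θ true).toFun ((Θ false).toFun y))) := by
  have hc := (L.lvs s.1 β).c0
  have e1 : (Θ true).toFun ((Θ false).toFun y) (tg s.1 β) = y (tg s.1 β) := by
    rw [theta2_full hΘ s hy]
    refine θP_off s.1 _ fun b hb => ?_
    rw [PLev.lv_tg] at hb
    obtain ⟨n, hn, rfl⟩ := (L.lvs s.1 β).mem_L.1 hb
    rw [bt_tg]
    exact h n hn
  intro k
  rw [P.apply (theta2_PB hΘ hy) β, e1]
  set t := y (tg s.1 β)
  have h2 := h k.1 k.2
  have h3 := h1 s.1 β
  have hB := P.B β s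
  have eN : ((F β).B s).N = L.N s.1 β := hB.N
  have ea : ((F β).B s).a k.1 = L.a s.1 β k.1 := congrFun hB.a _
  have ec : ((F β).B s).c = c s.1 β := hB.c
  have eal : ((F β).B s).al = K.slo s.1 (tg s.1 β) + G.a s.1 := hB.al
  have ebe : ((F β).B s).be = K.shi s.1 (tg s.1 β) - G.a s.1 := hB.be
  have hk : k.1 < ((F β).B s).N := by rw [eN]; exact k.2
  show bw (L.N s.1 β) (K.slo s.1 (tg s.1 β) + G.a s.1) (K.shi s.1 (tg s.1 β) - G.a s.1)
    ((F β).e s) < |(F β).σ s t - bc (L.N s.1 β) (K.slo s.1 (tg s.1 β) + G.a s.1)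
      (K.shi s.1 (tg s.1 β) - G.a s.1) k.1|
  rcases le_total t (L.a s.1 β k.1) with h4 | h4
  · rw [abs_of_nonpos (sub_nonpos.2 h4)] at h2
    have h5 := P073.H919.σ_lt_band (F β) (b := s) hk (t := t) (by
      rw [ea, ec]; linarith)
    rw [eN, eal, ebe] at h5
    rw [lt_abs]
    right
    linarith
  · rw [abs_of_nonneg (sub_nonneg.2 h4)] at h2
    have h5 := P073.H919.σ_gt_band (F β) (b := s) hk (t := t) (by
      rw [ea, ec]; linarith)
    rw [eN, eal, ebe] at h5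
    rw [lt_abs]
    left
    linarith

/-- the same for the two-stage staircases -/
theorem clrB2_of_noB {μ : Bool → S₀ → ℝ} {T2 : Bool → ConHomeo Λ Λ}
    (P2 : _root_.P073.H190.PT2 (thinL L c h0 h1) S₀ F μ T2) (P : PS3 (thinL L c h0 h1) S₀ F T)
    (hΘ : ∀ β, (thP L c h0 h1 hΛ S₀ β).IsH (Θ β)) (hy : y ∈ G.PB (7 / 8) s.1)
    (h : NoB L s.1 β (y (tg s.1 β))) :
    ClrB (thinL L c h0 h1) (fun β => (F β).e s) s.1 β
      (PS.map T2 ((Θ true).toFun ((Θ false).toFun y))) := by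
  rw [← P2.map_eq_map P (theta2_PB hΘ hy)]
  exact clrB_of_noB P hΘ hy h

end nob

section wall

variable {Λ : Set V} {v : V} {K : BoxCx Λ v} {S : Rad K} {W : Wid K S} {B : Boxes W} {G : Geo B}
  {y : V}

/-- **the side walls of the plates**, weak form, with the cross section of the box -/
theorem wallC {s : K.S} {k l : Fin 3} {β : Bool} (k_n : k ≠ K.nrm s) (l_n : l ≠ K.nrm s)
    (k_l : k ≠ l)
    (hn : |y (K.nrm s) - K.slo s (K.nrm s)| ≤ 1 / 2 * B.τ s)
    (hu1 : 3 / 4 * G.p s ≤ (if β then K.shi s k - y k else y k - K.slo s k))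
    (hu2 : (if β then K.shi s k - y k else y k - K.slo s k) ≤ 3 / 2 * G.p s)
    (lo : K.slo s l + G.a s / 2 < y l) (hi : y l < K.shi s l - G.a s / 2) :
    ∃ b : TBx K, RelT s l b ∧ b.ax = l ∧ (G.tlo true b l ≤ y l ∧ y l ≤ G.thi true b l) ∧
      ∀ z : V, |z (K.nrm s) - K.slo s (K.nrm s)| ≤ 1 / 2 * B.τ s →
        3 / 4 * G.p s ≤ (if β then K.shi s k - z k else z k - K.slo s k) →
        (if β then K.shi s k - z k else z k - K.slo s k) ≤ 3 / 2 * G.p s →
        G.tlo true b l ≤ z l → z l ≤ G.thi true b l → z ∈ G.TB true b := by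
  have ha := a_pos (G := G) s
  have hcase := fin3_cases k_n k_l l_n.symm
  set m : ℝ := if β then K.shi s k else K.slo s k with hm
  have hle := TM.slo_le_shi K s
  have hm1 : K.slo s k ≤ m ∧ m ≤ K.shi s k ∧ (m = K.slo s k ∨ m = K.shi s k) := by
    rw [hm]; cases β
    · rw [if_neg Bool.false_ne_true]; exact ⟨le_rfl, hle k, Or.inl rfl⟩
    · rw [if_pos rfl]; exact ⟨hle k, le_rfl, Or.inr rfl⟩
  have hp := G.p_pos s
  have humZ : ∀ z : V, 3 / 4 * G.p s ≤ (if β then K.shi s k - z k else z k - K.slo s k) →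
      (if β then K.shi s k - z k else z k - K.slo s k) ≤ 3 / 2 * G.p s →
      |z k - m| ≤ 3 / 2 * G.p s := by
    intro z h1 h2
    rw [hm]
    cases β
    · simp only [Bool.false_eq_true, if_false] at h1 h2 ⊢
      rw [abs_le]; constructor <;> linarith
    · simp only [if_true] at h1 h2 ⊢
      rw [abs_le]; constructor <;> linarith
  -- the point of the side
  set x : V := Function.update (Function.update (K.slo s) l (y l)) k m with hx
  have xk : x k = m := by simp [hx]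
  have xl : x l = y l := by simp [hx, k_l.symm]
  have xn : x (K.nrm s) = K.slo s (K.nrm s) := by
    rw [hx, Function.update_of_ne k_n.symm, Function.update_of_ne l_n.symm]
  have hxs : x ∈ K.sq s := by
    have : ∀ j, K.slo s j ≤ x j ∧ x j ≤ K.shi s j := by
      intro j
      rcases hcase j with rfl | rfl | rfl
      · rw [xk]; exact ⟨hm1.1, hm1.2.1⟩
      · rw [xn]; exact ⟨le_rfl, hle _⟩
      · rw [xl]; exact ⟨by linarith, by linarith⟩
    exact ⟨fun j => (this j).1, fun j => (this j).2⟩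
  obtain ⟨e, he, hxe⟩ := K.sq_bd s x hxs ⟨k, k_n, by rw [xk]; exact hm1.2.2⟩
  have hes : K.edge e ⊆ K.sq s := he
  have hwa := hes (TM.wa_mem K e)
  have hwb := hes (TM.wb_mem K e)
  have hwan := TM.nrm_eq hwa
  have hdn : K.dir e ≠ K.nrm s := (nrm_ne_dir hes).symm
  have hdl : K.dir e = l := by
    by_contra hdl
    have hdk : K.dir e = k := by
      rcases hcase (K.dir e) with hh | hh | hh
      · exact hh
      · exact absurd hh hdn
      · exact absurd hh hdl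
    -- the midpoint of the edge is in the open square
    have hab := K.ab_dir e
    set y' : V := Function.update (K.w (K.a e)) (K.dir e)
      ((K.w (K.a e) (K.dir e) + K.w (K.b e) (K.dir e)) / 2) with hy'
    have hye : y' ∈ K.edge e := by
      have : ∀ j, K.w (K.a e) j ≤ y' j ∧ y' j ≤ K.w (K.b e) j := by
        intro j
        by_cases hj : j = K.dir e
        · rw [hj, hy', Function.update_self]; constructor <;> linarith
        · rw [hy', Function.update_of_ne hj]; exact ⟨le_rfl, (wab K e hj).le⟩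
      exact ⟨fun j => (this j).1, fun j => (this j).2⟩
    refine K.sqo_edge s y' ?_ (fun j hj => ?_) e hye
    · rw [hy', Function.update_of_ne hdn.symm]; exact hwan
    · rcases hcase j with hjk | hjn | hjl
      · rw [hjk, ← hdk, hy', Function.update_self]
        constructor
        · linarith [hwa.1 (K.dir e)]
        · linarith [hwb.2 (K.dir e)]
      · exact absurd hjn hj
      · have hld : l ≠ K.dir e := Ne.symm hdl
        rw [hjl, hy', Function.update_of_ne hld, ← edge_coord hxe hld, xl]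
        constructor <;> linarith
  have hkd : k ≠ K.dir e := by rw [hdl]; exact k_l
  have hek : K.w (K.a e) k = m := by rw [← edge_coord hxe hkd, xk]
  have hxl1 := hxe.1 l
  have hxl2 := hxe.2 l
  rw [xl] at hxl1 hxl2
  have hpu := G.p_uT s e hes
  have hτp := G.τ_p s
  have hτ0 := B.τ_pos s
  -- hanging vertices
  have hang : ∀ i, (i = K.a e ∨ i = K.b e) → |y l - K.w i l| ≤ G.be i →
      ∃ b : TBx K, RelT s l b ∧ b.ax = l ∧ (G.tlo true b l ≤ y l ∧ y l ≤ G.thi true b l) ∧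
      ∀ z : V, |z (K.nrm s) - K.slo s (K.nrm s)| ≤ 1 / 2 * B.τ s →
        3 / 4 * G.p s ≤ (if β then K.shi s k - z k else z k - K.slo s k) →
        (if β then K.shi s k - z k else z k - K.slo s k) ≤ 3 / 2 * G.p s →
        G.tlo true b l ≤ z l → z l ≤ G.thi true b l → z ∈ G.TB true b := by
    intro i hi' hyi
    have hie : K.w i ∈ K.edge e := by
      rcases hi' with rfl | rfl
      · exact TM.wa_mem K e
      · exact TM.wb_mem K e
    have his := hes hie
    have hba := G.be_a s i his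
    have hyi' := abs_le.1 hyi
    have hbe := G.be_pos i
    let b : Hang K :=
      { i := i, s := s, k := k, l := l, β := β, k_n := k_n, l_n := l_n, k_l := k_l
        nrm := TM.nrm_eq his
        side := by rw [edge_coord hie hkd, hek]
        lo := by linarith
        hi := by linarith }
    have e1 : G.tlo true (.inr b) l = K.w i l - G.be i := by
      simp only [Geo.tlo]
      rw [if_pos rfl]
    have e2 : G.thi true (.inr b) l = K.w i l + G.be i := by
      simp only [Geo.thi]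
      rw [if_pos rfl]
    refine ⟨.inr b, ⟨rfl, rfl⟩, rfl, by rw [e1, e2]; constructor <;> linarith,
      fun z hz1 hz2 hz3 hz4 hz5 => ?_⟩
    rw [e1] at hz4
    rw [e2] at hz5
    rw [mem_inr]
    simp only [if_true]
    exact ⟨abs_le.2 ⟨by change _ ≤ z l - K.w i l; linarith, by change z l - K.w i l ≤ _; linarith⟩,
      ⟨hz2, hz3⟩, hz1⟩
  by_cases h1 : K.w (K.a e) l + G.be (K.a e) ≤ y l
  · by_cases h2 : y l ≤ K.w (K.b e) l - G.be (K.b e)
    · have e1 : G.tlo true (.inl e) l = K.w (K.a e) l + G.be (K.a e) := by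
        simp only [Geo.tlo]
        rw [if_pos hdl.symm]
      have e2 : G.thi true (.inl e) l = K.w (K.b e) l - G.be (K.b e) := by
        simp only [Geo.thi]
        rw [if_pos hdl.symm]
      refine ⟨.inl e, ⟨hes, hdl⟩, hdl, by rw [e1, e2]; exact ⟨h1, h2⟩,
        fun z hz1 hz2 hz3 hz4 hz5 => ?_⟩
      rw [e1] at hz4
      rw [e2] at hz5
      rw [mem_inl]
      refine ⟨by rw [hdl]; exact ⟨hz4, hz5⟩, fun j hj => ?_⟩
      simp only [if_true]
      rcases hcase j with rfl | rfl | rfl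
      · rw [hek]
        have := humZ z hz2 hz3
        linarith
      · rw [hwan]
        linarith
      · exact absurd hdl.symm hj
    · push Not at h2
      exact hang (K.b e) (Or.inr rfl) (by
        rw [abs_le]; constructor <;> linarith [G.be_pos (K.b e)])
  · push Not at h1
    exact hang (K.a e) (Or.inl rfl) (by
      rw [abs_le]; constructor <;> linarith [G.be_pos (K.a e)])

end wall

section strip

open Vale.Agent.P073.H267.K3 (S1 S2 S3 S4 S5 Sharp)

variable {c₀ n δ : ℝ} {j : ℕ} {Ω Λ : Set V} {v w : V} {ρ : V → ℝ} {M : Mesh Ω} {h : ConHomeo Ω Λ}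
  {J₀ J : Set (ℕ × (Fin 3 → ℤ))} {P Z : Set M.ι} {K : BoxCx Λ w}
  {D : KIn3 c₀ n j δ v w ρ M h J₀ J P Z} {C : Cells ρ w K} {C₀ μT : ℝ}

/-- the oscillation is small at the related boxes -/
theorem ω3T_τ' (D : KIn3 c₀ n j δ v w ρ M h J₀ J P Z) (C : Cells ρ w K) {s : K.S} {l : Fin 3}
    {b : TBx K} (hb : RelT s l b) : 16777216000 * ω3T δ C b ≤ (D.B C).τ s := by
  have h1 := D.ω3T_oT C b
  rcases b with e | H
  · have h2 := (D.G C).oG_τ s e hb.1
    change 16777216 * ω3T δ C (.inl e) ≤ (D.G C).oG e at h1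
    linarith
  · have h3 : K.w H.i ∈ K.sq s := by
      have := Geo.hang_mem H
      rwa [hb.1] at this
    have h2 := (D.G C).oW_τ s H.i h3
    change 16777216 * ω3T δ C (.inr H) ≤ (D.G C).oW H.i at h1
    linarith

/-- **[STRIP]** at a point (H193's `strip_tube`, with thick bands): the face is deep in a box of
round T of the direction `tg s β`, or the bands of the side `β` avoid the point -/
theorem strip_pt (X : S1 D C C₀ μT) (hfat : ∀ b : pB C J₀, 2048 * ω3T δ C b.1 ≤ X.fat b)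
    {L : PLev (D.G C)} (hband : Band3 L (pS C J₀) X.slp)
    {i : M.ι} (hi : i ∈ Vale.Agent.P073.H238.K3.Zd D) {s : K.S} (hs : s ∈ pS C J₀) {k : M.κ}
    (hk : M.F k ⊆ M.Q i) {x₀ : V} (hx₀ : x₀ ∈ M.F k)
    (hpb : X.h1.toFun x₀ ∈ (D.G C).PB (7 / 8) s)
    (hno : X.h1.toFun x₀ ∉ (D.G C).PB 1 s) (β : Bool) :
    (∃ b : pB C J₀, RelT s (tg s β) b.1 ∧ b.1.ax = tg s β ∧
      InTm 64 (D.G C) M h (ω3T δ C) b.1 k) ∨
      NoB L s β (X.h1.toFun x₀ (tg s β)) := by
  by_cases hex : ∃ m < L.N s β, |X.h1.toFun x₀ (tg s β) - L.a s β m| < 2 * L.c s β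
  swap
  · push Not at hex
    exact Or.inr hex
  left
  obtain ⟨m, hm, hxa⟩ := hex
  have hw := L.win s β hm
  have hc := (L.lvs s β).c0
  have hxa' := abs_lt.1 hxa
  have hiP : i ∉ P := hi.1
  have hn := D.nearC_drawn C X.out.near hi
  have hxPK : X.h1.toFun x₀ ∈ PK (D.G C) s := PB_sub_PK (by norm_num) s hpb
  have hnrm := (D.drawn_PK C hi hn (hk hx₀) hxPK).2
  have hosc : ∀ z ∈ M.Q i, ‖h.toFun z - X.h1.toFun x₀‖ ≤ 6 * (D.G C).oS s := fun z hz =>
    (D.pos_PK C hs hiP hn (hk hx₀) hxPK hz).1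
  have hoS := (D.G C).oS_τ s
  have hτ := (D.B C).τ_pos s
  have hτp := (D.G C).τ_p s
  have hpa := Geo.p_a (G := D.G C) s
  have hp := Geo.p_pos (G := D.G C) s
  obtain ⟨hPB1, -⟩ := Geo.mem_PB.1 hpb
  have h2 : X.h1.toFun x₀ (tg s (!β)) < K.slo s (tg s (!β)) + (D.G C).p s ∨
      K.shi s (tg s (!β)) - (D.G C).p s < X.h1.toFun x₀ (tg s (!β)) := by
    by_contra hcon
    push Not at hcon
    apply hno
    refine Geo.mem_PB.2 ⟨fun k hk => ?_, by linarith⟩
    rcases tg_cases s β hk with rfl | rfl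
    · constructor <;> linarith
    · constructor <;> linarith [hcon.1, hcon.2]
  have hPu := hPB1 _ (tg_ne s (!β))
  obtain ⟨β', hβ1, hβ2⟩ : ∃ β' : Bool, 7 / 8 * (D.G C).p s ≤ (if β' then
      K.shi s (tg s (!β)) - X.h1.toFun x₀ (tg s (!β)) else
      X.h1.toFun x₀ (tg s (!β)) - K.slo s (tg s (!β))) ∧ (if β' then
      K.shi s (tg s (!β)) - X.h1.toFun x₀ (tg s (!β)) else
      X.h1.toFun x₀ (tg s (!β)) - K.slo s (tg s (!β))) ≤ (D.G C).p s := by
    rcases h2 with h2 | h2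
    · refine ⟨false, ?_, ?_⟩
      · simp only [Bool.false_eq_true, if_false]; linarith [hPu.1]
      · simp only [Bool.false_eq_true, if_false]; linarith
    · refine ⟨true, ?_, ?_⟩
      · simp only [if_true]; linarith [hPu.2]
      · simp only [if_true]; linarith
  -- coordinates of a point near `h1 x₀`
  have hcoo : ∀ z : V, ∀ r : ℝ, ‖z - X.h1.toFun x₀‖ ≤ r → ∀ l, |z l - X.h1.toFun x₀ l| ≤ r := by
    intro z r hz l
    have := norm_le_pi_norm (z - X.h1.toFun x₀) l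
    rw [Pi.sub_apply, Real.norm_eq_abs] at this
    exact this.trans hz
  have hcross : ∀ z : V, ‖z - X.h1.toFun x₀‖ ≤ (D.B C).τ s / 4 →
      |z (K.nrm s) - K.slo s (K.nrm s)| ≤ 1 / 2 * (D.B C).τ s ∧
      3 / 4 * (D.G C).p s ≤ (if β' then K.shi s (tg s (!β)) - z (tg s (!β)) else
        z (tg s (!β)) - K.slo s (tg s (!β))) ∧
      (if β' then K.shi s (tg s (!β)) - z (tg s (!β)) else
        z (tg s (!β)) - K.slo s (tg s (!β))) ≤ 3 / 2 * (D.G C).p s := by
    intro z hz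
    have e1 := abs_le.1 (hcoo z _ hz (K.nrm s))
    have e2 := abs_le.1 (hcoo z _ hz (tg s (!β)))
    have e3 := abs_le.1 hnrm
    refine ⟨abs_le.2 ⟨by linarith, by linarith⟩, ?_, ?_⟩
    · cases β'
      · simp only [Bool.false_eq_true, if_false] at hβ1 ⊢
        linarith
      · simp only [if_true] at hβ1 ⊢
        linarith
    · cases β'
      · simp only [Bool.false_eq_true, if_false] at hβ2 ⊢
        linarith
      · simp only [if_true] at hβ2 ⊢
        linarith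
  have hx6 := hosc x₀ (hk hx₀)
  have hx4 : ‖h.toFun x₀ - X.h1.toFun x₀‖ ≤ (D.B C).τ s / 4 := hx6.trans (by linarith)
  obtain ⟨c1, c2, c3⟩ := hcross _ hx4
  have hv6 := abs_le.1 (hcoo _ _ hx6 (tg s β))
  obtain ⟨b, hRel, hax, ⟨hb1, hb2⟩, hb3⟩ := wallC (G := D.G C) (y := h.toFun x₀) (β := β')
    (tg_ne s (!β)) (tg_ne s β) (tg_ne_not s β).symm c1 c2 c3 (by linarith) (by linarith)
  have hbG : b ∈ pB C J₀ := X.dpre.rel s hs _ b hRel
  have hxT : h.toFun x₀ ∈ (D.G C).TB false b :=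
    Geo.TB_true_subset b (hb3 _ c1 c2 c3 hb1 hb2)
  have hω := D.ω3T_pos C b
  have hωτ := ω3T_τ' D C hRel
  have hd := X.out.dispT x₀ (M.sub i (hk hx₀)) b hbG hxT
  rw [norm_sub_rev] at hd
  have hdv := abs_le.1 (hcoo _ _ hd (tg s β))
  -- the bands avoid the ends
  have hf := hfat ⟨b, hbG⟩
  have k1 := hband s hs β m hm ⟨b, hbG⟩ hRel ((D.G C).tlo true b b.ax - X.fat ⟨b, hbG⟩,
    (D.G C).tlo true b b.ax + X.fat ⟨b, hbG⟩) (by
      unfold S1.slp
      exact Finset.mem_union_right _ (by simp))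
  have k2 := hband s hs β m hm ⟨b, hbG⟩ hRel ((D.G C).thi true b b.ax - X.fat ⟨b, hbG⟩,
    (D.G C).thi true b b.ax + X.fat ⟨b, hbG⟩) (by
      unfold S1.slp
      exact Finset.mem_union_right _ (by simp))
  rw [hax] at k1 k2
  simp only at k1 k2 hf
  have f1 : (D.G C).tlo true b (tg s β) + 2048 * ω3T δ C b < X.h1.toFun x₀ (tg s β) := by
    rcases k1 with k1 | k1
    · linarith
    · linarith
  have f2 : X.h1.toFun x₀ (tg s β) < (D.G C).thi true b (tg s β) - 2048 * ω3T δ C b := by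
    rcases k2 with k2 | k2
    · linarith
    · linarith
  refine ⟨⟨b, hbG⟩, hRel, hax, fun x hx z hz => ?_⟩
  rw [mem_closedBall, dist_eq_norm] at hz
  have g1 : ‖h.toFun x₀ - h.toFun x‖ ≤ ω3T δ C b := D.osc_T C hbG hiP (hk hx₀) (hk hx) hxT
  have g2 : ‖z - X.h1.toFun x₀‖ ≤ 1089 * ω3T δ C b := by
    calc ‖z - X.h1.toFun x₀‖ = ‖(z - h.toFun x) - (h.toFun x₀ - h.toFun x) +
          (h.toFun x₀ - X.h1.toFun x₀)‖ := by congr 1; abel
      _ ≤ ‖z - h.toFun x‖ + ‖h.toFun x₀ - h.toFun x‖ + ‖h.toFun x₀ - X.h1.toFun x₀‖ :=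
        (norm_add_le _ _).trans (add_le_add (norm_sub_le _ _) le_rfl)
      _ ≤ _ := by linarith
  obtain ⟨d1, d2, d3⟩ := hcross z (g2.trans (by linarith))
  have hzv := abs_le.1 (hcoo z _ g2 (tg s β))
  exact hb3 z d1 d2 d3 (by linarith) (by linarith)

/-- outside of the plate `PB 1 s` one family of bands is missed -/
theorem exists_noB (L : PLev (D.G C)) {s : K.S} {y : V} (hpb : y ∈ (D.G C).PB (7 / 8) s)
    (hno : y ∉ (D.G C).PB 1 s) : ∃ β, NoB L s (!β) (y (tg s (!β))) := by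
  obtain ⟨hPB1, hPB2⟩ := Geo.mem_PB.1 hpb
  have hp := Geo.p_pos (G := D.G C) s
  have hpa := Geo.p_a (G := D.G C) s
  have h2 : ∃ β, y (tg s β) < K.slo s (tg s β) + (D.G C).p s ∨
      K.shi s (tg s β) - (D.G C).p s < y (tg s β) := by
    by_contra hcon
    push Not at hcon
    apply hno
    refine Geo.mem_PB.2 ⟨fun k hk => ?_, hPB2⟩
    rcases tg_cases s true hk with rfl | rfl
    · constructor <;> linarith [hcon true]
    · constructor <;> linarith [(hcon (!true)).1, (hcon (!true)).2]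
  obtain ⟨β, h2⟩ := h2
  refine ⟨!β, fun m hm => ?_⟩
  rw [Bool.not_not] at hm ⊢
  have hw := L.win s β hm
  have hc := (L.lvs s β).c0
  rcases h2 with h2 | h2
  · rw [abs_sub_comm]
    exact le_trans (by linarith) (le_abs_self _)
  · exact le_trans (by linarith) (le_abs_self _)

variable {X : S1 D C C₀ μT} {Y₂ : S2 X} {Ys : Set M.κ} {sc : Sharp} (Y₃ : S3 Y₂ Ys sc)

/-- a point of a given face in the box of the hook: its position before ROUND P -/
theorem h1_int (hc : ∀ s ∈ (D.dat C).S₀, ∀ β q, (q = K.sm s ∨ q = K.sp s) →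
      Y₂.L.c s β ≤ (D.G C).om q)
    (hD : ∀ s : (D.dat C).S₀, ∀ β q, (q = K.sm s.1 ∨ q = K.sp s.1) →
      (Y₃.F β).D s ≤ (D.G C).om q)
    {i : M.ι} (hi : i ∈ Zmax M w h.toFun J₀ P (2 / 2 ^ j)) {k : M.κ} (hk : M.F k ⊆ M.Q i)
    (hWF : k ∈ (D.dat C).WF (D.G C) X.h1) {x : V} (hx : x ∈ M.F k) {s : (D.dat C).S₀}
    (hs : Y₃.h4.toFun x ∈ HB (D.G C) (29 / 32) (3 / 4) s.1) :
    X.h1.toFun x ∈ interior ((D.G C).PB (7 / 8) s.1) := by
  have hg : ∀ y ∈ M.F k, Y₃.h4.toFun y =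
      PS.map Y₃.T2 ((Y₃.Θ true).toFun ((Y₃.Θ false).toFun (X.h1.toFun y))) :=
    fun y hy => h4_giv Y₃ hWF hy
  obtain ⟨t, ht, z, hz, h1⟩ := pos_giv Y₃ hc hD hi hk hg
  obtain ⟨-, h2, h3⟩ := h1 x hx
  have hom := (D.G C).om_pos t
  have hκ := (D.G C).om_κ t
  have hPK : Y₃.h4.toFun x ∈ PK (D.G C) s.1 :=
    PB_sub_PK (c := 29 / 32) (by norm_num) s.1 (HB_PB le_rfl (by norm_num) s.1 hs)
  obtain ⟨hts, -⟩ := D.nrm_z C hPK hz (h3.trans (by linarith))
  have hoS := (D.G C).om_oS t s.1 hts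
  have hoτ := (D.G C).oS_τ s.1
  have hτ := (D.B C).τ_pos s.1
  have hτp := (D.G C).τ_p s.1
  have h4 : ‖Y₃.h4.toFun x - X.h1.toFun x‖ ≤ (D.B C).τ s.1 / 32 := by
    calc ‖Y₃.h4.toFun x - X.h1.toFun x‖ = ‖(Y₃.h4.toFun x - z) - (X.h1.toFun x - z)‖ := by
          congr 1; abel
      _ ≤ ‖Y₃.h4.toFun x - z‖ + ‖X.h1.toFun x - z‖ := norm_sub_le _ _
      _ ≤ _ := by linarith
  have h5 : ∀ l, |Y₃.h4.toFun x l - X.h1.toFun x l| ≤ (D.B C).τ s.1 / 32 := by
    intro l
    have := norm_le_pi_norm (Y₃.h4.toFun x - X.h1.toFun x) l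
    rw [Pi.sub_apply, Real.norm_eq_abs] at this
    exact this.trans h4
  have h6 : X.h1.toFun x ∈ HB (D.G C) (57 / 64) (7 / 8) s.1 := by
    obtain ⟨e1, e2⟩ := mem_HB.1 hs
    refine mem_HB.2 ⟨fun l hl => ?_, ?_⟩
    · have e3 := e1 l hl
      have e4 := abs_le.1 (h5 l)
      constructor <;> linarith [e3.1, e3.2]
    · have e4 := abs_le.1 (h5 (K.nrm s.1))
      have e5 := abs_le.1 e2
      rw [abs_le]
      constructor <;> linarith
  have h7 := HB_interior (G := D.G C) (c := 7 / 8) (c' := 57 / 64) (d := 1) (d' := 7 / 8)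
    (by norm_num) (by norm_num) s.1 h6
  rwa [HB_one] at h7

/-- **[STRIP]** before the hook of the plates -/
theorem strip3 (hfat : ∀ b : pB C J₀, 2048 * ω3T δ C b.1 ≤ X.fat b)
    (hc : ∀ s ∈ (D.dat C).S₀, ∀ β q, (q = K.sm s ∨ q = K.sp s) →
      Y₂.L.c s β ≤ (D.G C).om q)
    (hD : ∀ s : (D.dat C).S₀, ∀ β q, (q = K.sm s.1 ∨ q = K.sp s.1) →
      (Y₃.F β).D s ≤ (D.G C).om q)
    {i : M.ι} (hi : i ∈ Zmax M w h.toFun J₀ P (2 / 2 ^ j)) {k : M.κ} (hk : M.F k ⊆ M.Q i)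
    (hP : ∀ i ∈ P, ¬ M.F k ⊆ M.Q i) (hnp : k ∉ (D.dat C).Peel (D.G C) X.h1)
    {x : V} (hx : x ∈ M.F k) {s : (D.dat C).S₀}
    (hs : Y₃.h4.toFun x ∈ HB (D.G C) (29 / 32) (3 / 4) s.1) :
    X.h1.toFun x ∈ (D.G C).PB (7 / 8) s.1 ∧
    ∃ β, ClrB Y₃.Lt (fun β => (Y₃.F β).e s) s.1 (!β) (Y₃.h4.toFun x) ∧
      ((∃ b : pB C J₀, RelT s.1 (tg s.1 β) b.1 ∧ b.1.ax = tg s.1 β ∧
        InTm 64 (D.G C) M h (ω3T δ C) b.1 k) ∨
        ClrB Y₃.Lt (fun β => (Y₃.F β).e s) s.1 β (Y₃.h4.toFun x)) := by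
  have hWF : k ∈ (D.dat C).WF (D.G C) X.h1 := Or.inl ⟨⟨⟨i, hi, hk⟩, hP⟩, hnp⟩
  have hpb := interior_subset (h1_int Y₃ hc hD hi hk hWF hx hs)
  have hg : ∀ y ∈ M.F k, Y₃.h4.toFun y =
      PS.map Y₃.T2 ((Y₃.Θ true).toFun ((Y₃.Θ false).toFun (X.h1.toFun y))) :=
    fun y hy => h4_giv Y₃ hWF hy
  have hno : X.h1.toFun x ∉ (D.G C).PB 1 s.1 := fun hcon =>
    hnp ⟨s.1, s.2, ⟨⟨i, hi, hk⟩, hP⟩, x, hx, hcon⟩
  refine ⟨hpb, ?_⟩
  obtain ⟨β, hβ⟩ := exists_noB Y₂.L hpb hno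
  refine ⟨β, ?_, ?_⟩
  · rw [hg x hx]
    exact clrB2_of_noB (pt2 Y₃) Y₃.ps Y₃.thp.isΘ hpb hβ
  · rcases strip_pt X hfat Y₂.bandp hi s.2 hk hx hpb hno β with hb | hb
    · exact Or.inl hb
    · right
      rw [hg x hx]
      exact clrB2_of_noB (pt2 Y₃) Y₃.ps Y₃.thp.isΘ hpb hb

end strip

end P073.H142
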