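import Mathlib

/-!
# P073, block H142: tiles of a sheet (general topology part)

A sheet `S` meets the boundaries `B i` of pairwise disjoint open cells `V i` in disjoint circles
`γ c`, each of which bounds a disc `O c` in `S`.  A circle is a *tile* if the inner side of the disc
is in the cell near the circle.  Tiles are nested or have disjoint interiors, nested tiles do not
touch, the maximal tiles cover the part of the sheet inside the cells, and the traces of the core
(the complement of the open maximal tiles) on the `B i` are whole circles.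
-/

open Set Topology Filter

namespace P073.H142

variable {E : Type*} [TopologicalSpace E] {I J : Type*}

/-- the circles of a sheet on the boundaries of the cells -/
structure Sheet (S : Set E) (V B : I → Set E) (cell : J → I) (O γ : J → Set E) : Prop where
  hS : IsPreconnected S
  V_open : ∀ i, IsOpen (V i)
  V_disj : ∀ i j, i ≠ j → Disjoint (V i) (V j)
  VB : ∀ i j, Disjoint (V i) (B j)
  V_cl : ∀ i, closure (V i) ⊆ V i ∪ B i
  trace : ∀ i, ∀ x ∈ S, (x ∈ B i ↔ ∃ c, cell c = i ∧ x ∈ γ c)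
  O_closed : ∀ c, IsClosed (O c)
  O_sub : ∀ c, O c ⊆ S
  γ_sub : ∀ c, γ c ⊆ O c
  o_open : ∀ c, ∃ U, IsOpen U ∧ S ∩ U = O c \ γ c
  γ_pre : ∀ c, IsPreconnected (γ c)
  γ_ne : ∀ c, (γ c).Nonempty
  o_pre : ∀ c, IsPreconnected (O c \ γ c)
  γ_cl : ∀ c, γ c ⊆ closure (O c \ γ c)
  γ_disj : ∀ c d, c ≠ d → cell c = cell d → Disjoint (γ c) (γ d)
  collar : ∀ c, ∀ U, IsOpen U → O c ⊆ U →
    ∃ N, IsOpen N ∧ N ⊆ U ∧ O c ⊆ N ∧ IsPreconnected ((S ∩ N) \ O c)
  fin : ∀ i, {c | cell c = i}.Finite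
  far : ∀ i, ∃ y ∈ S, y ∉ V i ∧ ∀ c, cell c = i → y ∉ O c
  far2 : ∀ c d, ∃ y ∈ S, y ∉ O c ∧ y ∉ O d
  pf : ∀ x, {c | x ∈ O c}.Finite
  cross : ∀ c, (∀ x ∈ γ c, ∃ W, IsOpen W ∧ x ∈ W ∧ W ∩ (O c \ γ c) ⊆ V (cell c)) ∨
    ∃ x ∈ γ c, x ∈ closure ((S \ O c) ∩ V (cell c))

/-- the circle `c` is the outer circle of a piece in its cell -/
def Tile (V : I → Set E) (cell : J → I) (O γ : J → Set E) (c : J) : Prop :=
  ∀ x ∈ γ c, ∃ W, IsOpen W ∧ x ∈ W ∧ W ∩ (O c \ γ c) ⊆ V (cell c)

/-- maximal tiles -/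
def Top (V : I → Set E) (cell : J → I) (O γ : J → Set E) (c : J) : Prop :=
  Tile V cell O γ c ∧ ∀ d, Tile V cell O γ d → ¬ O c ⊆ O d \ γ d

/-- the core of the sheet -/
def core (S : Set E) (V : I → Set E) (cell : J → I) (O γ : J → Set E) : Set E :=
  {x ∈ S | ∀ c, Top V cell O γ c → x ∉ O c \ γ c}

namespace Sheet

variable {S : Set E} {V B : I → Set E} {cell : J → I} {O γ : J → Set E}
  (h : Sheet S V B cell O γ)
include h

/-- a connected subset of the sheet missing the circle is inside or outside -/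
theorem dichB {K : Set E} (hK : IsPreconnected K) (hKS : K ⊆ S) {c : J}
    (hd : Disjoint K (γ c)) : K ⊆ O c \ γ c ∨ Disjoint K (O c \ γ c) := by
  obtain ⟨U, hU, hUS⟩ := h.o_open c
  have h1 := isPreconnected_iff_subset_of_disjoint.1 hK U (O c)ᶜ hU (h.O_closed c).isOpen_compl
    (fun x hx => by
      by_cases hxO : x ∈ O c
      · left
        have : x ∈ S ∩ U := by
          rw [hUS]; exact ⟨hxO, fun hg => disjoint_left.1 hd hx hg⟩
        exact this.2
      · exact Or.inr hxO)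
    (by
      rw [eq_empty_iff_forall_notMem]
      rintro x ⟨hx, hxU, hxO⟩
      have : x ∈ S ∩ U := ⟨hKS hx, hxU⟩
      rw [hUS] at this
      exact hxO this.1)
  rcases h1 with h1 | h1
  · left
    intro x hx
    rw [← hUS]
    exact ⟨hKS hx, h1 hx⟩
  · right
    rw [disjoint_left]
    intro x hx hxo
    exact h1 hx hxo.1

/-- a connected subset of the sheet missing the cell of a tile is inside or outside the tile -/
theorem dichA {K : Set E} (hK : IsPreconnected K) (hKS : K ⊆ S) {c : J}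
    (hc : Tile V cell O γ c) (hd : Disjoint K (V (cell c))) :
    K ⊆ O c \ γ c ∨ Disjoint K (O c \ γ c) := by
  obtain ⟨U, hU, hUS⟩ := h.o_open c
  choose W hW1 hW2 hW3 using hc
  have h1 := isPreconnected_iff_subset_of_disjoint.1 hK U ((⋃ x, ⋃ hx, W x hx) ∪ (O c)ᶜ) hU
    ((isOpen_iUnion fun x => isOpen_iUnion fun hx => hW1 x hx).union (h.O_closed c).isOpen_compl)
    (fun x hx => by
      by_cases hxO : x ∈ O c
      · by_cases hxg : x ∈ γ c
        · exact Or.inr (Or.inl (mem_iUnion₂.2 ⟨x, hxg, hW2 x hxg⟩))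
        · left
          have : x ∈ S ∩ U := by
            rw [hUS]; exact ⟨hxO, hxg⟩
          exact this.2
      · exact Or.inr (Or.inr hxO))
    (by
      rw [eq_empty_iff_forall_notMem]
      rintro x ⟨hx, hxU, hxW⟩
      have : x ∈ S ∩ U := ⟨hKS hx, hxU⟩
      rw [hUS] at this
      rcases hxW with hxW | hxO
      · obtain ⟨y, hy, hxy⟩ := mem_iUnion₂.1 hxW
        exact disjoint_left.1 hd hx (hW3 y hy ⟨hxy, this⟩)
      · exact hxO this.1)
  by_cases hne : (K ∩ (O c \ γ c)).Nonempty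
  · left
    rcases h1 with h1 | h1
    · intro x hx
      rw [← hUS]
      exact ⟨hKS hx, h1 hx⟩
    · exfalso
      obtain ⟨x, hx, hxo⟩ := hne
      rcases h1 hx with hxW | hxO
      · obtain ⟨y, hy, hxy⟩ := mem_iUnion₂.1 hxW
        exact disjoint_left.1 hd hx (hW3 y hy ⟨hxy, hxo⟩)
      · exact hxO hxo.1
  · right
    rwa [disjoint_iff_inter_eq_empty, ← not_nonempty_iff_eq_empty]

theorem γB (c : J) : γ c ⊆ B (cell c) := fun x hx =>
  (h.trace (cell c) x (h.O_sub c (h.γ_sub c hx))).2 ⟨c, rfl, hx⟩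

theorem γ_V (c : J) (i : I) : Disjoint (γ c) (V i) :=
  ((h.VB i (cell c)).mono_right (h.γB c)).symm

theorem not_both {c d : J} (hcd : γ d ⊆ O c \ γ c) (hdc : γ c ⊆ O d \ γ d) : False := by
  obtain ⟨U, hU, hUS⟩ := h.o_open c
  obtain ⟨U', hU', hUS'⟩ := h.o_open d
  obtain ⟨y, hy, hyc, hyd⟩ := h.far2 c d
  have h1 := isPreconnected_iff_subset_of_disjoint.1 h.hS (U ∪ U') (O c ∪ O d)ᶜ (hU.union hU')
    ((h.O_closed c).union (h.O_closed d)).isOpen_compl
    (fun x hx => by
      by_cases hxO : x ∈ O c ∪ O d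
      · left
        have key : x ∈ (O c \ γ c) ∪ (O d \ γ d) := by
          rcases hxO with hx' | hx'
          · by_cases hxg : x ∈ γ c
            · exact Or.inr (hdc hxg)
            · exact Or.inl ⟨hx', hxg⟩
          · by_cases hxg : x ∈ γ d
            · exact Or.inl (hcd hxg)
            · exact Or.inr ⟨hx', hxg⟩
        rcases key with h2 | h2
        · rw [← hUS] at h2; exact Or.inl h2.2
        · rw [← hUS'] at h2; exact Or.inr h2.2
      · exact Or.inr hxO)
    (by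
      rw [eq_empty_iff_forall_notMem]
      rintro x ⟨hx, hxU | hxU, hxO⟩
      · have : x ∈ S ∩ U := ⟨hx, hxU⟩
        rw [hUS] at this
        exact hxO (Or.inl this.1)
      · have : x ∈ S ∩ U' := ⟨hx, hxU⟩
        rw [hUS'] at this
        exact hxO (Or.inr this.1))
  rcases h1 with h1 | h1
  · rcases h1 hy with h2 | h2
    · have : y ∈ S ∩ U := ⟨hy, h2⟩
      rw [hUS] at this
      exact hyc this.1
    · have : y ∈ S ∩ U' := ⟨hy, h2⟩
      rw [hUS'] at this
      exact hyd this.1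
  · obtain ⟨z, hz⟩ := h.γ_ne c
    exact h1 (h.O_sub c (h.γ_sub c hz)) (Or.inl (h.γ_sub c hz))

/-- the interior of a disc meets every relatively open set meeting the closed disc -/
theorem meets {c : J} {U : Set E} (hU : IsOpen U) (hne : (O c ∩ U).Nonempty) :
    ((O c \ γ c) ∩ U).Nonempty := by
  obtain ⟨x, hx, hxU⟩ := hne
  by_cases hxg : x ∈ γ c
  · obtain ⟨y, hy, hyo⟩ := mem_closure_iff.1 (h.γ_cl c hxg) U hU hxU
    exact ⟨y, hyo, hy⟩
  · exact ⟨x, ⟨hx, hxg⟩, hxU⟩

theorem o_ne (c : J) : (O c \ γ c).Nonempty := by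
  obtain ⟨x, hx⟩ := h.γ_ne c
  obtain ⟨y, hy, -⟩ := h.meets isOpen_univ ⟨x, h.γ_sub c hx, mem_univ x⟩
  exact ⟨y, hy⟩

theorem O_cl (c : J) : O c ⊆ closure (O c \ γ c) := by
  intro x hx
  rw [mem_closure_iff]
  intro U hU hxU
  obtain ⟨y, hy, hyU⟩ := h.meets hU ⟨x, hx, hxU⟩
  exact ⟨y, hyU, hy⟩

theorem nest_of {c d : J} (h1 : γ d ⊆ O c \ γ c) (h2 : Disjoint (γ c) (O d \ γ d)) :
    O d ⊆ O c \ γ c := by
  have h3 : O d \ γ d ⊆ O c \ γ c := by
    rcases h.dichB (h.o_pre d) (sdiff_subset.trans (h.O_sub d)) h2.symm with h3 | h3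
    · exact h3
    · exfalso
      obtain ⟨U, hU, hUS⟩ := h.o_open c
      obtain ⟨x, hx⟩ := h.γ_ne d
      have h4 : x ∈ S ∩ U := by rw [hUS]; exact h1 hx
      obtain ⟨y, hy, hyU⟩ := h.meets hU ⟨x, h.γ_sub d hx, h4.2⟩
      have h5 : y ∈ S ∩ U := ⟨h.O_sub d hy.1, hyU⟩
      rw [hUS] at h5
      exact disjoint_left.1 h3 hy h5
  intro x hx
  by_cases hxg : x ∈ γ d
  · exact h1 hxg
  · exact h3 ⟨hx, hxg⟩

theorem o_eq_of {c d : J} (h1 : Disjoint (γ c) (O d \ γ d)) (h2 : Disjoint (γ d) (O c \ γ c)) :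
    O c \ γ c = O d \ γ d ∨ Disjoint (O c \ γ c) (O d \ γ d) := by
  rcases h.dichB (h.o_pre d) (sdiff_subset.trans (h.O_sub d)) h1.symm with h3 | h3
  · rcases h.dichB (h.o_pre c) (sdiff_subset.trans (h.O_sub c)) h2.symm with h4 | h4
    · exact Or.inl (Subset.antisymm h4 h3)
    · exact Or.inr h4
  · exact Or.inr h3.symm

theorem O_eq_of {c d : J} (h1 : O c \ γ c = O d \ γ d) : O c = O d ∧ γ c = γ d := by
  have key : ∀ {c d : J}, O c \ γ c = O d \ γ d → O c ⊆ O d := by
    intro c d hcd x hx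
    have h2 := h.O_cl c hx
    rw [hcd] at h2
    have h3 := closure_mono (sdiff_subset : O d \ γ d ⊆ O d) h2
    rwa [(h.O_closed d).closure_eq] at h3
  have h2 : O c = O d := Subset.antisymm (key h1) (key h1.symm)
  refine ⟨h2, ?_⟩
  ext x
  constructor
  · intro hx
    by_contra hxd
    have h3 : x ∈ O d \ γ d := ⟨h2 ▸ h.γ_sub c hx, hxd⟩
    rw [← h1] at h3
    exact h3.2 hx
  · intro hx
    by_contra hxd
    have h3 : x ∈ O c \ γ c := ⟨h2.symm ▸ h.γ_sub d hx, hxd⟩
    rw [h1] at h3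
    exact h3.2 hx

/-- **tiles are nested or have disjoint interiors** -/
theorem tri {c d : J} (hcd : c ≠ d) (hc : Tile V cell O γ c) (hd : Tile V cell O γ d) :
    O d ⊆ O c \ γ c ∨ O c ⊆ O d \ γ d ∨ Disjoint (O c \ γ c) (O d \ γ d) := by
  have hγS : ∀ e, γ e ⊆ S := fun e => (h.γ_sub e).trans (h.O_sub e)
  rcases h.dichA (h.γ_pre d) (hγS d) hc (h.γ_V d _) with h1 | h1
  · left
    refine h.nest_of h1 ?_
    rcases h.dichA (h.γ_pre c) (hγS c) hd (h.γ_V c _) with h2 | h2
    · exact (h.not_both h1 h2).elim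
    · exact h2
  · right
    rcases h.dichA (h.γ_pre c) (hγS c) hd (h.γ_V c _) with h2 | h2
    · exact Or.inl (h.nest_of h2 h1)
    · right
      rcases h.o_eq_of h2 h1 with h3 | h3
      · exfalso
        obtain ⟨h4, h5⟩ := h.O_eq_of h3
        obtain ⟨x, hx⟩ := h.γ_ne c
        by_cases hcell : cell c = cell d
        · exact disjoint_left.1 (h.γ_disj c d hcd hcell) hx (h5 ▸ hx)
        · obtain ⟨W, hW1, hW2, hW3⟩ := hc x hx
          obtain ⟨W', hW1', hW2', hW3'⟩ := hd x (h5 ▸ hx)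
          obtain ⟨y, hy, hyW⟩ := h.meets (hW1.inter hW1') ⟨x, h.γ_sub c hx, hW2, hW2'⟩
          exact disjoint_left.1 (h.V_disj _ _ hcell) (hW3 ⟨hyW.1, hy⟩)
            (hW3' ⟨hyW.2, h3 ▸ hy⟩)
      · exact h3

/-- circles of the same cell -/
theorem tri_same {c d : J} (hcd : c ≠ d) (hcell : cell c = cell d) :
    O d ⊆ O c \ γ c ∨ O c ⊆ O d \ γ d ∨ Disjoint (O c) (O d) := by
  have hγS : ∀ e, γ e ⊆ S := fun e => (h.γ_sub e).trans (h.O_sub e)
  have hdj := h.γ_disj c d hcd hcell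
  rcases h.dichB (h.γ_pre d) (hγS d) hdj.symm with h1 | h1
  · left
    refine h.nest_of h1 ?_
    rcases h.dichB (h.γ_pre c) (hγS c) hdj with h2 | h2
    · exact (h.not_both h1 h2).elim
    · exact h2
  · right
    rcases h.dichB (h.γ_pre c) (hγS c) hdj with h2 | h2
    · exact Or.inl (h.nest_of h2 h1)
    · right
      rcases h.o_eq_of h2 h1 with h3 | h3
      · exfalso
        obtain ⟨h4, h5⟩ := h.O_eq_of h3
        obtain ⟨x, hx⟩ := h.γ_ne c
        exact disjoint_left.1 hdj hx (h5 ▸ hx)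
      · rw [disjoint_left]
        intro x hx hx'
        by_cases hxc : x ∈ γ c
        · by_cases hxd : x ∈ γ d
          · exact disjoint_left.1 hdj hxc hxd
          · exact disjoint_left.1 h2 hxc ⟨hx', hxd⟩
        · by_cases hxd : x ∈ γ d
          · exact disjoint_left.1 h1 hxd ⟨hx, hxc⟩
          · exact disjoint_left.1 h3 ⟨hx, hxc⟩ ⟨hx', hxd⟩

/-- a connected set which misses `B i` and meets `V i` is contained in `V i` -/
theorem sub_V {K : Set E} (hK : IsPreconnected K) {i : I} (hd : Disjoint K (B i))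
    (hne : (K ∩ V i).Nonempty) : K ⊆ V i := by
  have h1 := isPreconnected_iff_subset_of_disjoint.1 hK (V i) (closure (V i))ᶜ (h.V_open i)
    isClosed_closure.isOpen_compl
    (fun x hx => by
      by_cases hxV : x ∈ closure (V i)
      · rcases h.V_cl i hxV with h2 | h2
        · exact Or.inl h2
        · exact absurd h2 (disjoint_left.1 hd hx)
      · exact Or.inr hxV)
    (by
      rw [eq_empty_iff_forall_notMem]
      rintro x ⟨hx, hxU, hxO⟩
      exact hxO (subset_closure hxU))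
  rcases h1 with h1 | h1
  · exact h1
  · obtain ⟨x, hx, hxV⟩ := hne
    exact absurd (subset_closure hxV) (h1 hx)

/-- removing one disc does not disconnect -/
theorem diff_one {G U : Set E} (hU : IsOpen U) (hG : G = S ∩ U) (hGp : IsPreconnected G) {c : J}
    (hc : O c ⊆ G) : IsPreconnected (G \ O c) := by
  obtain ⟨N, hN1, hN2, hN3, hN4⟩ := h.collar c U hU (fun x hx => (hG ▸ hc hx : x ∈ S ∩ U).2)
  have hNG : (S ∩ N) \ O c ⊆ G \ O c := fun x hx => ⟨hG ▸ ⟨hx.1.1, hN2 hx.1.2⟩, hx.2⟩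
  rw [isPreconnected_iff_subset_of_disjoint]
  have main : ∀ u v : Set E, IsOpen u → IsOpen v → G \ O c ⊆ u ∪ v →
      (G \ O c) ∩ (u ∩ v) = ∅ → (S ∩ N) \ O c ⊆ u → G \ O c ⊆ u ∨ G \ O c ⊆ v := by
    intro u v hu hv huv huv' hNu
    have h1 := isPreconnected_iff_subset_of_disjoint.1 hGp (u ∪ N) (v ∩ (O c)ᶜ) (hu.union hN1)
      (hv.inter (h.O_closed c).isOpen_compl)
      (fun x hx => by
        by_cases hxO : x ∈ O c
        · exact Or.inl (Or.inr (hN3 hxO))
        · rcases huv ⟨hx, hxO⟩ with h2 | h2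
          · exact Or.inl (Or.inl h2)
          · exact Or.inr ⟨h2, hxO⟩)
      (by
        rw [eq_empty_iff_forall_notMem]
        rintro x ⟨hx, hxu, hxv, hxO⟩
        have h2 : x ∈ u := by
          rcases hxu with h2 | h2
          · exact h2
          · exact hNu ⟨⟨(hG ▸ hx : x ∈ S ∩ U).1, h2⟩, hxO⟩
        have : x ∈ (G \ O c) ∩ (u ∩ v) := ⟨⟨hx, hxO⟩, h2, hxv⟩
        rw [huv'] at this
        exact this)
    rcases h1 with h1 | h1
    · left
      rintro x ⟨hx, hxO⟩
      rcases h1 hx with h2 | h2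
      · exact h2
      · exact hNu ⟨⟨(hG ▸ hx : x ∈ S ∩ U).1, h2⟩, hxO⟩
    · right
      rintro x ⟨hx, hxO⟩
      exact (h1 hx).1
  intro u v hu hv huv huv'
  rcases isPreconnected_iff_subset_of_disjoint.1 hN4 u v hu hv (hNG.trans huv) (by
    rw [eq_empty_iff_forall_notMem]
    rintro x ⟨hx, hx'⟩
    have : x ∈ (G \ O c) ∩ (u ∩ v) := ⟨hNG hx, hx'⟩
    rw [huv'] at this
    exact this) with h1 | h1
  · exact main u v hu hv huv huv' h1
  · exact (main v u hv hu (by rwa [union_comm]) (by rwa [inter_comm v u]) h1).symm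

/-- removing finitely many discs of one cell does not disconnect -/
theorem diff_fin {G U : Set E} (hU : IsOpen U) (hG : G = S ∩ U) (hGp : IsPreconnected G) {i : I}
    (F : Finset J) (hF : ∀ c ∈ F, cell c = i ∧ O c ⊆ G) :
    IsPreconnected (G \ ⋃ c ∈ F, O c) := by
  classical
  induction F using Finset.strongInduction with
  | H F ih =>
    rcases F.eq_empty_or_nonempty with rfl | hne
    · simpa using hGp
    · -- a maximal disc
      obtain ⟨c, hcF, hc⟩ := F.exists_maximalFor O hne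
      set F₁ := F.erase c with hF₁
      set F₂ := F₁.filter (fun d => ¬ O d ⊆ O c) with hF₂
      have hsub : F₂ ⊂ F := by
        refine (Finset.filter_subset _ _).trans_ssubset (Finset.erase_ssubset hcF)
      have hUn : (⋃ d ∈ F, O d) = (⋃ d ∈ F₂, O d) ∪ O c := by
        ext x
        simp only [mem_iUnion, mem_union, exists_prop]
        constructor
        · rintro ⟨d, hd, hx⟩
          by_cases hdc : O d ⊆ O c
          · exact Or.inr (hdc hx)
          · refine Or.inl ⟨d, ?_, hx⟩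
            rw [hF₂, Finset.mem_filter, hF₁, Finset.mem_erase]
            exact ⟨⟨fun h' => hdc (h' ▸ Subset.refl _), hd⟩, hdc⟩
        · rintro (⟨d, hd, hx⟩ | hx)
          · exact ⟨d, hsub.1 hd, hx⟩
          · exact ⟨c, hcF, hx⟩
      have h1 := ih F₂ hsub (fun d hd => hF d (hsub.1 hd))
      have hcl : IsClosed (⋃ d ∈ F₂, O d) := isClosed_biUnion_finset fun d _ => h.O_closed d
      have h2 := h.diff_one (hU.inter hcl.isOpen_compl) (G := G \ ⋃ d ∈ F₂, O d)
        (by rw [hG]; ext x; simp only [Set.mem_sdiff, mem_inter_iff, mem_compl_iff]; tauto) h1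
        (c := c) (fun x hx => by
          refine ⟨(hF c hcF).2 hx, ?_⟩
          simp only [mem_iUnion, not_exists]
          intro d hd hxd
          rw [hF₂, Finset.mem_filter, hF₁, Finset.mem_erase] at hd
          have hne : c ≠ d := fun h' => hd.1.1 h'.symm
          rcases h.tri_same hne ((hF c hcF).1.trans (hF d hd.1.2).1.symm) with h3 | h3 | h3
          · exact hd.2 (h3.trans sdiff_subset)
          · exact hd.2 (hc hd.1.2 (h3.trans sdiff_subset))
          · exact disjoint_left.1 h3 hx hxd)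
      have h3 : G \ ⋃ d ∈ F, O d = (G \ ⋃ d ∈ F₂, O d) \ O c := by
        rw [hUn, Set.sdiff_sdiff]
      rw [h3]
      exact h2

end Sheet

end P073.H142
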