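import Vale.Agent.P073.H142.Tiles1

/-!
# P073, block H142: tiles of a sheet, existence of outer tiles, the core
-/

open Set Topology Filter

namespace P073.H142

variable {E : Type*} [TopologicalSpace E] {I J : Type*}

namespace Sheet

variable {S : Set E} {V B : I → Set E} {cell : J → I} {O γ : J → Set E}
  (h : Sheet S V B cell O γ)
include h

/-- **every point of the sheet in a cell is inside a tile of the cell** -/
theorem exists_tile {i : I} {x : E} (hx : x ∈ S) (hxV : x ∈ V i) :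
    ∃ c, cell c = i ∧ Tile V cell O γ c ∧ x ∈ O c \ γ c := by
  classical
  set J₀ : Finset J := (h.fin i).toFinset with hJ₀
  have memJ : ∀ c, c ∈ J₀ ↔ cell c = i := fun c => by rw [hJ₀, Set.Finite.mem_toFinset]; rfl
  have hxB : ∀ c, x ∉ γ c := fun c hc => disjoint_left.1 (h.γ_V c i) hc hxV
  set F : Finset J := J₀.filter (fun c => x ∈ O c) with hF
  have memF : ∀ c, c ∈ F ↔ cell c = i ∧ x ∈ O c := fun c => by
    rw [hF, Finset.mem_filter, memJ]
  -- a connected piece avoiding `B i` around `x`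
  have hne : F.Nonempty := by
    rw [Finset.nonempty_iff_ne_empty]
    intro hemp
    have h1 := h.diff_fin isOpen_univ (G := S) (by rw [inter_univ]) h.hS J₀
      (fun c hc => ⟨(memJ c).1 hc, h.O_sub c⟩)
    obtain ⟨y, hyS, hyV, hyO⟩ := h.far i
    have h2 : S \ ⋃ c ∈ J₀, O c ⊆ V i := by
      refine h.sub_V h1 ?_ ⟨x, ⟨hx, ?_⟩, hxV⟩
      · rw [disjoint_left]
        rintro z ⟨hz, hzO⟩ hzB
        obtain ⟨c, hc, hzc⟩ := (h.trace i z hz).1 hzB
        exact hzO (mem_iUnion₂.2 ⟨c, (memJ c).2 hc, h.γ_sub c hzc⟩)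
      · intro hxO
        obtain ⟨c, hc, hxc⟩ := mem_iUnion₂.1 hxO
        have : c ∈ F := (memF c).2 ⟨(memJ c).1 hc, hxc⟩
        rw [hemp] at this
        exact absurd this (Finset.notMem_empty c)
    refine hyV (h2 ⟨hyS, fun hyU => ?_⟩)
    obtain ⟨c, hc, hyc⟩ := mem_iUnion₂.1 hyU
    exact hyO c ((memJ c).1 hc) hyc
  obtain ⟨c, hcF, hcmin⟩ := F.exists_minimalFor O hne
  obtain ⟨hci, hxc⟩ := (memF c).1 hcF
  obtain ⟨U, hU, hUS⟩ := h.o_open c
  set F' : Finset J := J₀.filter (fun d => O d ⊆ O c \ γ c) with hF'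
  have memF' : ∀ d, d ∈ F' ↔ cell d = i ∧ O d ⊆ O c \ γ c := fun d => by
    rw [hF', Finset.mem_filter, memJ]
  have h1 := h.diff_fin hU (G := O c \ γ c) hUS.symm (h.o_pre c) F' (fun d hd => (memF' d).1 hd)
  have hxQ : x ∈ (O c \ γ c) \ ⋃ d ∈ F', O d := by
    refine ⟨⟨hxc, hxB c⟩, fun hxO => ?_⟩
    obtain ⟨d, hd, hxd⟩ := mem_iUnion₂.1 hxO
    obtain ⟨hdi, hdc⟩ := (memF' d).1 hd
    have h2 := hcmin ((memF d).2 ⟨hdi, hxd⟩) (hdc.trans sdiff_subset)
    obtain ⟨z, hz⟩ := h.γ_ne c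
    exact (hdc (h2 (h.γ_sub c hz))).2 hz
  have h2 : (O c \ γ c) \ ⋃ d ∈ F', O d ⊆ V i := by
    refine h.sub_V h1 ?_ ⟨x, hxQ, hxV⟩
    rw [disjoint_left]
    rintro z ⟨hz, hzO⟩ hzB
    obtain ⟨e, he, hze⟩ := (h.trace i z (h.O_sub c hz.1)).1 hzB
    have hce : c ≠ e := by rintro rfl; exact hz.2 hze
    rcases h.tri_same hce (hci.trans he.symm) with h3 | h3 | h3
    · exact hzO (mem_iUnion₂.2 ⟨e, (memF' e).2 ⟨he, h3⟩, h.γ_sub e hze⟩)
    · exact (h3 hz.1).2 hze
    · exact disjoint_left.1 h3 hz.1 (h.γ_sub e hze)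
  refine ⟨c, hci, fun z hz => ?_, hxc, hxB c⟩
  refine ⟨(⋃ d ∈ F', O d)ᶜ, (isClosed_biUnion_finset fun d _ => h.O_closed d).isOpen_compl,
    fun hzO => ?_, ?_⟩
  · obtain ⟨d, hd, hzd⟩ := mem_iUnion₂.1 hzO
    exact (((memF' d).1 hd).2 hzd).2 hz
  · rintro y ⟨hy1, hy2⟩
    rw [hci]
    exact h2 ⟨hy2, hy1⟩

/-- a circle which is not a tile is inside a tile of the same cell -/
theorem exists_tile_of_not {c : J} (hc : ¬ Tile V cell O γ c) :
    ∃ d, cell d = cell c ∧ Tile V cell O γ d ∧ γ c ⊆ O d \ γ d := by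
  rcases h.cross c with h1 | h1
  · exact absurd h1 hc
  · obtain ⟨x, hx, h2⟩ := h1
    have h3 : (S \ O c) ∩ V (cell c) ⊆
        ⋃ d ∈ {d | cell d = cell c ∧ d ≠ c ∧ Tile V cell O γ d}, O d := by
      rintro y ⟨⟨hyS, hyc⟩, hyV⟩
      obtain ⟨d, hd1, hd2, hd3⟩ := h.exists_tile hyS hyV
      refine mem_iUnion₂.2 ⟨d, ⟨hd1, ?_, hd2⟩, hd3.1⟩
      rintro rfl
      exact hyc hd3.1
    have h4 : IsClosed (⋃ d ∈ {d | cell d = cell c ∧ d ≠ c ∧ Tile V cell O γ d}, O d) := by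
      refine Set.Finite.isClosed_biUnion ?_ fun d _ => h.O_closed d
      exact (h.fin (cell c)).subset fun d hd => hd.1
    have h5 := closure_mono h3 h2
    rw [h4.closure_eq] at h5
    obtain ⟨d, ⟨hd1, hd2, hd3⟩, hxd⟩ := mem_iUnion₂.1 h5
    have hdj := h.γ_disj c d hd2.symm hd1.symm
    refine ⟨d, hd1, hd3, ?_⟩
    rcases h.dichB (h.γ_pre c) ((h.γ_sub c).trans (h.O_sub c)) hdj with h6 | h6
    · exact h6
    · exact absurd ⟨hxd, disjoint_left.1 hdj hx⟩ (disjoint_left.1 h6 hx)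

/-- every tile is contained in a maximal one -/
theorem exists_top {c : J} (hc : Tile V cell O γ c) :
    ∃ d, Top V cell O γ d ∧ (d = c ∨ O c ⊆ O d \ γ d) := by
  classical
  obtain ⟨x, hx⟩ := h.o_ne c
  set F : Finset J := (h.pf x).toFinset.filter
    (fun d => Tile V cell O γ d ∧ (d = c ∨ O c ⊆ O d \ γ d)) with hF
  have memF : ∀ d, d ∈ F ↔ x ∈ O d ∧ Tile V cell O γ d ∧ (d = c ∨ O c ⊆ O d \ γ d) := fun d => by
    rw [hF, Finset.mem_filter, Set.Finite.mem_toFinset]; rfl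
  obtain ⟨d, hdF, hd⟩ := F.exists_maximalFor O ⟨c, (memF c).2 ⟨hx.1, hc, Or.inl rfl⟩⟩
  obtain ⟨h1, h2, h3⟩ := (memF d).1 hdF
  refine ⟨d, ⟨h2, fun e he hde => ?_⟩, h3⟩
  have hce : O c ⊆ O e \ γ e := by
    rcases h3 with rfl | h3
    · exact hde
    · exact h3.trans (sdiff_subset.trans hde)
  have h4 := hd ((memF e).2 ⟨(hde h1).1, he, Or.inr hce⟩) (hde.trans sdiff_subset)
  obtain ⟨z, hz⟩ := h.γ_ne e
  exact (hde (h4 (h.γ_sub e hz))).2 hz

/-- distinct maximal tiles have disjoint interiors -/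
theorem top_disj {c d : J} (hc : Top V cell O γ c) (hd : Top V cell O γ d) (hcd : c ≠ d) :
    Disjoint (O c \ γ c) (O d \ γ d) := by
  rcases h.tri hcd hc.1 hd.1 with h1 | h1 | h1
  · exact absurd h1 (hd.2 c hc.1)
  · exact absurd h1 (hc.2 d hd.1)
  · exact h1

theorem disj_closed {c d : J} (hcd : Disjoint (O c \ γ c) (O d \ γ d)) :
    Disjoint (O c) (O d \ γ d) := by
  rw [disjoint_left]
  intro x hx hxd
  obtain ⟨U, hU, hUS⟩ := h.o_open d
  have h1 : x ∈ S ∩ U := by rw [hUS]; exact hxd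
  obtain ⟨y, hy, hyU⟩ := h.meets hU ⟨x, hx, h1.2⟩
  have h2 : y ∈ S ∩ U := ⟨h.O_sub c hy.1, hyU⟩
  rw [hUS] at h2
  exact disjoint_left.1 hcd hy h2

/-- maximal tiles meet only in their boundaries -/
theorem top_inter {c d : J} (hc : Top V cell O γ c) (hd : Top V cell O γ d) (hcd : c ≠ d) :
    O c ∩ O d ⊆ γ c ∩ γ d := by
  have h1 := h.top_disj hc hd hcd
  have h2 := h.disj_closed h1
  have h3 := h.disj_closed h1.symm
  rintro x ⟨hx, hx'⟩
  constructor
  · by_contra hxc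
    exact disjoint_left.1 h3 hx' ⟨hx, hxc⟩
  · by_contra hxd
    exact disjoint_left.1 h2 hx ⟨hx', hxd⟩

theorem γ_core {c : J} (hc : Top V cell O γ c) : γ c ⊆ core S V cell O γ := by
  intro x hx
  refine ⟨h.O_sub c (h.γ_sub c hx), fun d hd hxd => ?_⟩
  by_cases hcd : c = d
  · subst hcd; exact hxd.2 hx
  · exact disjoint_left.1 (h.disj_closed (h.top_disj hc hd hcd)) (h.γ_sub c hx) hxd

theorem O_inter_core {c : J} (hc : Top V cell O γ c) : O c ∩ core S V cell O γ = γ c := by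
  apply Subset.antisymm
  · rintro x ⟨hx, hx'⟩
    by_contra hxc
    exact hx'.2 c hc ⟨hx, hxc⟩
  · exact fun x hx => ⟨h.γ_sub c hx, h.γ_core hc hx⟩

theorem cover : S = core S V cell O γ ∪ ⋃ c ∈ {c | Top V cell O γ c}, O c := by
  apply Subset.antisymm
  · intro x hx
    by_cases hxc : x ∈ core S V cell O γ
    · exact Or.inl hxc
    · right
      have h1 : ¬ ∀ c, Top V cell O γ c → x ∉ O c \ γ c := fun h' => hxc ⟨hx, h'⟩
      push Not at h1
      obtain ⟨c, hc, hxo⟩ := h1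
      exact mem_iUnion₂.2 ⟨c, hc, hxo.1⟩
  · rintro x (hx | hx)
    · exact hx.1
    · obtain ⟨c, _, hxc⟩ := mem_iUnion₂.1 hx
      exact h.O_sub c hxc

/-- **the core misses all cells** -/
theorem core_V (i : I) : Disjoint (core S V cell O γ) (V i) := by
  rw [disjoint_left]
  intro x hx hxV
  obtain ⟨c, -, hc, hxc⟩ := h.exists_tile hx.1 hxV
  obtain ⟨d, hd, hdc⟩ := h.exists_top hc
  rcases hdc with rfl | hdc
  · exact hx.2 d hd hxc
  · exact hx.2 d hd (hdc hxc.1)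

/-- **the traces of the core are whole circles** -/
theorem core_B (i : I) {x : E} :
    x ∈ core S V cell O γ ∧ x ∈ B i ↔ ∃ c, cell c = i ∧ Top V cell O γ c ∧ x ∈ γ c := by
  constructor
  · rintro ⟨hx, hxB⟩
    obtain ⟨c, hc, hxc⟩ := (h.trace i x hx.1).1 hxB
    have hout : ∀ {d}, Tile V cell O γ d → x ∉ O d \ γ d := by
      intro d hd hxd
      obtain ⟨e, he, hde⟩ := h.exists_top hd
      rcases hde with rfl | hde
      · exact hx.2 e he hxd
      · exact hx.2 e he (hde hxd.1)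
    by_cases hct : Tile V cell O γ c
    · obtain ⟨d, hd, hdc⟩ := h.exists_top hct
      rcases hdc with rfl | hdc
      · exact ⟨d, hc, hd, hxc⟩
      · exact absurd (hdc (h.γ_sub c hxc)) (hx.2 d hd)
    · obtain ⟨d, -, hd, hdc⟩ := h.exists_tile_of_not hct
      exact absurd (hdc hxc) (hout hd)
  · rintro ⟨c, hc, hct, hxc⟩
    exact ⟨h.γ_core hct hxc, hc ▸ h.γB c hxc⟩

/-- distinct maximal tiles of the same cell are disjoint -/
theorem top_same {c d : J} (hc : Top V cell O γ c) (hd : Top V cell O γ d) (hcd : c ≠ d)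
    (hcell : cell c = cell d) : Disjoint (O c) (O d) := by
  rw [disjoint_left]
  intro x hx hx'
  have h1 := h.top_inter hc hd hcd ⟨hx, hx'⟩
  exact disjoint_left.1 (h.γ_disj c d hcd hcell) h1.1 h1.2

/-- the core is relatively closed in the sheet when the tiles are locally finite there; pointwise
form: the core is the intersection of `S` with an intersection of closed sets -/
theorem core_closed {x : E} (hx : x ∈ S) (hcl : x ∈ closure (core S V cell O γ)) :
    x ∈ core S V cell O γ := by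
  refine ⟨hx, fun c hc hxc => ?_⟩
  obtain ⟨U, hU, hUS⟩ := h.o_open c
  have h1 : x ∈ S ∩ U := by rw [hUS]; exact hxc
  obtain ⟨y, hyU, hy⟩ := mem_closure_iff.1 hcl U hU h1.2
  have h2 : y ∈ S ∩ U := ⟨hy.1, hyU⟩
  rw [hUS] at h2
  exact hy.2 c hc h2

end Sheet

end P073.H142
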