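import Vale.Agent.P073.H142.Tiles2
import Vale.Agent.P073.H936.Thick

/-!
# P073, block H142: replacing the maximal tiles of a sheet by caps, thin and thick
-/

open Set Metric Topology Filter

namespace P073.H142

open P073 P073.H936

variable {E : Type*} [NormedAddCommGroup E] [NormedSpace ℝ E] {I J : Type*}

/-- replacing a locally finite family of pieces attached to `P` -/
theorem exists_replace_lf {P : Set E} (hPc : ConicalSet P) {T T' L : J → Set E}
    (φ : ∀ j, ConHomeo (T' j) (T j)) (hφ : ∀ j, EqOn (φ j).toFun id (L j))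
    (hTP : ∀ j, T j ∩ P = L j) (hTP' : ∀ j, T' j ∩ P = L j)
    (hd : ∀ i j, i ≠ j → T i ∩ T j ⊆ P) (hd' : ∀ i j, i ≠ j → T' i ∩ T' j ⊆ P)
    (hX : RelLF (fun o : Option J => o.elim P T')) (hY : RelLF (fun o : Option J => o.elim P T)) :
    ∃ Φ : ConHomeo (P ∪ ⋃ j, T' j) (P ∪ ⋃ j, T j), EqOn Φ.toFun id P ∧
      ∀ j, EqOn Φ.toFun (φ j).toFun (T' j) := by
  set X : Option J → Set E := fun o => o.elim P T' with hXdef
  set Y : Option J → Set E := fun o => o.elim P T with hYdef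
  let h : ∀ o, ConHomeo (X o) (Y o) := fun o =>
    match o with
    | none => ConHomeo.refl hPc
    | some j => φ j
  have hag : ∀ o o', EqOn (h o).toFun (h o').toFun (X o ∩ X o') := by
    intro o o' x hx
    cases o with
    | none =>
      cases o' with
      | none => rfl
      | some j => exact (hφ j (hTP' j ▸ ⟨hx.2, hx.1⟩)).symm
    | some i =>
      cases o' with
      | none => exact hφ i (hTP' i ▸ ⟨hx.1, hx.2⟩)
      | some j =>
        by_cases hij : i = j
        · subst hij; rfl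
        · have hP := hd' i j hij hx
          have h1 : x ∈ L i := hTP' i ▸ ⟨hx.1, hP⟩
          have h2 : x ∈ L j := hTP' j ▸ ⟨hx.2, hP⟩
          exact (hφ i h1).trans (hφ j h2).symm
  have hL : ∀ j, L j ⊆ T' j := fun j => hTP' j ▸ inter_subset_left
  have himg : ∀ o o', Y o ∩ Y o' ⊆ (h o).toFun '' (X o ∩ X o') := by
    intro o o' y hy
    cases o with
    | none =>
      cases o' with
      | none => exact ⟨y, hy, rfl⟩
      | some j =>
        have hyL : y ∈ L j := hTP j ▸ ⟨hy.2, hy.1⟩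
        exact ⟨y, ⟨hy.1, hL j hyL⟩, rfl⟩
    | some i =>
      cases o' with
      | none =>
        have hyL : y ∈ L i := hTP i ▸ ⟨hy.1, hy.2⟩
        exact ⟨y, ⟨hL i hyL, hy.2⟩, hφ i hyL⟩
      | some j =>
        by_cases hij : i = j
        · subst hij
          obtain ⟨x, hx, hxy⟩ : y ∈ (φ i).toFun '' (T' i) := by rw [(φ i).image_eq]; exact hy.1
          exact ⟨x, ⟨hx, hx⟩, hxy⟩
        · have hP := hd i j hij hy
          have h1 : y ∈ L i := hTP i ▸ ⟨hy.1, hP⟩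
          have h2 : y ∈ L j := hTP j ▸ ⟨hy.2, hP⟩
          exact ⟨y, ⟨hL i h1, hL j h2⟩, hφ i h1⟩
  obtain ⟨Φ, hΦ⟩ := ConHomeo.exists_glue_family hX hY h hag himg
  have hUX : (⋃ o, X o) = P ∪ ⋃ j, T' j := by rw [iUnion_option]; rfl
  have hUY : (⋃ o, Y o) = P ∪ ⋃ j, T j := by rw [iUnion_option]; rfl
  exact ⟨Φ.cast hUX hUY, (hΦ none).1, fun j => (hΦ (some j)).1⟩

omit [NormedSpace ℝ E] in
theorem relLF_option {P : Set E} {T : J → Set E} (hT : ∀ j, IsClosed (T j))
    (hP : ∀ z ∈ P ∪ ⋃ j, T j, z ∈ closure P → z ∈ P)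
    (hf : ∀ z ∈ P ∪ ⋃ j, T j, ∃ U ∈ 𝓝 z, {j | (T j ∩ U).Nonempty}.Finite) :
    RelLF (fun o : Option J => o.elim P T) := by
  have hU : (⋃ o : Option J, o.elim P T) = P ∪ ⋃ j, T j := by rw [iUnion_option]; rfl
  constructor
  · intro z hz
    rw [hU] at hz
    obtain ⟨U, hU', hfin⟩ := hf z hz
    refine ⟨U, hU', ((hfin.image some).union (finite_singleton (none : Option J))).subset ?_⟩
    intro o ho
    cases o with
    | none => exact Or.inr rfl
    | some i => exact Or.inl ⟨i, ho, rfl⟩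
  · intro o z hz hzo
    rw [hU] at hz
    cases o with
    | none => exact hP z hz hzo
    | some i =>
      have : z ∈ closure (T i) := hzo
      rwa [(hT i).closure_eq] at this

namespace Sheet

variable {S : Set E} {V B : I → Set E} {cell : J → I} {O γ : J → Set E}
  (h : Sheet S V B cell O γ)
include h

omit h in
theorem conicalSet_core {X : Set E} (hS : ConicalSet (S ∩ X))
    (hoc : ∀ c, LocCone (O c)) (hγc : ∀ c, LocCone (γ c))
    (hlf : ∀ x ∈ X, ∃ U ∈ 𝓝 x, {c | (O c ∩ U).Nonempty}.Finite) :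
    ConicalSet (core S V cell O γ ∩ X) := by
  intro x hx
  obtain ⟨U, hU, hfin⟩ := hlf x hx.2
  set F := {c | (O c ∩ U).Nonempty} with hF
  have : Finite F := hfin
  have h1 : LocCone (⋃ c : F, {y | y ∈ O (c : J) ∧ y ∉ γ (c : J) ∧ Top V cell O γ c}) := by
    intro z
    refine LocConeAt.iUnion_finite fun c => ?_
    by_cases hc : Top V cell O γ (c : J)
    · have : {y | y ∈ O (c : J) ∧ y ∉ γ (c : J) ∧ Top V cell O γ c} = O (c : J) ∩ (γ (c : J))ᶜ := by
        ext y; simp [hc]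
      rw [this]
      exact ((hoc c).inter (hγc c).compl) z
    · have : {y | y ∈ O (c : J) ∧ y ∉ γ (c : J) ∧ Top V cell O γ c} = ∅ := by
        ext y; simp [hc]
      rw [this]
      exact locCone_empty z
  have h2 := (hS x ⟨hx.1.1, hx.2⟩).inter ((h1.compl x).conicalSetAt (by
    simp only [mem_compl_iff, mem_iUnion, not_exists]
    rintro c ⟨a, b, hc⟩
    exact hx.1.2 c hc ⟨a, b⟩))
  obtain ⟨r, hr, H⟩ := h2
  obtain ⟨ρ, hρ, hρU⟩ := Metric.mem_nhds_iff.1 hU
  refine ⟨min r (ρ / 2), by positivity, fun v hv hxv t ht => ?_⟩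
  have hball : ∀ t ∈ Icc (0:ℝ) 1, x + t • v ∈ U := by
    intro t ht
    apply hρU
    rw [mem_ball_iff_norm, add_sub_cancel_left]
    calc ‖t • v‖ ≤ ‖v‖ := norm_smul_le_of_mem_Icc ht le_rfl
      _ ≤ ρ / 2 := hv.trans (min_le_right _ _)
      _ < ρ := by linarith
  have key : ∀ y ∈ U, (y ∈ core S V cell O γ ∩ X ↔
      y ∈ (S ∩ X) ∩ (⋃ c : F, {y | y ∈ O (c : J) ∧ y ∉ γ (c : J) ∧ Top V cell O γ c})ᶜ) := by
    intro y hyU
    constructor
    · rintro ⟨⟨hyS, hy⟩, hyX⟩
      refine ⟨⟨hyS, hyX⟩, ?_⟩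
      simp only [mem_compl_iff, mem_iUnion, not_exists]
      rintro c ⟨a, b, hc⟩
      exact hy c hc ⟨a, b⟩
    · rintro ⟨⟨hyS, hyX⟩, hy⟩
      refine ⟨⟨hyS, fun c hc hyc => hy ?_⟩, hyX⟩
      exact mem_iUnion.2 ⟨⟨c, ⟨y, hyc.1, hyU⟩⟩, hyc.1, hyc.2, hc⟩
  have h0 : x + v ∈ U := by have := hball 1 ⟨zero_le_one, le_rfl⟩; rwa [one_smul] at this
  exact (key _ (hball t ht)).2 (H v (hv.trans (min_le_left _ _)) ((key _ h0).1 hxv) t ht)

end Sheet

end P073.H142
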