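import Vale.Agent.P073.H142.Tiles3

/-!
# P073, block H142: replacing the maximal tiles of a sheet by caps, thin and thick
-/

open Set Metric Topology Filter

namespace P073.H142

open P073 P073.H936

variable {E : Type*} [NormedAddCommGroup E] [NormedSpace ℝ E] {I J : Type*}

/-- the indices of the maximal tiles -/
abbrev Tops (V : I → Set E) (cell : J → I) (O γ : J → Set E) := {c // Top V cell O γ c}

/-- caps for the maximal tiles; `L c` is the (thin or thick) boundary of the cap -/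
structure Caps (V B : I → Set E) (cell : J → I) (O γ : J → Set E) (L Δ : J → Set E) : Prop where
  closed : ∀ c, Top V cell O γ c → IsClosed (Δ c)
  sub : ∀ c, Top V cell O γ c → Δ c ⊆ V (cell c) ∪ L c
  bdry : ∀ c, Top V cell O γ c → L c ⊆ Δ c ∩ B (cell c)
  disj : ∀ c d, Top V cell O γ c → Top V cell O γ d → c ≠ d → cell c = cell d →
    Disjoint (Δ c) (Δ d)

namespace Sheet

variable {S : Set E} {V B : I → Set E} {cell : J → I} {O γ : J → Set E}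
  (h : Sheet S V B cell O γ)
include h

section general

variable {L Δ : J → Set E} (hΔ : Caps V B cell O γ L Δ) {P : Set E}
include hΔ

omit h in
theorem cap_inter_P (hPV : ∀ i, Disjoint P (V i)) (hLP : ∀ c, Top V cell O γ c → L c ⊆ P)
    {c : J} (hc : Top V cell O γ c) : Δ c ∩ P = L c := by
  apply Subset.antisymm
  · rintro x ⟨hx, hxP⟩
    rcases hΔ.sub c hc hx with h1 | h1
    · exact absurd h1 (disjoint_left.1 (hPV _) hxP)
    · exact h1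
  · exact fun x hx => ⟨(hΔ.bdry c hc hx).1, hLP c hc hx⟩

theorem cap_inter_cap (hLP : ∀ c, Top V cell O γ c → L c ⊆ P)
    {c d : J} (hc : Top V cell O γ c) (hd : Top V cell O γ d) (hcd : c ≠ d) :
    Δ c ∩ Δ d ⊆ P := by
  rintro x ⟨hx, hx'⟩
  by_cases hcell : cell c = cell d
  · exact absurd hx' (disjoint_left.1 (hΔ.disj c d hc hd hcd hcell) hx)
  · rcases hΔ.sub c hc hx with h1 | h1
    · rcases hΔ.sub d hd hx' with h2 | h2
      · exact absurd h2 (disjoint_left.1 (h.V_disj _ _ hcell) h1)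
      · exact absurd (hΔ.bdry d hd h2).2 (disjoint_left.1 (h.VB _ _) h1)
    · exact hLP c hc h1

/-- the trace of the new sheet on a cell boundary -/
theorem new_B (hPB : ∀ i, ∀ x ∈ P, x ∈ B i → ∃ c, cell c = i ∧ Top V cell O γ c ∧ x ∈ L c)
    (hLP : ∀ c, Top V cell O γ c → L c ⊆ P) (i : I) {x : E} :
    (x ∈ P ∪ ⋃ c : Tops V cell O γ, Δ c) ∧ x ∈ B i ↔
      ∃ c, cell c = i ∧ Top V cell O γ c ∧ x ∈ L c := by
  constructor
  · rintro ⟨hx | hx, hxB⟩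
    · exact hPB i x hx hxB
    · obtain ⟨⟨c, hc⟩, hx⟩ := mem_iUnion.1 hx
      rcases hΔ.sub c hc hx with h1 | h1
      · exact absurd hxB (disjoint_left.1 (h.VB _ _) h1)
      · exact hPB i x (hLP c hc h1) hxB
  · rintro ⟨c, hci, hc, hx⟩
    refine ⟨Or.inl (hLP c hc hx), hci ▸ (hΔ.bdry c hc hx).2⟩

/-- the part of the new sheet in a closed cell is a union of caps -/
theorem new_V (hPV : ∀ i, Disjoint P (V i))
    (hPB : ∀ i, ∀ x ∈ P, x ∈ B i → ∃ c, cell c = i ∧ Top V cell O γ c ∧ x ∈ L c)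
    (hLP : ∀ c, Top V cell O γ c → L c ⊆ P) (i : I) {x : E} :
    (x ∈ P ∪ ⋃ c : Tops V cell O γ, Δ c) ∧ x ∈ V i ∪ B i ↔
      ∃ c, cell c = i ∧ Top V cell O γ c ∧ x ∈ Δ c := by
  constructor
  · rintro ⟨hx, hxV | hxB⟩
    · rcases hx with hx | hx
      · exact absurd hxV (disjoint_left.1 (hPV i) hx)
      · obtain ⟨⟨c, hc⟩, hx⟩ := mem_iUnion.1 hx
        refine ⟨c, ?_, hc, hx⟩
        by_contra hci
        rcases hΔ.sub c hc hx with h1 | h1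
        · exact disjoint_left.1 (h.V_disj _ _ hci) h1 hxV
        · exact disjoint_left.1 (h.VB i (cell c)) hxV (hΔ.bdry c hc h1).2
    · obtain ⟨c, hci, hc, hxL⟩ := (h.new_B hΔ hPB hLP i).1 ⟨hx, hxB⟩
      exact ⟨c, hci, hc, (hΔ.bdry c hc hxL).1⟩
  · rintro ⟨c, hci, hc, hx⟩
    refine ⟨Or.inr (mem_iUnion.2 ⟨⟨c, hc⟩, hx⟩), ?_⟩
    rcases hΔ.sub c hc hx with h1 | h1
    · exact Or.inl (hci ▸ h1)
    · exact Or.inr (hci ▸ (hΔ.bdry c hc h1).2)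

theorem relLF_new (hPV : ∀ i, Disjoint P (V i)) (hLP : ∀ c, Top V cell O γ c → L c ⊆ P)
    (hf : ∀ z ∈ P ∪ ⋃ c : Tops V cell O γ, Δ c,
      ∃ U ∈ 𝓝 z, {c : Tops V cell O γ | (Δ c ∩ U).Nonempty}.Finite) :
    RelLF (fun o : Option (Tops V cell O γ) => o.elim P fun c => Δ c) := by
  refine relLF_option (fun c => hΔ.closed c c.2) ?_ hf
  rintro z (hz | hz) hcl
  · exact hz
  · obtain ⟨⟨c, hc⟩, hz⟩ := mem_iUnion.1 hz
    rcases hΔ.sub c hc hz with h1 | h1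
    · obtain ⟨y, hy, hyP⟩ := mem_closure_iff.1 hcl _ (h.V_open _) h1
      exact absurd hy (disjoint_left.1 (hPV _) hyP)
    · exact hLP c hc h1

end general

/-! ### the thin version -/

/-- **Replacing the maximal tiles of a sheet by caps** (thin version). `X` is a set containing all
discs (the region where everything is locally finite). -/
theorem exists_replace_thin {n : ℕ} {X : Set E} (hSX : ConicalSet (S ∩ X)) (hO : ∀ c, O c ⊆ X)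
    (hball : ∀ c, ConBall n (O c) (γ c))
    (hlf : ∀ x ∈ X, ∃ U ∈ 𝓝 x, {c | (O c ∩ U).Nonempty}.Finite)
    {Δ : J → Set E} (hΔ : Caps V B cell O γ γ Δ)
    (hcap : ∀ c, Top V cell O γ c → ConBall n (Δ c) (γ c))
    (hlf' : ∀ z ∈ (core S V cell O γ ∩ X) ∪ ⋃ c : Tops V cell O γ, Δ c,
      ∃ U ∈ 𝓝 z, {c : Tops V cell O γ | (Δ c ∩ U).Nonempty}.Finite) :
    ∃ θ : ConHomeo ((core S V cell O γ ∩ X) ∪ ⋃ c : Tops V cell O γ, Δ c) (S ∩ X),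
      EqOn θ.toFun id (core S V cell O γ ∩ X) ∧
      ∀ c : Tops V cell O γ, θ.toFun '' Δ c = O c := by
  set P := core S V cell O γ ∩ X with hP
  have hPV : ∀ i, Disjoint P (V i) := fun i => (h.core_V i).mono_left inter_subset_left
  have hLP : ∀ c, Top V cell O γ c → γ c ⊆ P := fun c hc x hx =>
    ⟨h.γ_core hc hx, hO c (h.γ_sub c hx)⟩
  have hPc : ConicalSet P := conicalSet_core hSX (fun c => (hball c).locCone)
    (fun c => (hball c).locCone_bdry) hlf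
  have hex : ∀ c : Tops V cell O γ, ∃ φ : ConHomeo (Δ c) (O c),
      EqOn φ.toFun id (γ c) ∧ φ.toFun '' γ c = γ c := fun c =>
    (hcap c c.2).exists_extend (hball c) (ConHomeo.refl (hball c).conicalSet_bdry)
  choose φ hφ hφ' using hex
  have hTP : ∀ c : Tops V cell O γ, O c ∩ P = γ c := by
    intro c
    apply Subset.antisymm
    · rintro x ⟨hx, hx'⟩
      rw [← h.O_inter_core c.2]
      exact ⟨hx, hx'.1⟩
    · exact fun x hx => ⟨h.γ_sub c hx, hLP c c.2 hx⟩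
  have hUn : P ∪ ⋃ c : Tops V cell O γ, O c = S ∩ X := by
    have h1 := h.cover
    ext x
    constructor
    · rintro (hx | hx)
      · exact ⟨hx.1.1, hx.2⟩
      · obtain ⟨c, hx⟩ := mem_iUnion.1 hx
        exact ⟨h.O_sub c hx, hO c hx⟩
    · rintro ⟨hx, hxX⟩
      rw [h1] at hx
      rcases hx with hx | hx
      · exact Or.inl ⟨hx, hxX⟩
      · obtain ⟨c, hc, hx⟩ := mem_iUnion₂.1 hx
        exact Or.inr (mem_iUnion.2 ⟨⟨c, hc⟩, hx⟩)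
  have hY : RelLF (fun o : Option (Tops V cell O γ) => o.elim P fun c => O c) := by
    refine relLF_option (fun c => h.O_closed c) ?_ ?_
    · intro z hz hcl
      rw [hUn] at hz
      exact ⟨h.core_closed hz.1 (closure_mono inter_subset_left hcl), hz.2⟩
    · intro z hz
      rw [hUn] at hz
      obtain ⟨U, hU, hfin⟩ := hlf z hz.2
      refine ⟨U, hU, Set.Finite.of_injOn (f := fun c : Tops V cell O γ => (c : J))
        (t := {c | (O c ∩ U).Nonempty}) (fun c hc => hc) (fun a _ b _ hab => Subtype.ext hab) hfin⟩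
  obtain ⟨Φ, h1, h2⟩ := exists_replace_lf hPc (T := fun c : Tops V cell O γ => O c)
    (T' := fun c : Tops V cell O γ => Δ c) (L := fun c : Tops V cell O γ => γ c) φ hφ hTP
    (fun c => cap_inter_P hΔ hPV hLP c.2)
    (fun c d hcd x hx => hLP c c.2 (h.top_inter c.2 d.2 (fun h' => hcd (Subtype.ext h')) hx).1)
    (fun c d hcd => h.cap_inter_cap hΔ hLP c.2 d.2 (fun h' => hcd (Subtype.ext h')))
    (h.relLF_new hΔ hPV hLP hlf') hY
  refine ⟨Φ.cast rfl hUn, h1, fun c => ?_⟩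
  show Φ.toFun '' Δ c = O c
  rw [(h2 c).image_eq, (φ c).image_eq]

/-! ### the thick version -/

/-- **Replacing the maximal tiles of a thick sheet by thick caps.**  `Γ` is a product structure of
the thick sheet `N` over `S ∩ X`, for which the cells and their boundaries are vertical; `b` is the
level function of `N`, `b' c` the level function of the cap `Δ c`. -/
theorem exists_replace_thick {n : ℕ} {X N : Set E} (hO : ∀ c, O c ⊆ X)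
    (hSX : ConicalSet (S ∩ X))
    (hball : ∀ c, ConBall n (O c) (γ c))
    (hlf : ∀ x ∈ X, ∃ U ∈ 𝓝 x, {c | (O c ∩ U).Nonempty}.Finite)
    (Γ : ConHomeo ((S ∩ X) ×ˢ Icc (-1:ℝ) 1) N) {b : E → ℝ}
    (hb : ∀ z ∈ S ∩ X, ∀ s ∈ Icc (-1:ℝ) 1, b (Γ.toFun (z, s)) = s)
    (hVv : ∀ i, ∀ z ∈ S ∩ X, ∀ s ∈ Icc (-1:ℝ) 1, (Γ.toFun (z, s) ∈ V i → z ∈ V i))
    (hBv : ∀ i, ∀ z ∈ S ∩ X, ∀ s ∈ Icc (-1:ℝ) 1, (Γ.toFun (z, s) ∈ B i → z ∈ B i))
    {Δ : J → Set E} {b' : J → E → ℝ}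
    (hΔ : Caps V B cell O γ (fun c => Γ.toFun '' (γ c ×ˢ Icc (-1:ℝ) 1)) Δ)
    (hcap : ∀ c, Top V cell O γ c → Thick n (Δ c) (b' c) (Γ.toFun '' (γ c ×ˢ Icc (-1:ℝ) 1)))
    (hbb : ∀ c, Top V cell O γ c → EqOn (b' c) b (Γ.toFun '' (γ c ×ˢ Icc (-1:ℝ) 1)))
    (hlf' : ∀ z ∈ (Γ.toFun '' ((core S V cell O γ ∩ X) ×ˢ Icc (-1:ℝ) 1)) ∪
      ⋃ c : Tops V cell O γ, Δ c, ∃ U ∈ 𝓝 z, {c : Tops V cell O γ | (Δ c ∩ U).Nonempty}.Finite) :
    ∃ θ : ConHomeo ((Γ.toFun '' ((core S V cell O γ ∩ X) ×ˢ Icc (-1:ℝ) 1)) ∪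
        ⋃ c : Tops V cell O γ, Δ c) N,
      EqOn θ.toFun id (Γ.toFun '' ((core S V cell O γ ∩ X) ×ˢ Icc (-1:ℝ) 1)) ∧
      ∀ c : Tops V cell O γ, θ.toFun '' Δ c = Γ.toFun '' (O c ×ˢ Icc (-1:ℝ) 1) ∧
        ∀ x ∈ Δ c, b (θ.toFun x) = b' c x := by
  set K := core S V cell O γ ∩ X with hK
  set P := Γ.toFun '' (K ×ˢ Icc (-1:ℝ) 1) with hP
  have hI : ConicalSet (Icc (-1:ℝ) 1) := conicalSet_Icc _ _
  have hKS : K ⊆ S ∩ X := fun x hx => ⟨hx.1.1, hx.2⟩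
  have hKSI : K ×ˢ Icc (-1:ℝ) 1 ⊆ (S ∩ X) ×ˢ Icc (-1:ℝ) 1 := prod_mono hKS (Subset.refl _)
  have hOS : ∀ c, O c ⊆ S ∩ X := fun c x hx => ⟨h.O_sub c hx, hO c hx⟩
  have hOSI : ∀ c, O c ×ˢ Icc (-1:ℝ) 1 ⊆ (S ∩ X) ×ˢ Icc (-1:ℝ) 1 := fun c =>
    prod_mono (hOS c) (Subset.refl _)
  have hKc : ConicalSet K := conicalSet_core hSX (fun c => (hball c).locCone)
    (fun c => (hball c).locCone_bdry) hlf
  have hPc : ConicalSet P := Γ.conicalSet_image (hKc.prod hI) hKSI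
  have hPV : ∀ i, Disjoint P (V i) := by
    intro i
    rw [disjoint_left]
    rintro _ ⟨⟨z, s⟩, ⟨hz, hs⟩, rfl⟩ hV
    exact disjoint_left.1 (h.core_V i) hz.1 (hVv i z (hKS hz) s hs hV)
  have hγK : ∀ c, Top V cell O γ c → γ c ⊆ K := fun c hc x hx =>
    ⟨h.γ_core hc hx, hO c (h.γ_sub c hx)⟩
  have hLP : ∀ c, Top V cell O γ c → Γ.toFun '' (γ c ×ˢ Icc (-1:ℝ) 1) ⊆ P := fun c hc =>
    image_mono (prod_mono (hγK c hc) (Subset.refl _))
  -- the thick tiles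
  have hthick : ∀ c, Thick n (Γ.toFun '' (O c ×ˢ Icc (-1:ℝ) 1)) b
      (Γ.toFun '' (γ c ×ˢ Icc (-1:ℝ) 1)) := by
    intro c
    have h1 : ConHomeo (O c ×ˢ Icc (-1:ℝ) 1) (Γ.toFun '' (O c ×ˢ Icc (-1:ℝ) 1)) :=
      Γ.restr ((hball c).conicalSet.prod hI) (hOSI c)
    refine ⟨image_mono (prod_mono (h.γ_sub c) (Subset.refl _)), ?_⟩
    obtain ⟨_, φ, hφ⟩ := hball c
    obtain ⟨ψ, hψ⟩ : ∃ ψ : ConHomeo (O c ×ˢ Icc (-1:ℝ) 1) (TD n),
        ∀ p ∈ O c ×ˢ Icc (-1:ℝ) 1, ψ.toFun p = (φ.toFun p.1, p.2) := by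
      refine ⟨ConHomeo.ofCompact ((hball c).isCompact.prod isCompact_Icc)
        (fun p => (φ.toFun p.1, p.2)) ?_ ?_ ?_ ?_, fun p _ => by rw [ConHomeo.ofCompact_toFun]⟩
      · exact (φ.cont.comp continuousOn_fst fun p hp => hp.1).prodMk continuousOn_snd
      · rintro p hp q hq hpq
        rw [Prod.mk.injEq] at hpq
        exact Prod.ext (φ.injOn hp.1 hq.1 hpq.1) hpq.2
      · have hc : ConicalSet (O c ×ˢ Icc (-1:ℝ) 1) := (hball c).conicalSet.prod hI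
        exact (φ.conical.comp (conicalOn_fst hc) (fun p hp => hp.1) continuousOn_fst).prodMk
          (conicalOn_snd hc)
      · ext ⟨y, t⟩
        constructor
        · rintro ⟨p, hp, hpy⟩
          rw [Prod.mk.injEq] at hpy
          exact ⟨hpy.1 ▸ φ.mapsTo hp.1, hpy.2 ▸ hp.2⟩
        · rintro ⟨hy, ht⟩
          refine ⟨(φ.invFun y, t), ⟨φ.mapsTo_inv hy, ht⟩, ?_⟩
          simp only
          rw [φ.right_inv hy]
    have hres : ∀ p ∈ O c ×ˢ Icc (-1:ℝ) 1, Γ.invFun (Γ.toFun p) = p := fun p hp =>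
      Γ.left_inv (hOSI c hp)
    refine ⟨(Γ.restr ((hball c).conicalSet.prod hI) (hOSI c)).symm.trans ψ, ?_, ?_⟩
    · rintro _ ⟨p, hp, rfl⟩
      show (ψ.toFun (Γ.invFun (Γ.toFun p))).2 = b (Γ.toFun p)
      rw [hres p hp, hψ p hp]
      exact (hb p.1 (hOS c hp.1) p.2 hp.2).symm
    · rw [image_image]
      have h2 : ∀ p ∈ γ c ×ˢ Icc (-1:ℝ) 1,
          ((Γ.restr ((hball c).conicalSet.prod hI) (hOSI c)).symm.trans ψ).toFun (Γ.toFun p) =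
            (φ.toFun p.1, p.2) := by
        intro p hp
        show ψ.toFun (Γ.invFun (Γ.toFun p)) = _
        have hp' : p ∈ O c ×ˢ Icc (-1:ℝ) 1 := ⟨h.γ_sub c hp.1, hp.2⟩
        rw [hres p hp', hψ p hp']
      rw [image_congr h2]
      ext ⟨y, t⟩
      constructor
      · rintro ⟨p, hp, hpy⟩
        rw [Prod.mk.injEq] at hpy
        exact ⟨hφ ▸ hpy.1 ▸ mem_image_of_mem _ hp.1, hpy.2 ▸ hp.2⟩
      · rintro ⟨hy, ht⟩
        rw [← hφ] at hy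
        obtain ⟨z, hz, rfl⟩ := hy
        exact ⟨(z, t), ⟨hz, ht⟩, rfl⟩
  have hex : ∀ c : Tops V cell O γ, ∃ φ : ConHomeo (Δ c) (Γ.toFun '' (O c ×ˢ Icc (-1:ℝ) 1)),
      EqOn φ.toFun id (Γ.toFun '' (γ c ×ˢ Icc (-1:ℝ) 1)) ∧
      ∀ x ∈ Δ c, b (φ.toFun x) = b' c x := by
    intro c
    obtain ⟨φ, h1, _, h3⟩ := (hcap c c.2).exists_extend (hthick c)
      (ConHomeo.refl (hcap c c.2).conicalSet_lat) (fun x hx => (hbb c c.2 hx).symm)
    exact ⟨φ, h1, h3⟩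
  choose φ hφ hφb using hex
  have hinjS : InjOn Γ.toFun ((S ∩ X) ×ˢ Icc (-1:ℝ) 1) := Γ.injOn
  have himgI : ∀ {A A' : Set E}, A ⊆ S ∩ X → A' ⊆ S ∩ X →
      Γ.toFun '' (A ×ˢ Icc (-1:ℝ) 1) ∩ Γ.toFun '' (A' ×ˢ Icc (-1:ℝ) 1) =
        Γ.toFun '' ((A ∩ A') ×ˢ Icc (-1:ℝ) 1) := by
    intro A A' hA hA'
    rw [← hinjS.image_inter (prod_mono hA (Subset.refl _)) (prod_mono hA' (Subset.refl _)),
      prod_inter_prod, inter_self]
  have hTP : ∀ c : Tops V cell O γ, Γ.toFun '' (O c ×ˢ Icc (-1:ℝ) 1) ∩ P =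
      Γ.toFun '' (γ c ×ˢ Icc (-1:ℝ) 1) := by
    intro c
    rw [hP, himgI (hOS c) hKS]
    congr 2
    apply Subset.antisymm
    · rintro x ⟨hx, hx'⟩
      rw [← h.O_inter_core c.2]
      exact ⟨hx, hx'.1⟩
    · exact fun x hx => ⟨h.γ_sub c hx, hγK c c.2 hx⟩
  have hUnS : K ∪ ⋃ c : Tops V cell O γ, O c = S ∩ X := by
    have h1 := h.cover
    ext x
    constructor
    · rintro (hx | hx)
      · exact ⟨hx.1.1, hx.2⟩
      · obtain ⟨c, hx⟩ := mem_iUnion.1 hx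
        exact ⟨h.O_sub c hx, hO c hx⟩
    · rintro ⟨hx, hxX⟩
      rw [h1] at hx
      rcases hx with hx | hx
      · exact Or.inl ⟨hx, hxX⟩
      · obtain ⟨c, hc, hx⟩ := mem_iUnion₂.1 hx
        exact Or.inr (mem_iUnion.2 ⟨⟨c, hc⟩, hx⟩)
  have hUn : P ∪ ⋃ c : Tops V cell O γ, Γ.toFun '' (O c ×ˢ Icc (-1:ℝ) 1) = N := by
    rw [hP, ← image_iUnion, ← image_union, ← iUnion_prod_const, ← union_prod, hUnS, Γ.image_eq]
  have hY : RelLF (fun o : Option (Tops V cell O γ) =>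
      o.elim P fun c => Γ.toFun '' (O c ×ˢ Icc (-1:ℝ) 1)) := by
    have hnb : ∀ z₀ ∈ S ∩ X, ∀ s ∈ Icc (-1:ℝ) 1, ∀ U ∈ 𝓝 z₀,
        ∃ W ∈ 𝓝 (Γ.toFun (z₀, s)), ∀ y ∈ W ∩ N, (Γ.invFun y).1 ∈ U := by
      intro z₀ hz₀ s hs U hU
      have hmem : Γ.toFun (z₀, s) ∈ N := Γ.mapsTo ⟨hz₀, hs⟩
      have h1 : ContinuousWithinAt (fun y => (Γ.invFun y).1) N (Γ.toFun (z₀, s)) :=
        (continuous_fst.comp_continuousOn Γ.cont_inv) _ hmem
      have h2 : (fun y => (Γ.invFun y).1) (Γ.toFun (z₀, s)) = z₀ := by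
        simp only
        rw [Γ.left_inv (show (z₀, s) ∈ (S ∩ X) ×ˢ Icc (-1:ℝ) 1 from ⟨hz₀, hs⟩)]
      have h3 : (fun y => (Γ.invFun y).1) ⁻¹' U ∈ 𝓝[N] (Γ.toFun (z₀, s)) := by
        apply h1
        rw [h2]
        exact hU
      obtain ⟨W, hW, hWN⟩ := mem_nhdsWithin_iff_exists_mem_nhds_inter.1 h3
      exact ⟨W, hW, fun y hy => hWN hy⟩
    refine relLF_option (fun c => (hthick c).isClosed) ?_ ?_
    · intro z hz hcl
      rw [hUn, ← Γ.image_eq] at hz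
      obtain ⟨⟨z₀, s⟩, ⟨hz₀, hs⟩, rfl⟩ := hz
      refine ⟨(z₀, s), ⟨⟨h.core_closed hz₀.1 ?_, hz₀.2⟩, hs⟩, rfl⟩
      rw [mem_closure_iff_nhds]
      intro U hU
      obtain ⟨W, hW, hWN⟩ := hnb z₀ hz₀ s hs U hU
      obtain ⟨y, hyW, hyP⟩ := mem_closure_iff_nhds.1 hcl W hW
      obtain ⟨⟨y₀, t⟩, ⟨hy₀, ht⟩, rfl⟩ := hyP
      refine ⟨y₀, ?_, hy₀.1⟩
      have h1 := hWN _ ⟨hyW, Γ.mapsTo ⟨hKS hy₀, ht⟩⟩
      rwa [Γ.left_inv (show (y₀, t) ∈ (S ∩ X) ×ˢ Icc (-1:ℝ) 1 from ⟨hKS hy₀, ht⟩)] at h1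
    · intro z hz
      rw [hUn, ← Γ.image_eq] at hz
      obtain ⟨⟨z₀, s⟩, ⟨hz₀, hs⟩, rfl⟩ := hz
      obtain ⟨U, hU, hfin⟩ := hlf z₀ hz₀.2
      obtain ⟨W, hW, hWN⟩ := hnb z₀ hz₀ s hs U hU
      refine ⟨W, hW, Set.Finite.of_injOn (f := fun c : Tops V cell O γ => (c : J))
        (t := {c | (O c ∩ U).Nonempty}) ?_ (fun a _ b _ hab => Subtype.ext hab) hfin⟩
      rintro c ⟨_, ⟨⟨y₀, t⟩, ⟨hy₀, ht⟩, rfl⟩, hyW⟩
      have h1 := hWN _ ⟨hyW, Γ.mapsTo ⟨hOS c hy₀, ht⟩⟩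
      rw [Γ.left_inv (show (y₀, t) ∈ (S ∩ X) ×ˢ Icc (-1:ℝ) 1 from ⟨hOS c hy₀, ht⟩)] at h1
      exact ⟨y₀, hy₀, h1⟩
  obtain ⟨Φ, h1, h2⟩ := exists_replace_lf hPc
    (T := fun c : Tops V cell O γ => Γ.toFun '' (O c ×ˢ Icc (-1:ℝ) 1))
    (T' := fun c : Tops V cell O γ => Δ c)
    (L := fun c : Tops V cell O γ => Γ.toFun '' (γ c ×ˢ Icc (-1:ℝ) 1)) φ hφ hTP
    (fun c => cap_inter_P hΔ hPV hLP c.2)
    (fun c d hcd => by
      rw [himgI (hOS c) (hOS d)]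
      refine image_mono (prod_mono (fun x hx => ?_) (Subset.refl _))
      exact hγK c c.2 (h.top_inter c.2 d.2 (fun h' => hcd (Subtype.ext h')) hx).1)
    (fun c d hcd => h.cap_inter_cap hΔ hLP c.2 d.2 (fun h' => hcd (Subtype.ext h')))
    (h.relLF_new hΔ hPV hLP hlf') hY
  refine ⟨Φ.cast rfl hUn, h1, fun c => ⟨?_, fun x hx => ?_⟩⟩
  · show Φ.toFun '' Δ c = _
    rw [(h2 c).image_eq, (φ c).image_eq]
  · show b (Φ.toFun x) = _
    rw [h2 c hx, hφb c x hx]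

end Sheet

end P073.H142
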