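import Vale.Agent.P073.H142.Tiles4
import Vale.Agent.P073.SCH.DiscIn

/-!
# P073, block H142: the planar part, every sheet with a planar chart is a `Sheet`
-/

open Set Metric Topology Filter

namespace P073.H142

open P073 P073.H936

/-! ### collars of planar discs -/

theorem isPreconnected_ann {I : Set ℝ} (hI : IsPreconnected I) :
    IsPreconnected ((fun q : ℝ × (ℝ × ℝ) => q.1 • q.2) '' (I ×ˢ sphere (0 : ℝ × ℝ) 1)) := by
  refine (hI.prod ?_).image _ (by fun_prop)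
  refine (isConnected_sphere (E := ℝ × ℝ) ?_ 0 zero_le_one).isPreconnected
  rw [← Module.finrank_eq_rank]
  simp

theorem ann_eq {a b : ℝ} (ha : 0 ≤ a) :
    (fun q : ℝ × (ℝ × ℝ) => q.1 • q.2) '' (Ioo a b ×ˢ sphere (0 : ℝ × ℝ) 1) =
      {x | a < ‖x‖ ∧ ‖x‖ < b} := by
  ext x
  constructor
  · rintro ⟨⟨s, y⟩, ⟨hs, hy⟩, rfl⟩
    have hy' : ‖y‖ = 1 := mem_sphere_zero_iff_norm.1 hy
    have hs0 : 0 ≤ s := ha.trans hs.1.le
    simp only [mem_ofPred_eq, norm_smul, Real.norm_eq_abs, abs_of_nonneg hs0, hy', mul_one]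
    exact hs
  · rintro ⟨h1, h2⟩
    have hx0 : ‖x‖ ≠ 0 := by linarith
    refine ⟨(‖x‖, ‖x‖⁻¹ • x), ⟨⟨h1, h2⟩, ?_⟩, ?_⟩
    · show ‖x‖⁻¹ • x ∈ sphere (0 : ℝ × ℝ) 1
      rw [mem_sphere_zero_iff_norm, norm_smul, norm_inv, norm_norm, inv_mul_cancel₀ hx0]
    · show ‖x‖ • ‖x‖⁻¹ • x = x
      rw [smul_smul, mul_inv_cancel₀ hx0, one_smul]

theorem exists_thick_ball {U : Set (ℝ × ℝ)} (hU : IsOpen U) (h : closedBall (0 : ℝ × ℝ) 1 ⊆ U) :
    ∃ ε > 0, ball (0 : ℝ × ℝ) (1 + ε) ⊆ U := by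
  obtain ⟨δ, hδ, hδU⟩ := (isCompact_closedBall (0 : ℝ × ℝ) 1).exists_thickening_subset_open hU h
  refine ⟨δ, hδ, fun x hx => hδU ?_⟩
  rw [mem_ball_zero_iff] at hx
  rw [mem_thickening_iff]
  by_cases hx1 : ‖x‖ ≤ 1
  · exact ⟨x, mem_closedBall_zero_iff.2 hx1, by simpa using hδ⟩
  · push Not at hx1
    refine ⟨‖x‖⁻¹ • x, ?_, ?_⟩
    · rw [mem_closedBall_zero_iff, norm_smul, norm_inv, norm_norm,
        inv_mul_cancel₀ (by linarith)]
    · rw [dist_eq_norm]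
      have h1 : x - ‖x‖⁻¹ • x = (1 - ‖x‖⁻¹) • x := by rw [sub_smul, one_smul]
      have h2 : 0 ≤ 1 - ‖x‖⁻¹ := by
        rw [sub_nonneg]
        exact inv_le_one_of_one_le₀ hx1.le
      rw [h1, norm_smul, Real.norm_of_nonneg h2, sub_mul, one_mul, inv_mul_cancel₀ (by linarith)]
      linarith

theorem exists_thin_sphere {U : Set (ℝ × ℝ)} (hU : IsOpen U) (h : sphere (0 : ℝ × ℝ) 1 ⊆ U) :
    ∃ ε > 0, ε < 1 ∧ {x : ℝ × ℝ | 1 - ε < ‖x‖ ∧ ‖x‖ < 1 + ε} ⊆ U := by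
  obtain ⟨δ, hδ, hδU⟩ := (isCompact_sphere (0 : ℝ × ℝ) 1).exists_thickening_subset_open hU h
  refine ⟨min δ (1 / 2), by positivity, lt_of_le_of_lt (min_le_right _ _) (by norm_num),
    fun x hx => hδU ?_⟩
  have hm1 : min δ (1 / 2) ≤ δ := min_le_left _ _
  have hm2 : min δ (1 / 2) ≤ 1 / 2 := min_le_right _ _
  have hx0 : 0 < ‖x‖ := by linarith [hx.1]
  rw [mem_thickening_iff]
  refine ⟨‖x‖⁻¹ • x, ?_, ?_⟩
  · rw [mem_sphere_zero_iff_norm, norm_smul, norm_inv, norm_norm, inv_mul_cancel₀ hx0.ne']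
  · rw [dist_eq_norm]
    have h1 : x - ‖x‖⁻¹ • x = (1 - ‖x‖⁻¹) • x := by rw [sub_smul, one_smul]
    have h2 : ‖(1 - ‖x‖⁻¹ : ℝ)‖ * ‖x‖ = |‖x‖ - 1| := by
      rw [Real.norm_eq_abs, ← abs_of_pos hx0, ← abs_mul, abs_of_pos hx0, sub_mul, one_mul,
        inv_mul_cancel₀ hx0.ne']
    rw [h1, norm_smul, h2, abs_lt]
    constructor <;> linarith [hx.1, hx.2]

/-- outer collars -/
theorem outer_collar {D : Set (ℝ × ℝ)} (hD : AmbDisc D) {U : Set (ℝ × ℝ)} (hU : IsOpen U)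
    (hDU : D ⊆ U) : ∃ N, IsOpen N ∧ N ⊆ U ∧ D ⊆ N ∧ IsPreconnected (N \ D) := by
  obtain ⟨Φ, rfl⟩ := hD
  have hop : ∀ {W : Set (ℝ × ℝ)}, IsOpen W → IsOpen (Φ.toFun '' W) := fun {W} hW =>
    (H339.toHomeo Φ).isOpenMap W hW
  have hpre : IsOpen (Φ.toFun ⁻¹' U) := hU.preimage (continuousOn_univ.1 Φ.cont)
  obtain ⟨ε, hε, h1⟩ := exists_thick_ball hpre (fun x hx => hDU (mem_image_of_mem _ hx))
  have hinj : Function.Injective Φ.toFun := (H339.toHomeo Φ).injective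
  refine ⟨Φ.toFun '' ball 0 (1 + ε), hop isOpen_ball, ?_, ?_, ?_⟩
  · rintro _ ⟨x, hx, rfl⟩
    exact h1 hx
  · exact image_mono (closedBall_subset_ball (by linarith))
  · rw [← image_sdiff hinj]
    refine IsPreconnected.image ?_ _ (continuousOn_univ.1 Φ.cont).continuousOn
    have : ball (0 : ℝ × ℝ) (1 + ε) \ closedBall 0 1 = {x | 1 < ‖x‖ ∧ ‖x‖ < 1 + ε} := by
      ext x
      simp only [Set.mem_sdiff, mem_ball_zero_iff, mem_closedBall_zero_iff, not_le, mem_ofPred_eq]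
      tauto
    rw [this, ← ann_eq zero_le_one]
    exact isPreconnected_ann isPreconnected_Ioo

/-- inner collars -/
theorem inner_collar {D : Set (ℝ × ℝ)} (hD : AmbDisc D) {U : Set (ℝ × ℝ)} (hU : IsOpen U)
    (hDU : frontier D ⊆ U) :
    ∃ N, IsOpen N ∧ N ⊆ U ∧ frontier D ⊆ N ∧ IsPreconnected (N ∩ interior D) := by
  obtain ⟨Φ, rfl⟩ := hD
  rw [← Φ.image_frontier, frontier_square] at hDU ⊢
  have hop : ∀ {W : Set (ℝ × ℝ)}, IsOpen W → IsOpen (Φ.toFun '' W) := fun {W} hW =>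
    (H339.toHomeo Φ).isOpenMap W hW
  have hpre : IsOpen (Φ.toFun ⁻¹' U) := hU.preimage (continuousOn_univ.1 Φ.cont)
  obtain ⟨ε, hε, hε1, h1⟩ := exists_thin_sphere hpre (fun x hx => hDU (mem_image_of_mem _ hx))
  have hinj : Function.Injective Φ.toFun := (H339.toHomeo Φ).injective
  have hopen : IsOpen {x : ℝ × ℝ | 1 - ε < ‖x‖ ∧ ‖x‖ < 1 + ε} :=
    (isOpen_lt continuous_const continuous_norm).inter (isOpen_lt continuous_norm continuous_const)
  refine ⟨Φ.toFun '' {x | 1 - ε < ‖x‖ ∧ ‖x‖ < 1 + ε}, hop hopen, ?_, ?_, ?_⟩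
  · rintro _ ⟨x, hx, rfl⟩
    exact h1 hx
  · refine image_mono fun x hx => ?_
    have hx1 : ‖x‖ = 1 := mem_sphere_zero_iff_norm.1 hx
    exact ⟨by rw [hx1]; linarith, by rw [hx1]; linarith⟩
  · rw [← Φ.image_interior, interior_closedBall _ one_ne_zero, ← image_inter hinj]
    refine IsPreconnected.image ?_ _ (continuousOn_univ.1 Φ.cont).continuousOn
    have : {x : ℝ × ℝ | 1 - ε < ‖x‖ ∧ ‖x‖ < 1 + ε} ∩ ball 0 1 = {x | 1 - ε < ‖x‖ ∧ ‖x‖ < 1} := by
      ext x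
      simp only [mem_inter_iff, mem_ball_zero_iff, mem_ofPred_eq]
      constructor
      · rintro ⟨⟨a, b⟩, c⟩; exact ⟨a, c⟩
      · rintro ⟨a, b⟩; exact ⟨⟨a, by linarith⟩, b⟩
    rw [this, ← ann_eq (by linarith)]
    exact isPreconnected_ann isPreconnected_Ioo

/-- a compact set is contained in every convex set containing its frontier -/
theorem subset_of_frontier_subset {D W : Set (ℝ × ℝ)} (hD : IsCompact D) (hW : Convex ℝ W)
    (h : frontier D ⊆ W) : D ⊆ W := by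
  intro x hx
  have key : ∀ v : ℝ × ℝ, v ≠ 0 → ∃ t : ℝ, 0 ≤ t ∧ x + t • v ∈ frontier D := by
    intro v hv
    set T : Set ℝ := {t | 0 ≤ t ∧ x + t • v ∈ D} with hT
    have hcont : Continuous fun t : ℝ => x + t • v := by fun_prop
    have hTc : IsClosed T := isClosed_Ici.inter (hD.isClosed.preimage hcont)
    obtain ⟨R, hR⟩ := hD.isBounded.exists_norm_le
    have hTb : BddAbove T := by
      refine ⟨(R + ‖x‖) / ‖v‖, fun t ht => ?_⟩
      have h1 := hR _ ht.2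
      have h2 : ‖t • v‖ ≤ ‖x + t • v‖ + ‖x‖ := by
        have := norm_sub_le (x + t • v) x
        rwa [add_sub_cancel_left] at this
      rw [norm_smul, Real.norm_of_nonneg ht.1] at h2
      rw [le_div_iff₀ (norm_pos_iff.2 hv)]
      linarith
    have hT0 : T.Nonempty := ⟨0, le_rfl, by simpa using hx⟩
    have hmem := hTc.csSup_mem hT0 hTb
    refine ⟨sSup T, hmem.1, ?_⟩
    rw [frontier_eq_closure_inter_closure]
    refine ⟨subset_closure hmem.2, ?_⟩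
    rw [mem_closure_iff_nhds]
    intro O hO
    have h1 : (fun t : ℝ => x + t • v) ⁻¹' O ∈ 𝓝 (sSup T) := hcont.continuousAt hO
    obtain ⟨ε, hε, h2⟩ := Metric.mem_nhds_iff.1 h1
    refine ⟨x + (sSup T + ε / 2) • v, h2 ?_, fun hmem' => ?_⟩
    · rw [mem_ball, Real.dist_eq]
      rw [abs_lt]
      constructor <;> linarith
    · have := le_csSup hTb (show sSup T + ε / 2 ∈ T from ⟨by linarith [hmem.1], hmem'⟩)
      linarith
  obtain ⟨t, ht, h1⟩ := key (1, 0) (by simp)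
  obtain ⟨s, hs, h2⟩ := key (-(1, 0)) (by simp)
  rcases eq_or_lt_of_le (add_nonneg ht hs) with h0 | h0
  · have : t = 0 := by linarith
    rw [this, zero_smul, add_zero] at h1
    exact h h1
  · have h3 := hW (h h1) (h h2) (a := s / (t + s)) (b := t / (t + s)) (by positivity)
      (by positivity) (by field_simp; ring)
    convert h3 using 1
    rw [smul_add, smul_add, smul_neg, smul_neg, smul_smul, smul_smul]
    have h4 : s / (t + s) * t = t / (t + s) * s := by ring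
    rw [h4]
    have h5 : (s / (t + s)) • x + (t / (t + s)) • x = x := by
      rw [← add_smul]
      have : s / (t + s) + t / (t + s) = 1 := by field_simp; ring
      rw [this, one_smul]
    calc x = (s / (t + s)) • x + (t / (t + s)) • x := h5.symm
      _ = _ := by abel

end P073.H142
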