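import Vale.Agent.P073.H142.Tiles5
import Vale.Agent.P073.H936.Planar

/-!
# P073, block H142: every sheet with a planar chart is a `Sheet`
-/

open Set Metric Topology Filter

namespace P073.H142

open P073 P073.H936

variable {E : Type*} [NormedAddCommGroup E] [NormedSpace ℝ E] {I J : Type*}

/-- Hypotheses on the traces of a sheet with a planar chart. -/
structure Traces (S : Set E) (V B : I → Set E) (cell : J → I) (γ : J → Set E)
    {Z : Set (ℝ × ℝ)} (χ : ConHomeo S Z) : Prop where
  hZ : Convex ℝ Z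
  V_open : ∀ i, IsOpen (V i)
  V_disj : ∀ i j, i ≠ j → Disjoint (V i) (V j)
  VB : ∀ i j, Disjoint (V i) (B j)
  V_cl : ∀ i, closure (V i) ⊆ V i ∪ B i
  trace : ∀ i, ∀ x ∈ S, (x ∈ B i ↔ ∃ c, cell c = i ∧ x ∈ γ c)
  circ : ∀ c, ConSphere 1 (γ c)
  γS : ∀ c, γ c ⊆ S
  γZ : ∀ c, χ.toFun '' γ c ⊆ interior Z
  γ_disj : ∀ c d, c ≠ d → cell c = cell d → Disjoint (γ c) (γ d)
  fin : ∀ i, {c | cell c = i}.Finite
  far : ∀ i, ∀ K : Set (ℝ × ℝ), IsCompact K → K ⊆ interior Z → ∃ z ∈ Z, z ∉ K ∧ χ.invFun z ∉ V i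
  near : ∀ c, ∃ x ∈ γ c, x ∈ closure (S ∩ V (cell c))
  pf : ∀ D : J → Set (ℝ × ℝ), (∀ c, AmbDisc (D c) ∧ frontier (D c) = χ.toFun '' γ c) →
    ∀ z, {c | z ∈ D c}.Finite

/-- **The discs of the sheet bounded by the trace circles.** -/
theorem Traces.exists_sheet {S : Set E} {V B : I → Set E} {cell : J → I} {γ : J → Set E}
    {Z : Set (ℝ × ℝ)} {χ : ConHomeo S Z} (h : Traces S V B cell γ χ) :
    ∃ O : J → Set E, Sheet S V B cell O γ ∧ (∀ c, ConBall 2 (O c) (γ c)) ∧
      (∀ c, ∀ x ∈ O c, χ.toFun x ∈ interior Z) ∧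
      ∀ c, ∃ D, AmbDisc D ∧ frontier D = χ.toFun '' γ c ∧ O c = χ.invFun '' D := by
  classical
  have hex : ∀ c, ∃ D, AmbDisc D ∧ frontier D = χ.toFun '' γ c := by
    intro c
    have h1 : IsCircle (χ.toFun '' γ c) :=
      H339.IsCircle.image (H339.conSphere_iff.1 (h.circ c)) χ (h.γS c)
    exact SCH.schoenflies h1
  choose D hD hfr using hex
  have hDZ : ∀ c, D c ⊆ interior Z := fun c =>
    subset_of_frontier_subset (hD c).isCompact h.hZ.interior (by rw [hfr c]; exact h.γZ c)
  have hDZ' : ∀ c, D c ⊆ Z := fun c => (hDZ c).trans interior_subset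
  have hinj : InjOn χ.invFun Z := χ.symm.injOn
  have hγfr : ∀ c, χ.invFun '' frontier (D c) = γ c := by
    intro c
    rw [hfr c, image_image]
    have : ∀ x ∈ γ c, χ.invFun (χ.toFun x) = x := fun x hx => χ.left_inv (h.γS c hx)
    rw [image_congr this, image_id']
  have hfrD : ∀ c, frontier (D c) ⊆ D c := fun c => (hD c).isClosed.frontier_subset
  have hint : ∀ c, interior (D c) = D c \ frontier (D c) := fun c => by
    rw [(hD c).isClosed.frontier_eq, sdiff_sdiff_right_self]
    exact (inter_eq_right.2 interior_subset).symm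
  set O : J → Set E := fun c => χ.invFun '' D c with hO
  have ho : ∀ c, O c \ γ c = χ.invFun '' interior (D c) := by
    intro c
    rw [hint c, (hinj.mono (hDZ' c)).image_sdiff_subset (hfrD c), hγfr c]
  have hcontS : ContinuousOn χ.toFun S := χ.cont
  have hopS : ∀ W : Set (ℝ × ℝ), IsOpen W → W ⊆ Z → ∃ U, IsOpen U ∧ S ∩ U = χ.invFun '' W := by
    intro W hW hWZ
    obtain ⟨U, hU, hUS⟩ := (_root_.continuousOn_iff'.1 hcontS) W hW
    refine ⟨U, hU, ?_⟩
    rw [inter_comm, ← hUS]
    ext x
    constructor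
    · rintro ⟨hx, hxS⟩
      exact ⟨χ.toFun x, hx, χ.left_inv hxS⟩
    · rintro ⟨z, hz, rfl⟩
      refine ⟨?_, χ.mapsTo_inv (hWZ hz)⟩
      show χ.toFun (χ.invFun z) ∈ W
      rwa [χ.right_inv (hWZ hz)]
  have hOS : ∀ c, O c ⊆ S := by
    rintro c _ ⟨z, hz, rfl⟩
    exact χ.mapsTo_inv (hDZ' c hz)
  have hOc : ∀ c, IsCompact (O c) := fun c =>
    (hD c).isCompact.image_of_continuousOn (χ.cont_inv.mono (hDZ' c))
  have hball : ∀ c, ConBall 2 (O c) (γ c) := by
    intro c
    have h1 := (SCH.conBall_of_ambDisc (hD c)).image χ.symm (hDZ' c)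
    rwa [show χ.symm.toFun '' frontier (D c) = γ c from hγfr c] at h1
  have hγO : ∀ c, γ c ⊆ O c := fun c => (hball c).1
  have hoS : ∀ c, O c \ γ c ⊆ S := fun c => sdiff_subset.trans (hOS c)
  have hcl : ∀ c, γ c ⊆ closure (O c \ γ c) := by
    intro c
    rw [ho c, ← hγfr c]
    rintro _ ⟨z, hz, rfl⟩
    have h1 : z ∈ closure (interior (D c)) := by
      rw [(hD c).closure_interior]; exact hfrD c hz
    have h2 : ContinuousWithinAt χ.invFun (interior (D c)) z :=
      (χ.cont_inv z (hDZ' c (hfrD c hz))).mono (interior_subset.trans (hDZ' c))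
    exact h2.mem_closure_image h1
  have hVsub : ∀ {K : Set E} {i : I}, IsPreconnected K → Disjoint K (B i) →
      (K ∩ V i).Nonempty → K ⊆ V i := by
    intro K i hK hd hne
    have h1 := isPreconnected_iff_subset_of_disjoint.1 hK (V i) (closure (V i))ᶜ (h.V_open i)
      isClosed_closure.isOpen_compl
      (fun x hx => by
        by_cases hxV : x ∈ closure (V i)
        · rcases h.V_cl i hxV with h2 | h2
          · exact Or.inl h2
          · exact absurd h2 (disjoint_left.1 hd hx)
        · exact Or.inr hxV)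
      (by
        rw [eq_empty_iff_forall_notMem]
        rintro x ⟨hx, hxU, hxO⟩
        exact hxO (subset_closure hxU))
    rcases h1 with h1 | h1
    · exact h1
    · obtain ⟨x, hx, hxV⟩ := hne
      exact absurd (subset_closure hxV) (h1 hx)
  have hγV : ∀ c i, Disjoint (γ c) (V i) := fun c i =>
    disjoint_left.2 fun x hx hxV => disjoint_left.1 (h.VB i (cell c)) hxV
      ((h.trace (cell c) x (h.γS c hx)).2 ⟨c, rfl, hx⟩)
  have hcross : ∀ c, (∀ x ∈ γ c, ∃ W, IsOpen W ∧ x ∈ W ∧ W ∩ (O c \ γ c) ⊆ V (cell c)) ∨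
      ∃ x ∈ γ c, x ∈ closure ((S \ O c) ∩ V (cell c)) := by
    intro c
    obtain ⟨x, hx, hxcl⟩ := h.near c
    by_cases hx2 : x ∈ closure ((S \ O c) ∩ V (cell c))
    · exact Or.inr ⟨x, hx, hx2⟩
    · left
      have hx3 : x ∈ closure ((O c \ γ c) ∩ V (cell c)) := by
        have h1 : S ∩ V (cell c) ⊆ ((S \ O c) ∩ V (cell c)) ∪ ((O c \ γ c) ∩ V (cell c)) := by
          rintro y ⟨hy, hyV⟩
          by_cases hyO : y ∈ O c
          · exact Or.inr ⟨⟨hyO, fun hg => disjoint_left.1 (hγV c _) hg hyV⟩, hyV⟩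
          · exact Or.inl ⟨⟨hy, hyO⟩, hyV⟩
        have h2 := closure_mono h1 hxcl
        rw [closure_union] at h2
        exact h2.resolve_left hx2
      -- the other circles of the cell
      set F : Set J := {d | cell d = cell c ∧ d ≠ c} with hF
      have hFfin : F.Finite := (h.fin (cell c)).subset fun d hd => hd.1
      set Q : Set (ℝ × ℝ) := ⋃ d ∈ F, frontier (D d) with hQ
      have hQc : IsClosed Q := hFfin.isClosed_biUnion fun d _ => isClosed_frontier
      have hQd : frontier (D c) ⊆ Qᶜ := by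
        rintro z hz hzQ
        obtain ⟨d, hd, hzd⟩ := mem_iUnion₂.1 hzQ
        have h1 : χ.invFun z ∈ γ c := hγfr c ▸ mem_image_of_mem _ hz
        have h2 : χ.invFun z ∈ γ d := hγfr d ▸ mem_image_of_mem _ hzd
        exact disjoint_left.1 (h.γ_disj c d hd.2.symm hd.1.symm) h1 h2
      obtain ⟨N, hN1, hN2, hN3, hN4⟩ := inner_collar (hD c) hQc.isOpen_compl hQd
      have hNi : N ∩ interior (D c) ⊆ Z := fun z hz => hDZ' c (interior_subset hz.2)
      have hK : IsPreconnected (χ.invFun '' (N ∩ interior (D c))) :=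
        hN4.image _ (χ.cont_inv.mono hNi)
      obtain ⟨U, hU, hUS⟩ := hopS (N ∩ interior Z) (hN1.inter isOpen_interior)
        (inter_subset_right.trans interior_subset)
      have hγU : γ c ⊆ U := by
        rw [← hγfr c]
        rintro _ ⟨z, hz, rfl⟩
        have : χ.invFun z ∈ S ∩ U := by
          rw [hUS]
          exact ⟨z, ⟨hN3 hz, hDZ c (hfrD c hz)⟩, rfl⟩
        exact this.2
      have hUo : U ∩ (O c \ γ c) ⊆ χ.invFun '' (N ∩ interior (D c)) := by
        rintro y ⟨hyU, hyo⟩
        have h1 : y ∈ S ∩ U := ⟨hoS c hyo, hyU⟩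
        rw [hUS] at h1
        obtain ⟨z, hz, rfl⟩ := h1
        rw [ho c] at hyo
        obtain ⟨z', hz', he⟩ := hyo
        have : z' = z := hinj (hDZ' c (interior_subset hz')) (interior_subset hz.2) he
        exact ⟨z, ⟨hz.1, this ▸ hz'⟩, rfl⟩
      have hKV : χ.invFun '' (N ∩ interior (D c)) ⊆ V (cell c) := by
        refine hVsub hK ?_ ?_
        · rw [disjoint_left]
          rintro _ ⟨z, hz, rfl⟩ hB
          have hzS : χ.invFun z ∈ S := χ.mapsTo_inv (hNi hz)
          obtain ⟨d, hd, hzd⟩ := (h.trace (cell c) _ hzS).1 hB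
          rw [← hγfr d] at hzd
          obtain ⟨z', hz', he⟩ := hzd
          have hzz : z' = z := hinj (hDZ' d (hfrD d hz')) (hNi hz) he
          rw [hzz] at hz'
          by_cases hdc : d = c
          · subst hdc
            rw [hint d] at hz
            exact hz.2.2 hz'
          · exact hN2 hz.1 (mem_iUnion₂.2 ⟨d, ⟨hd, hdc⟩, hz'⟩)
        · obtain ⟨y, hyU, hy1, hy2⟩ := mem_closure_iff.1 hx3 U hU (hγU hx)
          exact ⟨y, hUo ⟨hyU, hy1⟩, hy2⟩
      exact fun x' hx' => ⟨U, hU, hγU hx', hUo.trans hKV⟩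
  have hfar' : ∀ i, ∀ K : Set (ℝ × ℝ), IsCompact K → K ⊆ interior Z →
      ∃ y ∈ S, y ∉ V i ∧ ∀ c, D c ⊆ K → y ∉ O c := by
    intro i K hK hKZ
    obtain ⟨z, hz, hzK, hzV⟩ := h.far i K hK hKZ
    refine ⟨χ.invFun z, χ.mapsTo_inv hz, hzV, fun c hc hzc => ?_⟩
    obtain ⟨z', hz', he⟩ := hzc
    have : z' = z := hinj (hDZ' c hz') hz he
    exact hzK (hc (this ▸ hz'))
  refine ⟨O, ?_, hball, ?_, fun c => ⟨D c, hD c, hfr c, rfl⟩⟩
  · exact
      { hS := by
          have := h.hZ.isPreconnected.image _ χ.cont_inv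
          rwa [show χ.invFun '' Z = S from χ.symm.image_eq] at this
        V_open := h.V_open
        V_disj := h.V_disj
        VB := h.VB
        V_cl := h.V_cl
        trace := h.trace
        O_closed := fun c => (hOc c).isClosed
        O_sub := hOS
        γ_sub := hγO
        o_open := fun c => by
          obtain ⟨U, hU, hUS⟩ := hopS (interior (D c)) isOpen_interior
            (interior_subset.trans (hDZ' c))
          exact ⟨U, hU, by rw [hUS, ho c]⟩
        γ_pre := fun c => by
          obtain ⟨φ⟩ := h.circ c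
          have := isPreconnected_sphere_P2.image _ φ.cont_inv
          rwa [show φ.invFun '' _ = γ c from φ.symm.image_eq] at this
        γ_ne := fun c => by
          obtain ⟨φ⟩ := h.circ c
          obtain ⟨z, hz⟩ := sphere_P2_nonempty
          exact ⟨φ.invFun z, φ.mapsTo_inv hz⟩
        o_pre := fun c => by
          rw [ho c]
          exact (hD c).isConnected_interior.isPreconnected.image _
            (χ.cont_inv.mono (interior_subset.trans (hDZ' c)))
        γ_cl := hcl
        γ_disj := h.γ_disj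
        collar := by
          intro c U hU hOU
          -- the open set of the plane
          obtain ⟨W, hW, hWZ⟩ := (_root_.continuousOn_iff'.1 (χ.cont_inv.mono
            (interior_subset : interior Z ⊆ Z))) U hU
          have hDW : D c ⊆ W ∩ interior Z := by
            rw [← hWZ]
            exact fun z hz => ⟨hOU (mem_image_of_mem _ hz), hDZ c hz⟩
          obtain ⟨N, hN1, hN2, hN3, hN4⟩ := outer_collar (hD c) (hW.inter isOpen_interior) hDW
          have hNZ : N ⊆ Z := fun z hz => interior_subset (hN2 hz).2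
          obtain ⟨U', hU', hUS'⟩ := hopS N hN1 hNZ
          have hNU : χ.invFun '' N ⊆ U := by
            rintro _ ⟨z, hz, rfl⟩
            have : z ∈ χ.invFun ⁻¹' U ∩ interior Z := by rw [hWZ]; exact hN2 hz
            exact this.1
          have hSN : S ∩ (U' ∩ U) = χ.invFun '' N := by
            rw [← inter_assoc, hUS']
            exact inter_eq_left.2 hNU
          refine ⟨U' ∩ U, hU'.inter hU, inter_subset_right, ?_, ?_⟩
          · rintro _ ⟨z, hz, rfl⟩
            have : χ.invFun z ∈ S ∩ (U' ∩ U) := by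
              rw [hSN]; exact ⟨z, hN3 hz, rfl⟩
            exact this.2
          · rw [hSN, show O c = χ.invFun '' D c from rfl,
              ← (hinj.mono hNZ).image_sdiff_subset hN3]
            exact hN4.image _ (χ.cont_inv.mono (sdiff_subset.trans hNZ))
        fin := h.fin
        far := fun i => by
          obtain ⟨y, hy, hyV, hyO⟩ := hfar' i (⋃ c ∈ {c | cell c = i}, D c)
            ((h.fin i).isCompact_biUnion fun c _ => (hD c).isCompact)
            (iUnion₂_subset fun c _ => hDZ c)
          exact ⟨y, hy, hyV, fun c hc => hyO c (subset_iUnion₂_of_subset c hc (Subset.refl _))⟩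
        far2 := fun c d => by
          obtain ⟨y, hy, -, hyO⟩ := hfar' (cell c) (D c ∪ D d)
            ((hD c).isCompact.union (hD d).isCompact) (union_subset (hDZ c) (hDZ d))
          exact ⟨y, hy, hyO c subset_union_left, hyO d subset_union_right⟩
        pf := fun x => by
          by_cases hx : x ∈ S
          · refine (h.pf D (fun c => ⟨hD c, hfr c⟩) (χ.toFun x)).subset ?_
            rintro c ⟨z, hz, he⟩
            show χ.toFun x ∈ D c
            rw [← he, χ.right_inv (hDZ' c hz)]
            exact hz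
          · have : {c | x ∈ O c} = ∅ := by
              ext c
              simp only [mem_ofPred_eq, mem_empty_iff_false, iff_false]
              exact fun h' => hx (hOS c h')
            rw [this]
            exact finite_empty
        cross := hcross }
  · rintro c _ ⟨z, hz, rfl⟩
    rw [χ.right_inv (hDZ' c hz)]
    exact hDZ c hz

end P073.H142
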