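import Vale.Agent.P073.H142.Tiles6

/-!
# P073, block H142: replacing tiles by caps with fibres; pairs of sheets
-/

open Set Metric Topology Filter

namespace P073.H142

open P073 P073.H936

variable {E : Type*} [NormedAddCommGroup E] [NormedSpace ℝ E] {I J J' : Type*}

/-- moving along the fibres of `Γ` over `D` keeps `N` and its level function `s` -/
def Pres (Γ : E × ℝ → E) (D N : Set E) (s : E → ℝ) : Prop :=
  ∀ z ∈ D, ∀ t ∈ Icc (-1:ℝ) 1, ∀ t' ∈ Icc (-1:ℝ) 1, Γ (z, t) ∈ N →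
    Γ (z, t') ∈ N ∧ s (Γ (z, t')) = s (Γ (z, t))

namespace Sheet

variable {S : Set E} {V B : I → Set E} {cell : J → I} {O γ : J → Set E}
  (h : Sheet S V B cell O γ)
include h

/-- a connected subset of the sheet missing all cells and meeting the core is in the core -/
theorem sub_core {K : Set E} (hK : IsPreconnected K) (hKS : K ⊆ S) (hKV : ∀ i, Disjoint K (V i))
    (hne : (K ∩ core S V cell O γ).Nonempty) : K ⊆ core S V cell O γ := by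
  obtain ⟨x, hx, hxc⟩ := hne
  intro y hy
  refine ⟨hKS hy, fun c hc hyc => ?_⟩
  rcases h.dichA hK hKS hc.1 (hKV _) with h1 | h1
  · exact hxc.2 c hc (h1 hx)
  · exact disjoint_left.1 h1 hy hyc

/-- the trace of the thick core on the cell boundaries -/
theorem thick_core_B {X N : Set E} (Γ : ConHomeo ((S ∩ X) ×ˢ Icc (-1:ℝ) 1) N)
    (hBv : ∀ i, ∀ z ∈ S ∩ X, ∀ s ∈ Icc (-1:ℝ) 1, (Γ.toFun (z, s) ∈ B i → z ∈ B i)) (i : I) :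
    ∀ x ∈ Γ.toFun '' ((core S V cell O γ ∩ X) ×ˢ Icc (-1:ℝ) 1), x ∈ B i →
      ∃ c, cell c = i ∧ Top V cell O γ c ∧ x ∈ Γ.toFun '' (γ c ×ˢ Icc (-1:ℝ) 1) := by
  rintro _ ⟨⟨z, s⟩, ⟨hz, hs⟩, rfl⟩ hB
  obtain ⟨c, hc, hct, hzc⟩ := (h.core_B i).1 ⟨hz.1, hBv i z ⟨hz.1.1, hz.2⟩ s hs hB⟩
  exact ⟨c, hc, hct, ⟨(z, s), ⟨hzc, hs⟩, rfl⟩⟩

theorem thick_core_V {X N : Set E} (Γ : ConHomeo ((S ∩ X) ×ˢ Icc (-1:ℝ) 1) N)
    (hVv : ∀ i, ∀ z ∈ S ∩ X, ∀ s ∈ Icc (-1:ℝ) 1, (Γ.toFun (z, s) ∈ V i → z ∈ V i)) (i : I) :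
    Disjoint (Γ.toFun '' ((core S V cell O γ ∩ X) ×ˢ Icc (-1:ℝ) 1)) (V i) := by
  rw [disjoint_left]
  rintro _ ⟨⟨z, s⟩, ⟨hz, hs⟩, rfl⟩ hV
  exact disjoint_left.1 (h.core_V i) hz.1 (hVv i z ⟨hz.1.1, hz.2⟩ s hs hV)

/-- **Replacing the maximal tiles of a thick sheet by thick caps, with fibres.**  `Γ` and `G c` are
the product structures of the sheet and of the caps; they agree on the lateral boundaries. -/
theorem exists_replace_fib {n : ℕ} {X N : Set E} (hO : ∀ c, O c ⊆ X) (hSX : ConicalSet (S ∩ X))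
    (hball : ∀ c, ConBall n (O c) (γ c))
    (hlf : ∀ x ∈ X, ∃ U ∈ 𝓝 x, {c | (O c ∩ U).Nonempty}.Finite)
    (Γ : ConHomeo ((S ∩ X) ×ˢ Icc (-1:ℝ) 1) N)
    (hΓ0 : ∀ z ∈ S ∩ X, Γ.toFun (z, 0) = z)
    (hVv : ∀ i, ∀ z ∈ S ∩ X, ∀ s ∈ Icc (-1:ℝ) 1, (Γ.toFun (z, s) ∈ V i → z ∈ V i))
    {Δ₀ Δ : J → Set E}
    (hΔ : Caps V B cell O γ (fun c => Γ.toFun '' (γ c ×ˢ Icc (-1:ℝ) 1)) Δ)
    (hcap : ∀ c, Top V cell O γ c → ConBall n (Δ₀ c) (γ c))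
    (G : ∀ c : Tops V cell O γ, ConHomeo (Δ₀ c ×ˢ Icc (-1:ℝ) 1) (Δ c))
    (hG0 : ∀ c : Tops V cell O γ, ∀ z ∈ Δ₀ c, (G c).toFun (z, 0) = z)
    (hGΓ : ∀ c : Tops V cell O γ, ∀ z ∈ γ c, ∀ s ∈ Icc (-1:ℝ) 1,
      (G c).toFun (z, s) = Γ.toFun (z, s))
    (hlf' : ∀ z ∈ (Γ.toFun '' ((core S V cell O γ ∩ X) ×ˢ Icc (-1:ℝ) 1)) ∪
      ⋃ c : Tops V cell O γ, Δ c, ∃ U ∈ 𝓝 z, {c : Tops V cell O γ | (Δ c ∩ U).Nonempty}.Finite) :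
    ∃ (θ : ConHomeo ((core S V cell O γ ∩ X) ∪ ⋃ c : Tops V cell O γ, Δ₀ c) (S ∩ X))
      (Γ' : ConHomeo (((core S V cell O γ ∩ X) ∪ ⋃ c : Tops V cell O γ, Δ₀ c) ×ˢ Icc (-1:ℝ) 1)
        ((Γ.toFun '' ((core S V cell O γ ∩ X) ×ˢ Icc (-1:ℝ) 1)) ∪ ⋃ c : Tops V cell O γ, Δ c)),
      EqOn θ.toFun id (core S V cell O γ ∩ X) ∧ (∀ c : Tops V cell O γ, θ.toFun '' Δ₀ c = O c) ∧
      EqOn Γ'.toFun Γ.toFun ((core S V cell O γ ∩ X) ×ˢ Icc (-1:ℝ) 1) ∧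
      ∀ c : Tops V cell O γ, EqOn Γ'.toFun (G c).toFun (Δ₀ c ×ˢ Icc (-1:ℝ) 1) := by
  set K := core S V cell O γ ∩ X with hK
  set P := Γ.toFun '' (K ×ˢ Icc (-1:ℝ) 1) with hP
  have hI : ConicalSet (Icc (-1:ℝ) 1) := conicalSet_Icc _ _
  have h0I : (0:ℝ) ∈ Icc (-1:ℝ) 1 := ⟨by norm_num, zero_le_one⟩
  have hKS : K ⊆ S ∩ X := fun x hx => ⟨hx.1.1, hx.2⟩
  have hKSI : K ×ˢ Icc (-1:ℝ) 1 ⊆ (S ∩ X) ×ˢ Icc (-1:ℝ) 1 := prod_mono hKS (Subset.refl _)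
  have hKc : ConicalSet K := conicalSet_core hSX (fun c => (hball c).locCone)
    (fun c => (hball c).locCone_bdry) hlf
  have hPV : ∀ i, Disjoint P (V i) := h.thick_core_V Γ hVv
  have hγK : ∀ c, Top V cell O γ c → γ c ⊆ K := fun c hc x hx =>
    ⟨h.γ_core hc hx, hO c (h.γ_sub c hx)⟩
  have hLP : ∀ c, Top V cell O γ c → Γ.toFun '' (γ c ×ˢ Icc (-1:ℝ) 1) ⊆ P := fun c hc =>
    image_mono (prod_mono (hγK c hc) (Subset.refl _))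
  have hΔΔ : ∀ c : Tops V cell O γ, Δ₀ c ⊆ Δ c := fun c z hz => by
    have h1 : (z, (0:ℝ)) ∈ Δ₀ c ×ˢ Icc (-1:ℝ) 1 := ⟨hz, h0I⟩
    have h2 := (G c).mapsTo h1
    rwa [hG0 c z hz] at h2
  have hγΔ : ∀ c : Tops V cell O γ, γ c ⊆ Δ₀ c := fun c => (hcap c c.2).1
  -- the thin caps
  have hmem : ∀ c : Tops V cell O γ, ∀ z ∈ Δ₀ c, z ∈ Γ.toFun '' (γ c ×ˢ Icc (-1:ℝ) 1) →
      z ∈ γ c := by
    rintro c z hz ⟨⟨y, s⟩, ⟨hy, hs⟩, he⟩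
    have h1 : (G c).toFun (y, s) = (G c).toFun (z, 0) := by
      rw [hGΓ c y hy s hs, hG0 c z hz]; exact he
    have h2 := (G c).injOn (show (y, s) ∈ Δ₀ c ×ˢ Icc (-1:ℝ) 1 from ⟨hγΔ c hy, hs⟩)
      (show (z, (0:ℝ)) ∈ Δ₀ c ×ˢ Icc (-1:ℝ) 1 from ⟨hz, h0I⟩) h1
    rw [Prod.mk.injEq] at h2
    exact h2.1 ▸ hy
  have hγΓ : ∀ c, ∀ z ∈ γ c, z ∈ Γ.toFun '' (γ c ×ˢ Icc (-1:ℝ) 1) := fun c z hz =>
    ⟨(z, 0), ⟨hz, h0I⟩, hΓ0 z ⟨h.O_sub c (h.γ_sub c hz), hO c (h.γ_sub c hz)⟩⟩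
  have hΔ₀ : Caps V B cell O γ γ Δ₀ :=
    { closed := fun c hc => (hcap c hc).isClosed
      sub := fun c hc z hz => by
        rcases hΔ.sub c hc (hΔΔ ⟨c, hc⟩ hz) with h1 | h1
        · exact Or.inl h1
        · exact Or.inr (hmem ⟨c, hc⟩ z hz h1)
      bdry := fun c hc z hz => ⟨(hcap c hc).1 hz, (hΔ.bdry c hc (hγΓ c z hz)).2⟩
      disj := fun c d hc hd hcd hcell => (hΔ.disj c d hc hd hcd hcell).mono (hΔΔ ⟨c, hc⟩)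
        (hΔΔ ⟨d, hd⟩) }
  have hKP : K ⊆ P := fun z hz => ⟨(z, 0), ⟨hz, h0I⟩, hΓ0 z (hKS hz)⟩
  have hlf₀ : ∀ z ∈ K ∪ ⋃ c : Tops V cell O γ, Δ₀ c,
      ∃ U ∈ 𝓝 z, {c : Tops V cell O γ | (Δ₀ c ∩ U).Nonempty}.Finite := by
    intro z hz
    have hz' : z ∈ P ∪ ⋃ c : Tops V cell O γ, Δ c := by
      rcases hz with hz | hz
      · exact Or.inl (hKP hz)
      · obtain ⟨c, hz⟩ := mem_iUnion.1 hz
        exact Or.inr (mem_iUnion.2 ⟨c, hΔΔ c hz⟩)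
    obtain ⟨U, hU, hfin⟩ := hlf' z hz'
    exact ⟨U, hU, hfin.subset fun c hc => hc.mono (inter_subset_inter_left _ (hΔΔ c))⟩
  obtain ⟨θ, hθ1, hθ2⟩ := h.exists_replace_thin hSX hO hball hlf hΔ₀ hcap hlf₀
  refine ⟨θ, ?_⟩
  -- gluing of the fibres
  let X' : Option (Tops V cell O γ) → Set (E × ℝ) := fun o =>
    o.elim (K ×ˢ Icc (-1:ℝ) 1) fun c => Δ₀ c ×ˢ Icc (-1:ℝ) 1
  let Y' : Option (Tops V cell O γ) → Set E := fun o => o.elim P fun c => Δ c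
  have hY : RelLF Y' := h.relLF_new hΔ hPV hLP hlf'
  have hX₀ := h.relLF_new hΔ₀ (P := K) (fun i => (h.core_V i).mono_left inter_subset_left)
    hγK hlf₀
  have hUX₀ : (⋃ o : Option (Tops V cell O γ), o.elim K fun c => Δ₀ c) =
      K ∪ ⋃ c : Tops V cell O γ, Δ₀ c := by rw [iUnion_option]; rfl
  have hX'eq : ∀ o, X' o = (o.elim K fun c => Δ₀ c) ×ˢ Icc (-1:ℝ) 1 := by
    intro o; cases o <;> rfl
  have hUX' : (⋃ o, X' o) = (K ∪ ⋃ c : Tops V cell O γ, Δ₀ c) ×ˢ Icc (-1:ℝ) 1 := by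
    have h1 : (⋃ o, X' o) = (⋃ o : Option (Tops V cell O γ), o.elim K fun c => Δ₀ c) ×ˢ
        Icc (-1:ℝ) 1 := by
      rw [iUnion_prod_const]
      exact iUnion_congr hX'eq
    rw [h1, hUX₀]
  have hUY' : (⋃ o, Y' o) = P ∪ ⋃ c : Tops V cell O γ, Δ c := by rw [iUnion_option]; rfl
  have hX : RelLF X' := by
    constructor
    · rintro ⟨z, s⟩ hz
      rw [hUX'] at hz
      obtain ⟨U, hU, hfin⟩ := hX₀.fin z (by rw [hUX₀]; exact hz.1)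
      refine ⟨U ×ˢ univ, prod_mem_nhds hU univ_mem, hfin.subset ?_⟩
      rintro o ⟨⟨y, t⟩, hy, hyU⟩
      rw [hX'eq] at hy
      exact ⟨y, hy.1, hyU.1⟩
    · rintro o ⟨z, s⟩ hz hcl
      rw [hUX'] at hz
      rw [hX'eq] at hcl ⊢
      rw [closure_prod_eq] at hcl
      exact ⟨hX₀.closed o z (by rw [hUX₀]; exact hz.1) hcl.1, hz.2⟩
  let g : ∀ o, ConHomeo (X' o) (Y' o) := fun o =>
    match o with
    | none => Γ.restr (hKc.prod hI) hKSI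
    | some c => G c
  have hcore : ∀ c : Tops V cell O γ, ∀ z ∈ K, z ∈ Δ₀ c → z ∈ γ c := fun c z hz hz' => by
    have := cap_inter_P hΔ₀ (P := K) (fun i => (h.core_V i).mono_left inter_subset_left) hγK c.2
    rw [← this]; exact ⟨hz', hz⟩
  have hcc : ∀ c d : Tops V cell O γ, c ≠ d → ∀ z ∈ Δ₀ c, z ∈ Δ₀ d → z ∈ K := fun c d hcd z hz hz' =>
    h.cap_inter_cap hΔ₀ hγK c.2 d.2 (fun h' => hcd (Subtype.ext h')) ⟨hz, hz'⟩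
  have hag : ∀ o o', EqOn (g o).toFun (g o').toFun (X' o ∩ X' o') := by
    rintro o o' ⟨z, s⟩ ⟨hx, hx'⟩
    cases o with
    | none =>
      cases o' with
      | none => rfl
      | some d => exact (hGΓ d z (hcore d z hx.1 hx'.1) s hx.2).symm
    | some c =>
      cases o' with
      | none => exact hGΓ c z (hcore c z hx'.1 hx.1) s hx.2
      | some d =>
        by_cases hcd : c = d
        · subst hcd; rfl
        · have hzK := hcc c d hcd z hx.1 hx'.1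
          exact (hGΓ c z (hcore c z hzK hx.1) s hx.2).trans
            (hGΓ d z (hcore d z hzK hx'.1) s hx.2).symm
  have hLm : ∀ c : Tops V cell O γ, ∀ y ∈ Δ c, y ∈ P →
      ∃ z ∈ γ c, ∃ s ∈ Icc (-1:ℝ) 1, Γ.toFun (z, s) = y := by
    intro c y hy hyP
    have h1 : y ∈ Γ.toFun '' (γ c ×ˢ Icc (-1:ℝ) 1) := by
      rw [← cap_inter_P hΔ hPV hLP c.2]; exact ⟨hy, hyP⟩
    obtain ⟨⟨z, s⟩, ⟨hz, hs⟩, rfl⟩ := h1
    exact ⟨z, hz, s, hs, rfl⟩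
  have himg : ∀ o o', Y' o ∩ Y' o' ⊆ (g o).toFun '' (X' o ∩ X' o') := by
    rintro o o' y ⟨hy, hy'⟩
    cases o with
    | none =>
      cases o' with
      | none =>
        obtain ⟨q, hq, rfl⟩ := hy
        exact ⟨q, ⟨hq, hq⟩, rfl⟩
      | some d =>
        obtain ⟨z, hz, s, hs, rfl⟩ := hLm d y hy' hy
        exact ⟨(z, s), ⟨⟨hγK d d.2 hz, hs⟩, ⟨hγΔ d hz, hs⟩⟩, rfl⟩
    | some c =>
      cases o' with
      | none =>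
        obtain ⟨z, hz, s, hs, rfl⟩ := hLm c y hy hy'
        exact ⟨(z, s), ⟨⟨hγΔ c hz, hs⟩, ⟨hγK c c.2 hz, hs⟩⟩, hGΓ c z hz s hs⟩
      | some d =>
        by_cases hcd : c = d
        · subst hcd
          obtain ⟨x, hx, hxy⟩ : y ∈ (G c).toFun '' (Δ₀ c ×ˢ Icc (-1:ℝ) 1) := by
            rw [(G c).image_eq]; exact hy
          exact ⟨x, ⟨hx, hx⟩, hxy⟩
        · have hyP : y ∈ P :=
            h.cap_inter_cap hΔ hLP c.2 d.2 (fun h' => hcd (Subtype.ext h')) ⟨hy, hy'⟩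
          obtain ⟨z, hz, s, hs, rfl⟩ := hLm c y hy hyP
          obtain ⟨z', hz', s', hs', he⟩ := hLm d _ hy' hyP
          have hSz : ∀ c : Tops V cell O γ, ∀ z ∈ γ c, ∀ s ∈ Icc (-1:ℝ) 1,
              (z, s) ∈ (S ∩ X) ×ˢ Icc (-1:ℝ) 1 := fun c z hz s hs => ⟨hKS (hγK c c.2 hz), hs⟩
          have h3 := Γ.injOn (hSz d z' hz' s' hs') (hSz c z hz s hs) he
          rw [Prod.mk.injEq] at h3
          refine ⟨(z, s), ⟨⟨hγΔ c hz, hs⟩, ⟨hγΔ d (h3.1 ▸ hz'), hs⟩⟩, hGΓ c z hz s hs⟩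
  obtain ⟨Φ, hΦ⟩ := ConHomeo.exists_glue_family hX hY g hag himg
  exact ⟨Φ.cast hUX' hUY', hθ1, hθ2, (hΦ none).1, fun c => (hΦ (some c)).1⟩

end Sheet

/-- the intersection of two new sheets -/
theorem inter_new {V B : I → Set E} (hVd : ∀ i j, i ≠ j → Disjoint (V i) (V j))
    (hVB : ∀ i j, Disjoint (V i) (B j)) {cell : J → I} {cell' : J' → I}
    {O γ : J → Set E} {O' γ' : J' → Set E} {L Δ : J → Set E} {L' Δ' : J' → Set E}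
    (hΔ : Caps V B cell O γ L Δ) (hΔ' : Caps V B cell' O' γ' L' Δ') {P P' : Set E}
    (hPV : ∀ i, Disjoint P (V i)) (hPV' : ∀ i, Disjoint P' (V i))
    (hLP : ∀ c, Top V cell O γ c → L c ⊆ P) (hLP' : ∀ c, Top V cell' O' γ' c → L' c ⊆ P')
    {x : E} (hx : x ∈ P ∪ ⋃ c : Tops V cell O γ, Δ c)
    (hx' : x ∈ P' ∪ ⋃ c : Tops V cell' O' γ', Δ' c) :
    x ∈ P ∩ P' ∨ ∃ (c : Tops V cell O γ) (d : Tops V cell' O' γ'), cell c = cell' d ∧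
      x ∈ Δ c ∧ x ∈ Δ' d := by
  rcases hx with hx | hx
  · rcases hx' with hx' | hx'
    · exact Or.inl ⟨hx, hx'⟩
    · obtain ⟨⟨d, hd⟩, hx'⟩ := mem_iUnion.1 hx'
      rcases hΔ'.sub d hd hx' with h1 | h1
      · exact absurd h1 (disjoint_left.1 (hPV _) hx)
      · exact Or.inl ⟨hx, hLP' d hd h1⟩
  · obtain ⟨⟨c, hc⟩, hx⟩ := mem_iUnion.1 hx
    rcases hx' with hx' | hx'
    · rcases hΔ.sub c hc hx with h1 | h1
      · exact absurd h1 (disjoint_left.1 (hPV' _) hx')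
      · exact Or.inl ⟨hLP c hc h1, hx'⟩
    · obtain ⟨⟨d, hd⟩, hx'⟩ := mem_iUnion.1 hx'
      by_cases hcd : cell c = cell' d
      · exact Or.inr ⟨⟨c, hc⟩, ⟨d, hd⟩, hcd, hx, hx'⟩
      · rcases hΔ.sub c hc hx with h1 | h1
        · rcases hΔ'.sub d hd hx' with h2 | h2
          · exact absurd h2 (disjoint_left.1 (hVd _ _ hcd) h1)
          · exact absurd (hΔ'.bdry d hd h2).2 (disjoint_left.1 (hVB _ _) h1)
        · rcases hΔ'.sub d hd hx' with h2 | h2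
          · exact absurd (hΔ.bdry c hc h1).2 (disjoint_left.1 (hVB _ _) h2)
          · exact Or.inl ⟨hLP c hc h1, hLP' d hd h2⟩

/-- **commuting fibres on the cores.** -/
theorem pres_core {S S' : Set E} {V B : I → Set E} {cell : J → I} {O γ : J → Set E}
    (h : Sheet S V B cell O γ) {cell' : J' → I} {O' γ' : J' → Set E}
    (h' : Sheet S' V B cell' O' γ') {X N N' : Set E}
    (Γ : ConHomeo ((S ∩ X) ×ˢ Icc (-1:ℝ) 1) N) (Γ' : ConHomeo ((S' ∩ X) ×ˢ Icc (-1:ℝ) 1) N')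
    (hVv : ∀ i, ∀ z ∈ S ∩ X, ∀ s ∈ Icc (-1:ℝ) 1, (Γ.toFun (z, s) ∈ V i → z ∈ V i))
    (hVv' : ∀ i, ∀ z ∈ S' ∩ X, ∀ s ∈ Icc (-1:ℝ) 1, (z ∈ V i → Γ'.toFun (z, s) ∈ V i))
    {b' : E → ℝ} (hp : Pres Γ.toFun (S ∩ X) N' b') :
    Pres Γ.toFun (core S V cell O γ ∩ X)
      (Γ'.toFun '' ((core S' V cell' O' γ' ∩ X) ×ˢ Icc (-1:ℝ) 1)) b' := by
  intro z hz t ht t' ht' hmem
  have hzS : z ∈ S ∩ X := ⟨hz.1.1, hz.2⟩
  have hsub : (core S' V cell' O' γ' ∩ X) ×ˢ Icc (-1:ℝ) 1 ⊆ (S' ∩ X) ×ˢ Icc (-1:ℝ) 1 :=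
    prod_mono (fun x hx => ⟨hx.1.1, hx.2⟩) (Subset.refl _)
  obtain ⟨⟨w, r⟩, hw, he⟩ := hmem
  have hN' : ∀ t'' ∈ Icc (-1:ℝ) 1, Γ.toFun (z, t'') ∈ N' ∧
      b' (Γ.toFun (z, t'')) = b' (Γ.toFun (z, t)) := fun t'' ht'' =>
    hp z hzS t ht t'' ht'' (he ▸ Γ'.mapsTo (hsub hw))
  refine ⟨?_, (hN' t' ht').2⟩
  set f : ℝ → E := fun t'' => (Γ'.invFun (Γ.toFun (z, t''))).1 with hf
  have hfc : ContinuousOn f (Icc (-1:ℝ) 1) := by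
    refine continuous_fst.comp_continuousOn (Γ'.cont_inv.comp ?_ fun t'' ht'' => (hN' t'' ht'').1)
    exact Γ.cont.comp (by fun_prop) fun t'' ht'' => ⟨hzS, ht''⟩
  have hK : IsPreconnected (f '' Icc (-1:ℝ) 1) := isPreconnected_Icc.image _ hfc
  have hinv : ∀ t'' ∈ Icc (-1:ℝ) 1, Γ'.invFun (Γ.toFun (z, t'')) ∈ (S' ∩ X) ×ˢ Icc (-1:ℝ) 1 :=
    fun t'' ht'' => Γ'.mapsTo_inv (hN' t'' ht'').1
  have hKS : f '' Icc (-1:ℝ) 1 ⊆ S' := by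
    rintro _ ⟨t'', ht'', rfl⟩
    exact (hinv t'' ht'').1.1
  have hKV : ∀ i, Disjoint (f '' Icc (-1:ℝ) 1) (V i) := by
    intro i
    rw [disjoint_left]
    rintro _ ⟨t'', ht'', rfl⟩ hV
    have h1 := hVv' i _ (hinv t'' ht'').1 _ (hinv t'' ht'').2 hV
    have h2 : Γ'.toFun (f t'', (Γ'.invFun (Γ.toFun (z, t''))).2) = Γ.toFun (z, t'') :=
      Γ'.right_inv (hN' t'' ht'').1
    rw [h2] at h1
    exact disjoint_left.1 (h.core_V i) hz.1 (hVv i z hzS t'' ht'' h1)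
  have hft : f t = w := by
    show (Γ'.invFun (Γ.toFun (z, t))).1 = w
    rw [← he, Γ'.left_inv (hsub hw)]
  have hcore := h'.sub_core hK hKS hKV ⟨w, ⟨t, ht, hft⟩, hw.1.1⟩
  refine ⟨Γ'.invFun (Γ.toFun (z, t')), ⟨⟨hcore ⟨t', ht', rfl⟩, (hinv t' ht').1.2⟩,
    (hinv t' ht').2⟩, Γ'.right_inv (hN' t' ht').1⟩

end P073.H142
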