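import Vale.Agent.P073.ConicalBody
import Vale.Agent.P073.SQ.Spec

/-!
# P073, block H142 (TRI): the volume of a cone over a segment in a side of a cube
-/

open Set Metric Topology Filter MeasureTheory
open scoped ENNReal

namespace P073.H142

open P073
open Vale.Agent.P073.St (V)
open Vale.Agent.P073.SQ (cube)

/-- the shear `x j ↦ x j - c * x i` -/
theorem exists_shear {i j : Fin 3} (hij : j ≠ i) (c : ℝ) : ∃ S : V → V,
    MeasurePreserving S ∧ (∀ x, S x j = x j - c * x i) ∧ ∀ x k, k ≠ j → S x k = x k := by
  refine ⟨_, Real.volume_preserving_transvectionStruct (⟨j, i, hij, -c⟩ :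
    Matrix.TransvectionStruct (Fin 3) ℝ), fun x => ?_, fun x k hk => ?_⟩
  · show (Matrix.toLin' (Matrix.transvection j i (-c))) x j = _
    rw [Matrix.toLin'_apply, Matrix.transvection, Matrix.add_mulVec, Matrix.one_mulVec,
      Pi.add_apply, Matrix.single_mulVec]
    simp
    ring
  · show (Matrix.toLin' (Matrix.transvection j i (-c))) x k = _
    rw [Matrix.toLin'_apply, Matrix.transvection, Matrix.add_mulVec, Matrix.one_mulVec,
      Pi.add_apply, Matrix.single_mulVec]
    simp [hk]

/-- **[TRI]** the volume of the prism over a triangle -/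
theorem volume_tri_le {a z z' : V} {l i j : Fin 3} (hij : j ≠ i) (hil : i ≠ l) (hjl : j ≠ l)
    {σ : ℝ} (hσ : 0 < σ) (hzi : z' i = z i) (hz : |z i - a i| = σ) :
    volume {x | x ∈ cube a σ ∧ Function.update x l (a l) ∈ coneSetAt a (segment ℝ z z')} ≤
      ENNReal.ofReal (4 * σ ^ 2 * ‖z' - z‖) := by
  -- we may assume `z j ≤ z' j`
  wlog hle : z j ≤ z' j generalizing z z'
  · have h := this (z := z') (z' := z) hzi.symm (by rw [hzi]; exact hz) (not_le.1 hle).le
    rw [segment_symm, norm_sub_rev] at h
    exact h
  set d : ℝ := z i - a i with hd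
  have hd0 : d ≠ 0 := by
    intro h
    rw [h, abs_zero] at hz
    exact hσ.ne hz
  set c : ℝ := (z j - a j) / d with hc
  obtain ⟨S, hS, hSj, hSk⟩ := exists_shear hij c
  set B : Set V := Set.pi univ fun k => if k = j then
      Icc (a j - c * a i) (a j - c * a i + ‖z' - z‖) else Icc (a k - σ) (a k + σ) with hB
  have hBm : MeasurableSet B := by
    refine MeasurableSet.univ_pi fun k => ?_
    split_ifs <;> exact measurableSet_Icc
  have hsub : {x | x ∈ cube a σ ∧ Function.update x l (a l) ∈ coneSetAt a (segment ℝ z z')} ⊆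
      S ⁻¹' B := by
    rintro x ⟨hx, s, hs, ζ, hζ, he⟩
    obtain ⟨t, t', ht, ht', htt, rfl⟩ := hζ
    have hxi : x i = a i + s * d := by
      have h1 := congrFun he i
      rw [Function.update_of_ne hil] at h1
      rw [h1]
      simp only [Pi.add_apply, Pi.smul_apply, Pi.sub_apply, smul_eq_mul, hzi]
      have : t * z i + t' * z i = z i := by rw [← add_mul, htt, one_mul]
      rw [this]
    have hxj : x j = a j + s * (z j + t' * (z' j - z j) - a j) := by
      have h1 := congrFun he j
      rw [Function.update_of_ne hjl] at h1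
      rw [h1]
      simp only [Pi.add_apply, Pi.smul_apply, Pi.sub_apply, smul_eq_mul]
      have : t * z j + t' * z' j = z j + t' * (z' j - z j) := by
        have : t = 1 - t' := by linarith
        rw [this]; ring
      rw [this]
    have hzz : |z' j - z j| ≤ ‖z' - z‖ := by
      rw [← Real.norm_eq_abs, ← Pi.sub_apply]; exact norm_le_pi_norm _ _
    have hzz0 : 0 ≤ z' j - z j := sub_nonneg.2 hle
    rw [abs_of_nonneg hzz0] at hzz
    intro k _
    by_cases hk : k = j
    · subst hk
      simp only [if_true]
      rw [hSj, hxi, hxj]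
      have e : a k + s * (z k + t' * (z' k - z k) - a k) - c * (a i + s * d) =
          a k - c * a i + s * t' * (z' k - z k) := by
        have : c * d = z k - a k := by rw [hc]; field_simp
        linear_combination (-s) * this
      rw [e]
      have h1 : 0 ≤ s * t' * (z' k - z k) := mul_nonneg (mul_nonneg hs.1 ht') hzz0
      have h2 : s * t' * (z' k - z k) ≤ z' k - z k := by
        refine mul_le_of_le_one_left hzz0 ?_
        exact mul_le_one₀ hs.2 ht' (by linarith)
      exact ⟨by linarith, by linarith⟩
    · simp only [if_neg hk]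
      rw [hSk x k hk]
      have := abs_le.1 (hx k)
      exact ⟨by linarith [this.1], by linarith [this.2]⟩
  refine (measure_mono hsub).trans ?_
  rw [hS.measure_preimage hBm.nullMeasurableSet, hB, volume_pi_pi]
  have h1 : ∀ k : Fin 3, volume (if k = j then
      Icc (a j - c * a i) (a j - c * a i + ‖z' - z‖) else Icc (a k - σ) (a k + σ)) =
      if k = j then ENNReal.ofReal ‖z' - z‖ else ENNReal.ofReal (2 * σ) := by
    intro k
    split_ifs
    · rw [Real.volume_Icc]; congr 1; ring
    · rw [Real.volume_Icc]; congr 1; ring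
  simp only [h1]
  have h2 : ∀ j : Fin 3, (∏ k : Fin 3, if k = j then ENNReal.ofReal ‖z' - z‖ else
      ENNReal.ofReal (2 * σ)) = ENNReal.ofReal ‖z' - z‖ * (ENNReal.ofReal (2 * σ)) ^ 2 := by
    intro j
    rw [Fin.prod_univ_three]
    fin_cases j <;> simp <;> ring
  rw [h2 j, ← ENNReal.ofReal_pow (by positivity), ← ENNReal.ofReal_mul (norm_nonneg _)]
  exact le_of_eq (by congr 1; ring)

end P073.H142
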