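import Vale.Agent.P073.H142.FaceH
import Vale.Agent.P073.H926.CovE
import Vale.Agent.P073.H267.K3St2
import Vale.Agent.P073.H190.TwoP

/-!
# P073, block H142 ([FACE3-W], [STRIP]): the positions of the given drawn faces

`wall34`: the side walls of the plates.  `KIn3.exists_z3`: a drawn cell is close to a frontier point
of a processed tile.
-/

open Set Metric Topology Filter

set_option linter.unusedSectionVars false

namespace P073.H142

open P073 P073.Net P073.PA691 P073.TM P073.H236 P073.H429 P073.H880 P073.H880.RP P073.H936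
  P073.H936.K3 P073.H345 P073.H579 P073.H950 P073.H919 P073.H196
open Vale.Agent.P073.St (V)
open Vale.Agent.P073.H73 (Mesh)
open Vale.Agent.P073.H471 Vale.Agent.P073.H267 Vale.Agent.P073.H267.Geo
open Vale.Agent.P073.H304 (Nb In Zmax)
open Vale.Agent.P073.H926
open Vale.Agent.P073.H238.K3 (Zd Wc Act TOut3)

section geo

variable {Λ : Set V} {v : V} {K : BoxCx Λ v} {S : Rad K} {W : Wid K S} {B : Boxes W}
  {G : Geo B} {y z : V}

/-- position near a side wall, at distance `3 / 4 * a s` from the corners -/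
structure Wall34 (G : Geo B) (s : K.S) (k l : Fin 3) (β : Bool) (y : V) : Prop where
  k_n : k ≠ K.nrm s
  l_n : l ≠ K.nrm s
  k_l : k ≠ l
  n : |y (K.nrm s) - K.slo s (K.nrm s)| ≤ 1 / 2 * B.τ s
  u : 3 / 4 * G.p s ≤ (if β then K.shi s k - y k else y k - K.slo s k) ∧
    (if β then K.shi s k - y k else y k - K.slo s k) ≤ 3 / 2 * G.p s
  lo : K.slo s l + 3 / 4 * G.a s ≤ y l
  hi : y l ≤ K.shi s l - 3 / 4 * G.a s

/-- the side walls of the plates, at distance `3 / 4 * a s` from the corners, are in the full zones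
of the boxes of round T (H267, `Geo.wall`) -/
theorem wall34 {s : K.S} {k l : Fin 3} {β : Bool} (h : Wall34 G s k l β y) :
    (∃ e, K.edge e ⊆ K.sq s ∧ K.dir e = l ∧
      K.w (K.a e) k = (if β then K.shi s k else K.slo s k) ∧ y ∈ G.TB true (.inl e)) ∨
    ∃ b : Hang K, b.s = s ∧ b.k = k ∧ b.l = l ∧ b.β = β ∧ y ∈ G.TB true (.inr b) := by
  have ha := a_pos (G := G) s
  have hcase := fin3_cases h.k_n h.k_l h.l_n.symm
  set m : ℝ := if β then K.shi s k else K.slo s k with hm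
  have hle := TM.slo_le_shi K s
  have hm1 : K.slo s k ≤ m ∧ m ≤ K.shi s k ∧ (m = K.slo s k ∨ m = K.shi s k) := by
    rw [hm]; cases β
    · rw [if_neg Bool.false_ne_true]; exact ⟨le_rfl, hle k, Or.inl rfl⟩
    · rw [if_pos rfl]; exact ⟨hle k, le_rfl, Or.inr rfl⟩
  have hu : |y k - m| ≤ 3 / 2 * G.p s := by
    have := h.u
    rw [hm]
    have hp := G.p_pos s
    cases β
    · simp only [Bool.false_eq_true, if_false] at this ⊢
      rw [abs_le]; constructor <;> linarith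
    · simp only [if_true] at this ⊢
      rw [abs_le]; constructor <;> linarith
  -- the point of the side
  set x : V := Function.update (Function.update (K.slo s) l (y l)) k m with hx
  have xk : x k = m := by simp [hx]
  have xl : x l = y l := by simp [hx, h.k_l.symm]
  have xn : x (K.nrm s) = K.slo s (K.nrm s) := by
    rw [hx, Function.update_of_ne h.k_n.symm, Function.update_of_ne h.l_n.symm]
  have hxs : x ∈ K.sq s := by
    have : ∀ j, K.slo s j ≤ x j ∧ x j ≤ K.shi s j := by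
      intro j
      rcases hcase j with rfl | rfl | rfl
      · rw [xk]; exact ⟨hm1.1, hm1.2.1⟩
      · rw [xn]; exact ⟨le_rfl, hle _⟩
      · rw [xl]; exact ⟨by linarith [h.lo], by linarith [h.hi]⟩
    exact ⟨fun j => (this j).1, fun j => (this j).2⟩
  obtain ⟨e, he, hxe⟩ := K.sq_bd s x hxs ⟨k, h.k_n, by rw [xk]; exact hm1.2.2⟩
  have hes : K.edge e ⊆ K.sq s := he
  have hwa := hes (TM.wa_mem K e)
  have hwb := hes (TM.wb_mem K e)
  have hwan := TM.nrm_eq hwa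
  have hdn : K.dir e ≠ K.nrm s := (nrm_ne_dir hes).symm
  have hdl : K.dir e = l := by
    by_contra hdl
    have hdk : K.dir e = k := by
      rcases hcase (K.dir e) with hh | hh | hh
      · exact hh
      · exact absurd hh hdn
      · exact absurd hh hdl
    -- the midpoint of the edge is in the open square
    have hab := K.ab_dir e
    set y' : V := Function.update (K.w (K.a e)) (K.dir e)
      ((K.w (K.a e) (K.dir e) + K.w (K.b e) (K.dir e)) / 2) with hy'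
    have hye : y' ∈ K.edge e := by
      have : ∀ j, K.w (K.a e) j ≤ y' j ∧ y' j ≤ K.w (K.b e) j := by
        intro j
        by_cases hj : j = K.dir e
        · rw [hj, hy', Function.update_self]; constructor <;> linarith
        · rw [hy', Function.update_of_ne hj]; exact ⟨le_rfl, (wab K e hj).le⟩
      exact ⟨fun j => (this j).1, fun j => (this j).2⟩
    refine K.sqo_edge s y' ?_ (fun j hj => ?_) e hye
    · rw [hy', Function.update_of_ne hdn.symm]; exact hwan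
    · rcases hcase j with hjk | hjn | hjl
      · rw [hjk, ← hdk, hy', Function.update_self]
        constructor
        · linarith [hwa.1 (K.dir e)]
        · linarith [hwb.2 (K.dir e)]
      · exact absurd hjn hj
      · have hld : l ≠ K.dir e := Ne.symm hdl
        rw [hjl, hy', Function.update_of_ne hld, ← edge_coord hxe hld, xl]
        constructor <;> linarith [h.lo, h.hi]
  have hkd : k ≠ K.dir e := by rw [hdl]; exact h.k_l
  have hek : K.w (K.a e) k = m := by rw [← edge_coord hxe hkd, xk]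
  have hxl1 := hxe.1 l
  have hxl2 := hxe.2 l
  rw [xl] at hxl1 hxl2
  have hpu := G.p_uT s e hes
  have hτp := G.τ_p s
  have hτ0 := B.τ_pos s
  -- hanging vertices
  have hang : ∀ i, (i = K.a e ∨ i = K.b e) → |y l - K.w i l| ≤ G.be i →
      ∃ b : Hang K, b.s = s ∧ b.k = k ∧ b.l = l ∧ b.β = β ∧ y ∈ G.TB true (.inr b) := by
    intro i hi hyi
    have hie : K.w i ∈ K.edge e := by
      rcases hi with rfl | rfl
      · exact TM.wa_mem K e
      · exact TM.wb_mem K e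
    have his := hes hie
    have hba := G.be_a s i his
    have hyi' := abs_le.1 hyi
    have hbe := G.be_pos i
    let b : Hang K :=
      { i := i, s := s, k := k, l := l, β := β, k_n := h.k_n, l_n := h.l_n, k_l := h.k_l
        nrm := TM.nrm_eq his
        side := by rw [edge_coord hie hkd, hek]
        lo := by linarith [h.lo]
        hi := by linarith [h.hi] }
    refine ⟨b, rfl, rfl, rfl, rfl, ?_⟩
    rw [mem_inr]
    simp only [if_true]
    exact ⟨hyi, h.u, h.n⟩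
  by_cases h1 : K.w (K.a e) l + G.be (K.a e) ≤ y l
  · by_cases h2 : y l ≤ K.w (K.b e) l - G.be (K.b e)
    · left
      refine ⟨e, hes, hdl, hek, ?_⟩
      rw [mem_inl]
      refine ⟨by rw [hdl]; exact ⟨h1, h2⟩, fun j hj => ?_⟩
      simp only [if_true]
      rcases hcase j with rfl | rfl | rfl
      · rw [hek]; linarith
      · rw [hwan]
        have := h.n
        linarith
      · exact absurd hdl.symm hj
    · right
      push Not at h2
      exact hang (K.b e) (Or.inr rfl) (by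
        rw [abs_le]; constructor <;> linarith [G.be_pos (K.b e)])
  · right
    push Not at h1
    exact hang (K.a e) (Or.inl rfl) (by
      rw [abs_le]; constructor <;> linarith [G.be_pos (K.a e)])

end geo

variable {c₀ n δ : ℝ} {j : ℕ} {Ω Λ : Set V} {v w : V} {ρ : V → ℝ} {M : Mesh Ω} {h : ConHomeo Ω Λ}
  {J₀ J : Set (ℕ × (Fin 3 → ℤ))} {P Z : Set M.ι} {K : BoxCx Λ w} {x y z : V} {q t : K.T}

/-- **(A0)**, sharp form: the image of a drawn cell is close to a frontier point of a processed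
tile -/
theorem _root_.Vale.Agent.P073.H926.KIn3.exists_z3 (D : KIn3 c₀ n j δ v w ρ M h J₀ J P Z)
    (C : Cells ρ w K) {i : M.ι} (hi : i ∈ Zmax M w h.toFun J₀ P (2 / 2 ^ j)) :
    ∃ t ∈ pT C J₀, ∃ z ∈ frontier (K.cube t), ∀ x ∈ M.Q i, ‖h.toFun x - z‖ ≤ 3 * (D.G C).om t ∧
      ∀ q, h.toFun x ∈ K.cube q → (D.G C).om q ≤ 4 * (D.G C).om t := by
  obtain ⟨x₀, hx₀⟩ : (M.Q i).Nonempty := (M.poly i).int.mono interior_subset
  obtain ⟨t, ht, z, hz, hxz⟩ := (D.mem_Nb C).1 (hi.2 (mem_image_of_mem _ hx₀))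
  refine ⟨t, ht, z, hz, fun x' hx' => ?_⟩
  have hη := D.jle
  have hη0 : (0:ℝ) < 1 / 2 ^ j := KIn3.η_pos
  have hδ := D.δpos
  have hδ2 := D.δ_le
  have hTt := C.sT_pos t
  have ho := o3_pos D.pos
  have hδ3 := δ3_eq (n := n)
  have hκo := o3_eq (n := n)
  have hκ := D.κ_lt
  have e : (2:ℝ) / 2 ^ j = 2 * (1 / 2 ^ j) := by ring
  have h0 : x₀ ∈ M.Q i := hx₀
  have hN0 : h.toFun x₀ ∈ Nb w {C.fT t} (2 / 2 ^ j) := (mem_Nb_one C).2 ⟨z, hz, hxz⟩
  have hc0 : 2 / 2 ^ j ≤ c₀ := by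
    have h1 := D.κ_le_c₀
    rw [e]
    have := D.c₀_pos
    linarith
  have h3 := D.small' C hi.1 ht hc0 hx₀ hN0 hx'
  have h4 : ‖h.toFun x' - z‖ ≤ (δ + 2 / 2 ^ j) * C.sT t := by
    rw [norm_sub_rev] at h3
    calc ‖h.toFun x' - z‖ = ‖(h.toFun x' - h.toFun x₀) + (h.toFun x₀ - z)‖ := by congr 1; abel
      _ ≤ ‖h.toFun x' - h.toFun x₀‖ + ‖h.toFun x₀ - z‖ := norm_add_le _ _
      _ ≤ (δ + 2 / 2 ^ j) * C.sT t := by linarith
  have h6 : (δ + 2 / 2 ^ j) * C.sT t ≤ 3 * (o3 n * C.sT t) := by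
    rw [e, ← mul_assoc 3]
    refine mul_le_mul_of_nonneg_right ?_ hTt.le
    linarith
  refine ⟨h4.trans h6, fun q hq => ?_⟩
  have hcmp := (D.comp C (c' := δ + 2 / 2 ^ j) (by rw [e]; linarith) hz hq h4).1
  show o3 n * C.sT q ≤ 4 * (o3 n * C.sT t)
  have := mul_le_mul_of_nonneg_left hcmp ho.le
  linarith

open Vale.Agent.P073.H267.K3 (S1 S2 S3 S4 S5 Sharp)

variable {D : KIn3 c₀ n j δ v w ρ M h J₀ J P Z} {C : Cells ρ w K} {C₀ μT : ℝ}
  {X : S1 D C C₀ μT} {Y₂ : S2 X} {Ys : Set M.κ} {sc : Sharp} (Y₃ : S3 Y₂ Ys sc)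

/-- the two-stage staircases -/
theorem pt2 : _root_.P073.H190.PT2 Y₃.Lt (D.dat C).S₀ Y₃.F (fun _ s => Y₂.muP s.1) Y₃.T2 where
  B := fun β s => by
    rw [F3W_B]
    exact bxR_halfW Y₂.Lw β s.1
  isS := Y₃.isT2
  μ0 := fun _ s => by
    have h1 := Y₂.Lw.δμ s.1
    have h2 := Y₂.Lw.δ0 s.1
    linarith
  μD := fun β s => Y₃.muD β s

/-- **displacement of `T2 ∘ Θ`** -/
theorem thT2_disp {L L' : PLev (D.G C)} {cc : K.S → Bool → ℝ} {h0 : ∀ s β, 0 < cc s β}
    {h1 : ∀ s β, cc s β ≤ L.c s β} {hΛ : IsOpen Λ} {S₀ : Set K.S}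
    {F : Bool → BFam 3 S₀ Λ} {μ : Bool → S₀ → ℝ} {T Θ : Bool → ConHomeo Λ Λ}
    (P : _root_.P073.H190.PT2 L' S₀ F μ T) (hΘ : ∀ β, (thP L cc h0 h1 hΛ S₀ β).IsH (Θ β))
    {d : ℝ} (hd0 : 0 ≤ d)
    (hd : ∀ s : S₀, y ∈ PK (D.G C) s.1 → ∀ β, L.c s.1 β ≤ d ∧ (F β).D s ≤ d) :
    ‖PS.map T ((Θ true).toFun ((Θ false).toFun y)) - y‖ ≤ 3 * d := by
  set y1 := (Θ false).toFun y with hy1
  set y2 := (Θ true).toFun y1 with hy2
  have e1 : ‖y1 - y‖ ≤ d := theta_disp (hΘ false) hd0 fun s hs hys => (hd ⟨s, hs⟩ hys false).1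
  have e2 : ‖y2 - y1‖ ≤ d := theta_disp (hΘ true) hd0 fun s hs hys =>
    (hd ⟨s, hs⟩ (theta_PK (hΘ false) hys) true).1
  have e3 : ‖PS.map T y2 - y2‖ ≤ d := P.disp2 hd0 fun β s hys =>
    (hd s (theta_PK (hΘ false) (theta_PK (hΘ true) hys)) β).2
  calc ‖PS.map T y2 - y‖ = ‖(PS.map T y2 - y2) + ((y2 - y1) + (y1 - y))‖ := by congr 1; abel
    _ ≤ ‖PS.map T y2 - y2‖ + (‖y2 - y1‖ + ‖y1 - y‖) :=
      (norm_add_le _ _).trans (by gcongr; exact norm_add_le _ _)
    _ ≤ 3 * d := by linarith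

/-- the map before the hook on the given faces -/
theorem h4_giv {k : M.κ} (hk : k ∈ (D.dat C).WF (D.G C) X.h1) {x : V} (hx : x ∈ M.F k) :
    Y₃.h4.toFun x =
      PS.map Y₃.T2 ((Y₃.Θ true).toFun ((Y₃.Θ false).toFun (X.h1.toFun x))) := by
  rw [Y₃.map4 x (Vale.Agent.P073.H193.mesh_sub M k hx), Y₃.ins.out.giv k hk x hx]
  rfl

/-- **positions on a set with the given map** -/
theorem pos_giv (hc : ∀ s ∈ (D.dat C).S₀, ∀ β q, (q = K.sm s ∨ q = K.sp s) →
      Y₂.L.c s β ≤ (D.G C).om q)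
    (hD : ∀ s : (D.dat C).S₀, ∀ β q, (q = K.sm s.1 ∨ q = K.sp s.1) →
      (Y₃.F β).D s ≤ (D.G C).om q)
    {i : M.ι} (hi : i ∈ Zmax M w h.toFun J₀ P (2 / 2 ^ j)) {A : Set V} (hA : A ⊆ M.Q i)
    (hg : ∀ x ∈ A, Y₃.h4.toFun x =
      PS.map Y₃.T2 ((Y₃.Θ true).toFun ((Y₃.Θ false).toFun (X.h1.toFun x)))) :
    ∃ t ∈ pT C J₀, ∃ z ∈ frontier (K.cube t), ∀ x ∈ A, ‖h.toFun x - z‖ ≤ 3 * (D.G C).om t ∧
      ‖X.h1.toFun x - z‖ ≤ 7 * (D.G C).om t ∧ ‖Y₃.h4.toFun x - z‖ ≤ 10 * (D.G C).om t := by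
  obtain ⟨t, ht, z, hz, h1⟩ := D.exists_z3 C hi
  refine ⟨t, ht, z, hz, fun x hx => ?_⟩
  obtain ⟨h2, h3⟩ := h1 x (hA hx)
  have hxΩ := M.sub i (hA hx)
  obtain ⟨q, hq⟩ := K.cover _ (h.mapsTo hxΩ)
  have h4 := X.out.near3 x hxΩ q hq
  have h5 := h3 q hq
  have h6 : ‖X.h1.toFun x - z‖ ≤ 7 * (D.G C).om t := by
    calc ‖X.h1.toFun x - z‖ = ‖(X.h1.toFun x - h.toFun x) + (h.toFun x - z)‖ := by
          congr 1; abel
      _ ≤ ‖X.h1.toFun x - h.toFun x‖ + ‖h.toFun x - z‖ := norm_add_le _ _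
      _ ≤ _ := by linarith
  have hom := (D.G C).om_pos t
  have hκ := (D.G C).om_κ t
  have h7 : ‖Y₃.h4.toFun x - X.h1.toFun x‖ ≤ 3 * (D.G C).om t := by
    rw [hg x hx]
    refine thT2_disp (pt2 Y₃) Y₃.thp.isΘ hom.le fun s hs β => ?_
    obtain ⟨hts, -⟩ := D.nrm_z C hs hz (by linarith)
    exact ⟨hc s.1 s.2 β t hts, hD s β t hts⟩
  refine ⟨h2, h6, ?_⟩
  calc ‖Y₃.h4.toFun x - z‖ = ‖(Y₃.h4.toFun x - X.h1.toFun x) + (X.h1.toFun x - z)‖ := by
        congr 1; abel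
    _ ≤ ‖Y₃.h4.toFun x - X.h1.toFun x‖ + ‖X.h1.toFun x - z‖ := norm_add_le _ _
    _ ≤ _ := by linarith

end P073.H142
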